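import Mathlib.Algebra.BigOperators.Field
import Mathlib.Algebra.BigOperators.Fin
import Mathlib.Algebra.BigOperators.Option
import Mathlib.Algebra.Order.Chebyshev
import Mathlib.Algebra.Star.Subalgebra
import Mathlib.Analysis.CStarAlgebra.Basic
import Mathlib.Analysis.CStarAlgebra.ContinuousFunctionalCalculus.Basic
import Mathlib.Analysis.CStarAlgebra.ContinuousFunctionalCalculus.Commute
import Mathlib.Analysis.CStarAlgebra.ContinuousFunctionalCalculus.Instances
import Mathlib.Analysis.CStarAlgebra.ContinuousFunctionalCalculus.Isometric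
import Mathlib.Analysis.CStarAlgebra.ContinuousFunctionalCalculus.Order
import Mathlib.Analysis.CStarAlgebra.ContinuousFunctionalCalculus.Range
import Mathlib.Analysis.CStarAlgebra.ContinuousFunctionalCalculus.Unital
import Mathlib.Analysis.CStarAlgebra.ContinuousLinearMap
import Mathlib.Analysis.CStarAlgebra.Spectrum
import Mathlib.Analysis.CStarAlgebra.Unitary.Span
import Mathlib.Analysis.Complex.Basic
import Mathlib.Analysis.Convex.Basic
import Mathlib.Analysis.Convex.Mul
import Mathlib.Analysis.InnerProductSpace.Adjoint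
import Mathlib.Analysis.InnerProductSpace.Basic
import Mathlib.Analysis.InnerProductSpace.Continuous
import Mathlib.Analysis.InnerProductSpace.Dual
import Mathlib.Analysis.InnerProductSpace.LaxMilgram
import Mathlib.Analysis.InnerProductSpace.PiL2
import Mathlib.Analysis.InnerProductSpace.Positive
import Mathlib.Analysis.InnerProductSpace.Projection.Basic
import Mathlib.Analysis.InnerProductSpace.StarOrder
import Mathlib.Analysis.InnerProductSpace.Subspace
import Mathlib.Analysis.InnerProductSpace.l2Space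
import Mathlib.Analysis.Normed.Group.Basic
import Mathlib.Analysis.Normed.Group.InfiniteSum
import Mathlib.Analysis.Normed.Group.Tannery
import Mathlib.Analysis.Normed.Module.Basic
import Mathlib.Analysis.Normed.Module.Multilinear.Basic
import Mathlib.Analysis.Normed.Module.Multilinear.Curry
import Mathlib.Analysis.Normed.Operator.Extend
import Mathlib.Analysis.Normed.Operator.Mul
import Mathlib.Analysis.Normed.Operator.NormedSpace
import Mathlib.Analysis.Normed.Ring.Units
import Mathlib.Analysis.PSeries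
import Mathlib.Analysis.Seminorm
import Mathlib.Analysis.SpecialFunctions.Complex.Circle
import Mathlib.Analysis.SpecialFunctions.ContinuousFunctionalCalculus.PosPart.Basic
import Mathlib.Analysis.SpecialFunctions.ContinuousFunctionalCalculus.Rpow.Basic
import Mathlib.Analysis.SpecialFunctions.Exp
import Mathlib.Analysis.SpecialFunctions.Pow.Real
import Mathlib.Analysis.SpecialFunctions.Sqrt
import Mathlib.Analysis.SpecialFunctions.Trigonometric.Basic
import Mathlib.Analysis.SpecificLimits.Basic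
import Mathlib.Analysis.VonNeumannAlgebra.Basic
import Mathlib.Combinatorics.Hindman
import Mathlib.LinearAlgebra.Complex.Module
import Mathlib.LinearAlgebra.Matrix.NonsingularInverse
import Mathlib.LinearAlgebra.Matrix.Trace
import Mathlib.Order.Filter.AtTopBot.Finset
import Mathlib.Order.Filter.Ultrafilter.Basic
import Mathlib.Order.Interval.Finset.Nat
import Mathlib.RingTheory.RootsOfUnity.Complex
import Mathlib.Tactic
import Mathlib.Topology.Algebra.InfiniteSum.Basic
import Mathlib.Topology.Algebra.Module.Basic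
import Mathlib.Topology.Algebra.Semigroup
import Mathlib.Topology.Algebra.Star.Unitary
import Mathlib.Topology.Algebra.StarSubalgebra
import Mathlib.Topology.Compactness.Compact
import Mathlib.Topology.Instances.Complex
import Mathlib.Topology.MetricSpace.ProperSpace
import Vale.Agent.P082.Defs

set_option linter.all false

namespace AFastaa0231x72a
@[reducible] noncomputable def a0.{u1} {x1 : Type u1} [x2 : NormedRing x1] [x3 : NormedAlgebra ℂ x1] : AddCommMonoid (x1 →L[ℂ] x1) := inferInstance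
@[reducible] def a1.{u1} {x1 : Type u1} [x2 : NormedAddCommGroup x1] [x3 : InnerProductSpace ℂ x1] : Semiring (x1 →L[ℂ] x1) := inferInstance
@[reducible] noncomputable def a2.{u1} {x1 : Type u1} [x2 : NormedRing x1] [x3 : NormedAlgebra ℂ x1] : TopologicalSpace (x1 →L[ℂ] x1) := inferInstance
@[reducible] def a3.{u1} {x1 : Type u1} [x2 : NormedAddCommGroup x1] [x3 : InnerProductSpace ℂ x1] : AddMonoid (x1 →L[ℂ] x1) := inferInstance
@[reducible] def a4.{u1} {x1 : Type u1} [x2 : NormedAddCommGroup x1] [x3 : InnerProductSpace ℂ x1] : Ring (x1 →L[ℂ] x1) := inferInstance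
@[reducible] def a5.{u1} {x1 : Type u1} [x2 : NormedAddCommGroup x1] [x3 : InnerProductSpace ℂ x1] : AddZeroClass (x1 →L[ℂ] x1) := inferInstance
@[reducible] def a6.{u1} {x1 : Type u1} [x2 : NormedAddCommGroup x1] [x3 : InnerProductSpace ℂ x1] : AddCommGroup (x1 →L[ℂ] x1) := inferInstance
@[reducible] noncomputable def a7.{u1} {x1 : Type u1} [x2 : NormedAddCommGroup x1] [x3 : InnerProductSpace ℂ x1] [x4 : CompleteSpace x1] : StarAddMonoid (x1 →L[ℂ] x1) := inferInstance
@[reducible] def a8.{u1} {x1 : Type u1} [x2 : NormedAddCommGroup x1] [x3 : InnerProductSpace ℂ x1] : Add (x1 →L[ℂ] x1) := inferInstance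
@[reducible] def a9.{u1} {x1 : Type u1} [x2 : NormedAddCommGroup x1] [x3 : InnerProductSpace ℂ x1] : Sub (x1 →L[ℂ] x1) := inferInstance
@[reducible] def a10.{u1} {x1 : Type u1} [x2 : NormedAddCommGroup x1] [x3 : InnerProductSpace ℂ x1] : NonAssocRing (x1 →L[ℂ] x1) := inferInstance
theorem a11.{u1} {x1 : Type u1} [x2 : NormedAddCommGroup x1] [x3 : InnerProductSpace ℂ x1] : AddMonoidHomClass (x1 →L[ℂ] x1) x1 x1 := inferInstance
@[reducible] def a12.{u1} {x1 : Type u1} [x2 : NormedAddCommGroup x1] [x3 : InnerProductSpace ℂ x1] : NonUnitalNonAssocRing (x1 →L[ℂ] x1) := inferInstance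
@[reducible] def a13.{u1} {x1 : Type u1} [x2 : NormedAddCommGroup x1] [x3 : InnerProductSpace ℂ x1] : AddZero (x1 →L[ℂ] x1) := inferInstance
theorem a14.{u1} {x1 : Type u1} [x2 : NormedAddCommGroup x1] [x3 : InnerProductSpace ℂ x1] [x4 : CompleteSpace x1] : StarModule ℂ (x1 →L[ℂ] x1) := inferInstance
@[reducible] def a15.{u1} {x1 : Type u1} [x2 : NormedAddCommGroup x1] [x3 : InnerProductSpace ℂ x1] : NonAssocSemiring (x1 →L[ℂ] x1) := inferInstance
@[reducible] noncomputable def a16.{u1} {x1 : Type u1} [x2 : NormedAddCommGroup x1] [x3 : InnerProductSpace ℂ x1] [x4 : CompleteSpace x1] : SetLike (StarSubalgebra ℂ (x1 →L[ℂ] x1)) (x1 →L[ℂ] x1) := inferInstance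
@[reducible] def a17.{u1} {x1 : Type u1} [x2 : NormedAddCommGroup x1] [x3 : InnerProductSpace ℂ x1] : Semigroup (x1 →L[ℂ] x1) := inferInstance
@[reducible] def a18.{u1} {x1 : Type u1} [x2 : NormedAddCommGroup x1] [x3 : InnerProductSpace ℂ x1] : NonUnitalNonAssocSemiring (x1 →L[ℂ] x1) := inferInstance
@[reducible] def a19.{u1} {x1 : Type u1} [x2 : NormedAddCommGroup x1] [x3 : InnerProductSpace ℂ x1] : NonUnitalSemiring (x1 →L[ℂ] x1) := inferInstance
@[reducible] def a20.{u1} {x1 : Type u1} [x2 : NormedAddCommGroup x1] [x3 : InnerProductSpace ℂ x1] : SemigroupWithZero (x1 →L[ℂ] x1) := inferInstance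
@[reducible] def a21.{u1} {x1 : Type u1} [x2 : NormedAddCommGroup x1] [x3 : InnerProductSpace ℂ x1] : Distrib (x1 →L[ℂ] x1) := inferInstance
@[reducible] noncomputable def a22.{u1} {x1 : Type u1} [x2 : NormedAddCommGroup x1] [x3 : InnerProductSpace ℂ x1] [x4 : CompleteSpace x1] {x5 : VonNeumannAlgebra x1} : One ↥x5.toStarSubalgebra := inferInstance
theorem a23.{u1} {x1 : Type u1} [x2 : NormedAddCommGroup x1] [x3 : InnerProductSpace ℂ x1] : DistribMulActionSemiHomClass (x1 →L[ℂ] x1) (⇑(RingHom.id ℂ)) x1 x1 := inferInstance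
@[reducible] def a24.{u1} {x1 : Type u1} [x2 : NormedAddCommGroup x1] [x3 : InnerProductSpace ℂ x1] : AddGroupWithOne (x1 →L[ℂ] x1) := inferInstance
end AFastaa0231x72a
attribute [local instance] AFastaa0231x72a.a0 AFastaa0231x72a.a1 AFastaa0231x72a.a2
  AFastaa0231x72a.a3 AFastaa0231x72a.a4 AFastaa0231x72a.a5 AFastaa0231x72a.a6 AFastaa0231x72a.a7
  AFastaa0231x72a.a8 AFastaa0231x72a.a9 AFastaa0231x72a.a10 AFastaa0231x72a.a11
  AFastaa0231x72a.a12 AFastaa0231x72a.a13 AFastaa0231x72a.a14 AFastaa0231x72a.a15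
  AFastaa0231x72a.a16 AFastaa0231x72a.a17 AFastaa0231x72a.a18 AFastaa0231x72a.a19
  AFastaa0231x72a.a20 AFastaa0231x72a.a21 AFastaa0231x72a.a22 AFastaa0231x72a.a23
  AFastaa0231x72a.a24
namespace AFastaa0231x72b
@[reducible] noncomputable def a0.{u1} {x1 : Type u1} [x2 : NormedRing x1] [x3 : NormedAlgebra ℂ x1] : Module ℂ (x1 →L[ℂ] x1) := inferInstance
@[reducible] def a1.{u1} {x1 : Type u1} [x2 : NormedAddCommGroup x1] [x3 : InnerProductSpace ℂ x1] : Algebra ℂ (x1 →L[ℂ] x1) := inferInstance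
@[reducible] noncomputable def a2.{u1} {x1 : Type u1} [x2 : NormedAddCommGroup x1] [x3 : InnerProductSpace ℂ x1] : NonUnitalNormedRing (x1 →L[ℂ] x1) := inferInstance
@[reducible] def a3.{u1} {x1 : Type u1} [x2 : NormedAddCommGroup x1] [x3 : InnerProductSpace ℂ x1] : SMul ℂ (x1 →L[ℂ] x1) := inferInstance
theorem a4.{u1} {x1 : Type u1} [x2 : NormedAddCommGroup x1] [x3 : InnerProductSpace ℂ x1] : IsSemitopologicalRing (x1 →L[ℂ] x1) := inferInstance
@[reducible] noncomputable def a5.{u1} {x1 : Type u1} [x2 : NormedAddCommGroup x1] [x3 : InnerProductSpace ℂ x1] : NonUnitalSeminormedRing (x1 →L[ℂ] x1) := inferInstance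
theorem a6.{u1} {x1 : Type u1} [x2 : NormedAddCommGroup x1] [x3 : InnerProductSpace ℂ x1] : IsSemitopologicalSemiring (x1 →L[ℂ] x1) := inferInstance
@[reducible] def a7.{u1} {x1 : Type u1} [x2 : NormedAddCommGroup x1] [x3 : InnerProductSpace ℂ x1] : SMulZeroClass ℂ (x1 →L[ℂ] x1) := inferInstance
@[reducible] def a8.{u1} {x1 : Type u1} [x2 : NormedAddCommGroup x1] [x3 : InnerProductSpace ℂ x1] : DistribSMul ℂ (x1 →L[ℂ] x1) := inferInstance
theorem a9.{u1} {x1 : Type u1} [x2 : NormedRing x1] [x3 : NormedAlgebra ℂ x1] : ContinuousAdd (x1 →L[ℂ] x1) := inferInstance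
@[reducible] noncomputable def a10.{u1} {x1 : Type u1} [x2 : NormedRing x1] [x3 : NormedAlgebra ℂ x1] : NormedSpace ℂ ((x1 →L[ℂ] x1) →L[ℂ] x1 →L[ℂ] x1) := inferInstance
@[reducible] def a11.{u1} {x1 : Type u1} [x2 : NormedAddCommGroup x1] [x3 : InnerProductSpace ℂ x1] : DistribMulAction ℂ (x1 →L[ℂ] x1) := inferInstance
@[reducible] noncomputable def a12.{u1} {x1 : Type u1} [x2 : NormedRing x1] [x3 : NormedAlgebra ℂ x1] : Module ℂ (x1 →L[ℂ] x1 →L[ℂ] x1) := inferInstance
theorem a13.{u1} {x1 : Type u1} [x2 : NormedAddCommGroup x1] [x3 : InnerProductSpace ℂ x1] [x4 : CompleteSpace x1] : IsTopologicalRing (x1 →L[ℂ] x1) := inferInstance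
@[reducible] noncomputable def a14.{u1} {x1 : Type u1} [x2 : NormedRing x1] [x3 : NormedAlgebra ℂ x1] : NormedSpace ℂ (x1 →L[ℂ] x1) := inferInstance
theorem a15.{u1} {x1 : Type u1} [x2 : NormedAddCommGroup x1] [x3 : InnerProductSpace ℂ x1] : IsScalarTower ℂ (x1 →L[ℂ] x1) (x1 →L[ℂ] x1) := inferInstance
theorem a16.{u1} {x1 : Type u1} [x2 : NormedAddCommGroup x1] [x3 : InnerProductSpace ℂ x1] : SMulCommClass ℂ (x1 →L[ℂ] x1) (x1 →L[ℂ] x1) := inferInstance
@[reducible] noncomputable def a17.{u1} {x1 : Type u1} [x2 : NormedRing x1] [x3 : NormedAlgebra ℂ x1] : NormedSpace ℂ (x1 →L[ℂ] x1 →L[ℂ] x1) := inferInstance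
@[reducible] noncomputable def a18.{u1} {x1 : Type u1} [x2 : NormedRing x1] [x3 : NormedAlgebra ℂ x1] : AddCommMonoid (x1 →L[ℂ] x1 →L[ℂ] x1) := inferInstance
theorem a19.{u1} {x1 : Type u1} [x2 : NormedAddCommGroup x1] [x3 : InnerProductSpace ℂ x1] : ZeroHomClass (x1 →L[ℂ] x1) x1 x1 := inferInstance
@[reducible] noncomputable def a20.{u1} {x1 : Type u1} [x2 : NormedAddCommGroup x1] [x3 : InnerProductSpace ℂ x1] : Module ℝ (x1 →L[ℂ] x1) := inferInstance
theorem a21.{u1} {x1 : Type u1} [x2 : NormedAddCommGroup x1] [x3 : InnerProductSpace ℂ x1] [x4 : CompleteSpace x1] : IsOrderedAddMonoid (x1 →L[ℂ] x1) := inferInstance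
theorem a22.{u1} {x1 : Type u1} [x2 : NormedAddCommGroup x1] [x3 : InnerProductSpace ℂ x1] [x4 : CompleteSpace x1] : NonUnitalContinuousFunctionalCalculus ℝ (x1 →L[ℂ] x1) IsSelfAdjoint := inferInstance
end AFastaa0231x72b
attribute [local instance] AFastaa0231x72b.a0 AFastaa0231x72b.a1 AFastaa0231x72b.a2
  AFastaa0231x72b.a3 AFastaa0231x72b.a4 AFastaa0231x72b.a5 AFastaa0231x72b.a6 AFastaa0231x72b.a7
  AFastaa0231x72b.a8 AFastaa0231x72b.a9 AFastaa0231x72b.a10 AFastaa0231x72b.a11
  AFastaa0231x72b.a12 AFastaa0231x72b.a13 AFastaa0231x72b.a14 AFastaa0231x72b.a15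
  AFastaa0231x72b.a16 AFastaa0231x72b.a17 AFastaa0231x72b.a18 AFastaa0231x72b.a19
  AFastaa0231x72b.a20 AFastaa0231x72b.a21 AFastaa0231x72b.a22
section

open scoped Topology

namespace Vale.Agent.P082

/-- bounded complex functions -/
def Bdd {X : Type*} (F : X → ℂ) : Prop := ∃ C, ∀ t, ‖F t‖ ≤ C

lemma Bdd.add {X : Type*} {F G : X → ℂ} (hF : Bdd F) (hG : Bdd G) :
    Bdd (fun t => F t + G t) := by
  obtain ⟨C, hC⟩ := hF
  obtain ⟨D, hD⟩ := hG
  exact ⟨C + D, fun t => (norm_add_le _ _).trans (add_le_add (hC t) (hD t))⟩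

lemma Bdd.const_mul {X : Type*} {F : X → ℂ} (c : ℂ) (hF : Bdd F) :
    Bdd (fun t => c * F t) := by
  obtain ⟨C, hC⟩ := hF
  exact ⟨‖c‖ * C, fun t => by
    rw [norm_mul]; exact mul_le_mul_of_nonneg_left (hC t) (norm_nonneg _)⟩

lemma Bdd.const {X : Type*} (c : ℂ) : Bdd (fun _ : X => c) := ⟨‖c‖, fun _ => le_rfl⟩

lemma Bdd.neg {X : Type*} {F : X → ℂ} (hF : Bdd F) : Bdd (fun t => - F t) := by
  obtain ⟨C, hC⟩ := hF
  exact ⟨C, fun t => by rw [norm_neg]; exact hC t⟩

lemma Bdd.sub {X : Type*} {F G : X → ℂ} (hF : Bdd F) (hG : Bdd G) :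
    Bdd (fun t => F t - G t) := by
  simpa [sub_eq_add_neg] using hF.add hG.neg

lemma Bdd.sum {X ι : Type*} (s : Finset ι) {F : ι → X → ℂ} (hF : ∀ i ∈ s, Bdd (F i)) :
    Bdd (fun t => ∑ i ∈ s, F i t) := by
  classical
  induction s using Finset.induction_on with
  | empty => simpa using Bdd.const (X := X) 0
  | insert a s ha ih =>
    simp only [Finset.sum_insert ha]
    exact (hF a (Finset.mem_insert_self a s)).add
      (ih (fun i hi => hF i (Finset.mem_insert_of_mem hi)))

/-- A mean on the bounded functions on `X` (values on unbounded functions are irrelevant). -/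
structure Mean (X : Type*) where
  toFun : (X → ℂ) → ℂ
  add : ∀ F G, Bdd F → Bdd G → toFun (fun t => F t + G t) = toFun F + toFun G
  const_mul : ∀ (c : ℂ) F, Bdd F → toFun (fun t => c * F t) = c * toFun F
  norm_le : ∀ F C, (∀ t, ‖F t‖ ≤ C) → ‖toFun F‖ ≤ C
  one : toFun (fun _ => 1) = 1

namespace Mean

variable {X : Type*}

instance : CoeFun (Mean X) (fun _ => (X → ℂ) → ℂ) := ⟨Mean.toFun⟩

lemma const (m : Mean X) (c : ℂ) : m (fun _ => c) = c := by
  have := m.const_mul c (fun _ => 1) (Bdd.const 1)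
  rw [m.one, mul_one] at this
  simpa using this

lemma neg (m : Mean X) {F : X → ℂ} (hF : Bdd F) : m (fun t => - F t) = - m F := by
  have := m.const_mul (-1) F hF
  simpa using this

lemma sub (m : Mean X) {F G : X → ℂ} (hF : Bdd F) (hG : Bdd G) :
    m (fun t => F t - G t) = m F - m G := by
  have := m.add F (fun t => - G t) hF hG.neg
  rw [m.neg hG] at this
  simpa [sub_eq_add_neg] using this

lemma sum (m : Mean X) {ι : Type*} (s : Finset ι) {F : ι → X → ℂ} (hF : ∀ i ∈ s, Bdd (F i)) :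
    m (fun t => ∑ i ∈ s, F i t) = ∑ i ∈ s, m (F i) := by
  classical
  induction s using Finset.induction_on with
  | empty => simpa using m.const 0
  | insert a s ha ih =>
    simp only [Finset.sum_insert ha]
    rw [m.add _ _ (hF a (Finset.mem_insert_self a s))
      (Bdd.sum s (fun i hi => hF i (Finset.mem_insert_of_mem hi))),
      ih (fun i hi => hF i (Finset.mem_insert_of_mem hi))]

lemma norm_sub_le (m : Mean X) {F G : X → ℂ} (hF : Bdd F) (hG : Bdd G) {C : ℝ}
    (h : ∀ t, ‖F t - G t‖ ≤ C) : ‖m F - m G‖ ≤ C := by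
  rw [← m.sub hF hG]
  exact m.norm_le _ _ h

/-- exchange of a mean and a dominated series -/
lemma tsum (m : Mean X) {F : ℕ → X → ℂ} {b : ℕ → ℝ} (hb : Summable b)
    (hF : ∀ n t, ‖F n t‖ ≤ b n) : m (fun t => ∑' n, F n t) = ∑' n, m (F n) := by
  have hs : ∀ t, Summable (fun n => F n t) := fun t =>
    Summable.of_norm_bounded hb (fun n => hF n t)
  have hbd : ∀ n, Bdd (F n) := fun n => ⟨b n, hF n⟩
  have htot : Bdd (fun t => ∑' n, F n t) :=
    ⟨∑' n, b n, fun t => tsum_of_norm_bounded hb.hasSum (fun n => hF n t)⟩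
  have h1 : HasSum (fun n => m (F n)) (m (fun t => ∑' n, F n t)) := by
    rw [HasSum, SummationFilter.unconditional_filter]
    rw [tendsto_iff_norm_sub_tendsto_zero]
    have h2 : Filter.Tendsto (fun s : Finset ℕ => ∑' n : {n // n ∉ s}, b n) Filter.atTop (𝓝 0) :=
      tendsto_tsum_compl_atTop_zero b
    refine squeeze_zero (fun s => norm_nonneg _) (fun s => ?_) h2
    rw [← m.sum s (fun i _ => hbd i)]
    refine m.norm_sub_le (Bdd.sum s (fun i _ => hbd i)) htot (fun t => ?_)
    rw [← (hs t).sum_add_tsum_compl (s := s)]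
    rw [norm_sub_rev, add_sub_cancel_left]
    exact tsum_of_norm_bounded (hb.subtype _).hasSum (fun n => hF n t)
  exact h1.tsum_eq.symm

end Mean

/-- limit along an ultrafilter -/
noncomputable def ulim {I : Type*} (U : Ultrafilter I) (F : I → ℂ) : ℂ :=
  (U : Filter I).limUnder F

lemma tendsto_ulim {I : Type*} (U : Ultrafilter I) {F : I → ℂ} (hF : Bdd F) :
    Filter.Tendsto F U (𝓝 (ulim U F)) := by
  obtain ⟨C, hC⟩ := hF
  refine tendsto_nhds_limUnder ?_
  have hc : IsCompact (Metric.closedBall (0 : ℂ) C) := isCompact_closedBall 0 C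
  obtain ⟨x, -, hx⟩ := hc.ultrafilter_le_nhds (U.map F) (by
    rw [Filter.le_principal_iff, Ultrafilter.mem_coe, Ultrafilter.mem_map]
    exact Filter.univ_mem' (fun i => by simpa using hC i))
  exact ⟨x, hx⟩

lemma ulim_eq {I : Type*} (U : Ultrafilter I) {F : I → ℂ} {c : ℂ}
    (h : Filter.Tendsto F U (𝓝 c)) : ulim U F = c := h.limUnder_eq

namespace Mean

variable {X : Type*}

/-- ultralimit of a family of means -/
noncomputable def ultra {I : Type*} (U : Ultrafilter I) (m : I → Mean X) : Mean X where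
  toFun F := ulim U (fun i => m i F)
  add F G hF hG := by
    have h1 : Bdd (fun i => m i F) := by
      obtain ⟨C, hC⟩ := hF
      exact ⟨C, fun i => (m i).norm_le F C hC⟩
    have h2 : Bdd (fun i => m i G) := by
      obtain ⟨C, hC⟩ := hG
      exact ⟨C, fun i => (m i).norm_le G C hC⟩
    apply ulim_eq
    refine Filter.Tendsto.congr (fun i => ?_) ((tendsto_ulim U h1).add (tendsto_ulim U h2))
    exact ((m i).add F G hF hG).symm
  const_mul c F hF := by
    have h1 : Bdd (fun i => m i F) := by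
      obtain ⟨C, hC⟩ := hF
      exact ⟨C, fun i => (m i).norm_le F C hC⟩
    apply ulim_eq
    refine Filter.Tendsto.congr (fun i => ?_) ((tendsto_ulim U h1).const_mul c)
    exact ((m i).const_mul c F hF).symm
  norm_le F C hC := by
    have h1 : Bdd (fun i => m i F) := ⟨C, fun i => (m i).norm_le F C hC⟩
    exact le_of_tendsto (tendsto_ulim U h1).norm
      (Filter.Eventually.of_forall (fun i => (m i).norm_le F C hC))
  one := by
    apply ulim_eq
    simp only [(m _).one]
    exact tendsto_const_nhds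

lemma ultra_apply {I : Type*} (U : Ultrafilter I) (m : I → Mean X) (F : X → ℂ) :
    ultra U m F = ulim U (fun i => m i F) := rfl

lemma tendsto_ultra {I : Type*} (U : Ultrafilter I) (m : I → Mean X) {F : X → ℂ} (hF : Bdd F) :
    Filter.Tendsto (fun i => m i F) U (𝓝 (ultra U m F)) := by
  obtain ⟨C, hC⟩ := hF
  exact tendsto_ulim U ⟨C, fun i => (m i).norm_le F C hC⟩

/-- average over a finite family of points, with nonnegative weights of sum one -/
noncomputable def fin {ι : Type*} [Fintype ι] [Nonempty ι] (t : ι → X) : Mean X where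
  toFun F := (Fintype.card ι : ℂ)⁻¹ * ∑ i, F (t i)
  add F G _ _ := by
    simp [Finset.sum_add_distrib, mul_add]
  const_mul c F _ := by
    rw [← Finset.mul_sum]; ring
  norm_le F C hC := by
    have hc : (0 : ℝ) < Fintype.card ι := by exact_mod_cast Fintype.card_pos
    rw [norm_mul, norm_inv, Complex.norm_natCast, inv_mul_le_iff₀ hc]
    refine (norm_sum_le _ _).trans ?_
    refine (Finset.sum_le_sum (fun i _ => hC (t i))).trans (le_of_eq ?_)
    simp
  one := by
    have hc : (Fintype.card ι : ℂ) ≠ 0 := by exact_mod_cast Fintype.card_ne_zero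
    simp [hc]

lemma fin_apply {ι : Type*} [Fintype ι] [Nonempty ι] (t : ι → X) (F : X → ℂ) :
    fin t F = (Fintype.card ι : ℂ)⁻¹ * ∑ i, F (t i) := rfl

end Mean

end Vale.Agent.P082
end

section

open scoped InnerProductSpace ComplexConjugate

namespace Vale.Agent.P082

/-- choice of signs -/
lemma exists_signs {K : Type*} [NormedAddCommGroup K] [InnerProductSpace ℂ K] {J : Type*}
    (s : Finset J) (v : J → K) :
    ∃ ε : J → ℂ, (∀ j, ε j = 1 ∨ ε j = -1) ∧ ∑ j ∈ s, ‖v j‖ ^ 2 ≤ ‖∑ j ∈ s, ε j • v j‖ ^ 2 := by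
  classical
  induction s using Finset.induction_on with
  | empty => exact ⟨fun _ => 1, fun _ => Or.inl rfl, by simp⟩
  | insert a s ha ih =>
    obtain ⟨ε, hε, h⟩ := ih
    set S := ∑ j ∈ s, ε j • v j with hS
    have hpar : ‖S + v a‖ ^ 2 + ‖S - v a‖ ^ 2 = 2 * (‖S‖ ^ 2 + ‖v a‖ ^ 2) := by
      have := parallelogram_law_with_norm ℂ S (v a)
      simpa [sq] using this
    have hupd : ∀ c : ℂ, ∑ j ∈ insert a s, (Function.update ε a c) j • v j = c • v a + S := by
      intro c
      rw [Finset.sum_insert ha, Function.update_self, hS]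
      congr 1
      refine Finset.sum_congr rfl (fun j hj => ?_)
      rw [Function.update_of_ne (fun h : j = a => ha (h ▸ hj))]
    by_cases hc : ‖S‖ ^ 2 + ‖v a‖ ^ 2 ≤ ‖S + v a‖ ^ 2
    · refine ⟨Function.update ε a 1, fun j => ?_, ?_⟩
      · by_cases hj : j = a
        · subst hj; simp
        · rw [Function.update_of_ne hj]; exact hε j
      · rw [hupd, Finset.sum_insert ha, one_smul, add_comm (v a) S]
        linarith only [h, hc]
    · refine ⟨Function.update ε a (-1), fun j => ?_, ?_⟩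
      · by_cases hj : j = a
        · subst hj; simp
        · rw [Function.update_of_ne hj]; exact hε j
      · rw [hupd, Finset.sum_insert ha, neg_smul, one_smul, neg_add_eq_sub]
        linarith only [h, hpar, hc]

/-- A tracial representation: the vectors `V x` of a trace. -/
structure TraceRep (A : Type*) [NormedRing A] [StarRing A] [NormedAlgebra ℂ A]
    (K : Type*) [NormedAddCommGroup K] [InnerProductSpace ℂ K] where
  V : A →ₗ[ℂ] K
  norm_mul_le : ∀ x y, ‖V (x * y)‖ ≤ ‖x‖ * ‖V y‖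
  adj : ∀ x y z, ⟪V x, V (z * y)⟫_ℂ = ⟪V (star z * x), V y⟫_ℂ
  tracial : ∀ x y, ⟪V 1, V (x * y)⟫_ℂ = ⟪V 1, V (y * x)⟫_ℂ

/-- matrix units of size `n` in `A` -/
structure MatUnits (A : Type*) [Ring A] [StarRing A] (n : ℕ) (e : Fin n → Fin n → A) : Prop where
  mul_eq : ∀ a b c, e a b * e b c = e a c
  mul_ne : ∀ a b c d, b ≠ c → e a b * e c d = 0
  star_eq : ∀ a b, star (e a b) = e b a
  sum_eq : ∑ a, e a a = 1

section

variable {A : Type*} [NormedRing A] [StarRing A] [CStarRing A] [NormedAlgebra ℂ A] [StarModule ℂ A]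
  {K : Type*} [NormedAddCommGroup K] [InnerProductSpace ℂ K]

omit [CStarRing A] [StarModule ℂ A] in
lemma TraceRep.norm_sq (R : TraceRep A K) (x : A) :
    ((‖R.V x‖ ^ 2 : ℝ) : ℂ) = ⟪R.V 1, R.V (star x * x)⟫_ℂ := by
  rw [R.adj, star_star, mul_one, inner_self_eq_norm_sq_to_K]
  simp

end

end Vale.Agent.P082
end

section

namespace Vale.Agent.P082

variable {A : Type*} [CStarAlgebra A]

/-- Cut-off element: for `y` and `ε > 0` a contraction `e` with `1 - e = c * (y^* y)`, `‖c‖ ≤ 1/ε`,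
and `‖y e‖ ^ 2 ≤ ε`. -/
lemma exists_cutoff (y : A) {ε : ℝ} (hε : 0 < ε) :
    ∃ e c : A, star e = e ∧ ‖e‖ ≤ 1 ∧ ‖1 - e‖ ≤ 1 ∧ ‖y * e‖ ^ 2 ≤ ε ∧ ‖c‖ ≤ ε⁻¹ ∧
      1 - e = c * (star y * y) := by
  classical
  set h : A := star y * y with hh
  have hsa : IsSelfAdjoint h := IsSelfAdjoint.star_mul_self y
  have hpos : ∀ t ∈ spectrum ℝ h, 0 ≤ t := spectrum_star_mul_self_nonneg
  have hden : ∀ t ∈ spectrum ℝ h, (0 : ℝ) < ε + t := fun t ht => by
    have := hpos t ht; linarith only [hε, this]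
  have hcont : ContinuousOn (fun t : ℝ => (ε + t)⁻¹) (spectrum ℝ h) := by
    apply ContinuousOn.inv₀ (by fun_prop)
    intro t ht
    exact (hden t ht).ne'
  have hcont2 : ContinuousOn (fun t : ℝ => ε * (ε + t)⁻¹) (spectrum ℝ h) :=
    continuousOn_const.mul hcont
  refine ⟨cfc (fun t : ℝ => ε * (ε + t)⁻¹) h, cfc (fun t : ℝ => (ε + t)⁻¹) h,
    (IsSelfAdjoint.cfc (f := fun t : ℝ => ε * (ε + t)⁻¹) (a := h)).star_eq, ?_, ?_, ?_, ?_, ?_⟩
  · apply norm_cfc_le zero_le_one
    intro t ht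
    have h1 := hden t ht
    have h2 := hpos t ht
    rw [Real.norm_eq_abs, abs_of_nonneg (by (clear * - hε h2; positivity)), ← div_eq_mul_inv, div_le_one h1]
    linarith only [h2]
  · have : (1 : A) - cfc (fun t : ℝ => ε * (ε + t)⁻¹) h
        = cfc (fun t : ℝ => 1 - ε * (ε + t)⁻¹) h := by
      rw [cfc_sub (fun _ : ℝ => (1 : ℝ)) (fun t : ℝ => ε * (ε + t)⁻¹) h
        continuousOn_const hcont2, cfc_const_one ℝ h]
    rw [this]
    apply norm_cfc_le zero_le_one
    intro t ht
    have h1 := hden t ht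
    have h2 := hpos t ht
    have h3 : 1 - ε * (ε + t)⁻¹ = t / (ε + t) := by
      field_simp
      ring
    rw [h3, Real.norm_eq_abs, abs_of_nonneg (by (clear * - hε h2; positivity)), div_le_one h1]
    linarith only [hε]
  · have hst : star (cfc (fun t : ℝ => ε * (ε + t)⁻¹) h) = cfc (fun t : ℝ => ε * (ε + t)⁻¹) h :=
      (IsSelfAdjoint.cfc (f := fun t : ℝ => ε * (ε + t)⁻¹) (a := h)).star_eq
    have key : star (y * cfc (fun t : ℝ => ε * (ε + t)⁻¹) h)
        * (y * cfc (fun t : ℝ => ε * (ε + t)⁻¹) h)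
        = cfc (fun t : ℝ => (ε * (ε + t)⁻¹) * (t * (ε * (ε + t)⁻¹))) h := by
      rw [cfc_mul (fun t : ℝ => ε * (ε + t)⁻¹) (fun t : ℝ => t * (ε * (ε + t)⁻¹)) h hcont2
        (continuousOn_id.mul hcont2),
        cfc_mul (fun t : ℝ => t) (fun t : ℝ => ε * (ε + t)⁻¹) h continuousOn_id hcont2,
        cfc_id' ℝ h, star_mul, hst, hh]
      simp only [mul_assoc]
    rw [sq, ← CStarRing.norm_star_mul_self, key]
    apply norm_cfc_le hε.le
    intro t ht
    have h1 := hden t ht
    have h2 := hpos t ht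
    have h3 : ε * (ε + t)⁻¹ ≤ 1 := by
      rw [← div_eq_mul_inv, div_le_one h1]; linarith only [h2]
    have h4 : t * (ε * (ε + t)⁻¹) ≤ ε := by
      have : t * (ε * (ε + t)⁻¹) = ε * (t / (ε + t)) := by ring
      rw [this]
      have h5 : t / (ε + t) ≤ 1 := by rw [div_le_one h1]; linarith only [hε]
      exact mul_le_of_le_one_right hε.le h5
    have h6 : 0 ≤ ε * (ε + t)⁻¹ := by (clear * - hε h2; positivity)
    have h7 : 0 ≤ t * (ε * (ε + t)⁻¹) := by (clear * - hε h2; positivity)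
    rw [Real.norm_eq_abs, abs_of_nonneg (by (clear * - hε h2; positivity))]
    nlinarith only [h3, h4, h7]
  · apply norm_cfc_le (by positivity)
    intro t ht
    have h1 := hden t ht
    have h2 := hpos t ht
    rw [Real.norm_eq_abs, abs_of_nonneg (by positivity)]
    apply inv_anti₀ hε
    linarith
  · have : (1 : A) - cfc (fun t : ℝ => ε * (ε + t)⁻¹) h
        = cfc (fun t : ℝ => 1 - ε * (ε + t)⁻¹) h := by
      rw [cfc_sub (fun _ : ℝ => (1 : ℝ)) (fun t : ℝ => ε * (ε + t)⁻¹) h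
        continuousOn_const hcont2, cfc_const_one ℝ h]
    rw [this]
    have h3 : cfc (fun t : ℝ => 1 - ε * (ε + t)⁻¹) h
        = cfc (fun t : ℝ => (ε + t)⁻¹ * t) h := by
      apply cfc_congr
      intro t ht
      have h1 := hden t ht
      show 1 - ε * (ε + t)⁻¹ = (ε + t)⁻¹ * t
      field_simp
      ring
    rw [h3, cfc_mul (fun t : ℝ => (ε + t)⁻¹) (fun t : ℝ => t) h hcont continuousOn_id,
      cfc_id' ℝ h]

end Vale.Agent.P082
end

section

namespace Vale.Agent.P082

variable {A : Type*} [CStarAlgebra A] {J : Type*}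

/-- Left translate `θ(x ·)`. -/
noncomputable def lT (θ : A →L[ℂ] ℂ) (x : A) : A →L[ℂ] ℂ := θ.comp (ContinuousLinearMap.mul ℂ A x)

/-- Right translate `θ(· x)`. -/
noncomputable def rT (θ : A →L[ℂ] ℂ) (x : A) : A →L[ℂ] ℂ :=
  θ.comp ((ContinuousLinearMap.mul ℂ A).flip x)

@[simp] lemma lT_apply (θ : A →L[ℂ] ℂ) (x y : A) : lT θ x y = θ (x * y) := rfl

@[simp] lemma rT_apply (θ : A →L[ℂ] ℂ) (x y : A) : rT θ x y = θ (y * x) := rfl

/-- `θ` is `ε`-tame: of size at most `ε` on elements of the unit ball with small seminorms. -/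
def EpsTame (q : J → Seminorm ℂ A) (ε : ℝ) (θ : A →L[ℂ] ℂ) : Prop :=
  ∃ F : Finset J, ∃ δ : ℝ, 0 < δ ∧ ∀ y : A, ‖y‖ ≤ 1 → (∀ j ∈ F, q j y ≤ δ) → ‖θ y‖ ≤ ε

lemma EpsTame.mono {q : J → Seminorm ℂ A} {ε ε' : ℝ} {θ : A →L[ℂ] ℂ} (h : EpsTame q ε θ)
    (hε : ε ≤ ε') : EpsTame q ε' θ := by
  obtain ⟨F, δ, hδ, h⟩ := h
  exact ⟨F, δ, hδ, fun y hy hj => (h y hy hj).trans hε⟩

lemma le_of_sq_le_sq {a b : ℝ} (h : a ^ 2 ≤ b ^ 2) (hb : 0 ≤ b) : a ≤ b :=
  (sq_le_sq.mp h |> fun h' => (le_abs_self a).trans (h'.trans_eq (abs_of_nonneg hb)))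

/-- A phase turning a complex number into its absolute value. -/
lemma exists_phase (w : ℂ) : ∃ u : ℂ, ‖u‖ = 1 ∧ u * w = (‖w‖ : ℂ) := by
  by_cases hw : w = 0
  · exact ⟨1, by simp, by simp [hw]⟩
  · refine ⟨star w / ‖w‖, ?_, ?_⟩
    · rw [norm_div]
      simp [hw]
    · have h0 : (‖w‖ : ℂ) ≠ 0 := by simpa using hw
      field_simp
      rw [mul_comm]
      have := Complex.mul_conj w
      simp only [Complex.star_def]
      rw [this, Complex.normSq_eq_norm_sq]
      push_cast
      ring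

variable (q : J → Seminorm ℂ A)

/-- Norm estimate for a sum of two elements with almost orthogonal right supports. -/
lemma norm_add_sq_le_of_almost_orthogonal (a b : A) :
    ‖a + b‖ ^ 2 ≤ ‖a‖ ^ 2 + ‖b‖ ^ 2 + 2 * ‖a * star b‖ := by
  have h1 : ‖a + b‖ ^ 2 = ‖(a + b) * star (a + b)‖ := by
    rw [sq, CStarRing.norm_self_mul_star]
  have h2 : (a + b) * star (a + b) = a * star a + b * star b + (a * star b + star (a * star b)) := by
    rw [star_add, star_mul, star_star]
    noncomm_ring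
  rw [h1, h2]
  calc ‖a * star a + b * star b + (a * star b + star (a * star b))‖
      ≤ ‖a * star a‖ + ‖b * star b‖ + (‖a * star b‖ + ‖star (a * star b)‖) := by
        refine (norm_add_le _ _).trans (add_le_add (norm_add_le _ _) (norm_add_le _ _))
    _ = ‖a‖ ^ 2 + ‖b‖ ^ 2 + 2 * ‖a * star b‖ := by
        rw [norm_star, CStarRing.norm_self_mul_star, CStarRing.norm_self_mul_star]
        ring

include q in
/-- Lemma N0: a functional becomes `ε`-tame after cutting by a contraction close to `1`. -/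
lemma exists_tame_cut (hl : ∀ j a x, q j (a * x) ≤ ‖a‖ * q j x)
    (hr : ∀ j a x, q j (x * a) ≤ ‖a‖ * q j x)
    (θ : A →L[ℂ] ℂ) {ε : ℝ} (hε : 0 < ε) (F : Finset J) {δ : ℝ} (hδ : 0 < δ) :
    ∃ e : A, ‖e‖ ≤ 1 ∧ (∀ j ∈ F, q j (1 - e) ≤ δ) ∧ EpsTame q ε (rT θ e) := by
  classical
  rcases subsingleton_or_nontrivial A with hA | hA
  · refine ⟨0, by simp, fun j _ => ?_, ?_⟩
    · have : (1 - 0 : A) = 0 := Subsingleton.elim _ _
      rw [this, map_zero]; exact hδ.le
    · refine ⟨∅, 1, one_pos, fun y _ _ => ?_⟩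
      have : (rT θ 0) y = 0 := by simp
      rw [this]; simpa using hε.le
  by_cases htame : EpsTame q ε θ
  · refine ⟨1, by simp, fun j _ => by simpa using hδ.le, ?_⟩
    have : rT θ 1 = θ := by ext y; simp
    rwa [this]
  -- the infimum of tameness constants
  set S : Set ℝ := {a | 0 ≤ a ∧ EpsTame q a θ} with hS
  have hSne : S.Nonempty := ⟨‖θ‖, norm_nonneg _, ∅, 1, one_pos, fun y hy _ => by
    calc ‖θ y‖ ≤ ‖θ‖ * ‖y‖ := θ.le_opNorm y
      _ ≤ ‖θ‖ * 1 := by (clear * - hy; gcongr)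
      _ = ‖θ‖ := mul_one _⟩
  have hSbdd : BddBelow S := ⟨0, fun a ha => ha.1⟩
  set α : ℝ := sInf S with hα
  have hαε : ε ≤ α := by
    apply le_csInf hSne
    intro a ha
    by_contra hlt
    exact htame (ha.2.mono (not_le.mp hlt).le)
  have hα0 : 0 < α := hε.trans_le hαε
  -- choice of the parameters
  obtain ⟨t, ht0, ht1, htε⟩ : ∃ t : ℝ, 0 < t ∧ t ≤ 1 ∧ 2 * t * (2 + α) ≤ ε := by
    refine ⟨min 1 (ε / (2 * (2 + α))), by positivity, min_le_left _ _, ?_⟩
    have h1 : min 1 (ε / (2 * (2 + α))) ≤ ε / (2 * (2 + α)) := min_le_right _ _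
    have h2 : (0 : ℝ) < 2 * (2 + α) := by positivity
    calc 2 * min 1 (ε / (2 * (2 + α))) * (2 + α) = min 1 (ε / (2 * (2 + α))) * (2 * (2 + α)) := by
          ring
      _ ≤ ε / (2 * (2 + α)) * (2 * (2 + α)) := by (clear * - hα0 h1; gcongr)
      _ = ε := by (clear * - hε hα0; field_simp)
  obtain ⟨η, hη0, hηt, hηα⟩ : ∃ η : ℝ, 0 < η ∧ η ≤ t ^ 2 ∧ η ≤ α / 2 :=
    ⟨min (t ^ 2) (α / 2), by positivity, min_le_left _ _, min_le_right _ _⟩
  have hη1 : η ≤ 1 := hηt.trans (pow_le_one₀ ht0.le ht1)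
  obtain ⟨a₀, ha₀S, ha₀⟩ : ∃ a ∈ S, a < α + η := exists_lt_of_csInf_lt hSne (by linarith only [hη0])
  obtain ⟨F₀, δ₀, hδ₀, hF₀⟩ := ha₀S.2.mono ha₀.le
  have hnot : ¬ EpsTame q (α - η) θ := by
    intro h
    have : α - η ∈ S := ⟨by linarith only [hη0, hηα], h⟩
    have := csInf_le hSbdd this
    linarith only [hη0, this]
  obtain ⟨δ', hδ'0, hδ'1, hδ'2⟩ : ∃ δ' : ℝ, 0 < δ' ∧ δ' ≤ t ^ 2 * δ ∧ δ' ≤ δ₀ / 2 :=
    ⟨min (t ^ 2 * δ) (δ₀ / 2), by (clear * - hδ ht0 hδ₀; positivity), min_le_left _ _, min_le_right _ _⟩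
  obtain ⟨y, hy1, hyq, hyθ⟩ : ∃ y : A, ‖y‖ ≤ 1 ∧ (∀ j ∈ F ∪ F₀, q j y ≤ δ') ∧ α - η < ‖θ y‖ := by
    by_contra hcon
    push Not at hcon
    exact hnot ⟨F ∪ F₀, δ', hδ'0, fun y hy hj => hcon y hy hj⟩
  obtain ⟨e, c, hest, he1, -, hye, hc, hec⟩ := exists_cutoff y (ε := t ^ 2) (by positivity)
  have hye' : ‖y * e‖ ≤ t := le_of_sq_le_sq hye ht0.le
  refine ⟨e, he1, ?_, F₀, δ₀ / 2, by positivity, ?_⟩
  · intro j hj
    rw [hec]
    have h1 : q j (c * (star y * y)) ≤ ‖c‖ * (‖star y‖ * q j y) :=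
      (hl j c _).trans (by gcongr; exact hl j _ _)
    have h2 : q j y ≤ δ' := hyq j (Finset.mem_union_left _ hj)
    have h3 : ‖star y‖ ≤ 1 := by rwa [norm_star]
    have h4 : 0 ≤ q j y := apply_nonneg _ _
    calc q j (c * (star y * y)) ≤ ‖c‖ * (‖star y‖ * q j y) := h1
      _ ≤ (t ^ 2)⁻¹ * (1 * (t ^ 2 * δ)) := by
          gcongr
          exact h2.trans hδ'1
      _ = δ := by (clear * - hδ ht0; field_simp)
  · intro z hz1 hzq
    rw [rT_apply]
    obtain ⟨u, hu1, hu⟩ := exists_phase (θ y)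
    obtain ⟨v, hv1, hv⟩ := exists_phase (θ (z * e))
    set T : A := u • y + ((t : ℂ) * v) • (z * e) with hT
    have htn : ‖(t : ℂ)‖ = t := by rw [Complex.norm_real, Real.norm_eq_abs, abs_of_pos ht0]
    have hze : ‖z * e‖ ≤ 1 := (norm_mul_le _ _).trans (mul_le_one₀ hz1 (norm_nonneg _) he1)
    have hTn : ‖T‖ ≤ 1 + 2 * t ^ 2 := by
      have h1 := norm_add_sq_le_of_almost_orthogonal (u • y) (((t : ℂ) * v) • (z * e))
      have h2 : ‖u • y‖ ≤ 1 := by rw [norm_smul, hu1, one_mul]; exact hy1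
      have h3 : ‖((t : ℂ) * v) • (z * e)‖ ≤ t := by
        rw [norm_smul, norm_mul, htn, hv1, mul_one]
        exact mul_le_of_le_one_right ht0.le hze
      have h4 : ‖(u • y) * star (((t : ℂ) * v) • (z * e))‖ ≤ t * t := by
        have h7 : (u • y) * star (((t : ℂ) * v) • (z * e))
            = (u * star ((t : ℂ) * v)) • (y * e * star z) := by
          rw [star_smul, star_mul z e, hest, smul_mul_smul_comm, mul_assoc]
        rw [h7, norm_smul, norm_mul, hu1, norm_star, norm_mul, htn, hv1]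
        have h5 : ‖y * e * star z‖ ≤ t := by
          refine (norm_mul_le _ _).trans ?_
          rw [norm_star]
          calc ‖y * e‖ * ‖z‖ ≤ t * 1 := by (clear * - ht0 hye' hz1; gcongr)
            _ = t := mul_one _
        calc 1 * (t * 1) * ‖y * e * star z‖ ≤ 1 * (t * 1) * t := by (clear * - ht0 h5; gcongr)
          _ = t * t := by ring
      have h6 : ‖T‖ ^ 2 ≤ (1 + 2 * t ^ 2) ^ 2 := by
        calc ‖T‖ ^ 2 ≤ ‖u • y‖ ^ 2 + ‖((t : ℂ) * v) • (z * e)‖ ^ 2
              + 2 * ‖(u • y) * star (((t : ℂ) * v) • (z * e))‖ := h1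
          _ ≤ 1 ^ 2 + t ^ 2 + 2 * (t * t) := by (clear * - h2 h3 h4; gcongr)
          _ ≤ (1 + 2 * t ^ 2) ^ 2 := by linarith only [hη0, hηt, sq_nonneg (t ^ 2)]
      exact le_of_sq_le_sq h6 (by (clear * - ht0; positivity))
    set B : ℝ := 1 + 2 * t ^ 2 with hB
    have hB1 : 1 ≤ B := by rw [hB]; linarith only [hη0, hηt]
    have hB0 : 0 < B := by linarith only [hη0, hηt]
    have hBn : ‖((B : ℂ))⁻¹‖ = B⁻¹ := by
      rw [norm_inv, Complex.norm_real, Real.norm_eq_abs, abs_of_pos hB0]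
    have hB' : B⁻¹ ≤ 1 := inv_le_one_of_one_le₀ hB1
    have hmain : ‖θ ((B : ℂ)⁻¹ • T)‖ ≤ α + η := by
      apply hF₀
      · rw [norm_smul, hBn]
        calc B⁻¹ * ‖T‖ ≤ B⁻¹ * B := by (clear * - t ht0 hTn; gcongr)
          _ = 1 := inv_mul_cancel₀ hB0.ne'
      · intro j hj
        have h1 : q j T ≤ q j y + q j z := by
          calc q j T ≤ q j (u • y) + q j (((t : ℂ) * v) • (z * e)) := map_add_le_add _ _ _
            _ = q j y + t * q j (z * e) := by
                rw [map_smul_eq_mul, map_smul_eq_mul, hu1, norm_mul, htn, hv1]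
                ring
            _ ≤ q j y + 1 * (‖e‖ * q j z) := by
                gcongr
                exact hr j e z
            _ ≤ q j y + q j z := by
                have : ‖e‖ * q j z ≤ 1 * q j z := by
                  (clear * - he1; gcongr)
                linarith only [this]
        have h2 : q j y ≤ δ₀ / 2 := (hyq j (Finset.mem_union_right _ hj)).trans hδ'2
        have h3 : q j z ≤ δ₀ / 2 := hzq j hj
        rw [map_smul_eq_mul, hBn]
        have h4 : 0 ≤ q j T := apply_nonneg _ _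
        calc B⁻¹ * q j T ≤ 1 * q j T := by (clear * - hB'; gcongr)
          _ ≤ δ₀ := by linarith only [h1, h2, h3]
    have hθT : θ T = ((‖θ y‖ + t * ‖θ (z * e)‖ : ℝ) : ℂ) := by
      rw [hT, map_add, map_smul, map_smul, smul_eq_mul, smul_eq_mul, hu, mul_assoc, hv]
      push_cast
      ring
    have h1 : ‖θ T‖ ≤ (α + η) * B := by
      rw [map_smul, norm_smul, hBn] at hmain
      calc ‖θ T‖ = B * (B⁻¹ * ‖θ T‖) := by (clear * - hB1; field_simp)
        _ ≤ B * (α + η) := by (clear * - t ht0 hmain; gcongr)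
        _ = (α + η) * B := mul_comm _ _
    rw [hθT, Complex.norm_real, Real.norm_eq_abs, abs_of_nonneg (by (clear * - ht0; positivity))] at h1
    have h2 : t * ‖θ (z * e)‖ ≤ t * ε := by
      have h3 : t * ‖θ (z * e)‖ ≤ (α + η) * B - (α - η) := by linarith only [hyθ, h1]
      have h4 : (α + η) * B - (α - η) = 2 * η + 2 * t ^ 2 * (α + η) := by rw [hB]; ring
      have h5 : 2 * η + 2 * t ^ 2 * (α + η) ≤ 2 * t ^ 2 + 2 * t ^ 2 * (α + 1) := by (clear * - ht0 hηt hη1; gcongr)
      have h6 : 2 * t ^ 2 + 2 * t ^ 2 * (α + 1) = t * (2 * t * (2 + α)) := by ring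
      calc t * ‖θ (z * e)‖ ≤ (α + η) * B - (α - η) := h3
        _ ≤ t * (2 * t * (2 + α)) := by rw [h4, ← h6]; exact h5
        _ ≤ t * ε := by (clear * - ht0 htε; gcongr)
    exact le_of_mul_le_mul_left h2 ht0

end Vale.Agent.P082
end

section

open scoped InnerProductSpace ENNReal

namespace Vale.Agent.P082

variable {H : Type*} [NormedAddCommGroup H] [InnerProductSpace ℂ H] [CompleteSpace H]
variable {ι : Type*}

/-- The Hilbert sum of copies of `H`. -/
abbrev L2 (ι : Type*) (H : Type*) [NormedAddCommGroup H] := lp (fun _ : ι => H) 2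

lemma memlp_apply (a : H →L[ℂ] H) (v : L2 ι H) : Memℓp (fun i => a (v i)) 2 := by
  have h1 : Memℓp (fun i => ‖v i‖) 2 := memℓp_norm_iff.mpr (lp.memℓp v)
  have h2 : Memℓp (fun i => ‖a‖ * ‖v i‖) 2 := h1.const_mul ‖a‖
  exact h2.mono fun i => a.le_opNorm (v i)

/-- The amplification of an operator. -/
noncomputable def amp (a : H →L[ℂ] H) : L2 ι H →L[ℂ] L2 ι H :=
  LinearMap.mkContinuous
    { toFun := fun v => ⟨fun i => a (v i), memlp_apply a v⟩
      map_add' := fun v w => by
        apply lp.ext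
        funext i
        simp only [lp.coeFn_add, Pi.add_apply, map_add]
      map_smul' := fun c v => by
        apply lp.ext
        funext i
        simp only [lp.coeFn_smul, Pi.smul_apply, map_smul]
        rfl } ‖a‖ (fun v => by
    have h : ‖(⟨fun i => a (v i), memlp_apply a v⟩ : L2 ι H)‖ ≤ ‖(‖a‖ : ℂ) • v‖ := by
      apply lp.norm_mono (by norm_num)
      intro i
      rw [lp.coeFn_smul, Pi.smul_apply, norm_smul, Complex.norm_real, norm_norm]
      exact a.le_opNorm (v i)
    refine h.trans ?_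
    rw [norm_smul, Complex.norm_real, norm_norm])

@[simp] lemma amp_apply (a : H →L[ℂ] H) (v : L2 ι H) (i : ι) : amp a v i = a (v i) := rfl

lemma amp_single [DecidableEq ι] (a : H →L[ℂ] H) (k : ι) (h : H) :
    amp a (lp.single 2 k h) = (lp.single 2 k (a h) : L2 ι H) := by
  apply lp.ext
  funext j
  rw [amp_apply, lp.single_apply, lp.single_apply]
  by_cases hjk : j = k
  · subst hjk; simp
  · simp [hjk]

lemma norm_amp_le (a : H →L[ℂ] H) (v : L2 ι H) : ‖amp a v‖ ≤ ‖a‖ * ‖v‖ :=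
  LinearMap.mkContinuous_norm_le _ (norm_nonneg a) _ |> fun h =>
    ((amp a).le_opNorm v).trans (by gcongr; exact h)

lemma amp_one (v : L2 ι H) : amp (1 : H →L[ℂ] H) v = v := by
  apply lp.ext; funext i; simp

lemma amp_mul (a b : H →L[ℂ] H) (v : L2 ι H) : amp (a * b) v = amp a (amp b v) := by
  apply lp.ext; funext i; simp

lemma amp_add (a b : H →L[ℂ] H) (v : L2 ι H) : amp (a + b) v = amp a v + amp b v := by
  apply lp.ext; funext i; simp

lemma amp_smul (c : ℂ) (a : H →L[ℂ] H) (v : L2 ι H) : amp (c • a) v = c • amp a v := by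
  apply lp.ext; funext i; simp

/-- `a ↦ amp a Ω` as a linear map. -/
noncomputable def ampL (Ω : L2 ι H) : (H →L[ℂ] H) →ₗ[ℂ] L2 ι H where
  toFun a := amp a Ω
  map_add' a b := amp_add a b Ω
  map_smul' c a := amp_smul c a Ω

@[simp] lemma ampL_apply (Ω : L2 ι H) (a : H →L[ℂ] H) : ampL Ω a = amp a Ω := rfl

lemma inner_amp (a : H →L[ℂ] H) (v w : L2 ι H) : ⟪w, amp a v⟫_ℂ = ⟪amp (star a) w, v⟫_ℂ := by
  rw [lp.inner_eq_tsum, lp.inner_eq_tsum]
  congr 1
  funext i
  rw [amp_apply, amp_apply, ContinuousLinearMap.star_eq_adjoint,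
    ContinuousLinearMap.adjoint_inner_left]

/-- Density: elements of the bicommutant are approximated on a square summable family. -/
theorem exists_approx (A0 : StarSubalgebra ℂ (H →L[ℂ] H)) {x : H →L[ℂ] H}
    (hx : ∀ T : H →L[ℂ] H, (∀ a ∈ A0, a * T = T * a) → x * T = T * x)
    (Ω : L2 ι H) {ε : ℝ} (hε : 0 < ε) : ∃ a ∈ A0, ‖amp x Ω - amp a Ω‖ < ε := by
  classical
  set L0 : Submodule ℂ (L2 ι H) := Submodule.map (ampL Ω) A0.toSubalgebra.toSubmodule with hL0
  set L : Submodule ℂ (L2 ι H) := L0.topologicalClosure with hL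
  have hLc : IsClosed (L : Set (L2 ι H)) := L0.isClosed_topologicalClosure
  have : CompleteSpace L := hLc.completeSpace_coe
  have hinv : ∀ a ∈ A0, ∀ v ∈ L, amp a v ∈ L := by
    intro a ha v hv
    have hsub : (L0 : Set (L2 ι H)) ⊆ (amp a) ⁻¹' (L : Set (L2 ι H)) := by
      rintro _ ⟨b, hb, rfl⟩
      apply L0.le_topologicalClosure
      have hb' : b ∈ A0 := hb
      refine ⟨a * b, (mul_mem ha hb' : a * b ∈ A0), ?_⟩
      simp [amp_mul]
    have hcl : IsClosed ((amp a) ⁻¹' (L : Set (L2 ι H))) := hLc.preimage (amp a).continuous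
    exact closure_minimal hsub hcl hv
  have hcomm : ∀ a ∈ A0, ∀ v, amp a (L.starProjection v) = L.starProjection (amp a v) := by
    intro a ha v
    symm
    apply Submodule.eq_starProjection_of_mem_orthogonal
    · exact hinv a ha _ (Submodule.starProjection_apply_mem L v)
    · rw [Submodule.mem_orthogonal]
      intro w hw
      rw [← map_sub, inner_amp]
      have h1 := Submodule.sub_starProjection_mem_orthogonal (K := L) v
      exact (Submodule.mem_orthogonal L _).mp h1 _ (hinv _ (star_mem ha) w hw)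
  have hentry : ∀ i k : ι, ∀ h : H, x ((L.starProjection (lp.single 2 k h) : L2 ι H) i)
      = (L.starProjection (lp.single 2 k (x h)) : L2 ι H) i := by
    intro i k h
    set T : H →L[ℂ] H := (lp.evalCLM ℂ (fun _ : ι => H) 2 i).comp
      (L.starProjection.comp (lp.singleContinuousLinearMap ℂ (fun _ : ι => H) 2 k)) with hT
    have hTapp : ∀ h, T h = (L.starProjection (lp.single 2 k h) : L2 ι H) i := fun h => rfl
    have hTcomm : ∀ a ∈ A0, a * T = T * a := by
      intro a ha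
      ext h
      have hs : amp a (lp.single 2 k h) = (lp.single 2 k (a h) : L2 ι H) := amp_single a k h
      change a (T h) = T (a h)
      rw [hTapp, hTapp, ← amp_apply a (L.starProjection (lp.single 2 k h)) i, hcomm a ha, hs]
    have := hx T hTcomm
    have h2 := congrArg (fun S : H →L[ℂ] H => S h) this
    exact h2
  have hcommx : (amp x).comp L.starProjection = L.starProjection.comp (amp (ι := ι) x) := by
    apply lp.ext_continuousLinearMap (by norm_num)
    intro k
    ext h : 1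
    apply lp.ext
    funext i
    have h1 : amp x (lp.single 2 k h) = (lp.single 2 k (x h) : L2 ι H) := amp_single x k h
    simp only [ContinuousLinearMap.comp_apply, lp.singleContinuousLinearMap_apply]
    rw [h1, amp_apply]
    exact hentry i k h
  have hΩ : Ω ∈ L := L0.le_topologicalClosure ⟨1, one_mem A0, by simp [amp_one]⟩
  have hxΩ : amp x Ω ∈ L := by
    have h1 : L.starProjection Ω = Ω := Submodule.starProjection_eq_self_iff.mpr hΩ
    have h2 := congrArg (fun S : L2 ι H →L[ℂ] L2 ι H => S Ω) hcommx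
    simp only [ContinuousLinearMap.comp_apply, h1] at h2
    rw [h2]
    exact Submodule.starProjection_apply_mem L _
  have hcl : amp x Ω ∈ closure (L0 : Set (L2 ι H)) := hxΩ
  obtain ⟨_, ⟨a, ha, rfl⟩, hd⟩ := Metric.mem_closure_iff.mp hcl ε hε
  exact ⟨a, ha, by rwa [dist_eq_norm] at hd⟩

end Vale.Agent.P082
end
namespace AFastaa0231x797a
@[reducible] noncomputable def a0.{u1, u2} {x1 : Type u1} {x2 : Type u2} [x3 : NormedAddCommGroup x2] : SeminormedAddCommGroup ↥(Vale.Agent.P082.L2 x1 x2) := inferInstance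
@[reducible] noncomputable def a1.{u1, u2} {x1 : Type u1} {x2 : Type u2} [x3 : NormedAddCommGroup x2] : TopologicalSpace ↥(Vale.Agent.P082.L2 x1 x2) := inferInstance
@[reducible] noncomputable def a2.{u1, u2} {x1 : Type u1} {x2 : Type u2} [x3 : NormedAddCommGroup x2] : UniformSpace ↥(Vale.Agent.P082.L2 x1 x2) := inferInstance
@[reducible] noncomputable def a3.{u1, u2} {x1 : Type u1} {x2 : Type u2} [x3 : NormedAddCommGroup x2] : PseudoMetricSpace ↥(Vale.Agent.P082.L2 x1 x2) := inferInstance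
@[reducible] noncomputable def a4.{u1, u2} {x1 : Type u1} {x2 : Type u2} [x3 : NormedAddCommGroup x2] : AddCommMonoid ↥(Vale.Agent.P082.L2 x1 x2) := inferInstance
end AFastaa0231x797a
attribute [local instance] AFastaa0231x797a.a0 AFastaa0231x797a.a1 AFastaa0231x797a.a2
  AFastaa0231x797a.a3 AFastaa0231x797a.a4
namespace AFastaa0231x797b
@[reducible] noncomputable def a0.{u1, u2} {x1 : Type u1} {x2 : Type u2} [x3 : NormedAddCommGroup x2] [x4 : InnerProductSpace ℂ x2] : SMul ℂ ↥(Vale.Agent.P082.L2 x1 x2) := inferInstance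
end AFastaa0231x797b
attribute [local instance] AFastaa0231x797b.a0

section

open scoped Topology

namespace Vale.Agent.P082.VN

open Filter

/-- (T2) fixed point in a convex set with an invariant uniformly convex size function. -/
theorem exists_fixed_point {F : Type*} [NormedAddCommGroup F] [NormedSpace ℝ F] [CompleteSpace F]
    {G : Type*} (T : G → F →L[ℝ] F) (hT : ∀ g a, ‖T g a‖ = ‖a‖)
    (K : Set F) (hK : Convex ℝ K) (hKne : K.Nonempty) (hinv : ∀ g, ∀ a ∈ K, T g a ∈ K)
    (hgrp : ∀ g h, ∃ k, ∀ a, T g (T h a) = T k a) (hone : ∃ k, ∀ a, T k a = a)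
    (q : F → ℝ) (C c : ℝ) (hc : 0 < c) (hq0 : ∀ a ∈ K, 0 ≤ q a) (hqC : ∀ a ∈ K, q a ≤ C)
    (hq : ∀ a ∈ K, ∀ b ∈ K, q ((1 / 2 : ℝ) • (a + b)) + c * ‖a - b‖ ^ 2
      ≤ (1 / 2) * q a + (1 / 2) * q b) :
    ∃ τ ∈ closure K, ∀ g, T g τ = τ := by
  obtain ⟨k₀, hk₀⟩ := hone
  have : Nonempty G := ⟨k₀⟩
  set Φ : F → ℝ := fun a => ⨆ g, q (T g a) with hΦ
  have hbdd : ∀ a ∈ K, BddAbove (Set.range fun g => q (T g a)) := by
    intro a ha
    refine ⟨C, ?_⟩
    rintro _ ⟨g, rfl⟩
    exact hqC _ (hinv g a ha)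
  have hle : ∀ a ∈ K, ∀ g, q (T g a) ≤ Φ a := fun a ha g => le_ciSup (hbdd a ha) g
  have hΦ0 : ∀ a ∈ K, 0 ≤ Φ a := fun a ha =>
    (hq0 _ (hinv k₀ a ha)).trans (hle a ha k₀)
  have hmidK : ∀ a ∈ K, ∀ b ∈ K, (1 / 2 : ℝ) • (a + b) ∈ K := by
    intro a ha b hb
    rw [smul_add]
    exact hK ha hb (by norm_num) (by norm_num) (by norm_num)
  have hmid : ∀ a ∈ K, ∀ b ∈ K, Φ ((1 / 2 : ℝ) • (a + b)) + c * ‖a - b‖ ^ 2 ≤
      (1 / 2) * Φ a + (1 / 2) * Φ b := by
    intro a ha b hb
    rw [← le_sub_iff_add_le]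
    refine ciSup_le fun g => ?_
    have h1 := hq _ (hinv g a ha) _ (hinv g b hb)
    rw [← map_add, ← map_sub, hT, ← map_smul] at h1
    have h2 := hle a ha g
    have h3 := hle b hb g
    linarith only [h1, h2, h3]
  have hstep : ∀ h, ∀ a ∈ K, Φ (T h a) ≤ Φ a := by
    intro h a ha
    refine ciSup_le fun g => ?_
    obtain ⟨k, hk⟩ := hgrp g h
    rw [hk]
    exact hle a ha k
  set d : ℝ := sInf (Φ '' K) with hd
  have hbelow : BddBelow (Φ '' K) := ⟨0, by rintro _ ⟨a, ha, rfl⟩; exact hΦ0 a ha⟩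
  have hdle : ∀ a ∈ K, d ≤ Φ a := fun a ha => csInf_le hbelow ⟨a, ha, rfl⟩
  have hex : ∀ n : ℕ, ∃ a ∈ K, Φ a < d + 1 / ((n : ℝ) + 1) := by
    intro n
    have hpos : (0 : ℝ) < 1 / ((n : ℝ) + 1) := by (clear * -; positivity)
    obtain ⟨_, ⟨a, ha, rfl⟩, h⟩ := exists_lt_of_csInf_lt (hKne.image Φ)
      (show sInf (Φ '' K) < d + 1 / ((n : ℝ) + 1) by linarith only [hpos])
    exact ⟨a, ha, h⟩
  choose a haK ha using hex
  have hanti : ∀ {N n : ℕ}, N ≤ n → (1 : ℝ) / ((n : ℝ) + 1) ≤ 1 / ((N : ℝ) + 1) := by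
    intro N n h
    have h' : (N : ℝ) ≤ n := by exact_mod_cast h
    exact one_div_le_one_div_of_le (by (clear * -; positivity)) (by linarith only [h'])
  have hlim0 : Tendsto (fun n : ℕ => Real.sqrt ((1 / ((n : ℝ) + 1)) / c)) atTop (𝓝 0) := by
    have h1 : Tendsto (fun n : ℕ => (1 / ((n : ℝ) + 1)) / c) atTop (𝓝 (0 / c)) :=
      tendsto_one_div_add_atTop_nhds_zero_nat.div_const c
    rw [zero_div] at h1
    have h2 := h1.sqrt
    rwa [Real.sqrt_zero] at h2
  have hcauchy : CauchySeq a := by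
    refine cauchySeq_of_le_tendsto_0 (fun n : ℕ => Real.sqrt ((1 / ((n : ℝ) + 1)) / c)) ?_ hlim0
    intro n m N hn hm
    rw [dist_eq_norm]
    refine Real.le_sqrt_of_sq_le ?_
    rw [le_div_iff₀ hc]
    have h1 := hmid _ (haK n) _ (haK m)
    have h2 := hdle _ (hmidK _ (haK n) _ (haK m))
    have h3 := ha n
    have h4 := ha m
    have h5 := hanti hn
    have h6 := hanti hm
    linarith only [h1, h2, h3, h4, h5, h6]
  obtain ⟨τ, hτ⟩ := cauchySeq_tendsto_of_complete hcauchy
  refine ⟨τ, mem_closure_of_tendsto hτ (Eventually.of_forall haK), fun g => ?_⟩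
  have h1 : Tendsto (fun n => a n - T g (a n)) atTop (𝓝 (τ - T g τ)) :=
    hτ.sub (((T g).continuous.tendsto τ).comp hτ)
  have h2 : Tendsto (fun n => a n - T g (a n)) atTop (𝓝 0) := by
    refine squeeze_zero_norm (fun n => ?_) hlim0
    refine Real.le_sqrt_of_sq_le ?_
    rw [le_div_iff₀ hc]
    have h3 := hmid _ (haK n) _ (hinv g _ (haK n))
    have h4 := hdle _ (hmidK _ (haK n) _ (hinv g _ (haK n)))
    have h5 := hstep g _ (haK n)
    have h6 := ha n
    linarith only [h3, h4, h5, h6]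
  have h3 := tendsto_nhds_unique h1 h2
  exact (sub_eq_zero.1 h3).symm

end Vale.Agent.P082.VN
end

namespace Vale.Agent.P082

universe u

/-- The underlying normed algebra of a concrete von Neumann algebra. -/
abbrev Alg {H : Type u} [NormedAddCommGroup H] [InnerProductSpace ℂ H] [CompleteSpace H]
    (P : VonNeumannAlgebra H) : Type u := P.toStarSubalgebra

end Vale.Agent.P082
namespace AFastaa0231x907a
@[reducible] noncomputable def a0.{u1} {x1 : Type u1} [x2 : NormedAddCommGroup x1] [x3 : InnerProductSpace ℂ x1] [x4 : CompleteSpace x1] {x5 : VonNeumannAlgebra x1} : AddCommMonoid (Vale.Agent.P082.Alg x5) := inferInstance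
@[reducible] noncomputable def a1.{u1} {x1 : Type u1} [x2 : NormedAddCommGroup x1] [x3 : InnerProductSpace ℂ x1] [x4 : CompleteSpace x1] {x5 : VonNeumannAlgebra x1} : AddCommGroup (Vale.Agent.P082.Alg x5) := inferInstance
@[reducible] noncomputable def a2.{u1} {x1 : Type u1} [x2 : NormedAddCommGroup x1] [x3 : InnerProductSpace ℂ x1] [x4 : CompleteSpace x1] {x5 : VonNeumannAlgebra x1} : Ring (Vale.Agent.P082.Alg x5) := inferInstance
@[reducible] noncomputable def a3.{u1} {x1 : Type u1} [x2 : NormedAddCommGroup x1] [x3 : InnerProductSpace ℂ x1] [x4 : CompleteSpace x1] {x5 : VonNeumannAlgebra x1} : Distrib (Vale.Agent.P082.Alg x5) := inferInstance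
@[reducible] noncomputable def a4.{u1} {x1 : Type u1} [x2 : NormedAddCommGroup x1] [x3 : InnerProductSpace ℂ x1] [x4 : CompleteSpace x1] {x5 : VonNeumannAlgebra x1} : Mul (Vale.Agent.P082.Alg x5) := inferInstance
@[reducible] noncomputable def a5.{u1} {x1 : Type u1} [x2 : NormedAddCommGroup x1] [x3 : InnerProductSpace ℂ x1] [x4 : CompleteSpace x1] {x5 : VonNeumannAlgebra x1} : Semiring (Vale.Agent.P082.Alg x5) := inferInstance
@[reducible] noncomputable def a6.{u1} {x1 : Type u1} [x2 : NormedAddCommGroup x1] [x3 : InnerProductSpace ℂ x1] [x4 : CompleteSpace x1] {x5 : VonNeumannAlgebra x1} : TopologicalSpace (Vale.Agent.P082.Alg x5) := inferInstance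
@[reducible] noncomputable def a7.{u1} {x1 : Type u1} [x2 : NormedAddCommGroup x1] [x3 : InnerProductSpace ℂ x1] [x4 : CompleteSpace x1] {x5 : VonNeumannAlgebra x1} : NormedRing (Vale.Agent.P082.Alg x5) := inferInstance
@[reducible] noncomputable def a8.{u1} {x1 : Type u1} [x2 : NormedAddCommGroup x1] [x3 : InnerProductSpace ℂ x1] [x4 : CompleteSpace x1] {x5 : VonNeumannAlgebra x1} : Zero (Vale.Agent.P082.Alg x5) := inferInstance
@[reducible] noncomputable def a9.{u1} {x1 : Type u1} [x2 : NormedAddCommGroup x1] [x3 : InnerProductSpace ℂ x1] [x4 : CompleteSpace x1] {x5 : VonNeumannAlgebra x1} : AddMonoid (Vale.Agent.P082.Alg x5) := inferInstance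
@[reducible] noncomputable def a10.{u1} {x1 : Type u1} [x2 : NormedAddCommGroup x1] [x3 : InnerProductSpace ℂ x1] [x4 : CompleteSpace x1] {x5 : VonNeumannAlgebra x1} : UniformSpace (Vale.Agent.P082.Alg x5) := inferInstance
end AFastaa0231x907a
attribute [local instance] AFastaa0231x907a.a0 AFastaa0231x907a.a1 AFastaa0231x907a.a2
  AFastaa0231x907a.a3 AFastaa0231x907a.a4 AFastaa0231x907a.a5 AFastaa0231x907a.a6
  AFastaa0231x907a.a7 AFastaa0231x907a.a8 AFastaa0231x907a.a9 AFastaa0231x907a.a10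
namespace AFastaa0231x907b
@[reducible] noncomputable def a0.{u1} {x1 : Type u1} [x2 : NormedAddCommGroup x1] [x3 : InnerProductSpace ℂ x1] [x4 : CompleteSpace x1] {x5 : VonNeumannAlgebra x1} : MulAction ℂ (Vale.Agent.P082.Alg x5) := inferInstance
@[reducible] noncomputable def a1.{u1} {x1 : Type u1} [x2 : NormedAddCommGroup x1] [x3 : InnerProductSpace ℂ x1] [x4 : CompleteSpace x1] {x5 : VonNeumannAlgebra x1} : SeminormedAddCommGroup (Vale.Agent.P082.Alg x5) := inferInstance
@[reducible] noncomputable def a2.{u1} {x1 : Type u1} [x2 : NormedAddCommGroup x1] [x3 : InnerProductSpace ℂ x1] [x4 : CompleteSpace x1] {x5 : VonNeumannAlgebra x1} : NonUnitalSeminormedRing (Vale.Agent.P082.Alg x5) := inferInstance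
@[reducible] noncomputable def a3.{u1} {x1 : Type u1} [x2 : NormedAddCommGroup x1] [x3 : InnerProductSpace ℂ x1] [x4 : CompleteSpace x1] {x5 : VonNeumannAlgebra x1} : SemigroupAction ℂ (Vale.Agent.P082.Alg x5) := inferInstance
@[reducible] noncomputable def a4.{u1} {x1 : Type u1} [x2 : NormedAddCommGroup x1] [x3 : InnerProductSpace ℂ x1] [x4 : CompleteSpace x1] {x5 : VonNeumannAlgebra x1} : NonUnitalNormedRing (Vale.Agent.P082.Alg x5) := inferInstance
@[reducible] noncomputable def a5.{u1} {x1 : Type u1} [x2 : NormedAddCommGroup x1] [x3 : InnerProductSpace ℂ x1] [x4 : CompleteSpace x1] {x5 : VonNeumannAlgebra x1} : NormedAddCommGroup (Vale.Agent.P082.Alg x5) := inferInstance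
@[reducible] noncomputable def a6.{u1} {x1 : Type u1} [x2 : NormedAddCommGroup x1] [x3 : InnerProductSpace ℂ x1] [x4 : CompleteSpace x1] {x5 : VonNeumannAlgebra x1} : NormedAlgebra ℂ (Vale.Agent.P082.Alg x5) := inferInstance
end AFastaa0231x907b
attribute [local instance] AFastaa0231x907b.a0 AFastaa0231x907b.a1 AFastaa0231x907b.a2
  AFastaa0231x907b.a3 AFastaa0231x907b.a4 AFastaa0231x907b.a5 AFastaa0231x907b.a6

namespace Vale.Agent.P082.AlgFast

/-! Shortcuts for the instances of Mathlib (the instance search is slow on subalgebras). They are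
only local instances in the files with the proofs. -/

universe u

variable {H : Type u} [NormedAddCommGroup H] [InnerProductSpace ℂ H] [CompleteSpace H]
  (P : VonNeumannAlgebra H)

@[instance_reducible, local instance] noncomputable def nr : NormedRing (Alg P) := inferInstance
@[instance_reducible, local instance] noncomputable def na : NormedAlgebra ℂ (Alg P) := inferInstance
@[instance_reducible, local instance] noncomputable def sr : SeminormedRing (Alg P) := NormedRing.toSeminormedRing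
@[instance_reducible, local instance] noncomputable def ng : NormedAddCommGroup (Alg P) :=
  NonUnitalNormedRing.toNormedAddCommGroup
@[instance_reducible, local instance] noncomputable def sg : SeminormedAddCommGroup (Alg P) :=
  NormedAddCommGroup.toSeminormedAddCommGroup
@[instance_reducible, local instance] noncomputable def ns : NormedSpace ℂ (Alg P) :=
  NormedAlgebra.toNormedSpace _
@[instance_reducible, local instance] noncomputable def ri : Ring (Alg P) := NormedRing.toRing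
@[instance_reducible, local instance] noncomputable def ag : AddCommGroup (Alg P) :=
  SeminormedAddCommGroup.toAddCommGroup
@[instance_reducible, local instance] noncomputable def am : AddCommMonoid (Alg P) := AddCommGroup.toAddCommMonoid
@[instance_reducible, local instance] noncomputable def mo : Module ℂ (Alg P) := NormedSpace.toModule
@[instance_reducible, local instance] noncomputable def pm : PseudoMetricSpace (Alg P) :=
  SeminormedAddCommGroup.toPseudoMetricSpace
@[instance_reducible, local instance] noncomputable def us : UniformSpace (Alg P) :=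
  PseudoMetricSpace.toUniformSpace
@[instance_reducible, local instance] noncomputable def ts : TopologicalSpace (Alg P) :=
  UniformSpace.toTopologicalSpace


@[instance_reducible, local instance] noncomputable def ets : TopologicalSpace (Alg P →L[ℂ] Alg P) := inferInstance
@[instance_reducible, local instance] noncomputable def eng : NormedAddCommGroup (Alg P →L[ℂ] Alg P) := inferInstance
@[instance_reducible, local instance] noncomputable def esg : SeminormedAddCommGroup (Alg P →L[ℂ] Alg P) := inferInstance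
@[instance_reducible, local instance] noncomputable def ens : NormedSpace ℂ (Alg P →L[ℂ] Alg P) := inferInstance
@[instance_reducible, local instance] noncomputable def eam : AddCommMonoid (Alg P →L[ℂ] Alg P) := inferInstance
@[instance_reducible, local instance] noncomputable def emo : Module ℂ (Alg P →L[ℂ] Alg P) := inferInstance


@[instance_reducible, local instance] noncomputable def nu : NonUnitalSeminormedRing (Alg P) :=
  SeminormedRing.toNonUnitalSeminormedRing
@[instance_reducible, local instance] noncomputable def sag : SeminormedAddGroup (Alg P) :=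
  SeminormedAddCommGroup.toSeminormedAddGroup
@[instance_reducible, local instance] noncomputable def agr : AddGroup (Alg P) := AddCommGroup.toAddGroup
@[instance_reducible, local instance] noncomputable def mon : Monoid (Alg P) := inferInstance
@[instance_reducible, local instance] noncomputable def srg : StarRing (Alg P) := inferInstance

end Vale.Agent.P082.AlgFast
namespace AFastaa0231x957b
@[reducible] noncomputable def a0.{u1} {x1 : Type u1} [x2 : NormedAddCommGroup x1] [x3 : InnerProductSpace ℂ x1] [x4 : CompleteSpace x1] {x5 : VonNeumannAlgebra x1} : Module ℂ (Vale.Agent.P082.Alg x5 →L[ℂ] Vale.Agent.P082.Alg x5) := inferInstance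
theorem a1.{u1} {x1 : Type u1} [x2 : NormedAddCommGroup x1] [x3 : InnerProductSpace ℂ x1] [x4 : CompleteSpace x1] {x5 : VonNeumannAlgebra x1} : SMulCommClass ℂ ℂ (Vale.Agent.P082.Alg x5) := inferInstance
@[reducible] noncomputable def a2.{u1} {x1 : Type u1} [x2 : NormedAddCommGroup x1] [x3 : InnerProductSpace ℂ x1] [x4 : CompleteSpace x1] {x5 : VonNeumannAlgebra x1} : Module ℂ (Vale.Agent.P082.Alg x5) := inferInstance
theorem a3.{u1} {x1 : Type u1} [x2 : NormedAddCommGroup x1] [x3 : InnerProductSpace ℂ x1] [x4 : CompleteSpace x1] {x5 : VonNeumannAlgebra x1} : ContinuousConstSMul ℂ (Vale.Agent.P082.Alg x5) := inferInstance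
theorem a4.{u1} {x1 : Type u1} [x2 : NormedAddCommGroup x1] [x3 : InnerProductSpace ℂ x1] [x4 : CompleteSpace x1] {x5 : VonNeumannAlgebra x1} : UniformContinuousConstSMul ℂ (Vale.Agent.P082.Alg x5) := inferInstance
theorem a5.{u1} {x1 : Type u1} [x2 : NormedAddCommGroup x1] [x3 : InnerProductSpace ℂ x1] [x4 : CompleteSpace x1] {x5 : VonNeumannAlgebra x1} : IsBoundedSMul ℂ (Vale.Agent.P082.Alg x5) := inferInstance
@[reducible] noncomputable def a6.{u1} {x1 : Type u1} [x2 : NormedAddCommGroup x1] [x3 : InnerProductSpace ℂ x1] [x4 : CompleteSpace x1] {x5 : VonNeumannAlgebra x1} : SMulZeroClass ℂ (Vale.Agent.P082.Alg x5) := inferInstance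
@[reducible] noncomputable def a7.{u1} {x1 : Type u1} [x2 : NormedAddCommGroup x1] [x3 : InnerProductSpace ℂ x1] [x4 : CompleteSpace x1] {x5 : VonNeumannAlgebra x1} : DistribSMul ℂ (Vale.Agent.P082.Alg x5) := inferInstance
@[reducible] noncomputable def a8.{u1} {x1 : Type u1} [x2 : NormedAddCommGroup x1] [x3 : InnerProductSpace ℂ x1] [x4 : CompleteSpace x1] {x5 : VonNeumannAlgebra x1} : DistribMulAction ℂ (Vale.Agent.P082.Alg x5) := inferInstance
@[reducible] noncomputable def a9.{u1} {x1 : Type u1} [x2 : NormedAddCommGroup x1] [x3 : InnerProductSpace ℂ x1] [x4 : CompleteSpace x1] {x5 : VonNeumannAlgebra x1} : NormedSpace ℂ (Vale.Agent.P082.Alg x5) := inferInstance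
@[reducible] noncomputable def a10.{u1} {x1 : Type u1} [x2 : NormedAddCommGroup x1] [x3 : InnerProductSpace ℂ x1] [x4 : CompleteSpace x1] {x5 : VonNeumannAlgebra x1} : Norm (Vale.Agent.P082.Alg x5 →L[ℂ] Vale.Agent.P082.Alg x5) := inferInstance
@[reducible] noncomputable def a11.{u1} {x1 : Type u1} [x2 : NormedAddCommGroup x1] [x3 : InnerProductSpace ℂ x1] [x4 : CompleteSpace x1] {x5 : VonNeumannAlgebra x1} : TopologicalSpace (Vale.Agent.P082.Alg x5 →L[ℂ] Vale.Agent.P082.Alg x5) := inferInstance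
@[reducible] noncomputable def a12.{u1} {x1 : Type u1} [x2 : NormedAddCommGroup x1] [x3 : InnerProductSpace ℂ x1] [x4 : CompleteSpace x1] {x5 : VonNeumannAlgebra x1} : AddCommMonoid (Vale.Agent.P082.Alg x5 →L[ℂ] Vale.Agent.P082.Alg x5) := inferInstance
@[reducible] noncomputable def a13.{u1} {x1 : Type u1} [x2 : NormedAddCommGroup x1] [x3 : InnerProductSpace ℂ x1] [x4 : CompleteSpace x1] {x5 : VonNeumannAlgebra x1} : SMul ℂ (Vale.Agent.P082.Alg x5 →L[ℂ] Vale.Agent.P082.Alg x5) := inferInstance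
@[reducible] noncomputable def a14.{u1} {x1 : Type u1} [x2 : NormedAddCommGroup x1] [x3 : InnerProductSpace ℂ x1] [x4 : CompleteSpace x1] {x5 : VonNeumannAlgebra x1} : SeminormedAddCommGroup (Vale.Agent.P082.Alg x5 →L[ℂ] Vale.Agent.P082.Alg x5) := inferInstance
@[reducible] noncomputable def a15.{u1} {x1 : Type u1} [x2 : NormedAddCommGroup x1] [x3 : InnerProductSpace ℂ x1] [x4 : CompleteSpace x1] {x5 : VonNeumannAlgebra x1} : SeminormedAddGroup (Vale.Agent.P082.Alg x5 →L[ℂ] Vale.Agent.P082.Alg x5) := inferInstance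
theorem a16.{u1} {x1 : Type u1} [x2 : NormedAddCommGroup x1] [x3 : InnerProductSpace ℂ x1] [x4 : CompleteSpace x1] {x5 : VonNeumannAlgebra x1} : ContinuousAdd (Vale.Agent.P082.Alg x5) := inferInstance
theorem a17.{u1} {x1 : Type u1} [x2 : NormedAddCommGroup x1] [x3 : InnerProductSpace ℂ x1] [x4 : CompleteSpace x1] {x5 : VonNeumannAlgebra x1} : IsTopologicalAddGroup (Vale.Agent.P082.Alg x5) := inferInstance
theorem a18.{u1} {x1 : Type u1} [x2 : NormedAddCommGroup x1] [x3 : InnerProductSpace ℂ x1] [x4 : CompleteSpace x1] {x5 : VonNeumannAlgebra x1} : IsSemitopologicalRing (Vale.Agent.P082.Alg x5) := inferInstance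
theorem a19.{u1} {x1 : Type u1} [x2 : NormedAddCommGroup x1] [x3 : InnerProductSpace ℂ x1] [x4 : CompleteSpace x1] {x5 : VonNeumannAlgebra x1} : IsTopologicalRing (Vale.Agent.P082.Alg x5) := inferInstance
theorem a20.{u1} {x1 : Type u1} [x2 : NormedAddCommGroup x1] [x3 : InnerProductSpace ℂ x1] [x4 : CompleteSpace x1] {x5 : VonNeumannAlgebra x1} : IsSemitopologicalSemiring (Vale.Agent.P082.Alg x5) := inferInstance
end AFastaa0231x957b
attribute [local instance] AFastaa0231x957b.a0 AFastaa0231x957b.a1 AFastaa0231x957b.a2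
  AFastaa0231x957b.a3 AFastaa0231x957b.a4 AFastaa0231x957b.a5 AFastaa0231x957b.a6
  AFastaa0231x957b.a7 AFastaa0231x957b.a8 AFastaa0231x957b.a9 AFastaa0231x957b.a10
  AFastaa0231x957b.a11 AFastaa0231x957b.a12 AFastaa0231x957b.a13 AFastaa0231x957b.a14
  AFastaa0231x957b.a15 AFastaa0231x957b.a16 AFastaa0231x957b.a17 AFastaa0231x957b.a18
  AFastaa0231x957b.a19 AFastaa0231x957b.a20

section
attribute [local instance] Vale.Agent.P082.AlgFast.nr Vale.Agent.P082.AlgFast.na
  Vale.Agent.P082.AlgFast.sr Vale.Agent.P082.AlgFast.ng Vale.Agent.P082.AlgFast.sg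
  Vale.Agent.P082.AlgFast.ns Vale.Agent.P082.AlgFast.ri Vale.Agent.P082.AlgFast.ag
  Vale.Agent.P082.AlgFast.am Vale.Agent.P082.AlgFast.mo Vale.Agent.P082.AlgFast.pm
  Vale.Agent.P082.AlgFast.us Vale.Agent.P082.AlgFast.ts Vale.Agent.P082.AlgFast.ets
  Vale.Agent.P082.AlgFast.eng Vale.Agent.P082.AlgFast.esg Vale.Agent.P082.AlgFast.ens
  Vale.Agent.P082.AlgFast.eam Vale.Agent.P082.AlgFast.emo Vale.Agent.P082.AlgFast.nu
  Vale.Agent.P082.AlgFast.sag Vale.Agent.P082.AlgFast.agr Vale.Agent.P082.AlgFast.mon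
  Vale.Agent.P082.AlgFast.srg

open scoped InnerProductSpace

namespace Vale.Agent.P082

universe u

variable {H : Type u} [NormedAddCommGroup H] [InnerProductSpace ℂ H] [CompleteSpace H]

/-- The vector functional `x ↦ ⟪β, x α⟫` on `P`. -/
noncomputable def vecFun (P : VonNeumannAlgebra H) (α β : H) : Alg P →L[ℂ] ℂ :=
  (innerSL ℂ β).comp ((ContinuousLinearMap.apply ℂ H α).comp
    (P.toStarSubalgebra.toSubalgebra.toSubmodule.subtypeL))

@[simp] lemma vecFun_apply (P : VonNeumannAlgebra H) (α β : H) (x : Alg P) :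
    vecFun P α β x = ⟪β, (x : H →L[ℂ] H) α⟫_ℂ := rfl

/-- Left translate `θ(x ·)` of a functional. -/
noncomputable def lTr (P : VonNeumannAlgebra H) (θ : Alg P →L[ℂ] ℂ) (x : Alg P) :
    Alg P →L[ℂ] ℂ := θ.comp (ContinuousLinearMap.mul ℂ (Alg P) x)

@[simp] lemma lTr_apply (P : VonNeumannAlgebra H) (θ : Alg P →L[ℂ] ℂ) (x y : Alg P) :
    lTr P θ x y = θ (x * y) := rfl

end Vale.Agent.P082
end

section
attribute [local instance] Vale.Agent.P082.AlgFast.nr Vale.Agent.P082.AlgFast.na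
  Vale.Agent.P082.AlgFast.sr Vale.Agent.P082.AlgFast.ng Vale.Agent.P082.AlgFast.sg
  Vale.Agent.P082.AlgFast.ns Vale.Agent.P082.AlgFast.ri Vale.Agent.P082.AlgFast.ag
  Vale.Agent.P082.AlgFast.am Vale.Agent.P082.AlgFast.mo Vale.Agent.P082.AlgFast.pm
  Vale.Agent.P082.AlgFast.us Vale.Agent.P082.AlgFast.ts Vale.Agent.P082.AlgFast.ets
  Vale.Agent.P082.AlgFast.eng Vale.Agent.P082.AlgFast.esg Vale.Agent.P082.AlgFast.ens
  Vale.Agent.P082.AlgFast.eam Vale.Agent.P082.AlgFast.emo Vale.Agent.P082.AlgFast.nu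
  Vale.Agent.P082.AlgFast.sag Vale.Agent.P082.AlgFast.agr Vale.Agent.P082.AlgFast.mon
  Vale.Agent.P082.AlgFast.srg

open scoped InnerProductSpace ComplexConjugate

namespace Vale.Agent.P082

universe u

variable {H : Type u} [NormedAddCommGroup H] [InnerProductSpace ℂ H] [CompleteSpace H]

lemma ext_inner_op {S T : H →L[ℂ] H} (h : ∀ β α : H, ⟪β, S α⟫_ℂ = ⟪β, T α⟫_ℂ) : S = T := by
  ext α
  exact ext_inner_left ℂ (fun β => h β α)

lemma alg_ext (P : VonNeumannAlgebra H) {S T : Alg P}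
    (h : ∀ β α : H, ⟪β, (S : H →L[ℂ] H) α⟫_ℂ = ⟪β, (T : H →L[ℂ] H) α⟫_ℂ) : S = T :=
  Subtype.ext (ext_inner_op h)

lemma mem_of_commutes (P : VonNeumannAlgebra H) (T : H →L[ℂ] H)
    (h : ∀ S : H →L[ℂ] H, (∀ x ∈ P, S * x = x * S) → S * T = T * S) : T ∈ P := by
  have h1 : T ∈ Set.centralizer (Set.centralizer (P : Set (H →L[ℂ] H))) := by
    rw [Set.mem_centralizer_iff]
    intro S hS
    rw [Set.mem_centralizer_iff] at hS
    exact h S (fun x hx => (hS x hx).symm)
  rw [VonNeumannAlgebra.centralizer_centralizer] at h1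
  exact h1

theorem exists_oper (P : VonNeumannAlgebra H) (C : ℝ)
    (Λ : H → H → ℂ)
    (add1 : ∀ β β' α, Λ (β + β') α = Λ β α + Λ β' α)
    (smul1 : ∀ (c : ℂ) β α, Λ (c • β) α = conj c * Λ β α)
    (add3 : ∀ β α α', Λ β (α + α') = Λ β α + Λ β α')
    (smul3 : ∀ (c : ℂ) β α, Λ β (c • α) = c * Λ β α)
    (bd : ∀ β α, ‖Λ β α‖ ≤ C * ‖β‖ * ‖α‖)
    (comm : ∀ (S : H →L[ℂ] H), (∀ x ∈ P, S * x = x * S) →
      ∀ β α, Λ β (S α) = Λ (ContinuousLinearMap.adjoint S β) α) :
    ∃ T : Alg P, ∀ β α, ⟪β, (T : H →L[ℂ] H) α⟫_ℂ = Λ β α := by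
  let B : H →L⋆[ℂ] H →L[ℂ] ℂ :=
    LinearMap.mkContinuous₂ (LinearMap.mk₂'ₛₗ (starRingEnd ℂ) (RingHom.id ℂ) Λ
      add1 (fun c β α => by simpa using smul1 c β α) add3
      (fun c β α => by simpa using smul3 c β α)) C (fun β α => bd β α)
  have hB : ∀ β α, ⟪β, ContinuousLinearMap.adjoint
      (InnerProductSpace.continuousLinearMapOfBilin B) α⟫_ℂ = Λ β α := by
    intro β α
    rw [ContinuousLinearMap.adjoint_inner_right]
    exact InnerProductSpace.continuousLinearMapOfBilin_apply B β α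
  refine ⟨⟨ContinuousLinearMap.adjoint (InnerProductSpace.continuousLinearMapOfBilin B),
    mem_of_commutes P _ (fun S hS => ?_)⟩, hB⟩
  apply ext_inner_op
  intro β α
  simp only [ContinuousLinearMap.mul_apply]
  rw [hB, comm S hS, ← hB, ContinuousLinearMap.adjoint_inner_left]

theorem exists_avg (P : VonNeumannAlgebra H) (C : ℝ)
    (Λ : H → (Alg P →L[ℂ] Alg P) → H → ℂ)
    (add1 : ∀ β β' φ α, Λ (β + β') φ α = Λ β φ α + Λ β' φ α)
    (smul1 : ∀ (c : ℂ) β φ α, Λ (c • β) φ α = conj c * Λ β φ α)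
    (add2 : ∀ β φ φ' α, Λ β (φ + φ') α = Λ β φ α + Λ β φ' α)
    (smul2 : ∀ (c : ℂ) β φ α, Λ β (c • φ) α = c * Λ β φ α)
    (add3 : ∀ β φ α α', Λ β φ (α + α') = Λ β φ α + Λ β φ α')
    (smul3 : ∀ (c : ℂ) β φ α, Λ β φ (c • α) = c * Λ β φ α)
    (bd : ∀ β φ α, ‖Λ β φ α‖ ≤ C * ‖β‖ * ‖φ‖ * ‖α‖)
    (comm : ∀ (S : H →L[ℂ] H), (∀ x ∈ P, S * x = x * S) →
      ∀ β φ α, Λ β φ (S α) = Λ (ContinuousLinearMap.adjoint S β) φ α) :
    ∃ a : (Alg P →L[ℂ] Alg P) →L[ℂ] Alg P,
      ∀ β φ α, ⟪β, (a φ : H →L[ℂ] H) α⟫_ℂ = Λ β φ α := by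
  have key : ∀ φ : Alg P →L[ℂ] Alg P, ∃ T : Alg P,
      ∀ β α, ⟪β, (T : H →L[ℂ] H) α⟫_ℂ = Λ β φ α := by
    intro φ
    refine exists_oper P (C * ‖φ‖) (fun β α => Λ β φ α) (fun β β' α => add1 β β' φ α)
      (fun c β α => smul1 c β φ α) (fun β α α' => add3 β φ α α')
      (fun c β α => smul3 c β φ α) (fun β α => ?_) (fun S hS β α => comm S hS β φ α)
    refine (bd β φ α).trans (le_of_eq ?_)
    ring
  choose T hT using key
  have hTb : ∀ φ, ‖T φ‖ ≤ |C| * ‖φ‖ := by
    intro φ
    have : ‖(T φ : H →L[ℂ] H)‖ ≤ |C| * ‖φ‖ := by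
      refine ContinuousLinearMap.opNorm_le_bound _ (by (clear * -; positivity)) (fun α => ?_)
      by_cases h0 : ‖(T φ : H →L[ℂ] H) α‖ = 0
      · rw [h0]; (clear * -; positivity)
      · have h0' : 0 < ‖(T φ : H →L[ℂ] H) α‖ := lt_of_le_of_ne (norm_nonneg _) (Ne.symm h0)
        have h1 : ‖(T φ : H →L[ℂ] H) α‖ * ‖(T φ : H →L[ℂ] H) α‖
            ≤ (|C| * ‖φ‖ * ‖α‖) * ‖(T φ : H →L[ℂ] H) α‖ := by
          have h2 := hT φ ((T φ : H →L[ℂ] H) α) α
          have h3 : ‖⟪(T φ : H →L[ℂ] H) α, (T φ : H →L[ℂ] H) α⟫_ℂ‖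
              = ‖(T φ : H →L[ℂ] H) α‖ * ‖(T φ : H →L[ℂ] H) α‖ := by
            rw [inner_self_eq_norm_sq_to_K]
            simp [sq]
          rw [← h3, h2]
          refine (bd _ _ _).trans ?_
          have : C * ‖(T φ : H →L[ℂ] H) α‖ * ‖φ‖ * ‖α‖
              ≤ |C| * ‖(T φ : H →L[ℂ] H) α‖ * ‖φ‖ * ‖α‖ := by
            gcongr
            exact le_abs_self C
          refine this.trans (le_of_eq (by ring))
        exact le_of_mul_le_mul_right h1 h0'
    exact this
  refine ⟨LinearMap.mkContinuous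
    { toFun := T
      map_add' := fun φ ψ => alg_ext P (fun β α => ?_)
      map_smul' := fun c φ => alg_ext P (fun β α => ?_) } |C| hTb, fun β φ α => hT φ β α⟩
  · rw [hT, add2, ← hT, ← hT]
    simp [inner_add_right]
  · rw [hT, smul2, ← hT]
    simp [inner_smul_right]

end Vale.Agent.P082
end

section
attribute [local instance] Vale.Agent.P082.AlgFast.nr Vale.Agent.P082.AlgFast.na
  Vale.Agent.P082.AlgFast.sr Vale.Agent.P082.AlgFast.ng Vale.Agent.P082.AlgFast.sg
  Vale.Agent.P082.AlgFast.ns Vale.Agent.P082.AlgFast.ri Vale.Agent.P082.AlgFast.ag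
  Vale.Agent.P082.AlgFast.am Vale.Agent.P082.AlgFast.mo Vale.Agent.P082.AlgFast.pm
  Vale.Agent.P082.AlgFast.us Vale.Agent.P082.AlgFast.ts Vale.Agent.P082.AlgFast.ets
  Vale.Agent.P082.AlgFast.eng Vale.Agent.P082.AlgFast.esg Vale.Agent.P082.AlgFast.ens
  Vale.Agent.P082.AlgFast.eam Vale.Agent.P082.AlgFast.emo Vale.Agent.P082.AlgFast.nu
  Vale.Agent.P082.AlgFast.sag Vale.Agent.P082.AlgFast.agr Vale.Agent.P082.AlgFast.mon
  Vale.Agent.P082.AlgFast.srg

namespace Vale.Agent.P082

variable {A : Type*} [Ring A]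

/-- append a last variable -/
def app {k : ℕ} (x : Fin k → A) (b : A) : Fin (k + 1) → A := Fin.snoc (α := fun _ => A) x b

@[simp] lemma app_castSucc {k : ℕ} (x : Fin k → A) (b : A) (i : Fin k) :
    app x b i.castSucc = x i := by simp [app]

@[simp] lemma app_last {k : ℕ} (x : Fin k → A) (b : A) : app x b (Fin.last k) = b := by
  simp [app]

/-- The differential without its last term. -/
def dpre {k : ℕ} (g : (Fin k → A) → A) (a : Fin (k + 1) → A) : A :=
  a 0 * g (fun i => a i.succ) + ∑ j : Fin k, (-1) ^ ((j : ℕ) + 1) * g (contract j a)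

lemma app_init {k : ℕ} (a : Fin (k + 1) → A) : app (fun i => a i.castSucc) (a (Fin.last k)) = a := by
  funext i
  refine Fin.lastCases ?_ (fun i => ?_) i <;> simp

lemma contract_castSucc_app {k : ℕ} (j : Fin k) (x : Fin (k + 1) → A) (b : A) :
    contract j.castSucc (app x b) = app (contract j x) b := by
  funext i
  refine Fin.lastCases ?_ (fun i => ?_) i
  · have h1 : ¬ (Fin.last k < j.castSucc) := not_lt.mpr (Fin.le_last _)
    have h2 : ¬ (Fin.last k = j.castSucc) := (Fin.castSucc_lt_last j).ne'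
    simp only [contract, h1, h2, if_false, app_last]
    rw [Fin.succ_last, app_last]
  · simp only [contract, app_castSucc, Fin.castSucc_lt_castSucc_iff, Fin.castSucc_inj]
    split_ifs
    · rfl
    · rw [Fin.succ_castSucc, app_castSucc]
    · rw [Fin.succ_castSucc, app_castSucc]

lemma contract_last_app {k : ℕ} (x : Fin (k + 1) → A) (b : A) :
    contract (Fin.last k) (app x b) = app (fun i => x i.castSucc) (x (Fin.last k) * b) := by
  funext i
  refine Fin.lastCases ?_ (fun i => ?_) i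
  · simp only [contract, lt_irrefl, if_false, if_true, app_last, app_castSucc]
    rw [Fin.succ_last, app_last]
  · have h1 : i.castSucc < Fin.last k := Fin.castSucc_lt_last i
    simp only [contract, h1, if_true, app_castSucc]

lemma tail_app {k : ℕ} (x : Fin (k + 1) → A) (b : A) :
    (fun i : Fin (k + 1) => app x b i.succ) = app (fun i => x i.succ) b := by
  funext i
  refine Fin.lastCases ?_ (fun i => ?_) i
  · rw [Fin.succ_last, app_last, app_last]
  · rw [Fin.succ_castSucc, app_castSucc, app_castSucc]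

/-- The key splitting of the differential of `f` with respect to the last variable. -/
lemma hochschild_app {k : ℕ} (f : (Fin (k + 1) → A) → A) (x : Fin (k + 1) → A) (b : A) :
    hochschild f (app x b) = dpre (fun y => f (app y b)) x
      + (-1) ^ (k + 1) * f (app (fun i => x i.castSucc) (x (Fin.last k) * b))
      + (-1) ^ (k + 2) * (f x * b) := by
  unfold hochschild dpre
  rw [Fin.sum_univ_castSucc, tail_app]
  simp only [contract_castSucc_app, contract_last_app, app_last, app_castSucc]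
  have h0 : app x b 0 = x 0 := by
    have := app_castSucc x b 0
    simpa using this
  rw [h0]
  simp only [Fin.val_castSucc, Fin.val_last]
  rw [← add_assoc]

end Vale.Agent.P082
end

section
attribute [local instance] Vale.Agent.P082.AlgFast.nr Vale.Agent.P082.AlgFast.na
  Vale.Agent.P082.AlgFast.sr Vale.Agent.P082.AlgFast.ng Vale.Agent.P082.AlgFast.sg
  Vale.Agent.P082.AlgFast.ns Vale.Agent.P082.AlgFast.ri Vale.Agent.P082.AlgFast.ag
  Vale.Agent.P082.AlgFast.am Vale.Agent.P082.AlgFast.mo Vale.Agent.P082.AlgFast.pm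
  Vale.Agent.P082.AlgFast.us Vale.Agent.P082.AlgFast.ts Vale.Agent.P082.AlgFast.ets
  Vale.Agent.P082.AlgFast.eng Vale.Agent.P082.AlgFast.esg Vale.Agent.P082.AlgFast.ens
  Vale.Agent.P082.AlgFast.eam Vale.Agent.P082.AlgFast.emo Vale.Agent.P082.AlgFast.nu
  Vale.Agent.P082.AlgFast.sag Vale.Agent.P082.AlgFast.agr Vale.Agent.P082.AlgFast.mon
  Vale.Agent.P082.AlgFast.srg

namespace Vale.Agent.P082

variable {A : Type*} [NormedRing A] [NormedAlgebra ℂ A]

/-- left multiplication -/
noncomputable abbrev mulL (a : A) : A →L[ℂ] A := ContinuousLinearMap.mul ℂ A a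

/-- A left modular averaging functional on maps. -/
structure IsAvg (a : (A →L[ℂ] A) →L[ℂ] A) : Prop where
  left : ∀ (c : A) (φ : A →L[ℂ] A), a ((mulL c).comp φ) = c * a φ
  one : a (ContinuousLinearMap.id ℂ A) = 1

lemma IsAvg.mulL {a : (A →L[ℂ] A) →L[ℂ] A} (ha : IsAvg a) (c : A) : a (mulL c) = c := by
  have := ha.left c (ContinuousLinearMap.id ℂ A)
  rw [ContinuousLinearMap.comp_id, ha.one, mul_one] at this
  exact this

/-- `tw a φ b = a (φ (b ·)) - a φ * b` -/
noncomputable def tw (a : (A →L[ℂ] A) →L[ℂ] A) : (A →L[ℂ] A) →L[ℂ] (A →L[ℂ] A) :=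
  (ContinuousLinearMap.compL ℂ A (A →L[ℂ] A) A a).comp
    (((ContinuousLinearMap.compL ℂ A (A →L[ℂ] A) (A →L[ℂ] A)).flip
      (ContinuousLinearMap.mul ℂ A)).comp (ContinuousLinearMap.compL ℂ A A A))
  - (ContinuousLinearMap.mul ℂ A).comp a

lemma tw_apply (a : (A →L[ℂ] A) →L[ℂ] A) (φ : A →L[ℂ] A) (b : A) :
    tw a φ b = a (φ.comp (mulL b)) - a φ * b := by
  simp [tw]

lemma neg_one_pow_mul (n : ℕ) (y : A) : (-1 : A) ^ n * y = ((-1 : ℂ) ^ n) • y := by
  rcases Nat.even_or_odd n with h | h <;> simp [h.neg_one_pow]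

/-- the cocycle identity as an identity of bounded maps in the last variable -/
lemma cocycle_curry {k : ℕ} (f : ContinuousMultilinearMap ℂ (fun _ : Fin (k + 1) => A) A)
    (hf : ∀ a, hochschild (fun x => f x) a = 0) (x : Fin (k + 1) → A) :
    (mulL (x 0)).comp (f.curryRight (fun i => x i.succ))
      + ∑ j : Fin k, ((-1 : ℂ) ^ ((j : ℕ) + 1)) • f.curryRight (contract j x)
      + ((-1 : ℂ) ^ (k + 1)) • (f.curryRight (fun i => x i.castSucc)).comp (mulL (x (Fin.last k)))
      + ((-1 : ℂ) ^ (k + 2)) • mulL (f x) = 0 := by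
  ext b
  have h := hf (app x b)
  rw [hochschild_app] at h
  simp only [dpre, neg_one_pow_mul] at h
  simpa [ContinuousMultilinearMap.curryRight_apply, app, sum_apply] using h

/-- the cochain `g` -/
noncomputable def gav {k : ℕ} (a : (A →L[ℂ] A) →L[ℂ] A)
    (f : ContinuousMultilinearMap ℂ (fun _ : Fin (k + 1) => A) A) :
    ContinuousMultilinearMap ℂ (fun _ : Fin k => A) A :=
  a.compContinuousMultilinearMap f.curryRight

/-- the new cocycle `f₁` -/
noncomputable def fav {k : ℕ} (a : (A →L[ℂ] A) →L[ℂ] A)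
    (f : ContinuousMultilinearMap ℂ (fun _ : Fin (k + 1) => A) A) :
    ContinuousMultilinearMap ℂ (fun _ : Fin (k + 1) => A) A :=
  ContinuousMultilinearMap.uncurryRight (Ei := fun _ : Fin (k + 1) => A)
    ((tw a).compContinuousMultilinearMap f.curryRight)

lemma gav_apply {k : ℕ} (a : (A →L[ℂ] A) →L[ℂ] A)
    (f : ContinuousMultilinearMap ℂ (fun _ : Fin (k + 1) => A) A) (x : Fin k → A) :
    gav a f x = a (f.curryRight x) := rfl

lemma fav_app {k : ℕ} (a : (A →L[ℂ] A) →L[ℂ] A)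
    (f : ContinuousMultilinearMap ℂ (fun _ : Fin (k + 1) => A) A) (x : Fin k → A) (b : A) :
    fav a f (app x b) = a ((f.curryRight x).comp (mulL b)) - a (f.curryRight x) * b := by
  rw [← tw_apply]
  simp only [fav, ContinuousMultilinearMap.uncurryRight_apply,
    ContinuousLinearMap.compContinuousMultilinearMap_coe, Function.comp_apply]
  rw [app_last]
  congr 2
  congr 1
  funext i
  exact app_castSucc x b i

/-- apply an average to the cocycle identity -/
lemma cocycle_avg {k : ℕ} {a : (A →L[ℂ] A) →L[ℂ] A} (ha : IsAvg a)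
    (f : ContinuousMultilinearMap ℂ (fun _ : Fin (k + 1) => A) A)
    (hf : ∀ a, hochschild (fun x => f x) a = 0) (x : Fin (k + 1) → A) :
    x 0 * a (f.curryRight (fun i => x i.succ))
      + ∑ j : Fin k, ((-1 : ℂ) ^ ((j : ℕ) + 1)) • a (f.curryRight (contract j x))
      + ((-1 : ℂ) ^ (k + 1)) •
        a ((f.curryRight (fun i => x i.castSucc)).comp (mulL (x (Fin.last k))))
      + ((-1 : ℂ) ^ (k + 2)) • f x = 0 := by
  have h := congrArg a (cocycle_curry f hf x)
  simp only [map_add, map_sum, map_smul, map_zero, ha.left, ha.mulL] at h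
  exact h

/-- the cocycle identity composed with a left multiplication -/
lemma cocycle_avg_comp {k : ℕ} {a : (A →L[ℂ] A) →L[ℂ] A} (ha : IsAvg a)
    (f : ContinuousMultilinearMap ℂ (fun _ : Fin (k + 1) => A) A)
    (hf : ∀ a, hochschild (fun x => f x) a = 0) (x : Fin (k + 1) → A) (b : A) :
    x 0 * a ((f.curryRight (fun i => x i.succ)).comp (mulL b))
      + ∑ j : Fin k, ((-1 : ℂ) ^ ((j : ℕ) + 1)) • a ((f.curryRight (contract j x)).comp (mulL b))
      + ((-1 : ℂ) ^ (k + 1)) •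
        a ((f.curryRight (fun i => x i.castSucc)).comp (mulL (x (Fin.last k) * b)))
      + ((-1 : ℂ) ^ (k + 2)) • (f x * b) = 0 := by
  have h0 := congrArg (fun φ : A →L[ℂ] A => a (φ.comp (mulL b))) (cocycle_curry f hf x)
  have e1 : ∀ c d : A, (mulL c).comp (mulL d) = mulL (c * d) := by
    intro c d; ext y; simp [mul_assoc]
  simp only [ContinuousLinearMap.add_comp, ContinuousLinearMap.smul_comp,
    ContinuousLinearMap.zero_comp, map_add, map_smul, map_zero] at h0
  rw [ContinuousLinearMap.comp_assoc, ha.left, ContinuousLinearMap.comp_assoc, e1, e1,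
    ha.mulL] at h0
  have e2 : (∑ j : Fin k, ((-1 : ℂ) ^ ((j : ℕ) + 1)) • f.curryRight (contract j x)).comp (mulL b)
      = ∑ j : Fin k, ((-1 : ℂ) ^ ((j : ℕ) + 1)) • (f.curryRight (contract j x)).comp (mulL b) := by
    ext y
    simp
  rw [e2] at h0
  simp only [map_sum, map_smul] at h0
  exact h0

lemma hochschild_gav {k : ℕ} {a : (A →L[ℂ] A) →L[ℂ] A} (ha : IsAvg a)
    (f : ContinuousMultilinearMap ℂ (fun _ : Fin (k + 1) => A) A)
    (hf : ∀ a, hochschild (fun x => f x) a = 0) (x : Fin (k + 1) → A) :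
    f x = fav a f x + ((-1 : ℂ) ^ (k + 1)) • hochschild (fun y => gav a f y) x := by
  have h := cocycle_avg ha f hf x
  have hx : fav a f x = fav a f (app (fun i => x i.castSucc) (x (Fin.last k))) := by
    rw [app_init]
  rw [hx, fav_app]
  unfold hochschild
  simp only [gav_apply, neg_one_pow_mul]
  have hs : ((-1 : ℂ) ^ (k + 1)) * ((-1 : ℂ) ^ (k + 1)) = 1 := by
    rw [← pow_add, ← two_mul, pow_mul]; simp
  have hs2 : ((-1 : ℂ) ^ (k + 2)) = - ((-1 : ℂ) ^ (k + 1)) := by ring
  rw [hs2] at h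
  set s := ((-1 : ℂ) ^ (k + 1)) with hsdef
  have h2 := congrArg (fun y => s • y) h
  simp only [smul_add, smul_smul, smul_zero, smul_neg, hs, one_smul, neg_smul] at h2
  simp only [smul_add, smul_smul, hs, one_smul]
  rw [add_neg_eq_zero] at h2
  rw [← h2]
  abel

lemma fav_cocycle {k : ℕ} {a : (A →L[ℂ] A) →L[ℂ] A} (ha : IsAvg a)
    (f : ContinuousMultilinearMap ℂ (fun _ : Fin (k + 1) => A) A)
    (hf : ∀ a, hochschild (fun x => f x) a = 0) (y : Fin (k + 2) → A) :
    hochschild (fun x => fav a f x) y = 0 := by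
  obtain ⟨x, b, rfl⟩ : ∃ x b, y = app x b := ⟨_, _, (app_init y).symm⟩
  have h1 := cocycle_avg ha f hf x
  have h2 := cocycle_avg_comp ha f hf x b
  rw [hochschild_app]
  have hx : fav a f x = fav a f (app (fun i => x i.castSucc) (x (Fin.last k))) := by
    rw [app_init]
  rw [hx]
  unfold dpre
  simp only [fav_app, neg_one_pow_mul]
  have hs2 : ((-1 : ℂ) ^ (k + 2)) = - ((-1 : ℂ) ^ (k + 1)) := by ring
  rw [hs2] at h1 h2 ⊢
  set s := ((-1 : ℂ) ^ (k + 1)) with hsdef
  have h3 := congrArg (fun y => y * b) h1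
  simp only [add_mul, Finset.sum_mul, zero_mul, smul_mul_assoc] at h3
  have e3 : ∑ j : Fin k, ((-1 : ℂ) ^ ((j : ℕ) + 1)) •
      (a ((f.curryRight (contract j x)).comp (mulL b)) - a (f.curryRight (contract j x)) * b)
      = ∑ j : Fin k, ((-1 : ℂ) ^ ((j : ℕ) + 1)) •
          a ((f.curryRight (contract j x)).comp (mulL b))
        - ∑ j : Fin k, ((-1 : ℂ) ^ ((j : ℕ) + 1)) • (a (f.curryRight (contract j x)) * b) := by
    rw [← Finset.sum_sub_distrib]
    exact Finset.sum_congr rfl (fun j _ => smul_sub _ _ _)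
  rw [e3]
  have h4 := congrArg₂ (fun u v => u - v) h2 h3
  simp only [sub_zero] at h4
  simp only [smul_sub, sub_mul, mul_sub, neg_smul, mul_assoc] at h4 ⊢
  rw [← h4]
  abel

/-- `f` is a coboundary of a bounded cochain -/
def IsCob {k : ℕ} (f : ContinuousMultilinearMap ℂ (fun _ : Fin (k + 1) => A) A) : Prop :=
  ∃ g : ContinuousMultilinearMap ℂ (fun _ : Fin k => A) A,
        ∀ a, hochschild (fun x => g x) a = f a

lemma hochschild_add_smul {k : ℕ} (g h : ContinuousMultilinearMap ℂ (fun _ : Fin k => A) A)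
    (c : ℂ) (x : Fin (k + 1) → A) :
    hochschild (fun y => (h + c • g) y) x
      = hochschild (fun y => h y) x + c • hochschild (fun y => g y) x := by
  unfold hochschild
  simp only [add_apply, smul_apply,
    neg_one_pow_mul, mul_add, smul_add, Finset.sum_add_distrib, add_mul, mul_smul_comm,
    smul_mul_assoc, Finset.smul_sum, smul_smul, mul_comm c]
  abel

theorem isCob_of_fav {k : ℕ} {a : (A →L[ℂ] A) →L[ℂ] A} (ha : IsAvg a)
    (f : ContinuousMultilinearMap ℂ (fun _ : Fin (k + 1) => A) A)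
    (hf : ∀ a, hochschild (fun x => f x) a = 0) (h : IsCob (fav a f)) : IsCob f := by
  obtain ⟨g, hg⟩ := h
  refine ⟨g + ((-1 : ℂ) ^ (k + 1)) • gav a f, fun x => ?_⟩
  rw [hochschild_add_smul, hg, hochschild_gav ha f hf x]

/-- If `f` vanishes when the last variable is `b`, then `f` is right modular with respect to `b`
in the last variable. -/
lemma right_modular {k : ℕ} (f : ContinuousMultilinearMap ℂ (fun _ : Fin (k + 1) => A) A)
    (hf : ∀ a, hochschild (fun x => f x) a = 0) (b : A)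
    (hb : ∀ x : Fin k → A, f.curryRight x b = 0) (x : Fin k → A) (c : A) :
    f.curryRight x (c * b) = f.curryRight x c * b := by
  have h := congrArg (fun φ : A →L[ℂ] A => φ b) (cocycle_curry f hf (app x c))
  have e : (fun i : Fin k => app x c i.castSucc) = x := by
    funext i; exact app_castSucc x c i
  have hs2 : ((-1 : ℂ) ^ (k + 2)) = - ((-1 : ℂ) ^ (k + 1)) := by ring
  have e4 : f (app x c) = f.curryRight x c := rfl
  rw [hs2, e, e4] at h
  simp [hb, app_last, add_neg_eq_zero] at h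
  exact h

end Vale.Agent.P082
end

section
attribute [local instance] Vale.Agent.P082.AlgFast.nr Vale.Agent.P082.AlgFast.na
  Vale.Agent.P082.AlgFast.sr Vale.Agent.P082.AlgFast.ng Vale.Agent.P082.AlgFast.sg
  Vale.Agent.P082.AlgFast.ns Vale.Agent.P082.AlgFast.ri Vale.Agent.P082.AlgFast.ag
  Vale.Agent.P082.AlgFast.am Vale.Agent.P082.AlgFast.mo Vale.Agent.P082.AlgFast.pm
  Vale.Agent.P082.AlgFast.us Vale.Agent.P082.AlgFast.ts Vale.Agent.P082.AlgFast.ets
  Vale.Agent.P082.AlgFast.eng Vale.Agent.P082.AlgFast.esg Vale.Agent.P082.AlgFast.ens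
  Vale.Agent.P082.AlgFast.eam Vale.Agent.P082.AlgFast.emo Vale.Agent.P082.AlgFast.nu
  Vale.Agent.P082.AlgFast.sag Vale.Agent.P082.AlgFast.agr Vale.Agent.P082.AlgFast.mon
  Vale.Agent.P082.AlgFast.srg

open scoped InnerProductSpace ComplexConjugate

namespace Vale.Agent.P082

universe u

variable {H : Type u} [NormedAddCommGroup H] [InnerProductSpace ℂ H] [CompleteSpace H]

lemma norm_one_le_alg (P : VonNeumannAlgebra H) : ‖(1 : Alg P)‖ ≤ 1 :=
  ContinuousLinearMap.norm_id_le

lemma norm_star_mul_self_alg (P : VonNeumannAlgebra H) (u : Alg P) :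
    ‖star u * u‖ = ‖u‖ * ‖u‖ :=
  CStarRing.norm_star_mul_self (x := (u : H →L[ℂ] H))

lemma norm_star_alg (P : VonNeumannAlgebra H) (u : Alg P) : ‖star u‖ = ‖u‖ :=
  norm_star (u : H →L[ℂ] H)

lemma norm_le_one_of_star_mul_self (P : VonNeumannAlgebra H) {u : Alg P}
    (hu : star u * u = 1) : ‖u‖ ≤ 1 := by
  have h := norm_star_mul_self_alg P u
  rw [hu] at h
  have h1 := norm_one_le_alg P
  rw [h] at h1
  by_contra hc
  push Not at hc
  nlinarith only [h1, hc]

lemma norm_inner_apply_le (T : H →L[ℂ] H) (α β : H) : ‖⟪β, T α⟫_ℂ‖ ≤ ‖T‖ * ‖β‖ * ‖α‖ := by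
  refine (norm_inner_le_norm _ _).trans ?_
  have := T.le_opNorm α
  calc ‖β‖ * ‖T α‖ ≤ ‖β‖ * (‖T‖ * ‖α‖) := by gcongr
    _ = ‖T‖ * ‖β‖ * ‖α‖ := by ring

lemma norm_twist_le (P : VonNeumannAlgebra H) {u : Alg P} (hu : star u * u = 1)
    (φ : Alg P →L[ℂ] Alg P) : ‖φ (star u) * u‖ ≤ ‖φ‖ := by
  have h1 := norm_le_one_of_star_mul_self P hu
  have h2 : ‖star u‖ ≤ 1 := by rw [norm_star_alg]; exact h1
  calc ‖φ (star u) * u‖ ≤ ‖φ (star u)‖ * ‖u‖ := norm_mul_le _ _
    _ ≤ (‖φ‖ * 1) * 1 := by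
        gcongr
        exact (φ.le_opNorm _).trans (by gcongr)
    _ = ‖φ‖ := by ring

lemma bdd_twist (P : VonNeumannAlgebra H) {X : Type*} (u : X → Alg P)
    (hu : ∀ t, star (u t) * u t = 1) (φ : Alg P →L[ℂ] Alg P) (α β : H) :
    Bdd (fun t => ⟪β, ((φ (star (u t)) * u t : Alg P) : H →L[ℂ] H) α⟫_ℂ) := by
  refine ⟨‖φ‖ * ‖β‖ * ‖α‖, fun t => (norm_inner_apply_le _ _ _).trans ?_⟩
  have h : ‖((φ (star (u t)) * u t : Alg P) : H →L[ℂ] H)‖ ≤ ‖φ‖ := norm_twist_le P (hu t) φ
  gcongr

theorem exists_mean_avg (P : VonNeumannAlgebra H) {X : Type*} (m : Mean X) (u : X → Alg P)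
    (hu : ∀ t, star (u t) * u t = 1) :
    ∃ a : (Alg P →L[ℂ] Alg P) →L[ℂ] Alg P, IsAvg a ∧ ∀ β φ α,
      ⟪β, (a φ : H →L[ℂ] H) α⟫_ℂ
        = m (fun t => ⟪β, ((φ (star (u t)) * u t : Alg P) : H →L[ℂ] H) α⟫_ℂ) := by
  have hb := bdd_twist P u hu
  obtain ⟨a, ha⟩ := exists_avg P 1
    (fun β φ α => m (fun t => ⟪β, ((φ (star (u t)) * u t : Alg P) : H →L[ℂ] H) α⟫_ℂ))
    (fun β β' φ α => by
      rw [← m.add _ _ (hb φ α β) (hb φ α β')]
      congr 1; funext t; rw [inner_add_left])
    (fun c β φ α => by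
      rw [← m.const_mul _ _ (hb φ α β)]
      congr 1; funext t; rw [inner_smul_left])
    (fun β φ φ' α => by
      rw [← m.add _ _ (hb φ α β) (hb φ' α β)]
      congr 1; funext t; rw [← inner_add_right]
      have : (φ + φ') (star (u t)) * u t = φ (star (u t)) * u t + φ' (star (u t)) * u t := by
        simp [add_mul]
      rw [this]; rfl)
    (fun c β φ α => by
      rw [← m.const_mul _ _ (hb φ α β)]
      congr 1; funext t; rw [← inner_smul_right]
      have : (c • φ) (star (u t)) * u t = c • (φ (star (u t)) * u t) := by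
        simp
      rw [this]; rfl)
    (fun β φ α α' => by
      rw [← m.add _ _ (hb φ α β) (hb φ α' β)]
      congr 1; funext t; rw [← inner_add_right, map_add])
    (fun c β φ α => by
      rw [← m.const_mul _ _ (hb φ α β)]
      congr 1; funext t; rw [← inner_smul_right, map_smul])
    (fun β φ α => by
      refine m.norm_le _ _ (fun t => (norm_inner_apply_le _ _ _).trans ?_)
      have h : ‖((φ (star (u t)) * u t : Alg P) : H →L[ℂ] H)‖ ≤ ‖φ‖ := norm_twist_le P (hu t) φ
      calc _ ≤ ‖φ‖ * ‖β‖ * ‖α‖ := by gcongr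
        _ = 1 * ‖β‖ * ‖φ‖ * ‖α‖ := by ring)
    (fun S hS β φ α => by
      congr 1; funext t
      rw [ContinuousLinearMap.adjoint_inner_left]
      congr 1
      have := hS _ (φ (star (u t)) * u t : Alg P).2
      exact (congrArg (fun T : H →L[ℂ] H => T α) this).symm)
  refine ⟨a, ⟨fun c φ => alg_ext P (fun β α => ?_), alg_ext P (fun β α => ?_)⟩, ha⟩
  · rw [ha]
    have h1 : ⟪β, ((c * a φ : Alg P) : H →L[ℂ] H) α⟫_ℂ
        = ⟪ContinuousLinearMap.adjoint (c : H →L[ℂ] H) β, (a φ : H →L[ℂ] H) α⟫_ℂ := by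
      rw [ContinuousLinearMap.adjoint_inner_left]; rfl
    rw [h1, ha]
    congr 1; funext t
    rw [ContinuousLinearMap.adjoint_inner_left]
    have : ((mulL c).comp φ) (star (u t)) * u t = c * (φ (star (u t)) * u t) := by
      simp [mul_assoc]
    rw [this]; rfl
  · rw [ha]
    simp only [ContinuousLinearMap.id_apply, hu]
    exact m.const _

end Vale.Agent.P082
end

section
attribute [local instance] Vale.Agent.P082.AlgFast.nr Vale.Agent.P082.AlgFast.na
  Vale.Agent.P082.AlgFast.sr Vale.Agent.P082.AlgFast.ng Vale.Agent.P082.AlgFast.sg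
  Vale.Agent.P082.AlgFast.ns Vale.Agent.P082.AlgFast.ri Vale.Agent.P082.AlgFast.ag
  Vale.Agent.P082.AlgFast.am Vale.Agent.P082.AlgFast.mo Vale.Agent.P082.AlgFast.pm
  Vale.Agent.P082.AlgFast.us Vale.Agent.P082.AlgFast.ts Vale.Agent.P082.AlgFast.ets
  Vale.Agent.P082.AlgFast.eng Vale.Agent.P082.AlgFast.esg Vale.Agent.P082.AlgFast.ens
  Vale.Agent.P082.AlgFast.eam Vale.Agent.P082.AlgFast.emo Vale.Agent.P082.AlgFast.nu
  Vale.Agent.P082.AlgFast.sag Vale.Agent.P082.AlgFast.agr Vale.Agent.P082.AlgFast.mon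
  Vale.Agent.P082.AlgFast.srg

open scoped InnerProductSpace ComplexConjugate Topology

namespace Vale.Agent.P082

/-- sign of a boolean -/
def sg (b : Bool) : ℂ := if b then 1 else -1

lemma sg_mul_self (b : Bool) : sg b * sg b = 1 := by cases b <;> simp [sg]

lemma sg_not (b : Bool) : sg (!b) = - sg b := by cases b <;> simp [sg]

lemma conj_sg (b : Bool) : star (sg b) = sg b := by cases b <;> simp [sg]

lemma sum_sg {n : ℕ} (a b : Fin n) :
    ∑ ε : Fin n → Bool, sg (ε a) * sg (ε b) = if a = b then (2 : ℂ) ^ n else 0 := by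
  by_cases hab : a = b
  · subst hab
    simp [sg_mul_self]
  · rw [if_neg hab]
    have hinv : Function.Involutive (fun ε : Fin n → Bool => Function.update ε a (!(ε a))) := by
      intro ε
      funext c
      by_cases hc : c = a
      · subst hc; simp
      · simp [Function.update_of_ne hc]
    have h := Equiv.sum_comp (Function.Involutive.toPerm _ hinv)
      (fun ε : Fin n → Bool => sg (ε a) * sg (ε b))
    have h2 : ∀ ε : Fin n → Bool, sg ((Function.Involutive.toPerm _ hinv) ε a) *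
        sg ((Function.Involutive.toPerm _ hinv) ε b) = - (sg (ε a) * sg (ε b)) := by
      intro ε
      have e1 : (Function.Involutive.toPerm _ hinv) ε a = !(ε a) := by
        simp [Function.Involutive.toPerm]
      have e2 : (Function.Involutive.toPerm _ hinv) ε b = ε b := by
        simp [Function.Involutive.toPerm, Function.update_of_ne (Ne.symm hab)]
      rw [e1, e2, sg_not]; ring
    rw [Finset.sum_congr rfl (fun ε _ => h2 ε), Finset.sum_neg_distrib] at h
    exact self_eq_neg.mp h.symm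

section

variable {A : Type*} [NormedRing A] [StarRing A] [CStarRing A] [NormedAlgebra ℂ A] [StarModule ℂ A]

/-- average over the matrix algebra -/
noncomputable def matAvg {n : ℕ} (e : Fin n → Fin n → A) : (A →L[ℂ] A) →L[ℂ] A :=
  (n : ℂ)⁻¹ • ∑ c, ∑ a,
    ((ContinuousLinearMap.mul ℂ A).flip (e a c)).comp (ContinuousLinearMap.apply ℂ A (e c a))

omit [StarRing A] [CStarRing A] [StarModule ℂ A] in
lemma matAvg_apply {n : ℕ} (e : Fin n → Fin n → A) (φ : A →L[ℂ] A) :
    matAvg e φ = (n : ℂ)⁻¹ • ∑ c, ∑ a, φ (e c a) * e a c := by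
  simp [matAvg]

omit [CStarRing A] [StarModule ℂ A] in
lemma matAvg_isAvg {n : ℕ} [NeZero n] {e : Fin n → Fin n → A} (he : MatUnits A n e) :
    IsAvg (matAvg e) := by
  constructor
  · intro c φ
    rw [matAvg_apply, matAvg_apply, mul_smul_comm, Finset.mul_sum]
    congr 1
    refine Finset.sum_congr rfl (fun i _ => ?_)
    rw [Finset.mul_sum]
    refine Finset.sum_congr rfl (fun j _ => ?_)
    simp [mul_assoc]
  · rw [matAvg_apply]
    have h1 : ∀ c : Fin n, ∑ a, (ContinuousLinearMap.id ℂ A) (e c a) * e a c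
        = (n : ℂ) • e c c := by
      intro c
      simp only [ContinuousLinearMap.id_apply]
      rw [Finset.sum_congr rfl (fun a _ => he.mul_eq c a c)]
      simp [Nat.cast_smul_eq_nsmul]
    rw [Finset.sum_congr rfl (fun c _ => h1 c), ← Finset.smul_sum, he.sum_eq, smul_smul,
      inv_mul_cancel₀ (by exact_mod_cast NeZero.ne n), one_smul]

/-- the signed permutation unitaries -/
noncomputable def sgnU {n : ℕ} [NeZero n] (e : Fin n → Fin n → A) (p : (Fin n → Bool) × Fin n) :
    A := ∑ a, sg (p.1 a) • e a (a + p.2)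

omit [CStarRing A] in
lemma star_sgnU {n : ℕ} [NeZero n] {e : Fin n → Fin n → A} (he : MatUnits A n e)
    (p : (Fin n → Bool) × Fin n) : star (sgnU e p) = ∑ a, sg (p.1 a) • e (a + p.2) a := by
  rw [sgnU, star_sum]
  refine Finset.sum_congr rfl (fun a _ => ?_)
  rw [star_smul, he.star_eq, conj_sg]

omit [CStarRing A] in
lemma sgnU_unitary {n : ℕ} [NeZero n] {e : Fin n → Fin n → A} (he : MatUnits A n e)
    (p : (Fin n → Bool) × Fin n) : star (sgnU e p) * sgnU e p = 1 := by
  rw [star_sgnU he, sgnU, Finset.sum_mul]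
  have h1 : ∀ a, (sg (p.1 a) • e (a + p.2) a) * ∑ b, sg (p.1 b) • e b (b + p.2)
      = e (a + p.2) (a + p.2) := by
    intro a
    rw [Finset.mul_sum, Finset.sum_eq_single a]
    · rw [smul_mul_smul_comm, sg_mul_self, he.mul_eq, one_smul]
    · intro b _ hb
      rw [smul_mul_smul_comm, he.mul_ne _ _ _ _ (Ne.symm hb), smul_zero]
    · intro h; exact absurd (Finset.mem_univ _) h
  rw [Finset.sum_congr rfl (fun a _ => h1 a)]
  exact (Equiv.sum_comp (Equiv.addRight p.2) (fun a => e a a)).trans he.sum_eq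

omit [CStarRing A] in
lemma matAvg_eq_avg {n : ℕ} [NeZero n] {e : Fin n → Fin n → A} (he : MatUnits A n e)
    (φ : A →L[ℂ] A) :
    ∑ p : (Fin n → Bool) × Fin n, φ (star (sgnU e p)) * sgnU e p
      = ((2 : ℂ) ^ n * n) • matAvg e φ := by
  rw [Fintype.sum_prod_type, Finset.sum_comm]
  have h1 : ∀ s : Fin n, ∑ ε : Fin n → Bool, φ (star (sgnU e (ε, s))) * sgnU e (ε, s)
      = (2 : ℂ) ^ n • ∑ a, φ (e (a + s) a) * e a (a + s) := by
    intro s
    have h2 : ∀ ε : Fin n → Bool, φ (star (sgnU e (ε, s))) * sgnU e (ε, s)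
        = ∑ a, ∑ b, (sg (ε a) * sg (ε b)) • (φ (e (a + s) a) * e b (b + s)) := by
      intro ε
      rw [star_sgnU he, sgnU, map_sum, Finset.sum_mul]
      refine Finset.sum_congr rfl (fun a _ => ?_)
      rw [Finset.mul_sum]
      refine Finset.sum_congr rfl (fun b _ => ?_)
      rw [map_smul, smul_mul_smul_comm]
    rw [Finset.sum_congr rfl (fun ε _ => h2 ε), Finset.sum_comm, Finset.smul_sum]
    refine Finset.sum_congr rfl (fun a _ => ?_)
    rw [Finset.sum_comm, Finset.sum_eq_single a]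
    · rw [← Finset.sum_smul, sum_sg, if_pos rfl]
    · intro b _ hb
      rw [← Finset.sum_smul, sum_sg, if_neg (Ne.symm hb), zero_smul]
    · intro h; exact absurd (Finset.mem_univ _) h
  rw [Finset.sum_congr rfl (fun s _ => h1 s), ← Finset.smul_sum, matAvg_apply, smul_smul]
  have hn : (n : ℂ) ≠ 0 := by exact_mod_cast NeZero.ne n
  rw [mul_assoc, mul_inv_cancel₀ hn, mul_one]
  congr 1
  rw [Finset.sum_comm]
  rw [Finset.sum_comm (f := fun c a => φ (e c a) * e a c)]
  refine Finset.sum_congr rfl (fun a _ => ?_)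
  exact Equiv.sum_comp (Equiv.addLeft a) (fun c => φ (e c a) * e a c)

omit [StarRing A] [CStarRing A] [StarModule ℂ A] in
/-- the twisted average is right modular over the matrix units -/
lemma tw_matAvg_modular [StarRing A] {n : ℕ} {e : Fin n → Fin n → A} (he : MatUnits A n e)
    (φ : A →L[ℂ] A) (x : A) (p q : Fin n) :
    tw (matAvg e) φ (x * e p q) = tw (matAvg e) φ x * e p q := by
  have h : matAvg e (φ.comp (mulL (x * e p q))) = matAvg e (φ.comp (mulL x)) * e p q := by
    rw [matAvg_apply, matAvg_apply, smul_mul_assoc, Finset.sum_mul]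
    congr 1
    have h1 : ∑ c, ∑ a, (φ.comp (mulL (x * e p q))) (e c a) * e a c
        = ∑ a, φ (x * e p a) * e a q := by
      rw [Finset.sum_eq_single q]
      · refine Finset.sum_congr rfl (fun a _ => ?_)
        simp [mul_assoc, he.mul_eq]
      · intro c _ hc
        refine Finset.sum_eq_zero (fun a _ => ?_)
        simp [mul_assoc, he.mul_ne _ _ _ _ (Ne.symm hc)]
      · intro h; exact absurd (Finset.mem_univ _) h
    have h2 : ∑ c, (∑ a, (φ.comp (mulL x)) (e c a) * e a c) * e p q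
        = ∑ a, φ (x * e p a) * e a q := by
      rw [Finset.sum_eq_single p]
      · rw [Finset.sum_mul]
        refine Finset.sum_congr rfl (fun a _ => ?_)
        simp [mul_assoc, he.mul_eq]
      · intro c _ hc
        rw [Finset.sum_mul]
        refine Finset.sum_eq_zero (fun a _ => ?_)
        simp [mul_assoc, he.mul_ne _ _ _ _ hc]
      · intro h; exact absurd (Finset.mem_univ _) h
    rw [h1, h2]
  rw [tw_apply, tw_apply, h, sub_mul, mul_assoc]

end

universe u

variable {H : Type u} [NormedAddCommGroup H] [InnerProductSpace ℂ H] [CompleteSpace H]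

lemma norm_matAvg_le (P : VonNeumannAlgebra H) {n : ℕ} [NeZero n] {e : Fin n → Fin n → Alg P}
    (he : MatUnits (Alg P) n e) (φ : Alg P →L[ℂ] Alg P) : ‖matAvg e φ‖ ≤ ‖φ‖ := by
  have h := matAvg_eq_avg he φ
  have hn : (0 : ℝ) < 2 ^ n * n := by
    have : (0 : ℝ) < n := by exact_mod_cast Nat.pos_of_ne_zero (NeZero.ne n)
    positivity
  have h1 : ‖((2 : ℂ) ^ n * n) • matAvg e φ‖ ≤ (2 ^ n * n) * ‖φ‖ := by
    rw [← h]
    refine (norm_sum_le _ _).trans ?_
    refine (Finset.sum_le_sum (fun p _ => norm_twist_le P (sgnU_unitary he p) φ)).trans ?_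
    simp
  rw [norm_smul] at h1
  have h2 : ‖((2 : ℂ) ^ n * n)‖ = 2 ^ n * n := by simp
  rw [h2] at h1
  exact le_of_mul_le_mul_left h1 hn

lemma norm_tw_le (P : VonNeumannAlgebra H) {a : (Alg P →L[ℂ] Alg P) →L[ℂ] Alg P}
    (ha : ∀ φ, ‖a φ‖ ≤ ‖φ‖) (φ : Alg P →L[ℂ] Alg P) : ‖tw a φ‖ ≤ 2 * ‖φ‖ := by
  refine ContinuousLinearMap.opNorm_le_bound _ (by positivity) (fun b => ?_)
  rw [tw_apply]
  have hb : ‖mulL b‖ ≤ ‖b‖ := ContinuousLinearMap.opNorm_mul_apply_le ℂ (Alg P) b
  calc ‖a (φ.comp (mulL b)) - a φ * b‖ ≤ ‖a (φ.comp (mulL b))‖ + ‖a φ * b‖ := norm_sub_le _ _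
    _ ≤ ‖φ‖ * ‖b‖ + ‖φ‖ * ‖b‖ := by
        refine add_le_add ((ha _).trans ((ContinuousLinearMap.opNorm_comp_le _ _).trans ?_))
          ((norm_mul_le _ _).trans ?_)
        · gcongr
        · gcongr
          exact ha φ
    _ = 2 * ‖φ‖ * ‖b‖ := by ring

/-- mean of a family of averages -/
theorem exists_mean_avgs (P : VonNeumannAlgebra H) {X : Type*} (m : Mean X)
    (a : X → (Alg P →L[ℂ] Alg P) →L[ℂ] Alg P) (ha : ∀ t, IsAvg (a t))
    (hb : ∀ t φ, ‖a t φ‖ ≤ ‖φ‖) :
    ∃ a' : (Alg P →L[ℂ] Alg P) →L[ℂ] Alg P, IsAvg a' ∧ ∀ β φ α,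
      ⟪β, (a' φ : H →L[ℂ] H) α⟫_ℂ = m (fun t => ⟪β, (a t φ : H →L[ℂ] H) α⟫_ℂ) := by
  have hbd : ∀ (φ : Alg P →L[ℂ] Alg P) (α β : H),
      Bdd (fun t => ⟪β, (a t φ : H →L[ℂ] H) α⟫_ℂ) := by
    intro φ α β
    refine ⟨‖φ‖ * ‖β‖ * ‖α‖, fun t => (norm_inner_apply_le _ _ _).trans ?_⟩
    have h : ‖(a t φ : H →L[ℂ] H)‖ ≤ ‖φ‖ := hb t φ
    gcongr
  obtain ⟨a', ha'⟩ := exists_avg P 1
    (fun β φ α => m (fun t => ⟪β, (a t φ : H →L[ℂ] H) α⟫_ℂ))
    (fun β β' φ α => by
      rw [← m.add _ _ (hbd φ α β) (hbd φ α β')]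
      congr 1; funext t; rw [inner_add_left])
    (fun c β φ α => by
      rw [← m.const_mul _ _ (hbd φ α β)]
      congr 1; funext t; rw [inner_smul_left])
    (fun β φ φ' α => by
      rw [← m.add _ _ (hbd φ α β) (hbd φ' α β)]
      congr 1; funext t; rw [← inner_add_right, map_add]; rfl)
    (fun c β φ α => by
      rw [← m.const_mul _ _ (hbd φ α β)]
      congr 1; funext t; rw [← inner_smul_right, map_smul]; rfl)
    (fun β φ α α' => by
      rw [← m.add _ _ (hbd φ α β) (hbd φ α' β)]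
      congr 1; funext t; rw [← inner_add_right, map_add])
    (fun c β φ α => by
      rw [← m.const_mul _ _ (hbd φ α β)]
      congr 1; funext t; rw [← inner_smul_right, map_smul])
    (fun β φ α => by
      refine m.norm_le _ _ (fun t => (norm_inner_apply_le _ _ _).trans ?_)
      have h : ‖(a t φ : H →L[ℂ] H)‖ ≤ ‖φ‖ := hb t φ
      calc _ ≤ ‖φ‖ * ‖β‖ * ‖α‖ := by (clear * - h; gcongr)
        _ = 1 * ‖β‖ * ‖φ‖ * ‖α‖ := by ring)
    (fun S hS β φ α => by
      congr 1; funext t
      rw [ContinuousLinearMap.adjoint_inner_left]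
      congr 1
      have := hS _ (a t φ).2
      exact (congrArg (fun T : H →L[ℂ] H => T α) this).symm)
  refine ⟨a', ⟨fun c φ => alg_ext P (fun β α => ?_), alg_ext P (fun β α => ?_)⟩, ha'⟩
  · rw [ha']
    have h1 : ⟪β, ((c * a' φ : Alg P) : H →L[ℂ] H) α⟫_ℂ
        = ⟪ContinuousLinearMap.adjoint (c : H →L[ℂ] H) β, (a' φ : H →L[ℂ] H) α⟫_ℂ := by
      rw [ContinuousLinearMap.adjoint_inner_left]; rfl
    rw [h1, ha']
    congr 1; funext t
    rw [ContinuousLinearMap.adjoint_inner_left, (ha t).left]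
    rfl
  · rw [ha']
    simp only [(ha _).one]
    exact m.const _

end Vale.Agent.P082
end

section
attribute [local instance] Vale.Agent.P082.AlgFast.nr Vale.Agent.P082.AlgFast.na
  Vale.Agent.P082.AlgFast.sr Vale.Agent.P082.AlgFast.ng Vale.Agent.P082.AlgFast.sg
  Vale.Agent.P082.AlgFast.ns Vale.Agent.P082.AlgFast.ri Vale.Agent.P082.AlgFast.ag
  Vale.Agent.P082.AlgFast.am Vale.Agent.P082.AlgFast.mo Vale.Agent.P082.AlgFast.pm
  Vale.Agent.P082.AlgFast.us Vale.Agent.P082.AlgFast.ts Vale.Agent.P082.AlgFast.ets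
  Vale.Agent.P082.AlgFast.eng Vale.Agent.P082.AlgFast.esg Vale.Agent.P082.AlgFast.ens
  Vale.Agent.P082.AlgFast.eam Vale.Agent.P082.AlgFast.emo Vale.Agent.P082.AlgFast.nu
  Vale.Agent.P082.AlgFast.sag Vale.Agent.P082.AlgFast.agr Vale.Agent.P082.AlgFast.mon
  Vale.Agent.P082.AlgFast.srg

open scoped InnerProductSpace ENNReal

namespace Vale.Agent.P082

universe u

variable {H : Type u} [NormedAddCommGroup H] [InnerProductSpace ℂ H] [CompleteSpace H]

lemma isClosed_vN (P : VonNeumannAlgebra H) :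
    IsClosed ((P.toStarSubalgebra : StarSubalgebra ℂ (H →L[ℂ] H)) : Set (H →L[ℂ] H)) := by
  have h : ((P.toStarSubalgebra : StarSubalgebra ℂ (H →L[ℂ] H)) : Set (H →L[ℂ] H))
      = Set.centralizer (Set.centralizer (P : Set (H →L[ℂ] H))) := by
    rw [VonNeumannAlgebra.centralizer_centralizer]; rfl
  rw [h]
  exact Set.isClosed_centralizer _

/-- The C*-algebra structure on a concrete von Neumann algebra. -/
@[reducible]
noncomputable def cstarAlg (P : VonNeumannAlgebra H) : CStarAlgebra (Alg P) :=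
  StarSubalgebra.cstarAlgebra P.toStarSubalgebra (h_closed := isClosed_vN P)

/-- A square summable family of vectors as a vector of the Hilbert sum. -/
noncomputable def vec {ι : Type*} (ξ : ι → H) (hs : Summable fun i => ‖ξ i‖ ^ 2) : L2 ι H :=
  ⟨ξ, memℓp_gen (by simpa using hs)⟩

@[simp] lemma vec_apply {ι : Type*} (ξ : ι → H) (hs : Summable fun i => ‖ξ i‖ ^ 2) (i : ι) :
    vec ξ hs i = ξ i := rfl

variable {J : Type*} (P : VonNeumannAlgebra H) (Xi : J → ℕ → H)
  (hs : ∀ j, Summable fun n => ‖Xi j n‖ ^ 2)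

/-- The trace seminorms. -/
noncomputable def trSemi (j : J) : Seminorm ℂ (Alg P) :=
  (normSeminorm ℂ (L2 ℕ H)).comp
    ((ampL (vec (Xi j) (hs j))).comp P.toStarSubalgebra.toSubalgebra.toSubmodule.subtype)

lemma trSemi_apply (j : J) (x : Alg P) :
    trSemi P Xi hs j x = ‖amp (x : H →L[ℂ] H) (vec (Xi j) (hs j))‖ := rfl

lemma trSemi_mul_left (j : J) (a x : Alg P) :
    trSemi P Xi hs j (a * x) ≤ ‖a‖ * trSemi P Xi hs j x := by
  rw [trSemi_apply, trSemi_apply]
  have h : amp ((a * x : Alg P) : H →L[ℂ] H) (vec (Xi j) (hs j))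
      = amp (a : H →L[ℂ] H) (amp (x : H →L[ℂ] H) (vec (Xi j) (hs j))) := amp_mul _ _ _
  rw [h]
  exact norm_amp_le _ _

lemma trSemi_star (htr : ∀ j, ∀ x ∈ P, ∀ y ∈ P,
      ∑' n, ⟪Xi j n, x (y (Xi j n))⟫_ℂ = ∑' n, ⟪Xi j n, y (x (Xi j n))⟫_ℂ) (j : J) (x : Alg P) :
    trSemi P Xi hs j (star x) = trSemi P Xi hs j x := by
  rw [trSemi_apply, trSemi_apply]
  set Ω := vec (Xi j) (hs j) with hΩ
  have h1 := htr j (x : H →L[ℂ] H) x.2 (star (x : H →L[ℂ] H)) (star_mem x.2)
  have h2 : ⟪Ω, amp (x : H →L[ℂ] H) (amp (star (x : H →L[ℂ] H)) Ω)⟫_ℂ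
      = ⟪Ω, amp (star (x : H →L[ℂ] H)) (amp (x : H →L[ℂ] H) Ω)⟫_ℂ := by
    rw [lp.inner_eq_tsum, lp.inner_eq_tsum]
    exact h1
  have e1 := inner_amp (x : H →L[ℂ] H) (amp (star (x : H →L[ℂ] H)) Ω) Ω
  have e2 := inner_amp (star (x : H →L[ℂ] H)) (amp (x : H →L[ℂ] H) Ω) Ω
  rw [star_star] at e2
  rw [e1, e2, inner_self_eq_norm_sq_to_K, inner_self_eq_norm_sq_to_K] at h2
  have h3 : ‖amp (star (x : H →L[ℂ] H)) Ω‖ ^ 2 = ‖amp (x : H →L[ℂ] H) Ω‖ ^ 2 := by
    exact_mod_cast h2
  have h4 : ((star x : Alg P) : H →L[ℂ] H) = star (x : H →L[ℂ] H) := rfl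
  rw [h4]
  exact le_antisymm (le_of_sq_le_sq h3.le (norm_nonneg _)) (le_of_sq_le_sq h3.ge (norm_nonneg _))

lemma trSemi_mul_right (htr : ∀ j, ∀ x ∈ P, ∀ y ∈ P,
      ∑' n, ⟪Xi j n, x (y (Xi j n))⟫_ℂ = ∑' n, ⟪Xi j n, y (x (Xi j n))⟫_ℂ) (j : J) (a x : Alg P) :
    trSemi P Xi hs j (x * a) ≤ ‖a‖ * trSemi P Xi hs j x := by
  have h1 : trSemi P Xi hs j (x * a) = trSemi P Xi hs j (star a * star x) := by
    rw [← star_mul, trSemi_star P Xi hs htr]
  rw [h1, ← trSemi_star P Xi hs htr j x]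
  refine (trSemi_mul_left P Xi hs j (star a) (star x)).trans_eq ?_
  have : ‖star a‖ = ‖a‖ := norm_star (a : H →L[ℂ] H)
  rw [this]

/-- Vectors whose vector seminorm is controlled by the trace seminorms. -/
lemma vector_tame (hsep : ∀ x ∈ P, (∀ j n, x (Xi j n) = 0) → x = 0) (α : H) :
    ∀ ε : ℝ, 0 < ε → ∃ F : Finset J, ∃ δ : ℝ, 0 < δ ∧ ∀ y : Alg P, ‖y‖ ≤ 1 →
      (∀ j ∈ F, trSemi P Xi hs j y ≤ δ) → ‖(y : H →L[ℂ] H) α‖ ≤ ε := by
  classical
  let V : Submodule ℂ H :=
    { carrier := {α | ∀ ε : ℝ, 0 < ε → ∃ F : Finset J, ∃ δ : ℝ, 0 < δ ∧ ∀ y : Alg P, ‖y‖ ≤ 1 →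
        (∀ j ∈ F, trSemi P Xi hs j y ≤ δ) → ‖(y : H →L[ℂ] H) α‖ ≤ ε}
      add_mem' := by
        intro α β hα hβ ε hε
        obtain ⟨F₁, δ₁, hδ₁, h₁⟩ := hα (ε / 2) (by positivity)
        obtain ⟨F₂, δ₂, hδ₂, h₂⟩ := hβ (ε / 2) (by (clear * - hε; positivity))
        refine ⟨F₁ ∪ F₂, min δ₁ δ₂, by (clear * - hδ₁ hδ₂; positivity), fun y hy hq => ?_⟩
        have g1 := h₁ y hy fun j hj =>
          (hq j (Finset.mem_union_left _ hj)).trans (min_le_left _ _)
        have g2 := h₂ y hy fun j hj =>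
          (hq j (Finset.mem_union_right _ hj)).trans (min_le_right _ _)
        rw [map_add]
        refine (norm_add_le _ _).trans ?_
        linarith only [g1, g2]
      zero_mem' := by
        intro ε hε
        exact ⟨∅, 1, one_pos, fun y _ _ => by rw [map_zero, norm_zero]; exact hε.le⟩
      smul_mem' := by
        intro c α hα ε hε
        obtain ⟨F₁, δ₁, hδ₁, h₁⟩ := hα (ε / (‖c‖ + 1)) (by (clear * - hε; positivity))
        refine ⟨F₁, δ₁, hδ₁, fun y hy hq => ?_⟩
        have g1 := h₁ y hy hq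
        rw [map_smul, norm_smul]
        have hc : 0 < ‖c‖ + 1 := by positivity
        calc ‖c‖ * ‖(y : H →L[ℂ] H) α‖ ≤ (‖c‖ + 1) * (ε / (‖c‖ + 1)) := by
              gcongr
              linarith only []
          _ = ε := by (clear * - hε; field_simp) }
  have hVc : IsClosed (V : Set H) := by
    rw [← closure_subset_iff_isClosed]
    intro α hα ε hε
    obtain ⟨β, hβV, hβ⟩ := Metric.mem_closure_iff.mp hα (ε / 2) (by positivity)
    obtain ⟨F₁, δ₁, hδ₁, h₁⟩ := hβV (ε / 2) (by positivity)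
    refine ⟨F₁, δ₁, hδ₁, fun y hy hq => ?_⟩
    have g1 := h₁ y hy hq
    have g2 : ‖(y : H →L[ℂ] H) (α - β)‖ ≤ ε / 2 := by
      calc ‖(y : H →L[ℂ] H) (α - β)‖ ≤ ‖(y : H →L[ℂ] H)‖ * ‖α - β‖ :=
            (y : H →L[ℂ] H).le_opNorm _
        _ ≤ 1 * (ε / 2) := by
            rw [dist_eq_norm] at hβ
            have hy' : ‖(y : H →L[ℂ] H)‖ ≤ 1 := hy
            (clear * - hβ hy'; gcongr)
        _ = ε / 2 := one_mul _
    have g3 : (y : H →L[ℂ] H) α = (y : H →L[ℂ] H) (α - β) + (y : H →L[ℂ] H) β := by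
      rw [← map_add, sub_add_cancel]
    rw [g3]
    refine (norm_add_le _ _).trans ?_
    linarith only [g1, g2]
  have : CompleteSpace V := hVc.completeSpace_coe
  have hξ : ∀ j n, Xi j n ∈ V := by
    intro j n ε hε
    refine ⟨{j}, ε, hε, fun y _ hq => ?_⟩
    have h1 := hq j (Finset.mem_singleton_self j)
    rw [trSemi_apply] at h1
    have h2 := lp.norm_apply_le_norm (p := 2) (by norm_num)
      (amp (y : H →L[ℂ] H) (vec (Xi j) (hs j))) n
    exact h2.trans h1
  have hproj : V.starProjection ∈ P := by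
    rw [VonNeumannAlgebra.IsStarProjection.mem_iff isStarProjection_starProjection]
    intro y hy
    rw [Submodule.range_starProjection, Module.End.mem_invtSubmodule]
    intro α hα ε hε
    obtain ⟨F₁, δ₁, hδ₁, h₁⟩ := hα (ε / (‖y‖ + 1)) (by (clear * - hε; positivity))
    refine ⟨F₁, δ₁, hδ₁, fun x hx hq => ?_⟩
    have g1 := h₁ x hx hq
    have g2 : (x : H →L[ℂ] H) (y α) = y ((x : H →L[ℂ] H) α) := by
      have := VonNeumannAlgebra.mem_commutant_iff.mp hy (x : H →L[ℂ] H) x.2
      exact congrArg (fun T : H →L[ℂ] H => T α) this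
    change ‖(x : H →L[ℂ] H) (y α)‖ ≤ ε
    rw [g2]
    calc ‖y ((x : H →L[ℂ] H) α)‖ ≤ ‖y‖ * ‖(x : H →L[ℂ] H) α‖ := y.le_opNorm _
      _ ≤ (‖y‖ + 1) * (ε / (‖y‖ + 1)) := by gcongr; linarith only []
      _ = ε := by (clear * - hε; field_simp)
  have h0 : (1 : H →L[ℂ] H) - V.starProjection = 0 := by
    apply hsep _ (sub_mem (one_mem P) hproj)
    intro j n
    have h1 : V.starProjection (Xi j n) = Xi j n :=
      Submodule.starProjection_eq_self_iff.mpr (hξ j n)
    change (Xi j n) - V.starProjection (Xi j n) = 0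
    rw [h1, sub_self]
  have h1 : α ∈ V := by
    rw [← Submodule.starProjection_eq_self_iff (K := V)]
    have := congrArg (fun T : H →L[ℂ] H => T α) (sub_eq_zero.mp h0)
    exact this.symm
  exact h1

end Vale.Agent.P082
end

section
attribute [local instance] Vale.Agent.P082.AlgFast.nr Vale.Agent.P082.AlgFast.na
  Vale.Agent.P082.AlgFast.sr Vale.Agent.P082.AlgFast.ng Vale.Agent.P082.AlgFast.sg
  Vale.Agent.P082.AlgFast.ns Vale.Agent.P082.AlgFast.ri Vale.Agent.P082.AlgFast.ag
  Vale.Agent.P082.AlgFast.am Vale.Agent.P082.AlgFast.mo Vale.Agent.P082.AlgFast.pm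
  Vale.Agent.P082.AlgFast.us Vale.Agent.P082.AlgFast.ts Vale.Agent.P082.AlgFast.ets
  Vale.Agent.P082.AlgFast.eng Vale.Agent.P082.AlgFast.esg Vale.Agent.P082.AlgFast.ens
  Vale.Agent.P082.AlgFast.eam Vale.Agent.P082.AlgFast.emo Vale.Agent.P082.AlgFast.nu
  Vale.Agent.P082.AlgFast.sag Vale.Agent.P082.AlgFast.agr Vale.Agent.P082.AlgFast.mon
  Vale.Agent.P082.AlgFast.srg

open scoped InnerProductSpace ComplexConjugate Topology

namespace Vale.Agent.P082

universe u

set_option maxSynthPendingDepth 3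

variable {H : Type u} [NormedAddCommGroup H] [InnerProductSpace ℂ H] [CompleteSpace H]

/-- `S` contains unital copies of arbitrarily large matrix algebras. -/
def LargeUnits (P : VonNeumannAlgebra H) (S : Set (H →L[ℂ] H)) : Prop :=
  ∀ k : ℕ, ∃ n, k ≤ n ∧ ∃ (_ : NeZero n) (e : Fin n → Fin n → Alg P),
    MatUnits (Alg P) n e ∧ ∀ a b, ((e a b : Alg P) : H →L[ℂ] H) ∈ S

/-- the elements at which all the last-variable maps of `f` vanish, as a subalgebra -/
def vanAlg (P : VonNeumannAlgebra H) {k : ℕ}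
    (f : ContinuousMultilinearMap ℂ (fun _ : Fin (k + 1) => Alg P) (Alg P))
    (hf : ∀ a, hochschild (fun x => f x) a = 0) (h1 : ∀ y, f.curryRight y 1 = 0) :
    Subalgebra ℂ (Alg P) where
  carrier := {x | ∀ y : Fin k → Alg P, f.curryRight y x = 0}
  mul_mem' := fun {a b} ha hb y => by rw [right_modular f hf b hb, ha y, zero_mul]
  add_mem' := fun {a b} ha hb y => by rw [map_add, ha y, hb y, add_zero]
  algebraMap_mem' := fun c y => by
    rw [Algebra.algebraMap_eq_smul_one, map_smul, h1 y, smul_zero]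

lemma curryRight_fav {P : VonNeumannAlgebra H} {k : ℕ} (a : (Alg P →L[ℂ] Alg P) →L[ℂ] Alg P)
    (f : ContinuousMultilinearMap ℂ (fun _ : Fin (k + 1) => Alg P) (Alg P)) (x : Fin k → Alg P) :
    (fav a f).curryRight x = tw a (f.curryRight x) := by
  refine ContinuousLinearMap.ext (fun b => ?_)
  rw [tw_apply, ← fav_app]
  rfl

end Vale.Agent.P082
end

section
attribute [local instance] Vale.Agent.P082.AlgFast.nr Vale.Agent.P082.AlgFast.na
  Vale.Agent.P082.AlgFast.sr Vale.Agent.P082.AlgFast.ng Vale.Agent.P082.AlgFast.sg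
  Vale.Agent.P082.AlgFast.ns Vale.Agent.P082.AlgFast.ri Vale.Agent.P082.AlgFast.ag
  Vale.Agent.P082.AlgFast.am Vale.Agent.P082.AlgFast.mo Vale.Agent.P082.AlgFast.pm
  Vale.Agent.P082.AlgFast.us Vale.Agent.P082.AlgFast.ts Vale.Agent.P082.AlgFast.ets
  Vale.Agent.P082.AlgFast.eng Vale.Agent.P082.AlgFast.esg Vale.Agent.P082.AlgFast.ens
  Vale.Agent.P082.AlgFast.eam Vale.Agent.P082.AlgFast.emo Vale.Agent.P082.AlgFast.nu
  Vale.Agent.P082.AlgFast.sag Vale.Agent.P082.AlgFast.agr Vale.Agent.P082.AlgFast.mon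
  Vale.Agent.P082.AlgFast.srg

/-!
Elementary theory of projections in a von Neumann algebra `M` on `H`; everything is stated for
operators on `H` that belong to `M`.
-/

open scoped InnerProductSpace ComplexConjugate

namespace Vale.Agent.P082.VN

universe u

variable {H : Type u} [NormedAddCommGroup H] [InnerProductSpace ℂ H] [CompleteSpace H]

/-- `e` is a projection of `M` -/
structure IsPr (M : VonNeumannAlgebra H) (e : H →L[ℂ] H) : Prop where
  mem : e ∈ M
  idem : e * e = e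
  sa : star e = e

/-- `z` is a central projection of `M` -/
structure IsCPr (M : VonNeumannAlgebra H) (z : H →L[ℂ] H) : Prop extends IsPr M z where
  comm : ∀ x ∈ M, z * x = x * z

/-- `e ≤ f` for projections -/
def Le (e f : H →L[ℂ] H) : Prop := f * e = e

/-- `e ~ f`: equivalence of projections of `M` -/
def Eqv (M : VonNeumannAlgebra H) (e f : H →L[ℂ] H) : Prop :=
  ∃ v ∈ M, star v * v = e ∧ v * star v = f

/-- `e ≾ f` : `e` is equivalent to a subprojection of `f` -/
def SubEqv (M : VonNeumannAlgebra H) (e f : H →L[ℂ] H) : Prop :=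
  ∃ v ∈ M, star v * v = e ∧ f * v = v

/-- the projection `g` is finite -/
def FinPr (M : VonNeumannAlgebra H) (g : H →L[ℂ] H) : Prop :=
  ∀ v ∈ M, star v * v = g → g * v = v → v * star v = g

/-- `w` is the strong sum of the family `v` -/
def IsSum {I : Type*} (v : I → H →L[ℂ] H) (w : H →L[ℂ] H) : Prop :=
  ∀ x, HasSum (fun i => v i x) (w x)

/-- the central projection `c` is halvable: `c ~ s₁`, `c ~ s₂`, `c = s₁ + s₂` -/
def Halvable (M : VonNeumannAlgebra H) (c : H →L[ℂ] H) : Prop :=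
  ∃ v₁ ∈ M, ∃ v₂ ∈ M, star v₁ * v₁ = c ∧ star v₂ * v₂ = c ∧ v₁ * star v₁ + v₂ * star v₂ = c

/-- the projection `e` is abelian -/
def AbPr (M : VonNeumannAlgebra H) (e : H →L[ℂ] H) : Prop :=
  ∀ x ∈ M, ∀ y ∈ M, (e * x * e) * (e * y * e) = (e * y * e) * (e * x * e)

/-- the central projection `c` is homogeneous: `M c` has matrix units with abelian `e₀₀` -/
def Homog (M : VonNeumannAlgebra H) (c : H →L[ℂ] H) : Prop :=
  ∃ (n : ℕ) (e : Fin (n + 1) → Fin (n + 1) → H →L[ℂ] H), (∀ i j, e i j ∈ M) ∧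
    (∀ i j k, e i j * e j k = e i k) ∧ (∀ i j k l, j ≠ k → e i j * e k l = 0) ∧
    (∀ i j, star (e i j) = e j i) ∧ (∑ i, e i i = c) ∧ AbPr M (e 0 0)

/-- the vectors `ξ` define a trace on `M` -/
def TrVec (M : VonNeumannAlgebra H) (ξ : ℕ → H) : Prop :=
  (Summable fun n => ‖ξ n‖ ^ 2) ∧ ∀ x ∈ M, ∀ y ∈ M,
    ∑' n, ⟪ξ n, x (y (ξ n))⟫_ℂ = ∑' n, ⟪ξ n, y (x (ξ n))⟫_ℂ

end Vale.Agent.P082.VN
end

section
attribute [local instance] Vale.Agent.P082.AlgFast.nr Vale.Agent.P082.AlgFast.na
  Vale.Agent.P082.AlgFast.sr Vale.Agent.P082.AlgFast.ng Vale.Agent.P082.AlgFast.sg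
  Vale.Agent.P082.AlgFast.ns Vale.Agent.P082.AlgFast.ri Vale.Agent.P082.AlgFast.ag
  Vale.Agent.P082.AlgFast.am Vale.Agent.P082.AlgFast.mo Vale.Agent.P082.AlgFast.pm
  Vale.Agent.P082.AlgFast.us Vale.Agent.P082.AlgFast.ts Vale.Agent.P082.AlgFast.ets
  Vale.Agent.P082.AlgFast.eng Vale.Agent.P082.AlgFast.esg Vale.Agent.P082.AlgFast.ens
  Vale.Agent.P082.AlgFast.eam Vale.Agent.P082.AlgFast.emo Vale.Agent.P082.AlgFast.nu
  Vale.Agent.P082.AlgFast.sag Vale.Agent.P082.AlgFast.agr Vale.Agent.P082.AlgFast.mon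
  Vale.Agent.P082.AlgFast.srg

open scoped InnerProductSpace ComplexConjugate

namespace Vale.Agent.P082.VN

universe u

variable {H : Type u} [NormedAddCommGroup H] [InnerProductSpace ℂ H] [CompleteSpace H]
  {M : VonNeumannAlgebra H}

lemma IsSum.unique {I : Type*} {v : I → H →L[ℂ] H} {w w' : H →L[ℂ] H} (h : IsSum v w)
    (h' : IsSum v w') : w = w' := by
  ext x
  exact (h x).unique (h' x)

lemma IsSum.mul_left {I : Type*} {v : I → H →L[ℂ] H} {w : H →L[ℂ] H} (h : IsSum v w)
    (a : H →L[ℂ] H) : IsSum (fun i => a * v i) (a * w) := by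
  intro x
  exact a.hasSum (h x)

lemma IsSum.mul_right {I : Type*} {v : I → H →L[ℂ] H} {w : H →L[ℂ] H} (h : IsSum v w)
    (a : H →L[ℂ] H) : IsSum (fun i => v i * a) (w * a) := by
  intro x
  exact h (a x)

/-- weak membership: strong sums of elements of `M` are in `M` -/
lemma IsSum.mem {I : Type*} {v : I → H →L[ℂ] H} {w : H →L[ℂ] H} (h : IsSum v w)
    (hv : ∀ i, v i ∈ M) : w ∈ M := by
  apply mem_of_commutes
  intro S hS
  have h1 := h.mul_left S
  have h2 := h.mul_right S
  have h3 : (fun i => S * v i) = fun i => v i * S := by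
    funext i
    exact hS _ (hv i)
  rw [h3] at h1
  exact h1.unique h2

lemma IsSum.single_of {I : Type*} (v : I → H →L[ℂ] H) (i : I) (h : ∀ j, j ≠ i → v j = 0) :
    IsSum v (v i) := by
  intro x
  apply hasSum_single i
  intro j hj
  rw [h j hj]
  rfl

lemma vnSum_norm_sq {I : Type*} (a : I → H) (ho : ∀ i j, i ≠ j → ⟪a i, a j⟫_ℂ = 0)
    (F : Finset I) : ‖∑ i ∈ F, a i‖ ^ 2 = ∑ i ∈ F, ‖a i‖ ^ 2 := by
  classical
  induction F using Finset.induction_on with
  | empty => simp
  | insert i F hi ih =>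
    rw [Finset.sum_insert hi, Finset.sum_insert hi, ← ih, sq, sq, sq]
    apply norm_add_sq_eq_norm_sq_add_norm_sq_of_inner_eq_zero (𝕜 := ℂ)
    rw [inner_sum]
    apply Finset.sum_eq_zero
    intro j hj
    apply ho
    rintro rfl
    exact hi hj

lemma vnSum_inner_sa {p : H →L[ℂ] H} (hp : star p = p) (x y : H) : ⟪p x, y⟫_ℂ = ⟪x, p y⟫_ℂ := by
  have h := ContinuousLinearMap.adjoint_inner_left p y x
  rw [← ContinuousLinearMap.star_eq_adjoint, hp] at h
  exact h

lemma vnSum_inner_star_mul (v : H →L[ℂ] H) (x y : H) : ⟪v x, v y⟫_ℂ = ⟪x, (star v * v) y⟫_ℂ := by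
  have h := ContinuousLinearMap.adjoint_inner_right v x (v y)
  rw [← ContinuousLinearMap.star_eq_adjoint] at h
  exact h.symm

lemma vnSum_inner_star_mul' (v w : H →L[ℂ] H) (x y : H) : ⟪v x, w y⟫_ℂ = ⟪x, (star v * w) y⟫_ℂ := by
  have h := ContinuousLinearMap.adjoint_inner_right v x (w y)
  rw [← ContinuousLinearMap.star_eq_adjoint] at h
  exact h.symm

lemma vnSum_norm_sq_coe (x : H) : ((‖x‖ ^ 2 : ℝ) : ℂ) = ⟪x, x⟫_ℂ := by
  rw [inner_self_eq_norm_sq_to_K]
  push_cast
  rfl

lemma vnSum_bessel {I : Type*} (p : I → H →L[ℂ] H) (hs : ∀ i, star (p i) = p i)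
    (hp : ∀ i, p i * p i = p i) (ho : ∀ i j, i ≠ j → p i * p j = 0) (F : Finset I) (x : H) :
    ∑ i ∈ F, ‖p i x‖ ^ 2 ≤ ‖x‖ ^ 2 := by
  have horth : ∀ i j, i ≠ j → ⟪p i x, p j x⟫_ℂ = 0 := by
    intro i j hij
    have h1 : ⟪p i x, p j x⟫_ℂ = ⟪x, (p i * p j) x⟫_ℂ := vnSum_inner_sa (hs i) x (p j x)
    rw [h1, ho i j hij]
    simp
  have hnorm : ∀ i, ((‖p i x‖ ^ 2 : ℝ) : ℂ) = ⟪x, p i x⟫_ℂ := by
    intro i
    have h1 : ⟪x, p i x⟫_ℂ = ⟪p i x, p i x⟫_ℂ := by
      conv_lhs => rw [← hp i]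
      exact (vnSum_inner_sa (hs i) x (p i x)).symm
    rw [h1, vnSum_norm_sq_coe]
  rw [← vnSum_norm_sq _ horth]
  set y := ∑ i ∈ F, p i x with hy
  have h2 : ((‖y‖ ^ 2 : ℝ) : ℂ) = ⟪x, y⟫_ℂ := by
    rw [hy, vnSum_norm_sq _ horth, inner_sum]
    push_cast
    refine Finset.sum_congr rfl fun i _ => ?_
    have := hnorm i
    push_cast at this
    exact this
  have h3 : ‖y‖ ^ 2 ≤ ‖x‖ * ‖y‖ := by
    have h4 : ‖((‖y‖ ^ 2 : ℝ) : ℂ)‖ ≤ ‖x‖ * ‖y‖ := by
      rw [h2]
      exact norm_inner_le_norm x y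
    rw [Complex.norm_real, Real.norm_of_nonneg (by positivity)] at h4
    exact h4
  rcases (norm_nonneg y).eq_or_lt with h0 | h0
  · rw [← h0, zero_pow two_ne_zero]
    (clear * -; positivity)
  · have h5 : ‖y‖ ≤ ‖x‖ := by
      rw [sq] at h3
      exact le_of_mul_le_mul_right h3 h0
    exact pow_le_pow_left₀ (norm_nonneg _) h5 2

/-- A family with orthogonal ranges and a uniform square bound has a strong sum. -/
lemma vnSum_exists {I : Type*} (v : I → H →L[ℂ] H) {C : ℝ} (hC : 0 ≤ C)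
    (ho : ∀ i j, i ≠ j → star (v i) * v j = 0)
    (hb : ∀ (F : Finset I) (x : H), ∑ i ∈ F, ‖v i x‖ ^ 2 ≤ (C * ‖x‖) ^ 2) :
    ∃ w : H →L[ℂ] H, IsSum v w ∧ ‖w‖ ≤ C := by
  have horth : ∀ x i j, i ≠ j → ⟪v i x, v j x⟫_ℂ = 0 := by
    intro x i j hij
    rw [vnSum_inner_star_mul', ho i j hij]
    simp
  have hsq : ∀ x, Summable fun i => ‖v i x‖ ^ 2 := by
    intro x
    apply summable_of_sum_le (fun i => by positivity) (hb · x)
  have hsum : ∀ x, Summable fun i => v i x := by
    intro x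
    rw [summable_iff_vanishing_norm]
    intro ε hε
    obtain ⟨s, hs⟩ := (summable_iff_vanishing_norm.mp (hsq x)) (ε ^ 2) (by positivity)
    refine ⟨s, fun t ht => ?_⟩
    have h1 := hs t ht
    rw [Real.norm_of_nonneg (Finset.sum_nonneg fun i _ => by positivity),
      ← vnSum_norm_sq _ (horth x)] at h1
    exact lt_of_pow_lt_pow_left₀ 2 hε.le h1
  have hnorm : ∀ x, ‖∑' i, v i x‖ ≤ C * ‖x‖ := by
    intro x
    have h1 := (hsum x).hasSum
    have h2 : Filter.Tendsto (fun F : Finset I => ‖∑ i ∈ F, v i x‖) Filter.atTop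
        (nhds ‖∑' i, v i x‖) := h1.norm
    apply le_of_tendsto h2
    filter_upwards with F
    have h3 := hb F x
    rw [← vnSum_norm_sq _ (horth x)] at h3
    exact le_of_sq_le_sq h3 (by (clear * - hC; positivity))
  let L : H →ₗ[ℂ] H :=
    { toFun := fun x => ∑' i, v i x
      map_add' := by
        intro x y
        simp only [map_add]
        exact (hsum x).tsum_add (hsum y)
      map_smul' := by
        intro c x
        simp only [map_smul, RingHom.id_apply]
        exact (hsum x).tsum_const_smul c }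
  refine ⟨L.mkContinuous C hnorm, ?_, ?_⟩
  · intro x
    exact (hsum x).hasSum
  · exact L.mkContinuous_norm_le hC _

/-- sum of partial isometries with orthogonal supports and orthogonal ranges -/
theorem exists_sum_pi {I : Type*} (v : I → H →L[ℂ] H) (hv : ∀ i, v i ∈ M)
    (h1 : ∀ i, v i * (star (v i) * v i) = v i)
    (h2 : ∀ i j, i ≠ j → star (v i) * v j = 0) (h3 : ∀ i j, i ≠ j → v i * star (v j) = 0) :
    ∃ w ∈ M, IsSum v w ∧ IsSum (fun i => star (v i)) (star w) ∧
      IsSum (fun i => star (v i) * v i) (star w * w) ∧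
      IsSum (fun i => v i * star (v i)) (w * star w) := by
  have key : ∀ v : I → H →L[ℂ] H, (∀ i, v i * (star (v i) * v i) = v i) →
      (∀ i j, i ≠ j → star (v i) * v j = 0) → (∀ i j, i ≠ j → v i * star (v j) = 0) →
      ∃ w : H →L[ℂ] H, IsSum v w := by
    intro v h1 h2 h3
    obtain ⟨w, hw, _⟩ := vnSum_exists v zero_le_one h2 (by
      intro F x
      rw [one_mul]
      have hn : ∀ i, ‖v i x‖ = ‖(star (v i) * v i) x‖ := by
        intro i
        have e1 : ((‖v i x‖ ^ 2 : ℝ) : ℂ) = ⟪x, (star (v i) * v i) x⟫_ℂ := by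
          rw [vnSum_norm_sq_coe, vnSum_inner_star_mul]
        have e2 : ((‖(star (v i) * v i) x‖ ^ 2 : ℝ) : ℂ) = ⟪x, (star (v i) * v i) x⟫_ℂ := by
          have e4 : star (star (v i) * v i) = star (v i) * v i := by
            rw [star_mul, star_star]
          have e5 : (star (v i) * v i) * (star (v i) * v i) = star (v i) * v i := by
            rw [mul_assoc, h1]
          rw [vnSum_norm_sq_coe, vnSum_inner_star_mul, e4, e5]
        have e6 : ‖v i x‖ ^ 2 = ‖(star (v i) * v i) x‖ ^ 2 := by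
          have := e1.trans e2.symm
          exact_mod_cast this
        exact (sq_eq_sq₀ (norm_nonneg _) (norm_nonneg _)).mp e6
      simp only [hn]
      apply vnSum_bessel
      · intro i; rw [star_mul, star_star]
      · intro i; rw [mul_assoc, h1]
      · intro i j hij
        rw [mul_assoc, ← mul_assoc (v i), h3 i j hij, zero_mul, mul_zero])
    exact ⟨w, hw⟩
  obtain ⟨w, hw⟩ := key v h1 h2 h3
  obtain ⟨w', hw'⟩ := key (fun i => star (v i)) (by
    intro i
    have := congrArg star (h1 i)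
    simp only [star_mul, star_star] at this ⊢
    rw [← mul_assoc]
    exact this) (by
    intro i j hij
    simp only [star_star]
    exact h3 i j hij) (by
    intro i j hij
    simp only [star_star]
    exact h2 i j hij)
  have hww : w' = star w := by
    apply ContinuousLinearMap.ext
    intro x
    apply ext_inner_right ℂ
    intro y
    rw [ContinuousLinearMap.star_eq_adjoint, ContinuousLinearMap.adjoint_inner_left]
    have e1 : HasSum (fun i => ⟪star (v i) x, y⟫_ℂ) ⟪w' x, y⟫_ℂ := by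
      have := (hw' x).mapL ((innerSL ℂ).flip y)
      simpa using this
    have e2 : HasSum (fun i => ⟪x, v i y⟫_ℂ) ⟪x, w y⟫_ℂ := by
      have := (hw y).mapL (innerSL ℂ x)
      simpa using this
    have e3 : (fun i => ⟪star (v i) x, y⟫_ℂ) = fun i => ⟪x, v i y⟫_ℂ := by
      funext i
      rw [ContinuousLinearMap.star_eq_adjoint, ContinuousLinearMap.adjoint_inner_left]
    rw [e3] at e1
    exact e1.unique e2
  subst hww
  have ha : ∀ i, star w * v i = star (v i) * v i := by
    intro i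
    have e1 := hw'.mul_right (v i)
    have e2 := IsSum.single_of (fun j => star (v j) * v i) i (fun j hj => h2 j i hj)
    exact e1.unique e2
  have hb : ∀ i, w * star (v i) = v i * star (v i) := by
    intro i
    have e1 := hw.mul_right (star (v i))
    have e2 := IsSum.single_of (fun j => v j * star (v i)) i (fun j hj => h3 j i hj)
    exact e1.unique e2
  refine ⟨w, hw.mem hv, hw, hw', ?_, ?_⟩
  · have := hw.mul_left (star w)
    simpa only [ha] using this
  · have := hw'.mul_left w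
    simpa only [hb] using this

/-- sum of an orthogonal family of projections -/
theorem exists_sum_proj {I : Type*} (e : I → H →L[ℂ] H) (he : ∀ i, IsPr M (e i))
    (ho : ∀ i j, i ≠ j → e i * e j = 0) :
    ∃ s, IsPr M s ∧ IsSum e s ∧ (∀ i, Le (e i) s) := by
  obtain ⟨s, hsM, hs, hs', hss, _⟩ := exists_sum_pi (M := M) e (fun i => (he i).mem)
    (fun i => by rw [(he i).sa, (he i).idem, (he i).idem])
    (fun i j hij => by rw [(he i).sa]; exact ho i j hij)
    (fun i j hij => by rw [(he j).sa]; exact ho i j hij)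
  simp only [fun i => (he i).sa] at hs' hss
  simp only [fun i => (he i).idem] at hss
  have hsa : star s = s := hs'.unique hs
  refine ⟨s, ⟨hsM, ?_, hsa⟩, hs, ?_⟩
  · have := hss.unique hs
    rw [hsa] at this
    exact this
  · intro i
    have e1 := hs.mul_right (e i)
    have e2 := IsSum.single_of (fun j => e j * e i) i (fun j hj => ho j i hj)
    have e3 := e1.unique e2
    rw [(he i).idem] at e3
    exact e3

/-- a bounded family with orthogonal central supports can be summed -/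
theorem exists_sum_central {I : Type*} (z : I → H →L[ℂ] H) (hz : ∀ i, IsCPr M (z i))
    (ho : ∀ i j, i ≠ j → z i * z j = 0) (x : I → H →L[ℂ] H) (hx : ∀ i, x i ∈ M)
    (hxz : ∀ i, z i * x i = x i) {C : ℝ} (hC : ∀ i, ‖x i‖ ≤ C) :
    ∃ w ∈ M, IsSum x w ∧ (∀ i, z i * w = x i) ∧ ‖w‖ ≤ |C| := by
  obtain ⟨w, hw, hwn⟩ := vnSum_exists x (abs_nonneg C) (by
    intro i j hij
    rw [← hxz i, ← hxz j, star_mul, (hz i).sa, mul_assoc, ← mul_assoc (z i), ho i j hij,
      zero_mul, mul_zero]) (by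
    intro F ξ
    have h1 : ∀ i, ‖x i ξ‖ ^ 2 ≤ C ^ 2 * ‖z i ξ‖ ^ 2 := by
      intro i
      have h2 : x i ξ = x i (z i ξ) := by
        conv_lhs => rw [← hxz i, (hz i).comm _ (hx i)]
        rfl
      rw [h2, ← mul_pow]
      apply pow_le_pow_left₀ (norm_nonneg _)
      exact ((x i).le_opNorm _).trans (mul_le_mul_of_nonneg_right (hC i) (norm_nonneg _))
    calc ∑ i ∈ F, ‖x i ξ‖ ^ 2 ≤ ∑ i ∈ F, C ^ 2 * ‖z i ξ‖ ^ 2 := Finset.sum_le_sum fun i _ => h1 i
      _ = C ^ 2 * ∑ i ∈ F, ‖z i ξ‖ ^ 2 := (Finset.mul_sum _ _ _).symm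
      _ ≤ C ^ 2 * ‖ξ‖ ^ 2 := by
          apply mul_le_mul_of_nonneg_left _ (sq_nonneg C)
          exact vnSum_bessel z (fun i => (hz i).sa) (fun i => (hz i).idem) ho F ξ
      _ = (|C| * ‖ξ‖) ^ 2 := by rw [mul_pow, sq_abs])
  refine ⟨w, hw.mem hx, hw, ?_, hwn⟩
  intro i
  have e1 := hw.mul_left (z i)
  have e2 := IsSum.single_of (fun j => z i * x j) i (fun j hj => by
    rw [← hxz j, ← mul_assoc, ho i j hj.symm, zero_mul])
  rw [e1.unique e2, hxz]

/-- a projection that contains all `e i` contains their sum -/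
lemma IsSum.le_of {I : Type*} {e : I → H →L[ℂ] H} {s f : H →L[ℂ] H} (h : IsSum e s)
    (hf : ∀ i, Le (e i) f) : Le s f := by
  have e1 := h.mul_left f
  have e2 : (fun i => f * e i) = e := funext fun i => hf i
  rw [e2] at e1
  exact e1.unique h

end Vale.Agent.P082.VN
end

section
attribute [local instance] Vale.Agent.P082.AlgFast.nr Vale.Agent.P082.AlgFast.na
  Vale.Agent.P082.AlgFast.sr Vale.Agent.P082.AlgFast.ng Vale.Agent.P082.AlgFast.sg
  Vale.Agent.P082.AlgFast.ns Vale.Agent.P082.AlgFast.ri Vale.Agent.P082.AlgFast.ag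
  Vale.Agent.P082.AlgFast.am Vale.Agent.P082.AlgFast.mo Vale.Agent.P082.AlgFast.pm
  Vale.Agent.P082.AlgFast.us Vale.Agent.P082.AlgFast.ts Vale.Agent.P082.AlgFast.ets
  Vale.Agent.P082.AlgFast.eng Vale.Agent.P082.AlgFast.esg Vale.Agent.P082.AlgFast.ens
  Vale.Agent.P082.AlgFast.eam Vale.Agent.P082.AlgFast.emo Vale.Agent.P082.AlgFast.nu
  Vale.Agent.P082.AlgFast.sag Vale.Agent.P082.AlgFast.agr Vale.Agent.P082.AlgFast.mon
  Vale.Agent.P082.AlgFast.srg

open scoped InnerProductSpace ComplexConjugate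

namespace Vale.Agent.P082.VN

universe u

variable {H : Type u} [NormedAddCommGroup H] [InnerProductSpace ℂ H] [CompleteSpace H]
  {M : VonNeumannAlgebra H}

/-- an operator which vanishes on the range and on the kernel of a self-adjoint operator is zero -/
theorem polar_eq_zero {a T : H →L[ℂ] H} (ha : star a = a) (h1 : T * a = 0)
    (h2 : ∀ ξ, a ξ = 0 → T ξ = 0) : T = 0 := by
  have h3 : a * star T = 0 := by
    have := congrArg star h1
    rwa [star_mul, ha, star_zero] at this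
  have h4 : star T = 0 := by
    ext y
    have h5 : T (star T y) = 0 := h2 _ (by
      have := congrArg (fun S : H →L[ℂ] H => S y) h3
      simpa using this)
    have h6 : ⟪star T y, star T y⟫_ℂ = 0 := by
      rw [ContinuousLinearMap.star_eq_adjoint, ContinuousLinearMap.adjoint_inner_left,
        ← ContinuousLinearMap.star_eq_adjoint, h5, inner_zero_right]
    simpa using inner_self_eq_zero.mp h6
  have := congrArg star h4
  simpa using this

/-- polar decomposition: the partial isometry of `x` -/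
theorem exists_polar {x : H →L[ℂ] H} (hx : x ∈ M) :
    ∃ v ∈ M, v * (star v * v) = v ∧ x * (star v * v) = x ∧ (v * star v) * x = x ∧
      (∀ ξ, x ξ = 0 → v ξ = 0) ∧ (∀ ξ, star x ξ = 0 → star v ξ = 0) := by
  set a : H →L[ℂ] H := CFC.sqrt (star x * x) with ha_def
  have hann : 0 ≤ a := CFC.sqrt_nonneg _
  have ha : star a = a := (IsSelfAdjoint.of_nonneg hann).star_eq
  have haa : a * a = star x * x := CFC.sqrt_mul_sqrt_self _ (star_mul_self_nonneg x)
  have haM : ∀ S : H →L[ℂ] H, (∀ y ∈ M, S * y = y * S) → S * a = a * S := by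
    intro S hS
    have hc : Commute (star x * x) S := (hS _ (mul_mem (star_mem hx) hx)).symm
    exact (hc.cfcₙ_nnreal NNReal.sqrt).symm.eq
  have hadj : ∀ (T : H →L[ℂ] H) (ξ η : H), ⟪T ξ, η⟫_ℂ = ⟪ξ, star T η⟫_ℂ := by
    intro T ξ η
    rw [ContinuousLinearMap.star_eq_adjoint, ContinuousLinearMap.adjoint_inner_right]
  have hadj' : ∀ (T : H →L[ℂ] H) (ξ η : H), ⟪star T ξ, η⟫_ℂ = ⟪ξ, T η⟫_ℂ := by
    intro T ξ η
    rw [ContinuousLinearMap.star_eq_adjoint, ContinuousLinearMap.adjoint_inner_left]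
  have hinner : ∀ ξ η : H, ⟪a ξ, a η⟫_ℂ = ⟪x ξ, x η⟫_ℂ := by
    intro ξ η
    rw [hadj, hadj, ha]
    have := congrArg (fun S : H →L[ℂ] H => S η) haa
    simp only [mul_apply_eq_comp] at this
    rw [this]
  have hnorm : ∀ ξ : H, ‖x ξ‖ = ‖a ξ‖ := by
    intro ξ
    have := hinner ξ ξ
    rw [inner_self_eq_norm_sq_to_K, inner_self_eq_norm_sq_to_K] at this
    have h2 : ‖a ξ‖ ^ 2 = ‖x ξ‖ ^ 2 := by exact_mod_cast this
    exact ((sq_eq_sq₀ (norm_nonneg _) (norm_nonneg _)).mp h2).symm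
  -- the closure of the range of `a`
  let L : Submodule ℂ H := (LinearMap.range (a : H →ₗ[ℂ] H)).topologicalClosure
  have : CompleteSpace L := (Submodule.isClosed_topologicalClosure _).completeSpace_coe
  have hmemL : ∀ ξ, (a : H →ₗ[ℂ] H) ξ ∈ L := fun ξ => Submodule.le_topologicalClosure _ ⟨ξ, rfl⟩
  let e : H →ₗ[ℂ] L := (a : H →ₗ[ℂ] H).codRestrict L hmemL
  have hdense : DenseRange e := by
    intro y
    rw [Topology.IsEmbedding.subtypeVal.closure_eq_preimage_closure_image]
    have hy : (y : H) ∈ closure (Set.range (a : H →ₗ[ℂ] H)) := by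
      have := y.2
      rw [← SetLike.mem_coe, Submodule.topologicalClosure_coe, LinearMap.coe_range] at this
      exact this
    have hr : (Subtype.val '' Set.range e : Set H) = Set.range (a : H →ₗ[ℂ] H) := by
      rw [← Set.range_comp]
      rfl
    change (y : H) ∈ closure _
    rw [hr]
    exact hy
  have hbd : ∀ ξ, ‖(x : H →ₗ[ℂ] H) ξ‖ ≤ 1 * ‖e ξ‖ := by
    intro ξ
    rw [one_mul]
    exact (hnorm ξ).le
  let W : L →L[ℂ] H := (x : H →ₗ[ℂ] H).extendOfNorm e
  have hW : ∀ ξ, W (e ξ) = x ξ := fun ξ => LinearMap.extendOfNorm_eq hdense ⟨1, hbd⟩ ξ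
  let v : H →L[ℂ] H := W ∘L L.orthogonalProjectionOnto
  have hva : v * a = x := by
    ext ξ
    have : L.orthogonalProjectionOnto (a ξ) = e ξ :=
      Submodule.orthogonalProjectionOnto_mem_subspace_eq_self (K := L) (e ξ)
    change W (L.orthogonalProjectionOnto (a ξ)) = x ξ
    rw [this, hW]
  have hvker : ∀ ξ, a ξ = 0 → v ξ = 0 := by
    intro ξ hξ
    have h1 : ξ ∈ Lᗮ := by
      rw [Submodule.orthogonal_closure, Submodule.mem_orthogonal]
      rintro _ ⟨η, rfl⟩
      change ⟪a η, ξ⟫_ℂ = 0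
      rw [hadj, ha, hξ, inner_zero_right]
    have h2 : L.orthogonalProjectionOnto ξ = 0 :=
      Submodule.orthogonalProjectionOnto_apply_of_mem_orthogonal h1
    change W (L.orthogonalProjectionOnto ξ) = 0
    rw [h2, map_zero]
  have hvva : star v * v * a = a := by
    -- `z = star v * v * a ξ - a ξ` is orthogonal to the range of `a` and is in its closure
    rw [mul_assoc, hva]
    have h1 : a * (star v * x - a) = 0 := by
      have h2 : a * star v = star x := by
        have := congrArg star hva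
        rwa [star_mul, ha] at this
      rw [mul_sub, ← mul_assoc, h2, haa, sub_self]
    have h3 : star (star v * x - a) = 0 := by
      refine polar_eq_zero ha ?_ ?_
      · have := congrArg star h1
        rwa [star_mul, ha, star_zero] at this
      · intro ξ hξ
        have hxξ : x ξ = 0 := by
          rw [← norm_eq_zero, hnorm, hξ, norm_zero]
        rw [star_sub, star_mul, star_star, ha]
        simp only [sub_apply, mul_apply_eq_comp, hvker ξ hξ,
          map_zero, hξ, sub_zero]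
    have h4 := congrArg star h3
    rw [star_star, star_zero, sub_eq_zero] at h4
    exact h4
  have hxker : ∀ ξ, a ξ = 0 → x ξ = 0 := fun ξ hξ => by
    rw [← norm_eq_zero, hnorm, hξ, norm_zero]
  have haker : ∀ ξ, x ξ = 0 → a ξ = 0 := fun ξ hξ => by
    rw [← norm_eq_zero, ← hnorm, hξ, norm_zero]
  refine ⟨v, ?_, ?_, ?_, ?_, fun ξ hξ => hvker ξ (haker ξ hξ), ?_⟩
  · refine mem_of_commutes M v (fun S hS => ?_)
    have h1 : S * v - v * S = 0 := by
      refine polar_eq_zero ha ?_ ?_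
      · rw [sub_mul, mul_assoc, hva, mul_assoc, haM S hS, ← mul_assoc, hva, hS x hx, sub_self]
      · intro ξ hξ
        have h2 : a (S ξ) = 0 := by
          have := congrArg (fun T : H →L[ℂ] H => T ξ) (haM S hS)
          simp only [mul_apply_eq_comp] at this
          rw [← this, hξ, map_zero]
        simp only [sub_apply, mul_apply_eq_comp, hvker ξ hξ,
          map_zero, hvker _ h2, sub_zero]
    exact sub_eq_zero.mp h1
  · have h1 : v * (star v * v) - v = 0 := by
      refine polar_eq_zero ha ?_ ?_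
      · rw [sub_mul, mul_assoc, hvva, sub_self]
      · intro ξ hξ
        simp only [sub_apply, mul_apply_eq_comp, hvker ξ hξ,
          map_zero, sub_zero]
    exact sub_eq_zero.mp h1
  · have h1 : x * (star v * v) - x = 0 := by
      refine polar_eq_zero ha ?_ ?_
      · rw [sub_mul, mul_assoc, hvva, sub_self]
      · intro ξ hξ
        simp only [sub_apply, mul_apply_eq_comp, hvker ξ hξ,
          map_zero, hxker ξ hξ, sub_zero]
    exact sub_eq_zero.mp h1
  · calc v * star v * x = v * (star v * v * a) := by rw [← hva]; simp only [mul_assoc]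
      _ = x := by rw [hvva, hva]
  · intro ξ hξ
    have h1 : a (star v ξ) = 0 := by
      have h2 : a * star v = star x := by
        have := congrArg star hva
        rwa [star_mul, ha] at this
      have := congrArg (fun T : H →L[ℂ] H => T ξ) h2
      simp only [mul_apply_eq_comp] at this
      rw [this, hξ]
    have h2 := hvker _ h1
    have h3 : ⟪star v ξ, star v ξ⟫_ℂ = 0 := by
      rw [hadj', h2, inner_zero_right]
    exact inner_self_eq_zero.mp h3

/-- if `f M e ≠ 0` then `e` and `f` have equivalent nonzero subprojections -/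
theorem exists_pi_of_ne_zero {e f x : H →L[ℂ] H} (he : IsPr M e) (hf : IsPr M f) (hx : x ∈ M)
    (h : f * x * e ≠ 0) :
    ∃ v ∈ M, v ≠ 0 ∧ v * (star v * v) = v ∧ v * e = v ∧ f * v = v := by
  obtain ⟨v, hv, h1, h2, h3, h4, h5⟩ :=
    exists_polar (M := M) (mul_mem (mul_mem hf.mem hx) he.mem : f * x * e ∈ M)
  refine ⟨v, hv, ?_, h1, ?_, ?_⟩
  · rintro rfl
    apply h
    rw [← h3]; simp
  · ext ξ
    have : (f * x * e) (ξ - e ξ) = 0 := by
      have he' : e (e ξ) = e ξ := by
        have := congrArg (fun S : H →L[ℂ] H => S ξ) he.idem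
        simpa using this
      simp [he']
    have h6 := h4 _ this
    rw [map_sub, sub_eq_zero] at h6
    simpa using h6.symm
  · have h6 : star v * f = star v := by
      ext ξ
      have : star (f * x * e) (ξ - f ξ) = 0 := by
        have hf' : f (f ξ) = f ξ := by
          have := congrArg (fun S : H →L[ℂ] H => S ξ) hf.idem
          simpa using this
        simp [star_mul, hf.sa, hf']
      have h6 := h5 _ this
      rw [map_sub, sub_eq_zero] at h6
      simpa using h6.symm
    have := congrArg star h6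
    rwa [star_mul, star_star, hf.sa] at this

end Vale.Agent.P082.VN
end

section
attribute [local instance] Vale.Agent.P082.AlgFast.nr Vale.Agent.P082.AlgFast.na
  Vale.Agent.P082.AlgFast.sr Vale.Agent.P082.AlgFast.ng Vale.Agent.P082.AlgFast.sg
  Vale.Agent.P082.AlgFast.ns Vale.Agent.P082.AlgFast.ri Vale.Agent.P082.AlgFast.ag
  Vale.Agent.P082.AlgFast.am Vale.Agent.P082.AlgFast.mo Vale.Agent.P082.AlgFast.pm
  Vale.Agent.P082.AlgFast.us Vale.Agent.P082.AlgFast.ts Vale.Agent.P082.AlgFast.ets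
  Vale.Agent.P082.AlgFast.eng Vale.Agent.P082.AlgFast.esg Vale.Agent.P082.AlgFast.ens
  Vale.Agent.P082.AlgFast.eam Vale.Agent.P082.AlgFast.emo Vale.Agent.P082.AlgFast.nu
  Vale.Agent.P082.AlgFast.sag Vale.Agent.P082.AlgFast.agr Vale.Agent.P082.AlgFast.mon
  Vale.Agent.P082.AlgFast.srg

set_option linter.unusedSectionVars false

open scoped InnerProductSpace ComplexConjugate

namespace Vale.Agent.P082.VN

universe u

variable {H : Type u} [NormedAddCommGroup H] [InnerProductSpace ℂ H] [CompleteSpace H]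
  {M : VonNeumannAlgebra H}

theorem cover_commute_starProjection (K : Submodule ℂ H) [K.HasOrthogonalProjection]
    {y : H →L[ℂ] H} (hy : ∀ v ∈ K, y v ∈ K) (hy' : ∀ v ∈ K, star y v ∈ K) :
    y * K.starProjection = K.starProjection * y := by
  ext v
  show y (K.starProjection v) = K.starProjection (y v)
  refine (Submodule.eq_starProjection_of_mem_orthogonal' (K := K)
    (hy _ (K.starProjection_apply_mem v)) (z := y (v - K.starProjection v)) ?_ ?_).symm
  · rw [Submodule.mem_orthogonal]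
    intro w hw
    rw [← ContinuousLinearMap.adjoint_inner_left, ← ContinuousLinearMap.star_eq_adjoint]
    exact (Submodule.mem_orthogonal _ _).1 (K.sub_starProjection_mem_orthogonal v) _ (hy' w hw)
  · rw [← map_add]; congr 1; abel

/-- an operator mapping a set into the closed span maps the closed span into itself -/
theorem cover_invariant {S : Set H} {y : H →L[ℂ] H}
    (hS : ∀ ξ ∈ S, y ξ ∈ Submodule.topologicalClosure (Submodule.span ℂ S)) :
    ∀ v ∈ Submodule.topologicalClosure (Submodule.span ℂ S),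
      y v ∈ Submodule.topologicalClosure (Submodule.span ℂ S) := by
  have h1 : ∀ v ∈ Submodule.span ℂ S,
      y v ∈ Submodule.topologicalClosure (Submodule.span ℂ S) := by
    intro v hv
    induction hv using Submodule.span_induction with
    | mem v hv => exact hS v hv
    | zero => rw [map_zero]; exact Submodule.zero_mem _
    | add v w _ _ hv hw => rw [map_add]; exact Submodule.add_mem _ hv hw
    | smul c v _ hv => rw [map_smul]; exact Submodule.smul_mem _ _ hv
  intro v hv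
  have h2 : v ∈ closure (Submodule.span ℂ S : Set H) := hv
  have h3 : y v ∈ closure (Submodule.topologicalClosure (Submodule.span ℂ S) : Set H) :=
    map_mem_closure y.continuous h2 h1
  rwa [(Submodule.isClosed_topologicalClosure _).closure_eq] at h3

/-- an operator vanishing on a set vanishes on the closed span -/
theorem cover_vanish {S : Set H} {y : H →L[ℂ] H} (hS : ∀ ξ ∈ S, y ξ = 0) :
    ∀ v ∈ Submodule.topologicalClosure (Submodule.span ℂ S), y v = 0 := by
  have h1 : Submodule.span ℂ S ≤ y.ker := by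
    rw [Submodule.span_le]
    intro ξ hξ
    exact LinearMap.mem_ker.2 (hS ξ hξ)
  have h2 : Submodule.topologicalClosure (Submodule.span ℂ S) ≤ y.ker :=
    Submodule.topologicalClosure_minimal _ h1 y.isClosed_ker
  exact fun v hv => LinearMap.mem_ker.1 (h2 hv)

theorem cover_star_comm {y : H →L[ℂ] H} (hy : ∀ x ∈ M, y * x = x * y) :
    ∀ x ∈ M, star y * x = x * star y := by
  intro x hx
  have h := congrArg star (hy (star x) (star_mem hx))
  rw [star_mul, star_mul, star_star] at h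
  exact h.symm

/-- the projection onto the closed span, with its properties -/
theorem cover_exists (S : Set H)
    (hS : ∀ y, (∀ x ∈ M, y * x = x * y) → ∀ ξ ∈ S, y ξ ∈ Submodule.topologicalClosure
      (Submodule.span ℂ S)) :
    ∃ p, IsPr M p ∧ (∀ ξ ∈ S, p ξ = ξ) ∧
      (∀ T : H →L[ℂ] H, (∀ ξ ∈ S, T ξ = 0) → T * p = 0) ∧
      ((∀ y ∈ M, ∀ ξ ∈ S, y ξ ∈ Submodule.topologicalClosure (Submodule.span ℂ S)) →
        ∀ x ∈ M, p * x = x * p) := by
  have : CompleteSpace (Submodule.topologicalClosure (Submodule.span ℂ S)) :=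
    (Submodule.isClosed_topologicalClosure _).completeSpace_coe
  obtain ⟨K, hK⟩ : ∃ K, K = Submodule.topologicalClosure (Submodule.span ℂ S) := ⟨_, rfl⟩
  rw [← hK] at this hS
  have hsub : ∀ ξ ∈ S, ξ ∈ K := fun ξ hξ => by
    rw [hK]
    exact Submodule.le_topologicalClosure _ (Submodule.subset_span hξ)
  refine ⟨K.starProjection, ⟨?_, ?_, ?_⟩, fun ξ hξ => ?_, fun T hT => ?_, fun hM x hx => ?_⟩
  · refine mem_of_commutes M _ fun y hy => ?_
    refine cover_commute_starProjection K ?_ ?_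
    · rw [hK]
      refine cover_invariant fun ξ hξ => ?_
      rw [← hK]
      exact hS y hy ξ hξ
    · rw [hK]
      refine cover_invariant fun ξ hξ => ?_
      rw [← hK]
      exact hS _ (cover_star_comm hy) ξ hξ
  · exact (isStarProjection_starProjection (U := K)).isIdempotentElem
  · exact (isStarProjection_starProjection (U := K)).isSelfAdjoint
  · exact Submodule.starProjection_eq_self_iff.2 (hsub ξ hξ)
  · ext v
    show T (K.starProjection v) = 0
    have h2 : ∀ w ∈ K, T w = 0 := by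
      rw [hK]
      exact cover_vanish hT
    exact h2 _ (K.starProjection_apply_mem v)
  · refine (cover_commute_starProjection K ?_ ?_).symm
    · rw [hK]
      exact cover_invariant (hM x hx)
    · rw [hK]
      exact cover_invariant (hM _ (star_mem hx))

/-- central cover of a projection -/
theorem exists_central_cover {e : H →L[ℂ] H} (he : IsPr M e) :
    ∃ z, IsCPr M z ∧ z * e = e ∧
      ∀ f : H →L[ℂ] H, IsPr M f → (∀ x ∈ M, f * x * e = 0) → f * z = 0 := by
  have hsub : ∀ {S : Set H} {ζ : H}, ζ ∈ S →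
      ζ ∈ Submodule.topologicalClosure (Submodule.span ℂ S) := fun h =>
    Submodule.le_topologicalClosure _ (Submodule.subset_span h)
  obtain ⟨p, hp, h1, h2, h3⟩ := cover_exists (M := M)
    {ζ : H | ∃ y ∈ M, ∃ ξ, ζ = y (e ξ)} (by
      rintro y' hy' ζ ⟨y, hy, ξ, rfl⟩
      refine hsub ⟨y, hy, y' ξ, ?_⟩
      have e1 : y' (y (e ξ)) = y (y' (e ξ)) := DFunLike.congr_fun (hy' y hy) (e ξ)
      have e2 : y' (e ξ) = e (y' ξ) := DFunLike.congr_fun (hy' e he.mem) ξ
      rw [e1, e2])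
  have h4 := h3 (by
    rintro x hx ζ ⟨y, hy, ξ, rfl⟩
    exact hsub ⟨x * y, mul_mem hx hy, ξ, rfl⟩)
  refine ⟨p, ⟨hp, h4⟩, ?_, fun f hf hfe => ?_⟩
  · ext ξ
    exact h1 _ ⟨1, one_mem M, ξ, rfl⟩
  · refine h2 f ?_
    rintro ζ ⟨y, hy, ξ, rfl⟩
    exact DFunLike.congr_fun (hfe y hy) ξ

/-- central cover of a vector -/
theorem exists_central_vec (η : H) :
    ∃ z, IsCPr M z ∧ z η = η ∧ ∀ c, IsCPr M c → c η = 0 → c * z = 0 := by
  have hsub : ∀ {S : Set H} {ζ : H}, ζ ∈ S →
      ζ ∈ Submodule.topologicalClosure (Submodule.span ℂ S) := fun h =>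
    Submodule.le_topologicalClosure _ (Submodule.subset_span h)
  obtain ⟨p, hp, h1, h2, h3⟩ := cover_exists (M := M)
    {ζ : H | ∃ x ∈ M, ∃ y : H →L[ℂ] H, (∀ a ∈ M, y * a = a * y) ∧ ζ = x (y η)} (by
      rintro y' hy' ζ ⟨x, hx, y, hy, rfl⟩
      refine hsub ⟨x, hx, y' * y, fun a ha => ?_, ?_⟩
      · rw [mul_assoc, hy a ha, ← mul_assoc, hy' a ha, mul_assoc]
      · exact DFunLike.congr_fun (hy' x hx) (y η))
  have h4 := h3 (by
    rintro x' hx' ζ ⟨x, hx, y, hy, rfl⟩
    exact hsub ⟨x' * x, mul_mem hx' hx, y, hy, rfl⟩)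
  refine ⟨p, ⟨hp, h4⟩, ?_, fun c hc hcη => ?_⟩
  · exact h1 _ ⟨1, one_mem M, 1, fun a _ => by rw [one_mul, mul_one], rfl⟩
  · refine h2 c ?_
    rintro ζ ⟨x, hx, y, hy, rfl⟩
    have e1 : c (x (y η)) = x (c (y η)) := DFunLike.congr_fun (hc.comm x hx) (y η)
    have e2 : y (c η) = c (y η) := DFunLike.congr_fun (hy c hc.mem) η
    rw [e1, ← e2, hcη, map_zero, map_zero]

/-- support projection of a vector state -/
theorem exists_support_vec (ξ : H) :
    ∃ p, IsPr M p ∧ p ξ = ξ ∧ ∀ x ∈ M, x ξ = 0 → x * p = 0 := by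
  have hsub : ∀ {S : Set H} {ζ : H}, ζ ∈ S →
      ζ ∈ Submodule.topologicalClosure (Submodule.span ℂ S) := fun h =>
    Submodule.le_topologicalClosure _ (Submodule.subset_span h)
  obtain ⟨p, hp, h1, h2, -⟩ := cover_exists (M := M)
    {ζ : H | ∃ y : H →L[ℂ] H, (∀ a ∈ M, y * a = a * y) ∧ ζ = y ξ} (by
      rintro y' hy' ζ ⟨y, hy, rfl⟩
      refine hsub ⟨y' * y, fun a ha => ?_, rfl⟩
      rw [mul_assoc, hy a ha, ← mul_assoc, hy' a ha, mul_assoc])
  refine ⟨p, hp, h1 _ ⟨1, fun a _ => by rw [one_mul, mul_one], rfl⟩, fun x hx hxξ => ?_⟩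
  refine h2 x ?_
  rintro ζ ⟨y, hy, rfl⟩
  have e1 : y (x ξ) = x (y ξ) := DFunLike.congr_fun (hy x hx) ξ
  rw [← e1, hxξ, map_zero]

theorem cover_isClosed (P : VonNeumannAlgebra H) :
    IsClosed (P.toStarSubalgebra : Set (H →L[ℂ] H)) := by
  have h : (P.toStarSubalgebra : Set (H →L[ℂ] H)) =
      Set.centralizer (Set.centralizer (P : Set (H →L[ℂ] H))) := P.centralizer_centralizer.symm
  rw [h]
  exact Set.isClosed_centralizer _

/-- every element is a combination of four unitaries -/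
theorem cover_four_unitary (P : VonNeumannAlgebra H) {x : H →L[ℂ] H} (hx : x ∈ P) :
    ∃ (w : Fin 4 → H →L[ℂ] H) (c : Fin 4 → ℂ), (∀ i, w i ∈ P ∧ star (w i) * w i = 1 ∧
      w i * star (w i) = 1) ∧ x = ∑ i, c i • w i := by
  have hcl : IsClosed ((P.toStarSubalgebra : Set (H →L[ℂ] H))) := cover_isClosed P
  obtain ⟨w, c, hwc, -⟩ := CStarAlgebra.exists_sum_four_unitary
    (⟨x, hx⟩ : P.toStarSubalgebra)
  refine ⟨fun i => ((w i : P.toStarSubalgebra) : H →L[ℂ] H), c, fun i => ⟨?_, ?_, ?_⟩, ?_⟩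
  · exact (w i : P.toStarSubalgebra).2
  · exact congrArg (fun z : P.toStarSubalgebra => (z : H →L[ℂ] H))
      (Unitary.star_mul_self_of_mem (w i).2)
  · exact congrArg (fun z : P.toStarSubalgebra => (z : H →L[ℂ] H))
      (Unitary.mul_star_self_of_mem (w i).2)
  · have h3 := congrArg (fun z : P.toStarSubalgebra => (z : H →L[ℂ] H)) hwc
    refine Eq.trans h3 ?_
    simp

theorem cover_inner_unitary {w : H →L[ℂ] H} (h1 : star w * w = 1) (a b : H) :
    ⟪w a, w b⟫_ℂ = ⟪a, b⟫_ℂ := by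
  rw [← ContinuousLinearMap.adjoint_inner_right, ← ContinuousLinearMap.star_eq_adjoint]
  congr 1
  exact DFunLike.congr_fun h1 b

theorem cover_norm_unitary {w : H →L[ℂ] H} (h1 : star w * w = 1) (a : H) : ‖w a‖ = ‖a‖ := by
  have h := cover_inner_unitary h1 a a
  rw [inner_self_eq_norm_sq_to_K, inner_self_eq_norm_sq_to_K] at h
  have h2 : ‖w a‖ ^ 2 = ‖a‖ ^ 2 := by exact_mod_cast h
  exact (sq_eq_sq₀ (norm_nonneg _) (norm_nonneg _)).1 h2

theorem cover_trVec_comm {ξ : ℕ → H} (hξ : TrVec M ξ) {w : H →L[ℂ] H}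
    (hw : ∀ x ∈ M, w * x = x * w) (h1 : star w * w = 1) : TrVec M (fun n => w (ξ n)) := by
  refine ⟨hξ.1.congr fun n => by rw [cover_norm_unitary h1], fun x hx y hy => ?_⟩
  have key : ∀ a ∈ M, ∀ b ∈ M, ∀ n, ⟪w (ξ n), a (b (w (ξ n)))⟫_ℂ = ⟪ξ n, a (b (ξ n))⟫_ℂ := by
    intro a ha b hb n
    have e1 : b (w (ξ n)) = w (b (ξ n)) := (DFunLike.congr_fun (hw b hb) (ξ n)).symm
    have e2 : a (w (b (ξ n))) = w (a (b (ξ n))) :=
      (DFunLike.congr_fun (hw a ha) (b (ξ n))).symm
    rw [e1, e2, cover_inner_unitary h1]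
  rw [tsum_congr (key x hx y hy), tsum_congr (key y hy x hx)]
  exact hξ.2 x hx y hy

theorem cover_trVec_mem {ξ : ℕ → H} (hξ : TrVec M ξ) {w : H →L[ℂ] H} (hw : w ∈ M)
    (h1 : star w * w = 1) (h2 : w * star w = 1) : TrVec M (fun n => w (ξ n)) := by
  refine ⟨hξ.1.congr fun n => by rw [cover_norm_unitary h1], fun x hx y hy => ?_⟩
  have key : ∀ a ∈ M, ∀ b ∈ M, ∑' n, ⟪w (ξ n), a (b (w (ξ n)))⟫_ℂ =
      ∑' n, ⟪ξ n, a (b (ξ n))⟫_ℂ := by
    intro a ha b hb
    have e1 := hξ.2 (star w) (star_mem hw) (a * b * w) (mul_mem (mul_mem ha hb) hw)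
    have e2 : ∀ n, ⟪w (ξ n), a (b (w (ξ n)))⟫_ℂ = ⟪ξ n, star w ((a * b * w) (ξ n))⟫_ℂ := by
      intro n
      rw [ContinuousLinearMap.star_eq_adjoint, ContinuousLinearMap.adjoint_inner_right]
      rfl
    have e3 : ∀ n, ⟪ξ n, (a * b * w) (star w (ξ n))⟫_ℂ = ⟪ξ n, a (b (ξ n))⟫_ℂ := by
      intro n
      have e4 : w (star w (ξ n)) = ξ n := DFunLike.congr_fun h2 (ξ n)
      show ⟪ξ n, a (b (w (star w (ξ n))))⟫_ℂ = _
      rw [e4]
    rw [tsum_congr e2, e1, tsum_congr e3]
  rw [key x hx y hy, key y hy x hx]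
  exact hξ.2 x hx y hy

/-- the projection onto the span of all tracial vectors is central -/
theorem exists_trace_proj (M : VonNeumannAlgebra H) :
    ∃ z, IsCPr M z ∧ (∀ ξ : ℕ → H, TrVec M ξ → ∀ n, z (ξ n) = ξ n) ∧
      ∀ x ∈ M, (∀ ξ : ℕ → H, TrVec M ξ → ∀ n, x (ξ n) = 0) → x * z = 0 := by
  obtain ⟨S, hS⟩ : ∃ S : Set H, S = {ζ : H | ∃ ξ : ℕ → H, TrVec M ξ ∧ ∃ n, ζ = ξ n} := ⟨_, rfl⟩
  have hspan : ∀ ζ ∈ Submodule.span ℂ S,
      ζ ∈ Submodule.topologicalClosure (Submodule.span ℂ S) := fun ζ h =>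
    Submodule.le_topologicalClosure _ h
  have happ : ∀ (w : Fin 4 → H →L[ℂ] H) (c : Fin 4 → ℂ) (v : H),
      (∑ i, c i • w i) v = ∑ i, c i • w i v := by
    intro w c v
    rw [sum_apply]
    rfl
  obtain ⟨p, hp, h1, h2, h3⟩ := cover_exists (M := M) S (by
      intro y hy ζ hζ
      have hy' : y ∈ M.commutant :=
        VonNeumannAlgebra.mem_commutant_iff.2 fun x hx => (hy x hx).symm
      obtain ⟨w, c, hw, rfl⟩ := cover_four_unitary M.commutant hy'
      refine hspan _ ?_
      rw [happ]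
      refine Submodule.sum_mem _ fun i _ => Submodule.smul_mem _ _ (Submodule.subset_span ?_)
      rw [hS] at hζ ⊢
      obtain ⟨ξ, hξ, n, rfl⟩ := hζ
      exact ⟨fun n => w i (ξ n), cover_trVec_comm hξ (fun x hx =>
        (VonNeumannAlgebra.mem_commutant_iff.1 (hw i).1 x hx).symm) (hw i).2.1, n, rfl⟩)
  have h4 := h3 (by
    intro y hy ζ hζ
    obtain ⟨w, c, hw, rfl⟩ := cover_four_unitary M hy
    refine hspan _ ?_
    rw [happ]
    refine Submodule.sum_mem _ fun i _ => Submodule.smul_mem _ _ (Submodule.subset_span ?_)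
    rw [hS] at hζ ⊢
    obtain ⟨ξ, hξ, n, rfl⟩ := hζ
    exact ⟨fun n => w i (ξ n), cover_trVec_mem hξ (hw i).1 (hw i).2.1 (hw i).2.2, n, rfl⟩)
  refine ⟨p, ⟨hp, h4⟩, fun ξ hξ n => ?_, fun x _ hx => ?_⟩
  · refine h1 _ ?_
    rw [hS]
    exact ⟨ξ, hξ, n, rfl⟩
  · refine h2 x fun ζ hζ => ?_
    rw [hS] at hζ
    obtain ⟨ξ, hξ, n, rfl⟩ := hζ
    exact hx ξ hξ n

end Vale.Agent.P082.VN
end

section
attribute [local instance] Vale.Agent.P082.AlgFast.nr Vale.Agent.P082.AlgFast.na
  Vale.Agent.P082.AlgFast.sr Vale.Agent.P082.AlgFast.ng Vale.Agent.P082.AlgFast.sg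
  Vale.Agent.P082.AlgFast.ns Vale.Agent.P082.AlgFast.ri Vale.Agent.P082.AlgFast.ag
  Vale.Agent.P082.AlgFast.am Vale.Agent.P082.AlgFast.mo Vale.Agent.P082.AlgFast.pm
  Vale.Agent.P082.AlgFast.us Vale.Agent.P082.AlgFast.ts Vale.Agent.P082.AlgFast.ets
  Vale.Agent.P082.AlgFast.eng Vale.Agent.P082.AlgFast.esg Vale.Agent.P082.AlgFast.ens
  Vale.Agent.P082.AlgFast.eam Vale.Agent.P082.AlgFast.emo Vale.Agent.P082.AlgFast.nu
  Vale.Agent.P082.AlgFast.sag Vale.Agent.P082.AlgFast.agr Vale.Agent.P082.AlgFast.mon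
  Vale.Agent.P082.AlgFast.srg

open scoped InnerProductSpace ComplexConjugate

namespace Vale.Agent.P082.VN

universe u

variable {H : Type u} [NormedAddCommGroup H] [InnerProductSpace ℂ H] [CompleteSpace H]
  {M : VonNeumannAlgebra H}

theorem spectral_smul_mem {x : H →L[ℂ] H} (hx : x ∈ M) (c : ℂ) : c • x ∈ M :=
  M.toStarSubalgebra.smul_mem hx c

theorem spectral_nonneg {T : H →L[ℂ] H} (hT : star T = T) (h : ∀ ξ, 0 ≤ (⟪ξ, T ξ⟫_ℂ).re) :
    0 ≤ T := by
  rw [ContinuousLinearMap.nonneg_iff_isPositive, ContinuousLinearMap.isPositive_def']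
  refine ⟨hT, fun ξ => ?_⟩
  rw [ContinuousLinearMap.reApplyInnerSelf_apply, inner_re_symm]
  exact h ξ

theorem spectral_re_nonneg {T : H →L[ℂ] H} (hT : 0 ≤ T) (ξ : H) : 0 ≤ (⟪ξ, T ξ⟫_ℂ).re :=
  ((ContinuousLinearMap.nonneg_iff_isPositive T).1 hT).re_inner_nonneg_right ξ

/-- spectral projection of a selfadjoint element -/
theorem exists_spectral_proj {a : H →L[ℂ] H} (ha : a ∈ M) (hsa : star a = a) :
    ∃ p, IsPr M p ∧ p * a = a * p ∧ (∀ ξ, 0 ≤ (⟪ξ, (a * p) ξ⟫_ℂ).re) ∧
      (∀ ξ, (⟪ξ, (a * (1 - p)) ξ⟫_ℂ).re ≤ 0) ∧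
      (∀ g, IsPr M g → g * a = a → Le p g) := by
  have hsa' : IsSelfAdjoint a := hsa
  have hb0 : 0 ≤ a⁺ := CFC.posPart_nonneg a
  have hc0 : 0 ≤ a⁻ := CFC.negPart_nonneg a
  have hbsa : star a⁺ = a⁺ := IsSelfAdjoint.of_nonneg hb0
  have hcsa : star a⁻ = a⁻ := IsSelfAdjoint.of_nonneg hc0
  have hbM : a⁺ ∈ M := by
    refine mem_of_commutes M _ (fun S hS => ?_)
    have h1 : Commute a S := (hS a ha).symm
    exact (h1.cfcₙ_real _).symm.eq
  obtain ⟨v, hv, hv1, hv2, -, hv4, -⟩ := exists_polar hbM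
  obtain ⟨p, hp⟩ : ∃ p, p = star v * v := ⟨_, rfl⟩
  rw [← hp] at hv1 hv2
  have hpM : IsPr M p := by
    refine ⟨?_, ?_, ?_⟩
    · rw [hp]; exact mul_mem (star_mem hv) hv
    · nth_rewrite 1 [hp]
      rw [mul_assoc, hv1, hp]
    · rw [hp, star_mul, star_star]
  have hpb : p * a⁺ = a⁺ := by
    have := congrArg star hv2
    rwa [star_mul, hpM.sa, hbsa] at this
  have hpz : ∀ ξ, a⁺ ξ = 0 → p ξ = 0 := by
    intro ξ h
    rw [hp, ContinuousLinearMap.mul_apply, hv4 ξ h, map_zero]
  have hpc : p * a⁻ = 0 := by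
    ext ξ
    rw [ContinuousLinearMap.mul_apply, ContinuousLinearMap.zero_apply]
    refine hpz _ ?_
    rw [← ContinuousLinearMap.mul_apply, CFC.posPart_mul_negPart, ContinuousLinearMap.zero_apply]
  have hcp : a⁻ * p = 0 := by
    have := congrArg star hpc
    rwa [star_mul, hpM.sa, hcsa, star_zero] at this
  have hap : a * p = a⁺ := by
    calc a * p = (a⁺ - a⁻) * p := by rw [CFC.posPart_sub_negPart a hsa']
      _ = a⁺ := by rw [sub_mul, hv2, hcp, sub_zero]
  have hpa : p * a = a⁺ := by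
    calc p * a = p * (a⁺ - a⁻) := by rw [CFC.posPart_sub_negPart a hsa']
      _ = a⁺ := by rw [mul_sub, hpb, hpc, sub_zero]
  refine ⟨p, hpM, hpa.trans hap.symm, ?_, ?_, ?_⟩
  · intro ξ
    rw [hap]
    exact spectral_re_nonneg hb0 ξ
  · intro ξ
    have h1 : a * (1 - p) = -a⁻ := by
      calc a * (1 - p) = a - a * p := by rw [mul_sub, mul_one]
        _ = (a⁺ - a⁻) - a⁺ := by rw [CFC.posPart_sub_negPart a hsa', hap]
        _ = -a⁻ := by abel
    have h2 := spectral_re_nonneg hc0 ξ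
    rw [h1, ContinuousLinearMap.neg_apply, inner_neg_right, Complex.neg_re]
    linarith only [h2]
  · intro g hg hga
    have hgb : g * a⁺ = a⁺ := by rw [← hap, ← mul_assoc, hga]
    have hbg : a⁺ * g = a⁺ := by
      have := congrArg star hgb
      rwa [star_mul, hg.sa, hbsa] at this
    have h1 : p * (1 - g) = 0 := by
      ext ξ
      rw [ContinuousLinearMap.mul_apply, ContinuousLinearMap.zero_apply]
      refine hpz _ ?_
      rw [← ContinuousLinearMap.mul_apply, mul_sub, mul_one, hbg, sub_self,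
        ContinuousLinearMap.zero_apply]
    have h2 : (1 - g) * p = 0 := by
      have := congrArg star h1
      rwa [star_mul, star_sub, star_one, hg.sa, hpM.sa, star_zero] at this
    rw [sub_mul, one_mul, sub_eq_zero] at h2
    exact h2.symm

/-- one step of the dyadic approximation -/
theorem spectral_step {g a : H →L[ℂ] H} (hg : IsPr M g) (ha : a ∈ M) (hsa : star a = a)
    (hga : g * a = a) (hpos : 0 ≤ a) (hle : ‖a‖ ≤ 1) :
    ∃ p, IsPr M p ∧ Le p g ∧ 0 ≤ a + a - p ∧ ‖a + a - p‖ ≤ 1 := by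
  obtain ⟨b, hb⟩ : ∃ b, b = a - (1 / 2 : ℂ) • g := ⟨_, rfl⟩
  have hbM : b ∈ M := by
    rw [hb]
    exact sub_mem ha (spectral_smul_mem hg.mem _)
  have hbsa : star b = b := by
    rw [hb, star_sub, star_smul, hsa, hg.sa]
    congr 2
    simp
  have hgb : g * b = b := by
    rw [hb, mul_sub, hga, mul_smul_comm, hg.idem]
  have hbb : b + b = a + a - g := by
    have h1 : g = (1 / 2 : ℂ) • g + (1 / 2 : ℂ) • g := by
      rw [← add_smul]
      norm_num
    rw [hb]
    nth_rewrite 3 [h1]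
    abel
  obtain ⟨p, hp, hpb, hp1, hp2, hp3⟩ := exists_spectral_proj hbM hbsa
  have hpg : g * p = p := hp3 g hg hgb
  have hgp : p * g = p := by
    have := congrArg star hpg
    rwa [star_mul, hg.sa, hp.sa] at this
  have hpa : p * a = a * p := by
    have h1 : b = a - (1 / 2 : ℂ) • g := hb
    rw [h1, mul_sub, sub_mul, mul_smul_comm, smul_mul_assoc, hpg, hgp] at hpb
    exact sub_left_injective hpb
  have hbp0 : 0 ≤ b * p := by
    refine spectral_nonneg ?_ hp1
    rw [star_mul, hp.sa, hbsa, hpb]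
  have hbq0 : 0 ≤ -(b * (1 - p)) := by
    refine spectral_nonneg ?_ (fun ξ => ?_)
    · rw [star_neg, star_mul, star_sub, star_one, hp.sa, hbsa, sub_mul, one_mul, mul_sub, mul_one,
        hpb]
    · rw [ContinuousLinearMap.neg_apply, inner_neg_right, Complex.neg_re]
      have := hp2 ξ
      linarith only [this]
  have hqa : 0 ≤ (1 - p) * a * (1 - p) := by
    have h1 := star_left_conjugate_nonneg hpos (1 - p)
    rwa [star_sub, star_one, hp.sa] at h1
  have ha1 : 0 ≤ 1 - a := sub_nonneg.2 ((CStarAlgebra.norm_le_one_iff_of_nonneg a hpos).1 hle)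
  have hpa1 : 0 ≤ p * (1 - a) * p := by
    have h1 := star_left_conjugate_nonneg ha1 p
    rwa [hp.sa] at h1
  have hg1 : 0 ≤ 1 - g := by
    have h1 := star_mul_self_nonneg (1 - g)
    have h2 : star (1 - g) * (1 - g) = 1 - g := by
      rw [star_sub, star_one, hg.sa, mul_sub, mul_one, sub_mul, one_mul, hg.idem, sub_self,
        sub_zero]
    rwa [h2] at h1
  have e1 : b * p + b * p = a * p + a * p - p := by
    rw [← add_mul, hbb, sub_mul, add_mul, hpg]
  have e2 : (1 - p) * a * (1 - p) = a - a * p := by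
    rw [sub_mul, one_mul, mul_sub, mul_one, hpa, sub_mul, mul_assoc, hp.idem, sub_self, sub_zero]
  have e3 : p * (1 - a) * p = p - a * p := by
    rw [mul_sub, mul_one, sub_mul, hp.idem, hpa, mul_assoc, hp.idem]
  have hA : 0 ≤ a + a - p := by
    have h1 : a + a - p = (b * p + b * p) + ((1 - p) * a * (1 - p) + (1 - p) * a * (1 - p)) := by
      rw [e1, e2]
      abel
    rw [h1]
    exact add_nonneg (add_nonneg hbp0 hbp0) (add_nonneg hqa hqa)
  have hB : 0 ≤ 1 - (a + a - p) := by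
    have e4 : -(b * (1 - p)) + -(b * (1 - p)) = -(a + a - g) + (a * p + a * p - p) := by
      rw [← e1, ← hbb, mul_sub, mul_one]
      abel
    have h1 : 1 - (a + a - p) = (p * (1 - a) * p + p * (1 - a) * p) +
        ((1 - g) + (-(b * (1 - p)) + -(b * (1 - p)))) := by
      rw [e3, e4]
      abel
    rw [h1]
    exact add_nonneg (add_nonneg hpa1 hpa1) (add_nonneg hg1 (add_nonneg hbq0 hbq0))
  exact ⟨p, hp, hpg, hA, (CStarAlgebra.norm_le_one_iff_of_nonneg _ hA).2 (sub_nonneg.1 hB)⟩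

/-- a positive contraction below the projection `g` is a norm limit of positive combinations of
projections below `g` -/
theorem exists_proj_approx {g a : H →L[ℂ] H} (hg : IsPr M g) (ha : a ∈ M) (hsa : star a = a)
    (hga : g * a = a) (hpos : ∀ ξ, 0 ≤ (⟪ξ, a ξ⟫_ℂ).re) (hle : ‖a‖ ≤ 1) (n : ℕ) :
    ∃ p : ℕ → H →L[ℂ] H, (∀ k, IsPr M (p k) ∧ Le (p k) g) ∧
      ‖a - ∑ k ∈ Finset.range n, (((1 / 2 : ℝ) ^ (k + 1) : ℝ) : ℂ) • p k‖ ≤ (1 / 2) ^ n := by
  have key : ∀ (n : ℕ) (a : H →L[ℂ] H), a ∈ M → star a = a → g * a = a → 0 ≤ a → ‖a‖ ≤ 1 →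
      ∃ p : ℕ → H →L[ℂ] H, (∀ k, IsPr M (p k) ∧ Le (p k) g) ∧
      ‖a - ∑ k ∈ Finset.range n, (((1 / 2 : ℝ) ^ (k + 1) : ℝ) : ℂ) • p k‖ ≤ (1 / 2) ^ n := by
    intro n
    induction n with
    | zero =>
      intro a ha hsa hga hpos hle
      refine ⟨fun _ => 0, fun _ => ⟨⟨zero_mem _, mul_zero _, star_zero _⟩, mul_zero _⟩, ?_⟩
      simpa using hle
    | succ n ih =>
      intro a ha hsa hga hpos hle
      obtain ⟨p, hp, hpg, h1, h2⟩ := spectral_step hg ha hsa hga hpos hle
      have hpg' : g * p = p := hpg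
      obtain ⟨r, hr, hr2⟩ := ih (a + a - p) (sub_mem (add_mem ha ha) hp.mem)
        (by rw [star_sub, star_add, hsa, hp.sa]) (by rw [mul_sub, mul_add, hga, hpg']) h1 h2
      refine ⟨fun k => Nat.casesOn k p r, fun k => ?_, ?_⟩
      · cases k with
        | zero => exact ⟨hp, hpg⟩
        | succ k => exact hr k
      · rw [Finset.sum_range_succ']
        have h3 : a - (∑ k ∈ Finset.range n, (((1 / 2 : ℝ) ^ (k + 1 + 1) : ℝ) : ℂ) • r k +
            (((1 / 2 : ℝ) ^ (0 + 1) : ℝ) : ℂ) • p) =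
            (1 / 2 : ℂ) • ((a + a - p) -
              ∑ k ∈ Finset.range n, (((1 / 2 : ℝ) ^ (k + 1) : ℝ) : ℂ) • r k) := by
          have h4 : ∑ k ∈ Finset.range n, (((1 / 2 : ℝ) ^ (k + 1 + 1) : ℝ) : ℂ) • r k =
              (1 / 2 : ℂ) • ∑ k ∈ Finset.range n, (((1 / 2 : ℝ) ^ (k + 1) : ℝ) : ℂ) • r k := by
            rw [Finset.smul_sum]
            refine Finset.sum_congr rfl fun k _ => ?_
            rw [smul_smul]
            congr 1
            push_cast
            ring
          rw [h4, smul_sub, smul_sub, smul_add, ← add_smul]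
          push_cast
          norm_num
          abel
        change ‖a - (∑ k ∈ Finset.range n, (((1 / 2 : ℝ) ^ (k + 1 + 1) : ℝ) : ℂ) • r k +
            (((1 / 2 : ℝ) ^ (0 + 1) : ℝ) : ℂ) • p)‖ ≤ _
        rw [h3, norm_smul, pow_succ, mul_comm]
        refine mul_le_mul hr2 ?_ (norm_nonneg _) (by positivity)
        norm_num
  exact key n a ha hsa hga (spectral_nonneg hsa hpos) hle

theorem spectral_norm_le_one {g : H →L[ℂ] H} (hg : IsPr M g) : ‖g‖ ≤ 1 := by
  have h1 : ‖g‖ * ‖g‖ = ‖g‖ := by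
    rw [← CStarRing.norm_star_mul_self, hg.sa, hg.idem]
  by_contra h
  push Not at h
  nlinarith only [h1, h]

/-- a selfadjoint element below `g` commutes with everything that commutes with the projections
below `g` -/
theorem spectral_comm {g s y : H →L[ℂ] H} (hg : IsPr M g) (hs : s ∈ M) (hsa : star s = s)
    (hgs : g * s = s) (hgy : g * y = y) (hyg : y * g = y)
    (hy : ∀ h, IsPr M h → Le h g → h * y = y * h) : s * y = y * s := by
  have hsg : s * g = s := by
    have := congrArg star hgs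
    rwa [star_mul, hg.sa, hsa] at this
  obtain ⟨t, ht⟩ : ∃ t : ℝ, t = (2 * ‖s‖ + 1)⁻¹ := ⟨_, rfl⟩
  have ht0 : 0 < t := by rw [ht]; (clear * -; positivity)
  obtain ⟨b, hb⟩ : ∃ b, b = (t : ℂ) • (s + (‖s‖ : ℂ) • g) := ⟨_, rfl⟩
  have hbM : b ∈ M := by
    rw [hb]
    exact spectral_smul_mem (add_mem hs (spectral_smul_mem hg.mem _)) _
  have hbsa : star b = b := by
    rw [hb, star_smul, star_add, star_smul, hsa, hg.sa]
    simp
  have hgb : g * b = b := by
    rw [hb, mul_smul_comm, mul_add, hgs, mul_smul_comm, hg.idem]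
  have hbpos : ∀ ξ, 0 ≤ (⟪ξ, b ξ⟫_ℂ).re := by
    intro ξ
    have h1 : ⟪ξ, b ξ⟫_ℂ = (t : ℂ) * (⟪g ξ, s (g ξ)⟫_ℂ + (‖s‖ : ℂ) * ⟪g ξ, g ξ⟫_ℂ) := by
      have h2 : ⟪g ξ, s (g ξ)⟫_ℂ = ⟪ξ, s ξ⟫_ℂ := by
        have h3 : s = star g * (s * g) := by rw [hg.sa, hsg, hgs]
        conv_rhs => rw [h3]
        rw [ContinuousLinearMap.mul_apply, ContinuousLinearMap.star_eq_adjoint,
          ContinuousLinearMap.adjoint_inner_right, ContinuousLinearMap.mul_apply]
      have h3 : ⟪g ξ, g ξ⟫_ℂ = ⟪ξ, g ξ⟫_ℂ := by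
        have h4 : g = star g * g := by rw [hg.sa, hg.idem]
        conv_rhs => rw [h4]
        rw [ContinuousLinearMap.mul_apply, ContinuousLinearMap.star_eq_adjoint,
          ContinuousLinearMap.adjoint_inner_right]
      rw [h2, h3, hb]
      simp only [ContinuousLinearMap.smul_apply, ContinuousLinearMap.add_apply, inner_smul_right,
        inner_add_right]
    have h2 : -(‖s‖ * ‖g ξ‖ ^ 2) ≤ (⟪g ξ, s (g ξ)⟫_ℂ).re := by
      have h3 : ‖⟪g ξ, s (g ξ)⟫_ℂ‖ ≤ ‖g ξ‖ * (‖s‖ * ‖g ξ‖) :=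
        (norm_inner_le_norm _ _).trans (mul_le_mul_of_nonneg_left (s.le_opNorm _) (norm_nonneg _))
      have h4 := (abs_le.1 (Complex.abs_re_le_norm ⟪g ξ, s (g ξ)⟫_ℂ)).1
      linarith only [h3, h4]
    have h3 : ⟪g ξ, g ξ⟫_ℂ = ((‖g ξ‖ ^ 2 : ℝ) : ℂ) := by
      rw [inner_self_eq_norm_sq_to_K]
      push_cast
      rfl
    rw [h1, h3]
    have h4 : ((t : ℂ) * (⟪g ξ, s (g ξ)⟫_ℂ + (‖s‖ : ℂ) * ((‖g ξ‖ ^ 2 : ℝ) : ℂ))).re =
        t * ((⟪g ξ, s (g ξ)⟫_ℂ).re + ‖s‖ * ‖g ξ‖ ^ 2) := by
      rw [Complex.re_ofReal_mul, Complex.add_re, Complex.re_ofReal_mul, Complex.ofReal_re]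
    rw [h4]
    exact mul_nonneg ht0.le (by linarith only [h2])
  have hble : ‖b‖ ≤ 1 := by
    have h1 : ‖s + (‖s‖ : ℂ) • g‖ ≤ 2 * ‖s‖ + 1 := by
      refine (norm_add_le _ _).trans ?_
      rw [norm_smul]
      have h2 := spectral_norm_le_one hg
      have h3 : ‖((‖s‖ : ℝ) : ℂ)‖ = ‖s‖ := by simp
      rw [h3]
      nlinarith only [h2, norm_nonneg s]
    rw [hb, norm_smul]
    have h3 : ‖(t : ℂ)‖ = t := by
      rw [Complex.norm_real, Real.norm_eq_abs, abs_of_pos ht0]
    rw [h3]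
    calc t * ‖s + (‖s‖ : ℂ) • g‖ ≤ t * (2 * ‖s‖ + 1) := mul_le_mul_of_nonneg_left h1 ht0.le
      _ = 1 := by rw [ht, inv_mul_cancel₀ (by (clear * -; positivity))]
  have hby : b * y = y * b := by
    rw [← sub_eq_zero, ← norm_le_zero_iff]
    have h1 : ∀ n : ℕ, ‖b * y - y * b‖ ≤ 2 * ‖y‖ * (1 / 2 : ℝ) ^ n := by
      intro n
      obtain ⟨p, hp, hpn⟩ := exists_proj_approx hg hbM hbsa hgb hbpos hble n
      obtain ⟨S, hS⟩ : ∃ S, S = ∑ k ∈ Finset.range n,
        (((1 / 2 : ℝ) ^ (k + 1) : ℝ) : ℂ) • p k := ⟨_, rfl⟩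
      rw [← hS] at hpn
      have h2 : S * y = y * S := by
        rw [hS, Finset.sum_mul, Finset.mul_sum]
        refine Finset.sum_congr rfl fun k _ => ?_
        rw [smul_mul_assoc, mul_smul_comm, hy _ (hp k).1 (hp k).2]
      have h3 : b * y - y * b = (b - S) * y - y * (b - S) := by
        rw [sub_mul, mul_sub, h2]
        abel
      rw [h3]
      refine (norm_sub_le _ _).trans ?_
      have h4 := norm_mul_le (b - S) y
      have h5 := norm_mul_le y (b - S)
      have h6 := mul_le_mul_of_nonneg_right hpn (norm_nonneg y)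
      linarith only [h4, h5, h6]
    have h2 : Filter.Tendsto (fun n : ℕ => 2 * ‖y‖ * (1 / 2 : ℝ) ^ n) Filter.atTop (nhds 0) := by
      have h3 := tendsto_pow_atTop_nhds_zero_of_lt_one (r := (1 / 2 : ℝ)) (by norm_num)
        (by norm_num)
      simpa using h3.const_mul (2 * ‖y‖)
    exact ge_of_tendsto' h2 h1
  have h1 : (s + (‖s‖ : ℂ) • g) * y = y * (s + (‖s‖ : ℂ) • g) := by
    have h2 : s + (‖s‖ : ℂ) • g = ((t : ℂ)⁻¹) • b := by
      rw [hb, smul_smul, inv_mul_cancel₀ (by exact_mod_cast ht0.ne'), one_smul]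
    rw [h2, smul_mul_assoc, mul_smul_comm, hby]
  rw [add_mul, mul_add, smul_mul_assoc, mul_smul_comm, hgy, hyg] at h1
  exact add_right_cancel h1

/-- a non abelian projection contains two orthogonal equivalent nonzero subprojections -/
theorem exists_pair_of_not_abelian {g : H →L[ℂ] H} (hg : IsPr M g) (h : ¬ AbPr M g) :
    ∃ v ∈ M, v ≠ 0 ∧ v * (star v * v) = v ∧ v * g = v ∧ g * v = v ∧ v * v = 0 := by
  by_cases hex : ∃ h, IsPr M h ∧ Le h g ∧ ∃ x ∈ M, h * x * (g - h) ≠ 0
  · obtain ⟨h, hh, hhg, x, hx, hne⟩ := hex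
    have hgh : g * h = h := hhg
    have hhg' : h * g = h := by
      have := congrArg star hgh
      rwa [star_mul, hg.sa, hh.sa] at this
    have hd : IsPr M (g - h) := by
      refine ⟨sub_mem hg.mem hh.mem, ?_, ?_⟩
      · rw [sub_mul, mul_sub, mul_sub, hg.idem, hgh, hhg', hh.idem]
        abel
      · rw [star_sub, hg.sa, hh.sa]
    obtain ⟨v, hv, hv0, hv1, hv2, hv3⟩ := exists_pi_of_ne_zero hd hh hx hne
    refine ⟨v, hv, hv0, hv1, ?_, ?_, ?_⟩
    · rw [← hv2, mul_assoc, sub_mul, hg.idem, hhg']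
    · rw [← hv3, ← mul_assoc, hgh]
    · have h1 : (g - h) * h = 0 := by rw [sub_mul, hgh, hh.idem, sub_self]
      calc v * v = (v * (g - h)) * (h * v) := by rw [hv2, hv3]
        _ = v * ((g - h) * h) * v := by simp only [mul_assoc]
        _ = 0 := by rw [h1, mul_zero, zero_mul]
  · exfalso
    push Not at hex
    apply h
    -- projections below `g` commute with `g x g`
    have hcomm : ∀ x ∈ M, ∀ h, IsPr M h → Le h g → h * (g * x * g) = (g * x * g) * h := by
      intro x hx h hh hhg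
      have hgh : g * h = h := hhg
      have hhg' : h * g = h := by
        have := congrArg star hgh
        rwa [star_mul, hg.sa, hh.sa] at this
      have h1 : h * x * g = h * x * h := by
        have := hex h hh hhg x hx
        rw [mul_sub, sub_eq_zero] at this
        exact this
      have h2 : g * x * h = h * x * h := by
        have h3 := hex h hh hhg (star x) (star_mem hx)
        have h4 := congrArg star h3
        rw [star_mul, star_mul, star_star, star_sub, hg.sa, hh.sa, star_zero, sub_mul,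
          sub_eq_zero, ← mul_assoc, ← mul_assoc] at h4
        exact h4
      calc h * (g * x * g) = (h * g) * x * g := by simp only [mul_assoc]
        _ = h * x * h := by rw [hhg', h1]
        _ = g * x * (g * h) := by rw [hgh, h2]
        _ = (g * x * g) * h := by simp only [mul_assoc]
    intro x hx y hy
    obtain ⟨X, hX⟩ : ∃ X, X = g * x * g := ⟨_, rfl⟩
    obtain ⟨Y, hY⟩ : ∃ Y, Y = g * y * g := ⟨_, rfl⟩
    have hgY : g * Y = Y := by rw [hY, ← mul_assoc, ← mul_assoc, hg.idem]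
    have hYg : Y * g = Y := by rw [hY, mul_assoc, hg.idem]
    have hgX : g * X = X := by rw [hX, ← mul_assoc, ← mul_assoc, hg.idem]
    have hXg : X * g = X := by rw [hX, mul_assoc, hg.idem]
    have hXM : X ∈ M := by rw [hX]; exact mul_mem (mul_mem hg.mem hx) hg.mem
    have hYc : ∀ h, IsPr M h → Le h g → h * Y = Y * h := by
      rw [hY]; exact hcomm y hy
    have hgXs : g * star X = star X := by
      have := congrArg star hXg
      rwa [star_mul, hg.sa] at this
    have h1 : (X + star X) * Y = Y * (X + star X) := by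
      refine spectral_comm hg (add_mem hXM (star_mem hXM)) ?_ ?_ hgY hYg hYc
      · rw [star_add, star_star, add_comm]
      · rw [mul_add, hgX, hgXs]
    have h2 : (Complex.I • (X - star X)) * Y = Y * (Complex.I • (X - star X)) := by
      refine spectral_comm hg (spectral_smul_mem (sub_mem hXM (star_mem hXM)) _) ?_ ?_ hgY hYg hYc
      · rw [star_smul, star_sub, star_star]
        have : star Complex.I = -Complex.I := Complex.conj_I
        rw [this, neg_smul, ← smul_neg, neg_sub]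
      · rw [mul_smul_comm, mul_sub, hgX, hgXs]
    have h3 : (X - star X) * Y = Y * (X - star X) := by
      rw [smul_mul_assoc, mul_smul_comm] at h2
      exact smul_right_injective _ Complex.I_ne_zero h2
    have h4 : (X + X) * Y = Y * (X + X) := by
      have e : X + X = (X + star X) + (X - star X) := by abel
      rw [e, add_mul, mul_add, h1, h3]
    have h5 : (2 : ℂ) • (X * Y) = (2 : ℂ) • (Y * X) := by
      rw [two_smul, two_smul, ← add_mul, ← mul_add]
      exact h4
    have h6 := smul_right_injective (H →L[ℂ] H) (two_ne_zero' ℂ) h5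
    rw [hX, hY] at h6
    exact h6

end Vale.Agent.P082.VN
end

section

open scoped InnerProductSpace ComplexConjugate

namespace Vale.Agent.P082.VN

universe u

variable {H : Type u} [NormedAddCommGroup H] [InnerProductSpace ℂ H] [CompleteSpace H]
  {M : VonNeumannAlgebra H}

/-- a partial isometry absorbs its initial projection -/
lemma sb_absorb {v f : H →L[ℂ] H} (hv : star v * v = f) (hf : IsPr M f) : v * f = v := by
  have h1 : star (v - v * f) * (v - v * f) = 0 := by
    have : star (v - v * f) * (v - v * f)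
        = star v * v - star v * v * f - star f * (star v * v) + star f * (star v * v) * f := by
      rw [star_sub, star_mul]; noncomm_ring
    rw [this, hv, hf.sa, hf.idem, hf.idem]; simp
  have h2 := CStarRing.star_mul_self_eq_zero_iff (v - v * f) |>.1 h1
  exact (sub_eq_zero.1 h2).symm

/-- the translates of the defect projection by an isometry of the corner -/
lemma sb_family {e w p : H →L[ℂ] H} (he : IsPr M e) (hwM : w ∈ M) (hww : star w * w = e)
    (hew : e * w = w) (hpP : IsPr M p) (hep : e * p = p) (hpw : p * w = 0) :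
    ∃ d : ℕ → H →L[ℂ] H, d 0 = p ∧ (∀ n, IsPr M (d n)) ∧ (∀ m n, m ≠ n → d m * d n = 0) ∧
      (∀ n, e * d n = d n) ∧ (∀ n, w * d n = d (n + 1) * w) ∧
      (∀ n, w * d n * star w = d (n + 1)) := by
  have hwe : star w * e = star w := by
    have := congrArg star hew
    rwa [star_mul, he.sa] at this
  have hpsa := hpP.sa
  have hpe : p * e = p := by
    have := congrArg star hep
    rwa [star_mul, he.sa, hpsa] at this
  -- powers
  have hpow : ∀ n : ℕ, p * (star w ^ n * w ^ n) = p := by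
    intro n
    induction n with
    | zero => simp
    | succ n ih =>
      have : star w ^ (n + 1) * w ^ (n + 1) = star w ^ n * (star w * w) * w ^ n := by
        rw [pow_succ, pow_succ']; noncomm_ring
      rw [this, hww]
      rcases n with _ | n
      · simp [hpe]
      · have h3 : star w ^ (n + 1) * e = star w ^ (n + 1) := by
          rw [pow_succ, mul_assoc, hwe]
        rw [h3, ih]
  have hpwn : ∀ n : ℕ, p * w ^ (n + 1) = 0 := by
    intro n; rw [pow_succ', ← mul_assoc, hpw, zero_mul]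
  set d : ℕ → H →L[ℂ] H := fun n => w ^ n * p * star w ^ n with hd
  have hdM : ∀ n, d n ∈ M := fun n =>
    mul_mem (mul_mem (pow_mem hwM n) hpP.mem) (pow_mem (star_mem hwM) n)
  have hdsa : ∀ n, star (d n) = d n := by
    intro n
    simp only [hd, star_mul, star_pow, star_star, hpsa]
    noncomm_ring
  have hdd : ∀ n, d n * d n = d n := by
    intro n
    calc d n * d n = w ^ n * (p * (star w ^ n * w ^ n)) * p * star w ^ n := by
          simp only [hd]; noncomm_ring
      _ = w ^ n * (p * p) * star w ^ n := by rw [hpow]; noncomm_ring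
      _ = d n := by rw [hpP.idem]
  have hdo1 : ∀ m n, m < n → d m * d n = 0 := by
    intro m n hmn
    obtain ⟨k, rfl⟩ := Nat.exists_eq_add_of_lt hmn
    have h4 : w ^ (m + k + 1) = w ^ m * w ^ (k + 1) := by rw [← pow_add]; ring_nf
    calc d m * d (m + k + 1)
        = w ^ m * (p * (star w ^ m * w ^ m)) * w ^ (k + 1) * p * star w ^ (m + k + 1) := by
          simp only [hd]; rw [h4]; noncomm_ring
      _ = w ^ m * (p * w ^ (k + 1)) * p * star w ^ (m + k + 1) := by
          rw [hpow]; noncomm_ring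
      _ = 0 := by rw [hpwn]; simp
  refine ⟨d, by simp [hd], fun n => ⟨hdM n, hdd n, hdsa n⟩, ?_, ?_, ?_, ?_⟩
  · intro m n hmn
    rcases lt_or_gt_of_ne hmn with h5 | h5
    · exact hdo1 m n h5
    · have := congrArg star (hdo1 n m h5)
      rwa [star_mul (d n) (d m), hdsa, hdsa, star_zero] at this
  · intro n
    rcases n with _ | n
    · simp only [hd, pow_zero, one_mul, mul_one, hep]
    · calc e * d (n + 1) = (e * w) * w ^ n * p * star w ^ (n + 1) := by
            simp only [hd, pow_succ' w]; noncomm_ring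
        _ = d (n + 1) := by rw [hew]; simp only [hd, pow_succ' w]
  · intro n
    have h6 : d (n + 1) * w = w ^ (n + 1) * (p * (star w ^ n * (star w * w))) := by
      simp only [hd, pow_succ (star w)]; noncomm_ring
    rw [h6, hww]
    rcases n with _ | n
    · simp only [hd, pow_zero, one_mul, mul_one, hpe, zero_add, pow_one]
    · have h3 : star w ^ (n + 1) * e = star w ^ (n + 1) := by
        rw [pow_succ, mul_assoc, hwe]
      rw [h3]
      simp only [hd, pow_succ' w (n + 1)]; noncomm_ring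
  · intro n
    simp only [hd, pow_succ' w, pow_succ (star w)]; noncomm_ring

/-- the family `e - D, w d₀, w d₁, …` -/
lemma sb_shift {e w D : H →L[ℂ] H} {d : ℕ → H →L[ℂ] H} (he : IsPr M e) (hwM : w ∈ M)
    (hww : star w * w = e) (hdP : ∀ n, IsPr M (d n)) (hdo : ∀ m n, m ≠ n → d m * d n = 0)
    (hed : ∀ n, e * d n = d n) (hwd : ∀ n, w * d n = d (n + 1) * w)
    (hwdw : ∀ n, w * d n * star w = d (n + 1)) (hD : IsPr M D) (hDd : ∀ n, D * d n = d n)
    (heD : e * D = D) :
    ∃ t : ℕ → H →L[ℂ] H, (∀ i, t i ∈ M) ∧ (∀ i, t i * (star (t i) * t i) = t i) ∧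
      (∀ i j, i ≠ j → star (t i) * t j = 0) ∧ (∀ i j, i ≠ j → t i * star (t j) = 0) ∧
      star (t 0) * t 0 = e - D ∧ t 0 * star (t 0) = e - D ∧
      (∀ k, star (t (k + 1)) * t (k + 1) = d k) ∧
      (∀ k, t (k + 1) * star (t (k + 1)) = d (k + 1)) := by
  have hde : ∀ n, d n * e = d n := by
    intro n
    have := congrArg star (hed n)
    rwa [star_mul, he.sa, (hdP n).sa] at this
  have hDe : D * e = D := by
    have := congrArg star heD
    rwa [star_mul, he.sa, hD.sa] at this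
  set t : ℕ → H →L[ℂ] H := fun n => Nat.casesOn n (e - D) (fun k => w * d k) with ht
  have ht0 : t 0 = e - D := rfl
  have ht1 : ∀ k, t (k + 1) = w * d k := fun k => rfl
  clear_value t
  have hcsa : star (e - D) = e - D := by rw [star_sub, he.sa, hD.sa]
  have hcc : (e - D) * (e - D) = e - D := by
    rw [mul_sub, sub_mul, sub_mul, he.idem, hDe, heD, hD.idem]; simp
  have hcd : ∀ n, (e - D) * d n = 0 := by
    intro n; rw [sub_mul, hed, hDd, sub_self]
  have hst1 : ∀ k, star (t (k + 1)) = d k * star w := by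
    intro k; rw [ht1, star_mul, (hdP k).sa]
  have hsq : ∀ k, star (t (k + 1)) * t (k + 1) = d k := by
    intro k
    rw [hst1, ht1]
    calc d k * star w * (w * d k) = d k * (star w * w) * d k := by noncomm_ring
      _ = d k := by rw [hww, hde, (hdP k).idem]
  have hsq' : ∀ k, t (k + 1) * star (t (k + 1)) = d (k + 1) := by
    intro k
    rw [hst1, ht1]
    calc w * d k * (d k * star w) = w * (d k * d k) * star w := by noncomm_ring
      _ = d (k + 1) := by rw [(hdP k).idem, hwdw]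
  have h2a : ∀ k, star (t 0) * t (k + 1) = 0 := by
    intro k
    rw [ht0, hcsa, ht1, hwd, ← mul_assoc, hcd, zero_mul]
  have h3a : ∀ k, t 0 * star (t (k + 1)) = 0 := by
    intro k
    rw [ht0, hst1, ← mul_assoc, hcd, zero_mul]
  refine ⟨t, ?_, ?_, ?_, ?_, ?_, ?_, hsq, hsq'⟩
  · intro i
    rcases i with _ | k
    · rw [ht0]; exact sub_mem he.mem hD.mem
    · rw [ht1]; exact mul_mem hwM (hdP k).mem
  · intro i
    rcases i with _ | k
    · rw [ht0, hcsa, hcc, hcc]
    · rw [hsq, ht1, mul_assoc, (hdP k).idem]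
  · intro i j hij
    rcases i with _ | k <;> rcases j with _ | l
    · exact absurd rfl hij
    · exact h2a l
    · have := congrArg star (h2a k)
      rwa [star_mul, star_star, star_zero] at this
    · rw [hst1, ht1]
      calc d k * star w * (w * d l) = d k * (star w * w) * d l := by noncomm_ring
        _ = d k * d l := by rw [hww, hde]
        _ = 0 := hdo k l (by omega)
  · intro i j hij
    rcases i with _ | k <;> rcases j with _ | l
    · exact absurd rfl hij
    · exact h3a l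
    · have := congrArg star (h3a k)
      rwa [star_mul, star_star, star_zero] at this
    · rw [hst1, ht1]
      calc w * d k * (d l * star w) = w * (d k * d l) * star w := by noncomm_ring
        _ = 0 := by rw [hdo k l (by omega)]; simp
  · rw [ht0, hcsa, hcc]
  · rw [ht0, hcsa, hcc]

/-- the corner `e` is equivalent to `e - p` when an isometry of the corner kills `p` -/
lemma sb_core {e w p : H →L[ℂ] H} (he : IsPr M e) (hwM : w ∈ M) (hww : star w * w = e)
    (hew : e * w = w) (hpP : IsPr M p) (hep : e * p = p) (hpw : p * w = 0) :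
    ∃ s ∈ M, star s * s = e ∧ s * star s = e - p := by
  obtain ⟨d, hd0, hdP, hdo, hed, hwd, hwdw⟩ := sb_family he hwM hww hew hpP hep hpw
  obtain ⟨D, hD, hDs, hDle⟩ := exists_sum_proj d hdP hdo
  have hDd : ∀ n, D * d n = d n := hDle
  have heD : e * D = D := IsSum.le_of hDs (f := e) hed
  obtain ⟨t, htM, h1, h2, h3, h4, h5, hsq, hsq'⟩ :=
    sb_shift he hwM hww hdP hdo hed hwd hwdw hD hDd heD
  obtain ⟨s, hsM, -, -, hs1, hs2⟩ := exists_sum_pi t htM h1 h2 h3
  refine ⟨s, hsM, ?_, ?_⟩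
  · ext x
    have h7 := (hasSum_nat_add_iff' 1).2 (hs1 x)
    have h8 : (fun n => (star (t (n + 1)) * t (n + 1)) x) = fun n => d n x := by
      funext n; rw [hsq]
    rw [h8] at h7
    have h9 := h7.unique (hDs x)
    simp only [Finset.range_one, Finset.sum_singleton] at h9
    rw [h4] at h9
    have h10 : (star s * s) x = (e - D) x + D x := by rw [← h9]; abel
    rw [h10]; simp
  · ext x
    have h7 := (hasSum_nat_add_iff' 1).2 (hs2 x)
    have h8 : (fun n => (t (n + 1) * star (t (n + 1))) x) = fun n => d (n + 1) x := by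
      funext n; rw [hsq']
    rw [h8] at h7
    have h9 := h7.unique ((hasSum_nat_add_iff' (f := fun n => d n x) 1).2 (hDs x))
    simp only [Finset.range_one, Finset.sum_singleton] at h9
    rw [h5, hd0] at h9
    have h10 : (s * star s) x = (e - D) x + (D x - p x) := by rw [← h9]; abel
    rw [h10]; simp

/-- Schroeder-Bernstein -/
theorem schroeder_bernstein {e f : H →L[ℂ] H} (he : IsPr M e) (hf : IsPr M f)
    (h : SubEqv M e f) (h' : SubEqv M f e) : Eqv M e f := by
  obtain ⟨u, hu, hue, hfu⟩ := h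
  obtain ⟨v, hv, hvf, hev⟩ := h'
  have hvf' : v * f = v := sb_absorb hvf hf
  have hwM : v * u ∈ M := mul_mem hv hu
  have hww : star (v * u) * (v * u) = e := by
    rw [star_mul]
    calc star u * star v * (v * u) = star u * ((star v * v) * u) := by noncomm_ring
      _ = e := by rw [hvf, hfu, hue]
  have hew : e * (v * u) = v * u := by rw [← mul_assoc, hev]
  have hve : star v * e = star v := by
    have := congrArg star hev
    rwa [star_mul, he.sa] at this
  have hvv : v * star v * (v * star v) = v * star v := by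
    calc v * star v * (v * star v) = v * (star v * v) * star v := by noncomm_ring
      _ = v * star v := by rw [hvf, hvf']
  have hpM : e - v * star v ∈ M := sub_mem he.mem (mul_mem hv (star_mem hv))
  have hpsa : star (e - v * star v) = e - v * star v := by
    rw [star_sub, star_mul, star_star, he.sa]
  have hpp : (e - v * star v) * (e - v * star v) = e - v * star v := by
    have : (e - v * star v) * (e - v * star v)
        = e * e - (e * v) * star v - v * (star v * e) + v * star v * (v * star v) := by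
      noncomm_ring
    rw [this, he.idem, hev, hve, hvv]; simp
  have hep : e * (e - v * star v) = e - v * star v := by
    rw [mul_sub, he.idem, ← mul_assoc, hev]
  have hpw : (e - v * star v) * (v * u) = 0 := by
    have : (e - v * star v) * (v * u) = (e * v - v * (star v * v)) * u := by noncomm_ring
    rw [this, hev, hvf, hvf', sub_self, zero_mul]
  obtain ⟨s, hsM, hss, hss'⟩ := sb_core he hwM hww hew ⟨hpM, hpp, hpsa⟩ hep hpw
  rw [sub_sub_cancel] at hss'
  refine ⟨star v * s, mul_mem (star_mem hv) hsM, ?_, ?_⟩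
  · rw [star_mul, star_star]
    calc star s * v * (star v * s) = star s * (v * star v) * s := by noncomm_ring
      _ = (star s * s) * (star s * s) := by rw [← hss']; noncomm_ring
      _ = e := by rw [hss, he.idem]
  · rw [star_mul, star_star]
    calc star v * s * (star s * v) = star v * (s * star s) * v := by noncomm_ring
      _ = (star v * v) * (star v * v) := by rw [hss']; noncomm_ring
      _ = f := by rw [hvf, hf.idem]

end Vale.Agent.P082.VN
end
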