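import Mathlib.Algebra.BigOperators.Field
import Mathlib.Algebra.BigOperators.Fin
import Mathlib.Algebra.BigOperators.Option
import Mathlib.Algebra.Order.Chebyshev
import Mathlib.Algebra.Star.Subalgebra
import Mathlib.Analysis.CStarAlgebra.Basic
import Mathlib.Analysis.CStarAlgebra.ContinuousFunctionalCalculus.Basic
import Mathlib.Analysis.CStarAlgebra.ContinuousFunctionalCalculus.Commute
import Mathlib.Analysis.CStarAlgebra.ContinuousFunctionalCalculus.Instances
import Mathlib.Analysis.CStarAlgebra.ContinuousFunctionalCalculus.Isometric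
import Mathlib.Analysis.CStarAlgebra.ContinuousFunctionalCalculus.Order
import Mathlib.Analysis.CStarAlgebra.ContinuousFunctionalCalculus.Range
import Mathlib.Analysis.CStarAlgebra.ContinuousFunctionalCalculus.Unital
import Mathlib.Analysis.CStarAlgebra.ContinuousLinearMap
import Mathlib.Analysis.CStarAlgebra.Spectrum
import Mathlib.Analysis.CStarAlgebra.Unitary.Span
import Mathlib.Analysis.Complex.Basic
import Mathlib.Analysis.Convex.Basic
import Mathlib.Analysis.Convex.Mul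
import Mathlib.Analysis.InnerProductSpace.Adjoint
import Mathlib.Analysis.InnerProductSpace.Basic
import Mathlib.Analysis.InnerProductSpace.Continuous
import Mathlib.Analysis.InnerProductSpace.Dual
import Mathlib.Analysis.InnerProductSpace.LaxMilgram
import Mathlib.Analysis.InnerProductSpace.PiL2
import Mathlib.Analysis.InnerProductSpace.Positive
import Mathlib.Analysis.InnerProductSpace.Projection.Basic
import Mathlib.Analysis.InnerProductSpace.StarOrder
import Mathlib.Analysis.InnerProductSpace.Subspace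
import Mathlib.Analysis.InnerProductSpace.l2Space
import Mathlib.Analysis.Normed.Group.Basic
import Mathlib.Analysis.Normed.Group.InfiniteSum
import Mathlib.Analysis.Normed.Group.Tannery
import Mathlib.Analysis.Normed.Module.Basic
import Mathlib.Analysis.Normed.Module.Multilinear.Basic
import Mathlib.Analysis.Normed.Module.Multilinear.Curry
import Mathlib.Analysis.Normed.Operator.Extend
import Mathlib.Analysis.Normed.Operator.Mul
import Mathlib.Analysis.Normed.Operator.NormedSpace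
import Mathlib.Analysis.Normed.Ring.Units
import Mathlib.Analysis.PSeries
import Mathlib.Analysis.Seminorm
import Mathlib.Analysis.SpecialFunctions.Complex.Circle
import Mathlib.Analysis.SpecialFunctions.ContinuousFunctionalCalculus.PosPart.Basic
import Mathlib.Analysis.SpecialFunctions.ContinuousFunctionalCalculus.Rpow.Basic
import Mathlib.Analysis.SpecialFunctions.Exp
import Mathlib.Analysis.SpecialFunctions.Pow.Real
import Mathlib.Analysis.SpecialFunctions.Sqrt
import Mathlib.Analysis.SpecialFunctions.Trigonometric.Basic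
import Mathlib.Analysis.SpecificLimits.Basic
import Mathlib.Analysis.VonNeumannAlgebra.Basic
import Mathlib.Combinatorics.Hindman
import Mathlib.LinearAlgebra.Complex.Module
import Mathlib.LinearAlgebra.Matrix.NonsingularInverse
import Mathlib.LinearAlgebra.Matrix.Trace
import Mathlib.Order.Filter.AtTopBot.Finset
import Mathlib.Order.Filter.Ultrafilter.Basic
import Mathlib.Order.Interval.Finset.Nat
import Mathlib.RingTheory.RootsOfUnity.Complex
import Mathlib.Tactic
import Mathlib.Topology.Algebra.InfiniteSum.Basic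
import Mathlib.Topology.Algebra.Module.Basic
import Mathlib.Topology.Algebra.Semigroup
import Mathlib.Topology.Algebra.Star.Unitary
import Mathlib.Topology.Algebra.StarSubalgebra
import Mathlib.Topology.Compactness.Compact
import Mathlib.Topology.Instances.Complex
import Mathlib.Topology.MetricSpace.ProperSpace
import Vale.Agent.P082.Bd8.B1

set_option linter.all false

section

open scoped Topology ComplexConjugate

namespace Vale.Agent.P082

namespace Mean

variable {X Y : Type*}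

/-- image of a mean -/
def map (m : Mean X) (p : X → Y) : Mean Y where
  toFun F := m (fun t => F (p t))
  add F G hF hG := by
    obtain ⟨C, hC⟩ := hF
    obtain ⟨D, hD⟩ := hG
    exact m.add _ _ ⟨C, fun t => hC _⟩ ⟨D, fun t => hD _⟩
  const_mul c F hF := by
    obtain ⟨C, hC⟩ := hF
    exact m.const_mul c _ ⟨C, fun t => hC _⟩
  norm_le F C hC := m.norm_le _ C (fun t => hC _)
  one := m.one

/-- average of finitely many means -/
noncomputable def avg {ι : Type*} [Fintype ι] [Nonempty ι] (m : ι → Mean X) : Mean X where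
  toFun F := (Fintype.card ι : ℂ)⁻¹ * ∑ i, m i F
  add F G hF hG := by
    rw [← mul_add, ← Finset.sum_add_distrib]
    congr 1
    exact Finset.sum_congr rfl (fun i _ => (m i).add F G hF hG)
  const_mul c F hF := by
    rw [Finset.sum_congr rfl (fun i _ => (m i).const_mul c F hF), ← Finset.mul_sum]; ring
  norm_le F C hC := by
    have hc : (0 : ℝ) < Fintype.card ι := by exact_mod_cast Fintype.card_pos
    rw [norm_mul, norm_inv, Complex.norm_natCast, inv_mul_le_iff₀ hc]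
    refine (norm_sum_le _ _).trans ?_
    refine (Finset.sum_le_sum (fun i _ => (m i).norm_le F C hC)).trans (le_of_eq ?_)
    simp
  one := by
    have hc : (Fintype.card ι : ℂ) ≠ 0 := by exact_mod_cast Fintype.card_ne_zero
    simp [(m _).one, hc]

/-- point mass -/
def dirac (t : X) : Mean X where
  toFun F := F t
  add _ _ _ _ := rfl
  const_mul _ _ _ := rfl
  norm_le _ _ h := h t
  one := rfl

end Mean

/-- the random walk on `G` with steps `b` -/
noncomputable def walk {G : Type*} [Group G] {ι : Type*} [Fintype ι] [Nonempty ι] (b : ι → G) :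
    ℕ → Mean G
  | 0 => Mean.dirac 1
  | (n + 1) => Mean.avg (fun i => (walk b n).map (fun u => u * b i))

lemma walk_succ {G : Type*} [Group G] {ι : Type*} [Fintype ι] [Nonempty ι] (b : ι → G) (n : ℕ)
    (F : G → ℂ) : walk b (n + 1) F
      = (Fintype.card ι : ℂ)⁻¹ * ∑ i, walk b n (fun u => F (u * b i)) := rfl

end Vale.Agent.P082
end

section

open scoped Topology ComplexConjugate

namespace Vale.Agent.P082

/-- Cesaro means of the random walk -/
noncomputable def cesaro {G : Type*} [Group G] {ι : Type*} [Fintype ι] [Nonempty ι] (b : ι → G)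
    (n : ℕ) : Mean G := Mean.avg (fun l : Fin (n + 1) => walk b l)

lemma cesaro_apply {G : Type*} [Group G] {ι : Type*} [Fintype ι] [Nonempty ι] (b : ι → G)
    (n : ℕ) (F : G → ℂ) :
    cesaro b n F = ((n + 1 : ℕ) : ℂ)⁻¹ * ∑ l ∈ Finset.range (n + 1), walk b l F := by
  have : cesaro b n F = (Fintype.card (Fin (n + 1)) : ℂ)⁻¹ * ∑ l : Fin (n + 1), walk b l F := rfl
  rw [this, Fintype.card_fin, Finset.sum_range]

end Vale.Agent.P082
end

section
attribute [local instance] Vale.Agent.P082.AlgFast.nr Vale.Agent.P082.AlgFast.na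
  Vale.Agent.P082.AlgFast.sr Vale.Agent.P082.AlgFast.ng Vale.Agent.P082.AlgFast.sg
  Vale.Agent.P082.AlgFast.ns Vale.Agent.P082.AlgFast.ri Vale.Agent.P082.AlgFast.ag
  Vale.Agent.P082.AlgFast.am Vale.Agent.P082.AlgFast.mo Vale.Agent.P082.AlgFast.pm
  Vale.Agent.P082.AlgFast.us Vale.Agent.P082.AlgFast.ts Vale.Agent.P082.AlgFast.ets
  Vale.Agent.P082.AlgFast.eng Vale.Agent.P082.AlgFast.esg Vale.Agent.P082.AlgFast.ens
  Vale.Agent.P082.AlgFast.eam Vale.Agent.P082.AlgFast.emo Vale.Agent.P082.AlgFast.nu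
  Vale.Agent.P082.AlgFast.sag Vale.Agent.P082.AlgFast.agr Vale.Agent.P082.AlgFast.mon
  Vale.Agent.P082.AlgFast.srg

open scoped InnerProductSpace ComplexConjugate Topology

namespace Vale.Agent.P082

universe u

variable {H : Type u} [NormedAddCommGroup H] [InnerProductSpace ℂ H] [CompleteSpace H]

lemma unitary_star_mul (P : VonNeumannAlgebra H) (u : unitary (Alg P)) :
    star (u : Alg P) * (u : Alg P) = 1 := Unitary.star_mul_self_of_mem u.2

lemma unitary_mul_star (P : VonNeumannAlgebra H) (u : unitary (Alg P)) :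
    (u : Alg P) * star (u : Alg P) = 1 := Unitary.mul_star_self_of_mem u.2

/-- the group function attached to a map -/
noncomputable def grpFun (P : VonNeumannAlgebra H) {K : Type*} [NormedAddCommGroup K]
    [InnerProductSpace ℂ K] (V : Alg P →ₗ[ℂ] K)
    (G : Subgroup (unitary (Alg P))) (φ : Alg P →L[ℂ] Alg P) (y : Alg P) (u : G) : ℂ :=
  ⟪V 1, V (φ (star ((u : unitary (Alg P)) : Alg P)) * ((u : unitary (Alg P)) : Alg P) * y)⟫_ℂ

end Vale.Agent.P082
end

section
attribute [local instance] Vale.Agent.P082.AlgFast.nr Vale.Agent.P082.AlgFast.na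
  Vale.Agent.P082.AlgFast.sr Vale.Agent.P082.AlgFast.ng Vale.Agent.P082.AlgFast.sg
  Vale.Agent.P082.AlgFast.ns Vale.Agent.P082.AlgFast.ri Vale.Agent.P082.AlgFast.ag
  Vale.Agent.P082.AlgFast.am Vale.Agent.P082.AlgFast.mo Vale.Agent.P082.AlgFast.pm
  Vale.Agent.P082.AlgFast.us Vale.Agent.P082.AlgFast.ts Vale.Agent.P082.AlgFast.ets
  Vale.Agent.P082.AlgFast.eng Vale.Agent.P082.AlgFast.esg Vale.Agent.P082.AlgFast.ens
  Vale.Agent.P082.AlgFast.eam Vale.Agent.P082.AlgFast.emo Vale.Agent.P082.AlgFast.nu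
  Vale.Agent.P082.AlgFast.sag Vale.Agent.P082.AlgFast.agr Vale.Agent.P082.AlgFast.mon
  Vale.Agent.P082.AlgFast.srg

open scoped InnerProductSpace ComplexConjugate Topology

namespace Vale.Agent.P082

universe u

variable {H : Type u} [NormedAddCommGroup H] [InnerProductSpace ℂ H] [CompleteSpace H]

/-- the unitaries of `P` lying in a star subalgebra -/
def grpOf (P : VonNeumannAlgebra H) (S : StarSubalgebra ℂ (H →L[ℂ] H)) :
    Subgroup (unitary (Alg P)) where
  carrier := {u | ((u : Alg P) : H →L[ℂ] H) ∈ S}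
  mul_mem' := fun {_ _} ha hb => S.mul_mem ha hb
  one_mem' := S.one_mem
  inv_mem' := fun {_} ha => S.star_mem' ha

lemma vna_isClosed (P : VonNeumannAlgebra H) :
    IsClosed ((P.toStarSubalgebra : Set (H →L[ℂ] H))) := by
  have h := VonNeumannAlgebra.centralizer_centralizer P
  have h1 : (P.toStarSubalgebra : Set (H →L[ℂ] H)) = (P : Set (H →L[ℂ] H)) := rfl
  rw [h1, ← h]
  exact Set.isClosed_centralizer _

/-- a bounded linear map vanishing on the unitaries of a von Neumann subalgebra vanishes on it -/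
lemma vanish_of_unitary (P M : VonNeumannAlgebra H) (hMP : ∀ x ∈ M, x ∈ P)
    (φ : Alg P →L[ℂ] Alg P) (h : ∀ u ∈ grpOf P M.toStarSubalgebra, φ (u : Alg P) = 0)
    (x : Alg P) (hx : (x : H →L[ℂ] H) ∈ M) : φ x = 0 := by
  have hcl : IsClosed ((M.toStarSubalgebra : Set (H →L[ℂ] H))) := vna_isClosed M
  obtain ⟨u, c, huc, -⟩ := CStarAlgebra.exists_sum_four_unitary
    (⟨(x : H →L[ℂ] H), hx⟩ : M.toStarSubalgebra)
  let v : Fin 4 → unitary (Alg P) := fun i =>
    ⟨⟨((u i : M.toStarSubalgebra) : H →L[ℂ] H), hMP _ (u i : M.toStarSubalgebra).2⟩, by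
      rw [Unitary.mem_iff]
      have h1 := Unitary.star_mul_self_of_mem (u i).2
      have h2 := Unitary.mul_star_self_of_mem (u i).2
      have h3 : star ((u i : M.toStarSubalgebra) : H →L[ℂ] H) *
          ((u i : M.toStarSubalgebra) : H →L[ℂ] H) = 1 :=
        congrArg (fun z : M.toStarSubalgebra => (z : H →L[ℂ] H)) h1
      have h4 : ((u i : M.toStarSubalgebra) : H →L[ℂ] H) *
          star ((u i : M.toStarSubalgebra) : H →L[ℂ] H) = 1 :=
        congrArg (fun z : M.toStarSubalgebra => (z : H →L[ℂ] H)) h2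
      exact ⟨Subtype.ext h3, Subtype.ext h4⟩⟩
  have hx2 : x = ∑ i, c i • ((v i : unitary (Alg P)) : Alg P) := by
    apply Subtype.ext
    have h3 := congrArg (fun z : M.toStarSubalgebra => (z : H →L[ℂ] H)) huc
    refine Eq.trans h3 ?_
    simp [v]
  rw [hx2, map_sum]
  refine Finset.sum_eq_zero (fun i _ => ?_)
  rw [map_smul, h (v i) (u i : M.toStarSubalgebra).2, smul_zero]

end Vale.Agent.P082
end

section
attribute [local instance] Vale.Agent.P082.AlgFast.nr Vale.Agent.P082.AlgFast.na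
  Vale.Agent.P082.AlgFast.sr Vale.Agent.P082.AlgFast.ng Vale.Agent.P082.AlgFast.sg
  Vale.Agent.P082.AlgFast.ns Vale.Agent.P082.AlgFast.ri Vale.Agent.P082.AlgFast.ag
  Vale.Agent.P082.AlgFast.am Vale.Agent.P082.AlgFast.mo Vale.Agent.P082.AlgFast.pm
  Vale.Agent.P082.AlgFast.us Vale.Agent.P082.AlgFast.ts Vale.Agent.P082.AlgFast.ets
  Vale.Agent.P082.AlgFast.eng Vale.Agent.P082.AlgFast.esg Vale.Agent.P082.AlgFast.ens
  Vale.Agent.P082.AlgFast.eam Vale.Agent.P082.AlgFast.emo Vale.Agent.P082.AlgFast.nu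
  Vale.Agent.P082.AlgFast.sag Vale.Agent.P082.AlgFast.agr Vale.Agent.P082.AlgFast.mon
  Vale.Agent.P082.AlgFast.srg

open scoped InnerProductSpace ComplexConjugate

namespace Vale.Agent.P082.VN

universe u

variable {H : Type u} [NormedAddCommGroup H] [InnerProductSpace ℂ H] [CompleteSpace H]
  {M : VonNeumannAlgebra H}

/-- an averaging functional over the central part `z`, invariant on the maps satisfying `Tm` -/
structure IsAvgOn (M : VonNeumannAlgebra H) (z : H →L[ℂ] H) (Tm : (Alg M →L[ℂ] Alg M) → Prop)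
    (a : (Alg M →L[ℂ] Alg M) →L[ℂ] Alg M) : Prop where
  left : ∀ (c : Alg M) (φ : Alg M →L[ℂ] Alg M), a ((mulL c).comp φ) = c * a φ
  one : ((a (ContinuousLinearMap.id ℂ (Alg M)) : Alg M) : H →L[ℂ] H) = z
  supp : ∀ φ, ((a φ : Alg M) : H →L[ℂ] H) * z = (a φ : Alg M)
  norm_le : ∀ φ, ‖a φ‖ ≤ ‖φ‖
  inv : ∀ φ, Tm φ → ∀ b, tw a φ b = 0

omit [CompleteSpace H] in
lemma avgOn_isSum_add {I : Type*} {v v' : I → H →L[ℂ] H} {w w' : H →L[ℂ] H} (h : IsSum v w)
    (h' : IsSum v' w') : IsSum (fun i => v i + v' i) (w + w') := fun x => by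
  simpa using (h x).add (h' x)

omit [CompleteSpace H] in
lemma avgOn_isSum_smul {I : Type*} {v : I → H →L[ℂ] H} {w : H →L[ℂ] H} (h : IsSum v w)
    (c : ℂ) : IsSum (fun i => c • v i) (c • w) := fun x => by
  simpa using (h x).const_smul c

omit [CompleteSpace H] in
lemma avgOn_isSum_congr {I : Type*} {v v' : I → H →L[ℂ] H} {w : H →L[ℂ] H} (h : IsSum v w)
    (hv : ∀ i, v i = v' i) : IsSum v' w := by
  have : v = v' := funext hv
  rwa [← this]

lemma avgOn_mul_sum {I : Type*} {z : I → H →L[ℂ] H} {s : H →L[ℂ] H}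
    (hi : ∀ i, z i * z i = z i) (ho : ∀ i j, i ≠ j → z i * z j = 0) (hs : IsSum z s) (i : I) :
    z i * s = z i := by
  classical
  refine IsSum.unique (hs.mul_left (z i)) (fun x => ?_)
  have := hasSum_single (f := fun j => (z i * z j) x) i (fun j hj => by
    rw [ho i j (Ne.symm hj)]; rfl)
  simpa only [hi i] using this

/-- averaging functionals over orthogonal central projections can be summed -/
theorem exists_avgOn_sum {I : Type*} {z : I → H →L[ℂ] H} {s : H →L[ℂ] H}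
    {Tm : (Alg M →L[ℂ] Alg M) → Prop} (hz : ∀ i, IsCPr M (z i))
    (ho : ∀ i j, i ≠ j → z i * z j = 0) (hs : IsSum z s)
    (h : ∀ i, ∃ a, IsAvgOn M (z i) Tm a) : ∃ a, IsAvgOn M s Tm a := by
  choose a ha using h
  have key : ∀ φ : Alg M →L[ℂ] Alg M, ∃ w ∈ M,
      IsSum (fun i => ((a i φ : Alg M) : H →L[ℂ] H)) w ∧ ‖w‖ ≤ ‖φ‖ := by
    intro φ
    obtain ⟨w, hw, hws, -, hwn⟩ := exists_sum_central z hz ho
      (fun i => ((a i φ : Alg M) : H →L[ℂ] H)) (fun i => (a i φ).2)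
      (fun i => by rw [(hz i).comm _ (a i φ).2, (ha i).supp φ]) (C := ‖φ‖)
      (fun i => (ha i).norm_le φ)
    exact ⟨w, hw, hws, by rwa [abs_of_nonneg (norm_nonneg φ)] at hwn⟩
  choose W hWM hWs hWn using key
  let L : (Alg M →L[ℂ] Alg M) →ₗ[ℂ] Alg M :=
    { toFun := fun φ => ⟨W φ, hWM φ⟩
      map_add' := fun φ ψ => Subtype.ext (by
        refine IsSum.unique (hWs (φ + ψ)) (avgOn_isSum_congr (avgOn_isSum_add (hWs φ) (hWs ψ)) ?_)
        intro i
        rw [map_add]
        rfl)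
      map_smul' := fun c φ => Subtype.ext (by
        refine IsSum.unique (hWs (c • φ)) (avgOn_isSum_congr (avgOn_isSum_smul (hWs φ) c) ?_)
        intro i
        rw [map_smul]
        rfl) }
  let A : (Alg M →L[ℂ] Alg M) →L[ℂ] Alg M := L.mkContinuous 1 (fun φ => by
    rw [one_mul]
    exact hWn φ)
  have hA : ∀ φ, ((A φ : Alg M) : H →L[ℂ] H) = W φ := fun φ => rfl
  refine ⟨A, ⟨?_, ?_, ?_, ?_, ?_⟩⟩
  · intro c φ
    apply Subtype.ext
    refine IsSum.unique (hWs ((mulL c).comp φ))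
      (avgOn_isSum_congr ((hWs φ).mul_left (c : H →L[ℂ] H)) ?_)
    intro i
    rw [(ha i).left c φ]
    rfl
  · rw [hA]
    exact IsSum.unique (hWs _) (avgOn_isSum_congr hs fun i => ((ha i).one).symm)
  · intro φ
    rw [hA]
    refine IsSum.unique ((hWs φ).mul_right s) (avgOn_isSum_congr (hWs φ) ?_)
    intro i
    have h1 := (ha i).supp φ
    have h2 := avgOn_mul_sum (fun i => (hz i).idem) ho hs i
    calc ((a i φ : Alg M) : H →L[ℂ] H) = ((a i φ : Alg M) : H →L[ℂ] H) * z i := h1.symm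
      _ = ((a i φ : Alg M) : H →L[ℂ] H) * (z i * s) := by rw [h2]
      _ = ((a i φ : Alg M) : H →L[ℂ] H) * z i * s := by rw [mul_assoc]
      _ = ((a i φ : Alg M) : H →L[ℂ] H) * s := by rw [h1]
  · intro φ
    exact hWn φ
  · intro φ hφ b
    rw [tw_apply, sub_eq_zero]
    apply Subtype.ext
    refine IsSum.unique (hWs (φ.comp (mulL b)))
      (avgOn_isSum_congr ((hWs φ).mul_right (b : H →L[ℂ] H)) ?_)
    intro i
    have h1 := (ha i).inv φ hφ b
    rw [tw_apply, sub_eq_zero] at h1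
    rw [h1]
    rfl

theorem exists_avgOn_add {z z' : H →L[ℂ] H}
    {Tm : (Alg M →L[ℂ] Alg M) → Prop} (hz : IsCPr M z) (hz' : IsCPr M z')
    (ho : z * z' = 0) (h : ∃ a, IsAvgOn M z Tm a) (h' : ∃ a, IsAvgOn M z' Tm a) :
    ∃ a, IsAvgOn M (z + z') Tm a := by
  have ho' : z' * z = 0 := by rw [hz'.comm z hz.mem, ho]
  refine exists_avgOn_sum (I := Bool) (z := fun b => if b then z else z') ?_ ?_ ?_ ?_
  · intro b
    cases b
    · simpa using hz'
    · simpa using hz
  · intro b c hbc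
    cases b <;> cases c <;> simp_all
  · intro x
    have := hasSum_fintype (fun b : Bool => (if b then z else z') x)
    simpa using this
  · intro b
    cases b
    · simpa using h'
    · simpa using h

end Vale.Agent.P082.VN
end

section
attribute [local instance] Vale.Agent.P082.AlgFast.nr Vale.Agent.P082.AlgFast.na
  Vale.Agent.P082.AlgFast.sr Vale.Agent.P082.AlgFast.ng Vale.Agent.P082.AlgFast.sg
  Vale.Agent.P082.AlgFast.ns Vale.Agent.P082.AlgFast.ri Vale.Agent.P082.AlgFast.ag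
  Vale.Agent.P082.AlgFast.am Vale.Agent.P082.AlgFast.mo Vale.Agent.P082.AlgFast.pm
  Vale.Agent.P082.AlgFast.us Vale.Agent.P082.AlgFast.ts Vale.Agent.P082.AlgFast.ets
  Vale.Agent.P082.AlgFast.eng Vale.Agent.P082.AlgFast.esg Vale.Agent.P082.AlgFast.ens
  Vale.Agent.P082.AlgFast.eam Vale.Agent.P082.AlgFast.emo Vale.Agent.P082.AlgFast.nu
  Vale.Agent.P082.AlgFast.sag Vale.Agent.P082.AlgFast.agr Vale.Agent.P082.AlgFast.mon
  Vale.Agent.P082.AlgFast.srg

open scoped InnerProductSpace ComplexConjugate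

namespace Vale.Agent.P082.VN

universe u

variable {H : Type u} [NormedAddCommGroup H] [InnerProductSpace ℂ H] [CompleteSpace H]
  {M : VonNeumannAlgebra H}

/-- the data of a central corner `P ≅ M z` -/
structure CornerData (M : VonNeumannAlgebra H) (z : H →L[ℂ] H) {K : Type u}
    [NormedAddCommGroup K] [InnerProductSpace ℂ K] [CompleteSpace K] (P : VonNeumannAlgebra K)
    (ι : K →ₗᵢ[ℂ] H) (up : Alg P →L[ℂ] Alg M) (down : Alg M →L[ℂ] Alg P) : Prop where
  range : ∀ h : H, z h = h ↔ ∃ k, ι k = h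
  up_apply : ∀ (x : Alg P) (k : K), ((up x : Alg M) : H →L[ℂ] H) (ι k) = ι ((x : K →L[ℂ] K) k)
  down_apply : ∀ (x : Alg M) (k : K), ι (((down x : Alg P) : K →L[ℂ] K) k) = (x : H →L[ℂ] H) (ι k)
  up_supp : ∀ x : Alg P, z * ((up x : Alg M) : H →L[ℂ] H) = (up x : Alg M)
  down_up : ∀ x, down (up x) = x
  up_down : ∀ x : Alg M, ((up (down x) : Alg M) : H →L[ℂ] H) = z * (x : H →L[ℂ] H)
  up_mul : ∀ x y, up (x * y) = up x * up y
  up_star : ∀ x, up (star x) = star (up x)
  down_mul : ∀ x y, down (x * y) = down x * down y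
  down_star : ∀ x, down (star x) = star (down x)
  down_one : down 1 = 1
  norm_up : ∀ x, ‖up x‖ = ‖x‖
  norm_down : ∀ x, ‖down x‖ ≤ ‖x‖

/-- the range of `z` -/
def cornSub (z : H →L[ℂ] H) : Submodule ℂ H where
  carrier := {h | z h = h}
  add_mem' := by
    intro a b ha hb
    simp only [Set.mem_ofPred_eq] at *
    rw [map_add, ha, hb]
  zero_mem' := by simp
  smul_mem' := by
    intro c a ha
    simp only [Set.mem_ofPred_eq] at *
    rw [map_smul, ha]

lemma mem_cornSub {z : H →L[ℂ] H} {h : H} : h ∈ cornSub z ↔ z h = h := Iff.rfl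

lemma isClosed_cornSub (z : H →L[ℂ] H) : IsClosed (cornSub z : Set H) :=
  isClosed_eq z.continuous continuous_id

lemma completeSpace_cornSub (z : H →L[ℂ] H) : CompleteSpace (cornSub z) :=
  (isClosed_cornSub z).completeSpace_coe

/-- `z` as a map to its range -/
noncomputable def cornP {z : H →L[ℂ] H} (hz : z * z = z) : H →L[ℂ] cornSub z :=
  z.codRestrict (cornSub z) (fun x => by
    rw [mem_cornSub]
    exact congrArg (fun T : H →L[ℂ] H => T x) hz)

@[simp] lemma coe_cornP {z : H →L[ℂ] H} (hz : z * z = z) (h : H) :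
    ((cornP hz h : cornSub z) : H) = z h := rfl

lemma cornP_coe {z : H →L[ℂ] H} (hz : z * z = z) (k : cornSub z) : cornP hz (k : H) = k :=
  Subtype.ext (mem_cornSub.1 k.2)

/-- `T ↦ ι T ι*` -/
noncomputable def cornUp {z : H →L[ℂ] H} (hz : z * z = z) (T : cornSub z →L[ℂ] cornSub z) :
    H →L[ℂ] H := (cornSub z).subtypeL.comp (T.comp (cornP hz))

@[simp] lemma cornUp_apply {z : H →L[ℂ] H} (hz : z * z = z) (T : cornSub z →L[ℂ] cornSub z)
    (h : H) : cornUp hz T h = (T (cornP hz h) : cornSub z) := rfl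

lemma cornUp_add {z : H →L[ℂ] H} (hz : z * z = z) (S T : cornSub z →L[ℂ] cornSub z) :
    cornUp hz (S + T) = cornUp hz S + cornUp hz T := by
  ext h; simp

lemma cornUp_smul {z : H →L[ℂ] H} (hz : z * z = z) (c : ℂ) (T : cornSub z →L[ℂ] cornSub z) :
    cornUp hz (c • T) = c • cornUp hz T := by
  ext h; simp

lemma cornUp_mul {z : H →L[ℂ] H} (hz : z * z = z) (S T : cornSub z →L[ℂ] cornSub z) :
    cornUp hz (S * T) = cornUp hz S * cornUp hz T := by
  ext h
  simp only [cornUp_apply, mul_apply_eq_comp, cornP_coe]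

lemma cornUp_one {z : H →L[ℂ] H} (hz : z * z = z) : cornUp hz 1 = z := by
  ext h
  simp

lemma cornUp_star {z : H →L[ℂ] H} (hz : z * z = z) (hs : star z = z)
    [CompleteSpace (cornSub z)] (T : cornSub z →L[ℂ] cornSub z) :
    cornUp hz (star T) = star (cornUp hz T) := by
  have hz' : ∀ x y : H, ⟪z x, y⟫_ℂ = ⟪x, z y⟫_ℂ := by
    intro x y
    have : ⟪x, z y⟫_ℂ = ⟪(ContinuousLinearMap.adjoint z) x, y⟫_ℂ :=
      (ContinuousLinearMap.adjoint_inner_left z y x).symm
    rw [this]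
    have h2 : ContinuousLinearMap.adjoint z = z := hs
    rw [h2]
  have hx : ∀ (k : cornSub z) (y : H), ⟪(k : H), y⟫_ℂ = ⟪k, cornP hz y⟫_ℂ := by
    intro k y
    have h1 : ⟪k, cornP hz y⟫_ℂ = ⟪(k : H), z y⟫_ℂ := rfl
    rw [h1, ← hz', mem_cornSub.1 k.2]
  have hy : ∀ (y : H) (k : cornSub z), ⟪y, (k : H)⟫_ℂ = ⟪cornP hz y, k⟫_ℂ := by
    intro y k
    have h1 : ⟪cornP hz y, k⟫_ℂ = ⟪z y, (k : H)⟫_ℂ := rfl
    rw [h1, hz', mem_cornSub.1 k.2]
  apply ext_inner_op
  intro β α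
  have e1 : star (cornUp hz T) = ContinuousLinearMap.adjoint (cornUp hz T) := rfl
  have e2 : star T = ContinuousLinearMap.adjoint T := rfl
  rw [e1, e2, ContinuousLinearMap.adjoint_inner_right, cornUp_apply, cornUp_apply, hy, hx,
    ContinuousLinearMap.adjoint_inner_right]

/-- the corner as a von Neumann algebra -/
noncomputable def cornAlg (M : VonNeumannAlgebra H) {z : H →L[ℂ] H} (hz : IsCPr M z)
    [CompleteSpace (cornSub z)] : VonNeumannAlgebra (cornSub z) where
  carrier := {T | cornUp hz.idem T ∈ M}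
  mul_mem' := by
    intro S T hS hT
    simp only [Set.mem_ofPred_eq] at *
    rw [cornUp_mul]
    exact mul_mem hS hT
  add_mem' := by
    intro S T hS hT
    simp only [Set.mem_ofPred_eq] at *
    rw [cornUp_add]
    exact add_mem hS hT
  algebraMap_mem' := by
    intro c
    simp only [Set.mem_ofPred_eq]
    rw [Algebra.algebraMap_eq_smul_one, cornUp_smul, cornUp_one]
    exact M.toStarSubalgebra.smul_mem hz.mem c
  star_mem' := by
    intro T hT
    simp only [Set.mem_ofPred_eq] at *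
    rw [cornUp_star hz.idem hz.sa]
    exact star_mem hT
  centralizer_centralizer' := by
    apply Set.Subset.antisymm
    · intro T hT
      rw [Set.mem_centralizer_iff] at hT
      show cornUp hz.idem T ∈ M
      apply mem_of_commutes
      intro y hy
      have hyz : ∀ h, y (z h) = z (y h) := fun h =>
        congrArg (fun T : H →L[ℂ] H => T h) (hy z hz.mem)
      have key := hT ((cornP hz.idem).comp (y.comp (cornSub z).subtypeL)) (by
        rw [Set.mem_centralizer_iff]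
        intro S hS
        have hS' : cornUp hz.idem S ∈ M := hS
        ext k
        have h1 := congrArg (fun T : H →L[ℂ] H => T (k : H)) (hy _ hS')
        simp only [mul_apply_eq_comp, cornUp_apply, cornP_coe] at h1
        simp only [mul_apply_eq_comp, ContinuousLinearMap.comp_apply,
          Submodule.subtypeL_apply, coe_cornP]
        rw [← h1, ← hyz, mem_cornSub.1 (S k).2])
      ext h
      have h2 := congrArg (fun T : cornSub z →L[ℂ] cornSub z => ((T (cornP hz.idem h) : cornSub z) : H))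
        key
      simp only [mul_apply_eq_comp, ContinuousLinearMap.comp_apply,
        Submodule.subtypeL_apply, coe_cornP] at h2
      simp only [mul_apply_eq_comp, cornUp_apply]
      rw [← hyz, mem_cornSub.1 (T _).2] at h2
      rw [h2]
      congr 2
      apply Subtype.ext
      rw [coe_cornP, coe_cornP, hyz]
      exact congrArg (fun T : H →L[ℂ] H => T (y h)) hz.idem
    · exact Set.subset_centralizer_centralizer

lemma norm_cornUp_le {z : H →L[ℂ] H} (hz : z * z = z) (hs : star z = z)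
    (T : cornSub z →L[ℂ] cornSub z) : ‖cornUp hz T‖ ≤ ‖T‖ := by
  have hz1 : ‖z‖ ≤ 1 := by
    have h1 : ‖z‖ * ‖z‖ = ‖z‖ := by
      rw [← CStarRing.norm_star_mul_self, hs, hz]
    by_contra hcon
    push Not at hcon
    nlinarith only [h1, hcon]
  refine ContinuousLinearMap.opNorm_le_bound _ (norm_nonneg T) (fun h => ?_)
  have h1 : ‖cornUp hz T h‖ = ‖T (cornP hz h)‖ := rfl
  have h2 : ‖cornP hz h‖ = ‖z h‖ := rfl
  rw [h1]
  refine (T.le_opNorm _).trans ?_
  rw [h2]
  have h3 : ‖z h‖ ≤ ‖h‖ := by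
    refine (z.le_opNorm h).trans ?_
    have := mul_le_mul_of_nonneg_right hz1 (norm_nonneg h)
    rwa [one_mul] at this
  gcongr

/-- restriction of an operator to the corner -/
noncomputable def cornDown {z : H →L[ℂ] H} (hz : z * z = z) (x : H →L[ℂ] H) :
    cornSub z →L[ℂ] cornSub z := (cornP hz).comp (x.comp (cornSub z).subtypeL)

@[simp] lemma coe_cornDown_apply {z : H →L[ℂ] H} (hz : z * z = z) (x : H →L[ℂ] H)
    (k : cornSub z) : ((cornDown hz x k : cornSub z) : H) = z (x (k : H)) := rfl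

lemma norm_cornDown_le {z : H →L[ℂ] H} (hz : z * z = z) (hs : star z = z)
    (x : H →L[ℂ] H) : ‖cornDown hz x‖ ≤ ‖x‖ := by
  have hz1 : ‖z‖ ≤ 1 := by
    have h1 : ‖z‖ * ‖z‖ = ‖z‖ := by
      rw [← CStarRing.norm_star_mul_self, hs, hz]
    by_contra hcon
    push Not at hcon
    nlinarith only [h1, hcon]
  refine ContinuousLinearMap.opNorm_le_bound _ (norm_nonneg x) (fun k => ?_)
  have h1 : ‖cornDown hz x k‖ = ‖z (x (k : H))‖ := rfl
  have h2 : ‖k‖ = ‖(k : H)‖ := rfl
  rw [h1, h2]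
  have h3 : ‖z (x (k : H))‖ ≤ ‖x (k : H)‖ := by
    refine (z.le_opNorm _).trans ?_
    have := mul_le_mul_of_nonneg_right hz1 (norm_nonneg (x (k : H)))
    rwa [one_mul] at this
  exact h3.trans (x.le_opNorm _)

lemma cornUp_cornDown {z : H →L[ℂ] H} (hz : z * z = z) (x : H →L[ℂ] H)
    (hx : z * x = x * z) : cornUp hz (cornDown hz x) = z * x := by
  ext h
  have h1 : x (z h) = z (x h) := (congrArg (fun T : H →L[ℂ] H => T h) hx).symm
  have h2 : z (z (x h)) = z (x h) := congrArg (fun T : H →L[ℂ] H => T (x h)) hz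
  simp only [cornUp_apply, coe_cornDown_apply, coe_cornP, mul_apply_eq_comp]
  rw [h1, h2]

lemma cornDown_cornUp {z : H →L[ℂ] H} (hz : z * z = z) (T : cornSub z →L[ℂ] cornSub z) :
    cornDown hz (cornUp hz T) = T := by
  ext k
  simp only [coe_cornDown_apply, cornUp_apply, cornP_coe]
  exact mem_cornSub.1 (T k).2

/-- (S0) central corners exist -/
theorem exists_corner {z : H →L[ℂ] H} (hz : IsCPr M z) :
    ∃ (K : Type u) (_ : NormedAddCommGroup K) (_ : InnerProductSpace ℂ K)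
      (_ : CompleteSpace K) (P : VonNeumannAlgebra K) (ι : K →ₗᵢ[ℂ] H)
      (up : Alg P →L[ℂ] Alg M) (down : Alg M →L[ℂ] Alg P), CornerData M z P ι up down := by
  have := completeSpace_cornSub z
  have hi := hz.idem
  have hcomm : ∀ x ∈ M, z * x = x * z := hz.comm
  let up : Alg (cornAlg M hz) →L[ℂ] Alg M :=
    LinearMap.mkContinuous
      { toFun := fun T => ⟨cornUp hi (T : cornSub z →L[ℂ] cornSub z), T.2⟩
        map_add' := fun S T => Subtype.ext (cornUp_add hi _ _)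
        map_smul' := fun c T => Subtype.ext (cornUp_smul hi c _) } 1
      (fun T => by
        rw [one_mul]
        exact norm_cornUp_le hi hz.sa (T : cornSub z →L[ℂ] cornSub z))
  let down : Alg M →L[ℂ] Alg (cornAlg M hz) :=
    LinearMap.mkContinuous
      { toFun := fun x => ⟨cornDown hi (x : H →L[ℂ] H), by
          show cornUp hi (cornDown hi (x : H →L[ℂ] H)) ∈ M
          rw [cornUp_cornDown hi _ (hcomm _ x.2)]
          exact mul_mem hz.mem x.2⟩
        map_add' := fun x y => by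
          apply Subtype.ext
          ext k
          simp
        map_smul' := fun c x => by
          apply Subtype.ext
          ext k
          simp } 1
      (fun x => by
        rw [one_mul]
        exact norm_cornDown_le hi hz.sa (x : H →L[ℂ] H))
  have hup : ∀ T, ((up T : Alg M) : H →L[ℂ] H) = cornUp hi (T : cornSub z →L[ℂ] cornSub z) :=
    fun T => rfl
  have hdown : ∀ x, ((down x : Alg (cornAlg M hz)) : cornSub z →L[ℂ] cornSub z)
      = cornDown hi (x : H →L[ℂ] H) := fun T => rfl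
  have hdu : ∀ x, down (up x) = x := by
    intro x
    apply Subtype.ext
    rw [hdown, hup, cornDown_cornUp]
  have hud : ∀ x : Alg M, ((up (down x) : Alg M) : H →L[ℂ] H) = z * (x : H →L[ℂ] H) := by
    intro x
    rw [hup, hdown, cornUp_cornDown hi _ (hcomm _ x.2)]
  have hnu : ∀ x, ‖up x‖ ≤ ‖x‖ := fun x => norm_cornUp_le hi hz.sa (x : cornSub z →L[ℂ] cornSub z)
  have hnd : ∀ x, ‖down x‖ ≤ ‖x‖ := fun x => norm_cornDown_le hi hz.sa (x : H →L[ℂ] H)
  refine ⟨cornSub z, inferInstance, inferInstance, inferInstance, cornAlg M hz,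
    (cornSub z).subtypeₗᵢ, up, down, ?_⟩
  refine ⟨?_, ?_, ?_, ?_, hdu, hud, ?_, ?_, ?_, ?_, ?_, ?_, hnd⟩
  · intro h
    constructor
    · intro hh
      exact ⟨⟨h, hh⟩, rfl⟩
    · rintro ⟨k, rfl⟩
      exact k.2
  · intro x k
    rw [hup, cornUp_apply]
    congr 2
    exact cornP_coe hi k
  · intro x k
    have h1 : z ((x : H →L[ℂ] H) (k : H)) = (x : H →L[ℂ] H) (z (k : H)) :=
      congrArg (fun T : H →L[ℂ] H => T (k : H)) (hcomm _ x.2)
    show z ((x : H →L[ℂ] H) (k : H)) = (x : H →L[ℂ] H) (k : H)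
    rw [h1, mem_cornSub.1 k.2]
  · intro x
    rw [hup]
    ext h
    exact mem_cornSub.1 ((x : cornSub z →L[ℂ] cornSub z) (cornP hi h)).2
  · intro x y
    apply Subtype.ext
    exact cornUp_mul hi _ _
  · intro x
    apply Subtype.ext
    exact cornUp_star hi hz.sa _
  · intro x y
    apply Subtype.ext
    ext k
    have h1 : z ((y : H →L[ℂ] H) (k : H)) = (y : H →L[ℂ] H) (k : H) := by
      have h1 : z ((y : H →L[ℂ] H) (k : H)) = (y : H →L[ℂ] H) (z (k : H)) :=
        congrArg (fun T : H →L[ℂ] H => T (k : H)) (hcomm _ y.2)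
      rw [h1, mem_cornSub.1 k.2]
    show z ((x : H →L[ℂ] H) ((y : H →L[ℂ] H) (k : H)))
      = z ((x : H →L[ℂ] H) (z ((y : H →L[ℂ] H) (k : H))))
    rw [h1]
  · intro x
    have h1 : up (down (star x)) = up (star (down x)) := by
      have h2 : up (star (down x)) = star (up (down x)) := Subtype.ext (cornUp_star hi hz.sa _)
      rw [h2]
      apply Subtype.ext
      rw [hud]
      have h3 : ((star (up (down x)) : Alg M) : H →L[ℂ] H)
        = star ((up (down x) : Alg M) : H →L[ℂ] H) := rfl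
      rw [h3, hud, star_mul, hz.sa]
      exact hcomm _ (star x).2
    rw [← hdu (down (star x)), h1, hdu]
  · apply Subtype.ext
    ext k
    exact mem_cornSub.1 k.2
  · intro x
    apply le_antisymm (hnu x)
    have := hnd (up x)
    rwa [hdu] at this

/-- averages on the corner give averages on `M` -/
theorem CornerData.lift {z : H →L[ℂ] H} (hz : IsCPr M z) {K : Type u}
    [NormedAddCommGroup K] [InnerProductSpace ℂ K] [CompleteSpace K] {P : VonNeumannAlgebra K}
    {ι : K →ₗᵢ[ℂ] H} {up : Alg P →L[ℂ] Alg M} {down : Alg M →L[ℂ] Alg P}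
    (hc : CornerData M z P ι up down) (a : (Alg P →L[ℂ] Alg P) →L[ℂ] Alg P) (ha : IsAvg a)
    (hn : ∀ φ, ‖a φ‖ ≤ ‖φ‖) :
    ∃ a' : (Alg M →L[ℂ] Alg M) →L[ℂ] Alg M,
      (∀ φ, a' φ = up (a (down.comp (φ.comp up)))) ∧
      (∀ (c : Alg M) (φ : Alg M →L[ℂ] Alg M), a' ((mulL c).comp φ) = c * a' φ) ∧
      ((a' (ContinuousLinearMap.id ℂ (Alg M)) : Alg M) : H →L[ℂ] H) = z ∧
      (∀ φ, ((a' φ : Alg M) : H →L[ℂ] H) * z = (a' φ : Alg M)) ∧ (∀ φ, ‖a' φ‖ ≤ ‖φ‖) ∧
      ∀ φ b, tw a' φ b = up (tw a (down.comp (φ.comp up)) (down b)) := by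
  have hup1 : ‖up‖ ≤ 1 := by
    refine ContinuousLinearMap.opNorm_le_bound _ zero_le_one (fun x => ?_)
    rw [one_mul, hc.norm_up]
  have hdown1 : ‖down‖ ≤ 1 := by
    refine ContinuousLinearMap.opNorm_le_bound _ zero_le_one (fun x => ?_)
    rw [one_mul]
    exact hc.norm_down x
  have hbd : ∀ φ : Alg M →L[ℂ] Alg M, ‖down.comp (φ.comp up)‖ ≤ ‖φ‖ := by
    intro φ
    refine (ContinuousLinearMap.opNorm_comp_le _ _).trans ?_
    have h1 := ContinuousLinearMap.opNorm_comp_le φ up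
    have h2 : ‖φ‖ * ‖up‖ ≤ ‖φ‖ := mul_le_of_le_one_right (norm_nonneg _) hup1
    calc ‖down‖ * ‖φ.comp up‖ ≤ 1 * ‖φ‖ := by
          gcongr
          exact h1.trans h2
      _ = ‖φ‖ := one_mul _
  obtain ⟨a', ha'⟩ : ∃ a' : (Alg M →L[ℂ] Alg M) →L[ℂ] Alg M,
      ∀ φ, a' φ = up (a (down.comp (φ.comp up))) :=
    ⟨up.comp (a.comp ((ContinuousLinearMap.compL ℂ (Alg P) (Alg M) (Alg P) down).comp
      ((ContinuousLinearMap.compL ℂ (Alg P) (Alg M) (Alg M)).flip up))), fun φ => rfl⟩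
  have hcm : ∀ (c : Alg M) (y : Alg P), up (down c * y) = c * up y := by
    intro c y
    rw [hc.up_mul]
    apply Subtype.ext
    show ((up (down c) : Alg M) : H →L[ℂ] H) * ((up y : Alg M) : H →L[ℂ] H)
      = (c : H →L[ℂ] H) * ((up y : Alg M) : H →L[ℂ] H)
    rw [hc.up_down, hz.comm _ c.2, mul_assoc, hc.up_supp]
  have hcm2 : ∀ (y : Alg P) (c : Alg M), up (y * down c) = up y * c := by
    intro y c
    rw [hc.up_mul]
    apply Subtype.ext
    show ((up y : Alg M) : H →L[ℂ] H) * ((up (down c) : Alg M) : H →L[ℂ] H)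
      = ((up y : Alg M) : H →L[ℂ] H) * (c : H →L[ℂ] H)
    rw [hc.up_down, ← mul_assoc, ← hz.comm _ (up y).2, hc.up_supp]
  have hnorm : ∀ φ, ‖a' φ‖ ≤ ‖φ‖ := fun φ => by
    rw [ha', hc.norm_up]
    exact (hn _).trans (hbd φ)
  refine ⟨a', ha', ?_, ?_, ?_, hnorm, ?_⟩
  · intro c φ
    rw [ha', ha', ← hcm, ← ha.left]
    congr 2
    ext y : 1
    show down (c * φ (up y)) = down c * down (φ (up y))
    exact hc.down_mul _ _
  · rw [ha']
    have h1 : down.comp ((ContinuousLinearMap.id ℂ (Alg M)).comp up)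
        = ContinuousLinearMap.id ℂ (Alg P) := by
      ext y : 1
      exact hc.down_up y
    rw [h1, ha.one]
    have h2 := hc.up_down 1
    rw [hc.down_one] at h2
    rw [h2]
    exact mul_one z
  · intro φ
    rw [ha', ← hz.comm _ (up _).2, hc.up_supp]
  · intro φ b
    rw [tw_apply, tw_apply, map_sub, hcm2, ha', ha']
    congr 2
    congr 1
    ext y : 1
    show down (φ (b * up y)) = down (φ (up (down b * y)))
    rw [hcm]

end Vale.Agent.P082.VN
end

section
attribute [local instance] Vale.Agent.P082.AlgFast.nr Vale.Agent.P082.AlgFast.na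
  Vale.Agent.P082.AlgFast.sr Vale.Agent.P082.AlgFast.ng Vale.Agent.P082.AlgFast.sg
  Vale.Agent.P082.AlgFast.ns Vale.Agent.P082.AlgFast.ri Vale.Agent.P082.AlgFast.ag
  Vale.Agent.P082.AlgFast.am Vale.Agent.P082.AlgFast.mo Vale.Agent.P082.AlgFast.pm
  Vale.Agent.P082.AlgFast.us Vale.Agent.P082.AlgFast.ts Vale.Agent.P082.AlgFast.ets
  Vale.Agent.P082.AlgFast.eng Vale.Agent.P082.AlgFast.esg Vale.Agent.P082.AlgFast.ens
  Vale.Agent.P082.AlgFast.eam Vale.Agent.P082.AlgFast.emo Vale.Agent.P082.AlgFast.nu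
  Vale.Agent.P082.AlgFast.sag Vale.Agent.P082.AlgFast.agr Vale.Agent.P082.AlgFast.mon
  Vale.Agent.P082.AlgFast.srg

open scoped InnerProductSpace ComplexConjugate

namespace Vale.Agent.P082.VN

universe u

variable {H : Type u} [NormedAddCommGroup H] [InnerProductSpace ℂ H] [CompleteSpace H]
  {M : VonNeumannAlgebra H}

/-- admissible partial isometries below `e` -/
structure TypeIIPair (M : VonNeumannAlgebra H) (e v : H →L[ℂ] H) : Prop where
  mem : v ∈ M
  ne : v ≠ 0
  pi : v * (star v * v) = v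
  right : v * e = v
  left : e * v = v
  sq : v * v = 0

/-- families of admissible partial isometries with orthogonal supports and ranges -/
structure TypeIIFam (M : VonNeumannAlgebra H) (e : H →L[ℂ] H) (V : Set (H →L[ℂ] H)) : Prop where
  pair : ∀ v ∈ V, TypeIIPair M e v
  star_mul : ∀ v ∈ V, ∀ w ∈ V, v ≠ w → star v * w = 0
  mul_star : ∀ v ∈ V, ∀ w ∈ V, v ≠ w → v * star w = 0
  mul : ∀ v ∈ V, ∀ w ∈ V, v ≠ w → v * w = 0

lemma typeII_exists_max (e : H →L[ℂ] H) :
    ∃ V : Set (H →L[ℂ] H), Maximal (TypeIIFam M e) V := by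
  have key : ∀ c ⊆ {V : Set (H →L[ℂ] H) | TypeIIFam M e V}, IsChain (· ⊆ ·) c →
      ∃ ub ∈ {V : Set (H →L[ℂ] H) | TypeIIFam M e V}, ∀ s ∈ c, s ⊆ ub := by
    intro c hc hchain
    refine ⟨⋃₀ c, ⟨?_, ?_, ?_, ?_⟩, fun s hs => Set.subset_sUnion_of_mem hs⟩
    · rintro v ⟨s, hs, hv⟩
      exact (hc hs).pair v hv
    · rintro v ⟨s, hs, hv⟩ w ⟨t, ht, hw⟩ hvw
      rcases hchain.total hs ht with h | h
      · exact (hc ht).star_mul v (h hv) w hw hvw
      · exact (hc hs).star_mul v hv w (h hw) hvw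
    · rintro v ⟨s, hs, hv⟩ w ⟨t, ht, hw⟩ hvw
      rcases hchain.total hs ht with h | h
      · exact (hc ht).mul_star v (h hv) w hw hvw
      · exact (hc hs).mul_star v hv w (h hw) hvw
    · rintro v ⟨s, hs, hv⟩ w ⟨t, ht, hw⟩ hvw
      rcases hchain.total hs ht with h | h
      · exact (hc ht).mul v (h hv) w hw hvw
      · exact (hc hs).mul v hv w (h hw) hvw
  exact zorn_subset _ key

lemma typeII_isSum_zero {I : Type*} {v : I → H →L[ℂ] H} {w : H →L[ℂ] H} (h : IsSum v w)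
    (h0 : ∀ i, v i = 0) : w = 0 := by
  refine h.unique ?_
  intro x
  simp only [h0, zero_apply]
  exact hasSum_zero

lemma typeII_isSum_single {I : Type*} {v : I → H →L[ℂ] H} {w : H →L[ℂ] H} (h : IsSum v w)
    (i : I) (h0 : ∀ j, j ≠ i → v j = 0) : w = v i := by
  refine h.unique ?_
  intro x
  refine hasSum_single i (fun j hj => ?_)
  rw [h0 j hj, zero_apply]

/-- halving a projection without abelian subprojections -/
theorem exists_half {e : H →L[ℂ] H} (he : IsPr M e)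
    (hab : ∀ f, IsPr M f → Le f e → AbPr M f → f = 0) :
    ∃ v ∈ M, v * (star v * v) = v ∧ v * v = 0 ∧ star v * v + v * star v = e := by
  obtain ⟨V, hV, hmax⟩ := typeII_exists_max (M := M) e
  have hne : ∀ i j : V, i ≠ j → (i : H →L[ℂ] H) ≠ j := fun i j h h' => h (Subtype.ext h')
  obtain ⟨w, hwM, hw, hws, hwr, hwl⟩ := exists_sum_pi (M := M) (fun i : V => (i : H →L[ℂ] H))
    (fun i => (hV.pair i i.2).mem) (fun i => (hV.pair i i.2).pi)
    (fun i j hij => hV.star_mul i i.2 j j.2 (hne i j hij))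
    (fun i j hij => hV.mul_star i i.2 j j.2 (hne i j hij))
  -- `v (w* w) = v`
  have h1 : ∀ i : V, (i : H →L[ℂ] H) * (star w * w) = i := by
    intro i
    have := typeII_isSum_single (hwr.mul_left (i : H →L[ℂ] H)) i (fun j hj => by
      show (i : H →L[ℂ] H) * (star (j : H →L[ℂ] H) * (j : H →L[ℂ] H)) = 0
      rw [← mul_assoc, hV.mul_star i i.2 j j.2 (hne i j (Ne.symm hj)), zero_mul])
    rw [this]
    exact (hV.pair i i.2).pi
  have h2 : w * (star w * w) = w := by
    refine (hw.mul_right (star w * w)).unique ?_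
    simpa only [h1] using hw
  have h3 : ∀ j : V, w * (j : H →L[ℂ] H) = 0 := by
    intro j
    refine typeII_isSum_zero (hw.mul_right (j : H →L[ℂ] H)) (fun i => ?_)
    by_cases hij : i = j
    · subst hij
      exact (hV.pair i i.2).sq
    · exact hV.mul i i.2 j j.2 (hne i j hij)
  have h4 : w * w = 0 := typeII_isSum_zero (hw.mul_left w) h3
  have h5 : e * w = w := by
    refine (hw.mul_left e).unique ?_
    have : ∀ i : V, e * (i : H →L[ℂ] H) = i := fun i => (hV.pair i i.2).left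
    simpa only [this] using hw
  have h6 : w * e = w := by
    refine (hw.mul_right e).unique ?_
    have : ∀ i : V, (i : H →L[ℂ] H) * e = i := fun i => (hV.pair i i.2).right
    simpa only [this] using hw
  have h7 : star w * star w = 0 := by rw [← star_mul, h4, star_zero]
  have h2' : w * star w * w = w := by rw [mul_assoc, h2]
  have h2'' : star w * w * star w = star w := by
    have := congrArg star h2
    simpa only [star_mul, star_star, mul_assoc] using this
  have h5' : star w * e = star w := by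
    have := congrArg star h5
    simpa only [star_mul, he.sa] using this
  have h6' : e * star w = star w := by
    have := congrArg star h6
    simpa only [star_mul, he.sa] using this
  -- the remainder
  set s := star w * w + w * star w with hs
  have hss : s * s = s := by
    rw [hs]
    calc (star w * w + w * star w) * (star w * w + w * star w)
        = (star w * w * star w) * w + star w * (w * w) * star w
          + w * (star w * star w) * w + (w * star w * w) * star w := by noncomm_ring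
      _ = star w * w + w * star w := by
          rw [h2'', h4, h7, h2']; simp
  have hes : e * s = s := by
    rw [hs, mul_add, ← mul_assoc, ← mul_assoc, h6', h5]
  have hse : s * e = s := by
    rw [hs, add_mul, mul_assoc, mul_assoc, h6, h5']
  have hssa : star s = s := by
    rw [hs]; simp only [star_add, star_mul, star_star]
  have hstar : star w ∈ M := star_mem hwM
  have hsM : s ∈ M := add_mem (mul_mem hstar hwM) (mul_mem hwM hstar)
  have hf : IsPr M (e - s) := by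
    refine ⟨sub_mem he.mem hsM, ?_, ?_⟩
    · rw [mul_sub, sub_mul, sub_mul, he.idem, hes, hse, hss]; simp
    · rw [star_sub, he.sa, hssa]
  have hfe : Le (e - s) e := by
    show e * (e - s) = e - s
    rw [mul_sub, he.idem, hes]
  have hfw : (e - s) * w = 0 := by
    rw [sub_mul, h5, hs, add_mul, mul_assoc (star w), h4, mul_zero, zero_add, h2', sub_self]
  have hwf : w * (e - s) = 0 := by
    rw [mul_sub, h6, hs, mul_add, h2, ← mul_assoc, h4, zero_mul, add_zero, sub_self]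
  have hfv : ∀ i : V, (e - s) * (i : H →L[ℂ] H) = 0 := by
    intro i
    have hi : w * (star (i : H →L[ℂ] H) * (i : H →L[ℂ] H)) = i := by
      have := typeII_isSum_single (hw.mul_right (star (i : H →L[ℂ] H) * (i : H →L[ℂ] H))) i
        (fun j hj => by
          show (j : H →L[ℂ] H) * (star (i : H →L[ℂ] H) * (i : H →L[ℂ] H)) = 0
          rw [← mul_assoc, hV.mul_star j j.2 i i.2 (hne j i hj), zero_mul])
      rw [this]
      exact (hV.pair i i.2).pi
    rw [← hi, ← mul_assoc, hfw, zero_mul]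
  have hvf : ∀ i : V, (i : H →L[ℂ] H) * (e - s) = 0 := by
    intro i
    have hi : ((i : H →L[ℂ] H) * star (i : H →L[ℂ] H)) * w = i := by
      have := typeII_isSum_single (hw.mul_left ((i : H →L[ℂ] H) * star (i : H →L[ℂ] H))) i
        (fun j hj => by
          show ((i : H →L[ℂ] H) * star (i : H →L[ℂ] H)) * (j : H →L[ℂ] H) = 0
          rw [mul_assoc, hV.star_mul i i.2 j j.2 (hne i j (Ne.symm hj)), mul_zero])
      rw [this, mul_assoc]
      exact (hV.pair i i.2).pi
    rw [← hi, mul_assoc, hwf, mul_zero]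
  have hfv' : ∀ i : V, star (i : H →L[ℂ] H) * (e - s) = 0 := by
    intro i
    have := congrArg star (hfv i)
    rw [star_mul, hf.sa, star_zero] at this
    exact this
  have hvf' : ∀ i : V, (e - s) * star (i : H →L[ℂ] H) = 0 := by
    intro i
    have := congrArg star (hvf i)
    rw [star_mul, hf.sa, star_zero] at this
    exact this
  refine ⟨w, hwM, h2, h4, ?_⟩
  by_contra hcon
  have hf0 : e - s ≠ 0 := fun h => hcon (sub_eq_zero.mp h).symm
  have hnab : ¬ AbPr M (e - s) := fun h => hf0 (hab _ hf hfe h)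
  obtain ⟨v, hvM, hv0, hvpi, hvr, hvl, hvv⟩ := exists_pair_of_not_abelian hf hnab
  have hvl' : star v * (e - s) = star v := by
    have := congrArg star hvl
    rw [star_mul, hf.sa] at this
    exact this
  have hvr' : (e - s) * star v = star v := by
    have := congrArg star hvr
    rw [star_mul, hf.sa] at this
    exact this
  have hnew : TypeIIFam M e (insert v V) := by
    have hpair : TypeIIPair M e v := by
      refine ⟨hvM, hv0, hvpi, ?_, ?_, hvv⟩
      · rw [← hvr, mul_assoc, sub_mul, he.idem, hse]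
      · rw [← hvl, ← mul_assoc, mul_sub, he.idem, hes]
    refine ⟨?_, ?_, ?_, ?_⟩
    · rintro x (rfl | hx)
      · exact hpair
      · exact hV.pair x hx
    · rintro x (rfl | hx) y (rfl | hy) hxy
      · exact absurd rfl hxy
      · rw [← hvl', mul_assoc, hfv ⟨y, hy⟩, mul_zero]
      · rw [← hvl, ← mul_assoc, hfv' ⟨x, hx⟩, zero_mul]
      · exact hV.star_mul x hx y hy hxy
    · rintro x (rfl | hx) y (rfl | hy) hxy
      · exact absurd rfl hxy
      · rw [← hvr, mul_assoc, hvf' ⟨y, hy⟩, mul_zero]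
      · rw [← hvr', ← mul_assoc, hvf ⟨x, hx⟩, zero_mul]
      · exact hV.mul_star x hx y hy hxy
    · rintro x (rfl | hx) y (rfl | hy) hxy
      · exact absurd rfl hxy
      · rw [← hvr, mul_assoc, hfv ⟨y, hy⟩, mul_zero]
      · rw [← hvl, ← mul_assoc, hvf ⟨x, hx⟩, zero_mul]
      · exact hV.mul x hx y hy hxy
  have hsub : insert v V ⊆ V := hmax hnew (Set.subset_insert v V)
  have hvV : v ∈ V := hsub (Set.mem_insert v V)
  have := hfv ⟨v, hvV⟩
  exact hv0 (hvl.symm.trans this)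

/-- matrix units over an index type -/
structure TypeIIUnits (M : VonNeumannAlgebra H) (z : H →L[ℂ] H) {ι : Type*} [Fintype ι]
    (e : ι → ι → H →L[ℂ] H) : Prop where
  mem : ∀ i j, e i j ∈ M
  mul : ∀ i j k, e i j * e j k = e i k
  mul_ne : ∀ i j k l, j ≠ k → e i j * e k l = 0
  star : ∀ i j, star (e i j) = e j i
  sum : ∑ i, e i i = z

lemma TypeIIUnits.reindex {z : H →L[ℂ] H} {ι κ : Type*} [Fintype ι] [Fintype κ]
    {e : ι → ι → H →L[ℂ] H} (h : TypeIIUnits M z e) (E : κ ≃ ι) :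
    TypeIIUnits M z (fun i j => e (E i) (E j)) where
  mem i j := h.mem _ _
  mul i j k := h.mul _ _ _
  mul_ne i j k l hjk := h.mul_ne _ _ _ _ (fun h' => hjk (E.injective h'))
  star i j := h.star _ _
  sum := by rw [← h.sum]; exact E.sum_comp (fun i => e i i)

/-- splitting matrix units -/
lemma typeII_split {z : H →L[ℂ] H} (hab : ∀ f, IsPr M f → Le f z → AbPr M f → f = 0)
    {ι : Type*} [Fintype ι] [DecidableEq ι] (o : ι) {e : ι → ι → H →L[ℂ] H}
    (h : TypeIIUnits M z e) :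
    ∃ f : ι × Fin 2 → ι × Fin 2 → H →L[ℂ] H, TypeIIUnits M z f := by
  have hoo : IsPr M (e o o) := ⟨h.mem _ _, h.mul _ _ _, h.star _ _⟩
  have hzo : z * e o o = e o o := by
    rw [← h.sum, Finset.sum_mul, Finset.sum_eq_single o, h.mul]
    · intro i _ hi
      exact h.mul_ne _ _ _ _ hi
    · intro ho
      exact absurd (Finset.mem_univ o) ho
  obtain ⟨v, hvM, hv1, hv2, hv3⟩ := exists_half hoo (fun f hf hle hfa => hab f hf (by
    show z * f = f
    have : e o o * f = f := hle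
    rw [← this, ← mul_assoc, hzo]) hfa)
  have hv2' : star v * star v = 0 := by rw [← star_mul, hv2, star_zero]
  have hv1' : v * star v * v = v := by rw [mul_assoc, hv1]
  have hv1'' : star v * v * star v = star v := by
    have := congrArg star hv1
    simpa only [star_mul, star_star, mul_assoc] using this
  have hsM : star v ∈ M := star_mem hvM
  -- the 2×2 matrix units
  let t : Fin 2 → Fin 2 → H →L[ℂ] H := fun a b =>
    if a = 0 then (if b = 0 then star v * v else star v) else (if b = 0 then v else v * star v)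
  have t00 : t 0 0 = star v * v := rfl
  have t01 : t 0 1 = star v := rfl
  have t10 : t 1 0 = v := rfl
  have t11 : t 1 1 = v * star v := rfl
  have ht : ∀ a b c, t a b * t b c = t a c := by
    intro a b c
    fin_cases a <;> fin_cases b <;> fin_cases c <;>
      simp only [Fin.zero_eta, Fin.mk_one, Fin.isValue, t00, t01, t10, t11, ← mul_assoc, hv1', hv1'']
  have htne : ∀ a b c d, b ≠ c → t a b * t c d = 0 := by
    intro a b c d hbc
    fin_cases a <;> fin_cases b <;> fin_cases c <;> fin_cases d <;>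
      first
      | exact absurd rfl hbc
      | (simp only [Fin.zero_eta, Fin.mk_one, Fin.isValue, t00, t01, t10, t11]
         first
         | exact hv2
         | exact hv2'
         | rw [mul_assoc, hv2, mul_zero]
         | rw [mul_assoc, hv2', mul_zero]
         | rw [← mul_assoc, hv2, zero_mul]
         | rw [← mul_assoc, hv2', zero_mul]
         | rw [mul_assoc, ← mul_assoc v v, hv2, zero_mul, mul_zero]
         | rw [mul_assoc, ← mul_assoc (star v) (star v), hv2', zero_mul, mul_zero])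
  have htstar : ∀ a b, star (t a b) = t b a := by
    intro a b
    fin_cases a <;> fin_cases b <;>
      simp only [Fin.zero_eta, Fin.mk_one, Fin.isValue, t00, t01, t10, t11, star_mul, star_star]
  have htM : ∀ a b, t a b ∈ M := by
    intro a b
    fin_cases a <;> fin_cases b
    · exact mul_mem hsM hvM
    · exact hsM
    · exact hvM
    · exact mul_mem hvM hsM
  have htsum : ∑ a, t a a = e o o := by
    rw [Fin.sum_univ_two, t00, t11, hv3]
  have hte : ∀ a b, t a b * e o o = t a b := by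
    intro a b
    rw [← htsum, Finset.mul_sum, Finset.sum_eq_single b, ht]
    · intro c _ hc
      exact htne _ _ _ _ (Ne.symm hc)
    · intro hb
      exact absurd (Finset.mem_univ b) hb
  refine ⟨fun p q => e p.1 o * t p.2 q.2 * e o q.1, ?_, ?_, ?_, ?_, ?_⟩
  · intro p q
    exact mul_mem (mul_mem (h.mem _ _) (htM _ _)) (h.mem _ _)
  · intro p q r
    calc e p.1 o * t p.2 q.2 * e o q.1 * (e q.1 o * t q.2 r.2 * e o r.1)
        = e p.1 o * (t p.2 q.2 * (e o q.1 * e q.1 o)) * (t q.2 r.2 * e o r.1) := by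
          simp only [mul_assoc]
      _ = e p.1 o * t p.2 r.2 * e o r.1 := by
          rw [h.mul, hte, ← mul_assoc, mul_assoc (e p.1 o), ht]
  · rintro ⟨i, a⟩ ⟨j, b⟩ ⟨k, c⟩ ⟨l, d⟩ hne
    show e i o * t a b * e o j * (e k o * t c d * e o l) = 0
    by_cases hjk : j = k
    · subst hjk
      have hbc : b ≠ c := fun hbc => hne (by rw [hbc])
      calc e i o * t a b * e o j * (e j o * t c d * e o l)
          = e i o * (t a b * (e o j * e j o)) * (t c d * e o l) := by
            simp only [mul_assoc]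
        _ = 0 := by
            rw [h.mul, hte, ← mul_assoc, mul_assoc (e i o), htne _ _ _ _ hbc, mul_zero, zero_mul]
    · calc e i o * t a b * e o j * (e k o * t c d * e o l)
          = e i o * t a b * (e o j * e k o) * (t c d * e o l) := by
            simp only [mul_assoc]
        _ = 0 := by rw [h.mul_ne _ _ _ _ hjk, mul_zero, zero_mul]
  · intro p q
    rw [star_mul, star_mul, h.star, h.star, htstar, mul_assoc]
  · rw [Fintype.sum_prod_type, ← h.sum]
    refine Finset.sum_congr rfl (fun i _ => ?_)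
    show ∑ a, e i o * t a a * e o i = e i i
    rw [← Finset.sum_mul, ← Finset.mul_sum, htsum, h.mul, h.mul]

lemma typeII_units {z : H →L[ℂ] H} (hz : IsPr M z)
    (hab : ∀ f, IsPr M f → Le f z → AbPr M f → f = 0) (k : ℕ) :
    ∃ e : Fin (2 ^ k) → Fin (2 ^ k) → H →L[ℂ] H, TypeIIUnits M z e := by
  induction k with
  | zero =>
    refine ⟨fun _ _ => z, fun _ _ => hz.mem, fun _ _ _ => hz.idem, ?_, fun _ _ => hz.sa, ?_⟩
    · intro i j k l hjk
      exact absurd (Subsingleton.elim (α := Fin 1) j k) hjk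
    · show ∑ _i : Fin 1, z = z
      simp
  | succ k ih =>
    obtain ⟨e, he⟩ := ih
    obtain ⟨f, hf⟩ := typeII_split hab (⟨0, by positivity⟩ : Fin (2 ^ k)) he
    exact ⟨_, hf.reindex ((finCongr (pow_succ 2 k)).trans finProdFinEquiv.symm)⟩

/-- matrix units of size `2^k` -/
theorem exists_matUnits {z : H →L[ℂ] H} (hz : IsPr M z)
    (hab : ∀ f, IsPr M f → Le f z → AbPr M f → f = 0) (k : ℕ) :
    ∃ e : Fin (2 ^ k) → Fin (2 ^ k) → H →L[ℂ] H, (∀ i j, e i j ∈ M) ∧
    (∀ i j k, e i j * e j k = e i k) ∧ (∀ i j k l, j ≠ k → e i j * e k l = 0) ∧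
    (∀ i j, star (e i j) = e j i) ∧ ∑ i, e i i = z := by
  obtain ⟨e, he⟩ := typeII_units hz hab k
  exact ⟨e, he.mem, he.mul, he.mul_ne, he.star, he.sum⟩

end Vale.Agent.P082.VN
end

section
attribute [local instance] Vale.Agent.P082.AlgFast.nr Vale.Agent.P082.AlgFast.na
  Vale.Agent.P082.AlgFast.sr Vale.Agent.P082.AlgFast.ng Vale.Agent.P082.AlgFast.sg
  Vale.Agent.P082.AlgFast.ns Vale.Agent.P082.AlgFast.ri Vale.Agent.P082.AlgFast.ag
  Vale.Agent.P082.AlgFast.am Vale.Agent.P082.AlgFast.mo Vale.Agent.P082.AlgFast.pm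
  Vale.Agent.P082.AlgFast.us Vale.Agent.P082.AlgFast.ts Vale.Agent.P082.AlgFast.ets
  Vale.Agent.P082.AlgFast.eng Vale.Agent.P082.AlgFast.esg Vale.Agent.P082.AlgFast.ens
  Vale.Agent.P082.AlgFast.eam Vale.Agent.P082.AlgFast.emo Vale.Agent.P082.AlgFast.nu
  Vale.Agent.P082.AlgFast.sag Vale.Agent.P082.AlgFast.agr Vale.Agent.P082.AlgFast.mon
  Vale.Agent.P082.AlgFast.srg

open scoped InnerProductSpace ComplexConjugate Topology

namespace Vale.Agent.P082.VN

universe u

variable {H : Type u} [NormedAddCommGroup H] [InnerProductSpace ℂ H] [CompleteSpace H]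
  {M : VonNeumannAlgebra H}

/-- abelian groups are amenable -/
theorem exists_mean_comm (G : Type*) [CommGroup G] :
    ∃ m : Mean G, ∀ F : G → ℂ, Bdd F → ∀ g : G, m (fun u => F (u * g)) = m F := by
  classical
  have h : ∀ S : Finset G, ∃ m : Mean G, ∀ F : G → ℂ, Bdd F → ∀ g ∈ S,
      m (fun u => F (u * g)) = m F := by
    intro S
    induction S using Finset.induction_on with
    | empty => exact ⟨Mean.dirac 1, fun F _ g hg => absurd hg (Finset.notMem_empty g)⟩
    | insert g S _ ih =>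
      obtain ⟨m, hm⟩ := ih
      set mn : ℕ → Mean G := fun n =>
        Mean.avg (fun k : Fin (n + 1) => m.map (fun u => u * g ^ (k : ℕ))) with hmndef
      have hmn : ∀ (n : ℕ) (F : G → ℂ), mn n F =
          ((n + 1 : ℕ) : ℂ)⁻¹ * ∑ k ∈ Finset.range (n + 1), m (fun u => F (u * g ^ k)) := by
        intro n F
        have : mn n F = (Fintype.card (Fin (n + 1)) : ℂ)⁻¹ *
            ∑ k : Fin (n + 1), m (fun u => F (u * g ^ (k : ℕ))) := rfl
        rw [this, Fintype.card_fin, Finset.sum_range]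
      refine ⟨Mean.ultra (Filter.hyperfilter ℕ) mn, fun F hF b hb => ?_⟩
      have hbd : ∀ c : G, Bdd (fun u => F (u * c)) := by
        obtain ⟨D, hD⟩ := hF
        exact fun c => ⟨D, fun u => hD _⟩
      rcases Finset.mem_insert.mp hb with rfl | hbS
      · have h1 := Mean.tendsto_ultra (Filter.hyperfilter ℕ) mn (hbd b)
        have h2 := Mean.tendsto_ultra (Filter.hyperfilter ℕ) mn hF
        have h3 : Filter.Tendsto (fun n => mn n (fun u => F (u * b)) - mn n F)
            (Filter.hyperfilter ℕ : Filter ℕ) (𝓝 0) := by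
          obtain ⟨D, hD⟩ := hF
          have hD0 : 0 ≤ D := (norm_nonneg _).trans (hD 1)
          have e1 : ∀ n, ‖mn n (fun u => F (u * b)) - mn n F‖ ≤ (2 * D) * ((n + 1 : ℕ) : ℝ)⁻¹ := by
            intro n
            have e2 : mn n (fun u => F (u * b)) - mn n F = ((n + 1 : ℕ) : ℂ)⁻¹ *
                (m (fun u => F (u * b ^ (n + 1))) - m (fun u => F (u * b ^ 0))) := by
              rw [hmn, hmn, ← mul_sub]
              congr 1
              rw [← Finset.sum_range_sub (fun k => m (fun u => F (u * b ^ k))) (n + 1),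
                ← Finset.sum_sub_distrib]
              refine Finset.sum_congr rfl fun k _ => ?_
              congr 2
              funext u
              rw [mul_assoc, ← pow_succ]
            rw [e2, norm_mul, norm_inv, Complex.norm_natCast, mul_comm]
            gcongr
            refine (norm_sub_le _ _).trans ?_
            have f1 := m.norm_le (fun u => F (u * b ^ (n + 1))) D (fun t => hD _)
            have f2 := m.norm_le (fun u => F (u * b ^ 0)) D (fun t => hD _)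
            linarith only [f2, f1]
          have h4 : Filter.Tendsto (fun n : ℕ => (2 * D) * ((n + 1 : ℕ) : ℝ)⁻¹) Filter.atTop
              (𝓝 0) := by
            have : Filter.Tendsto (fun n : ℕ => ((n + 1 : ℕ) : ℝ)⁻¹) Filter.atTop (𝓝 0) :=
              tendsto_inv_atTop_zero.comp
                (tendsto_natCast_atTop_atTop.comp (Filter.tendsto_add_atTop_nat 1))
            simpa using this.const_mul (2 * D)
          have h5 : Filter.Tendsto (fun n => ‖mn n (fun u => F (u * b)) - mn n F‖) Filter.atTop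
              (𝓝 0) := squeeze_zero (fun n => norm_nonneg _) e1 h4
          exact (tendsto_zero_iff_norm_tendsto_zero.mpr h5).mono_left Nat.hyperfilter_le_atTop
        exact (sub_eq_zero.mp (tendsto_nhds_unique h3 (h1.sub h2)).symm)
      · have h1 : ∀ n, mn n (fun u => F (u * b)) = mn n F := by
          intro n
          rw [hmn, hmn]
          congr 1
          refine Finset.sum_congr rfl fun k _ => ?_
          have h2 := hm (fun v => F (v * g ^ k)) (hbd _) b hbS
          rw [← h2]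
          congr 1
          funext u
          rw [mul_right_comm]
        rw [Mean.ultra_apply, Mean.ultra_apply]
        congr 1
        funext n
        exact h1 n
  choose m hm using h
  let U : Ultrafilter (Finset G) := Ultrafilter.of Filter.atTop
  refine ⟨Mean.ultra U m, fun F hF b => ?_⟩
  have hb : ∀ c : G, Bdd (fun u => F (u * c)) := by
    obtain ⟨D, hD⟩ := hF
    exact fun c => ⟨D, fun u => hD _⟩
  have h1 := Mean.tendsto_ultra U m (hb b)
  have h2 := Mean.tendsto_ultra U m hF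
  refine tendsto_nhds_unique (h1.congr' ?_) h2
  have h3 : ∀ᶠ S : Finset G in Filter.atTop, b ∈ S := by
    filter_upwards [Filter.eventually_ge_atTop ({b} : Finset G)] with S hS
    exact hS (Finset.mem_singleton_self b)
  have h4 : ∀ᶠ S : Finset G in (U : Filter (Finset G)), b ∈ S :=
    (Ultrafilter.of_le (f := (Filter.atTop : Filter (Finset G)))) h3
  filter_upwards [h4] with S hS
  exact hm S F hF b hS

section Center

variable (P : VonNeumannAlgebra H)

/-- the center, as a star subalgebra of operators -/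
noncomputable def HomogAvgCtr : StarSubalgebra ℂ (H →L[ℂ] H) :=
  StarSubalgebra.centralizer ℂ ((P : Set (H →L[ℂ] H)) ∪ (P.commutant : Set (H →L[ℂ] H)))

lemma HomogAvg_mem_ctr (x : H →L[ℂ] H) :
    x ∈ HomogAvgCtr P ↔ x ∈ P ∧ ∀ y ∈ P, y * x = x * y := by
  unfold HomogAvgCtr
  rw [StarSubalgebra.mem_centralizer_iff]
  constructor
  · intro h
    refine ⟨mem_of_commutes P x (fun S hS => (h S (Or.inr ?_)).1), fun y hy => (h y (Or.inl hy)).1⟩
    exact VonNeumannAlgebra.mem_commutant_iff.mpr (fun g hg => (hS g hg).symm)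
  · rintro ⟨hx, h⟩ g (hg | hg)
    · exact ⟨h g hg, h _ (star_mem hg)⟩
    · have hg' : g ∈ P.commutant := hg
      have hg2 : star g ∈ P.commutant := star_mem hg'
      exact ⟨(VonNeumannAlgebra.mem_commutant_iff.mp hg' x hx).symm,
        (VonNeumannAlgebra.mem_commutant_iff.mp hg2 x hx).symm⟩

lemma HomogAvg_span (x : Alg P) (hx : ∀ y : Alg P, y * x = x * y) :
    ∃ (c : Fin 4 → ℂ) (v : Fin 4 → grpOf P (HomogAvgCtr P)),
      x = ∑ i, c i • (((v i : unitary (Alg P)) : Alg P)) := by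
  have hxm : (x : H →L[ℂ] H) ∈ HomogAvgCtr P := (HomogAvg_mem_ctr P _).mpr
    ⟨x.2, fun y hy => congrArg (fun z : Alg P => (z : H →L[ℂ] H)) (hx ⟨y, hy⟩)⟩
  have hcl : IsClosed ((HomogAvgCtr P : Set (H →L[ℂ] H))) := by
    unfold HomogAvgCtr
    rw [StarSubalgebra.coe_centralizer]
    exact Set.isClosed_centralizer _
  obtain ⟨u, c, huc, -⟩ := CStarAlgebra.exists_sum_four_unitary
    (⟨(x : H →L[ℂ] H), hxm⟩ : HomogAvgCtr P)
  let v : Fin 4 → grpOf P (HomogAvgCtr P) := fun i =>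
    ⟨⟨⟨((u i : HomogAvgCtr P) : H →L[ℂ] H),
      ((HomogAvg_mem_ctr P _).mp (u i : HomogAvgCtr P).2).1⟩, by
      rw [Unitary.mem_iff]
      have h1 := Unitary.star_mul_self_of_mem (u i).2
      have h2 := Unitary.mul_star_self_of_mem (u i).2
      have h3 : star ((u i : HomogAvgCtr P) : H →L[ℂ] H) *
          ((u i : HomogAvgCtr P) : H →L[ℂ] H) = 1 :=
        congrArg (fun z : HomogAvgCtr P => (z : H →L[ℂ] H)) h1
      have h4 : ((u i : HomogAvgCtr P) : H →L[ℂ] H) *
          star ((u i : HomogAvgCtr P) : H →L[ℂ] H) = 1 :=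
        congrArg (fun z : HomogAvgCtr P => (z : H →L[ℂ] H)) h2
      exact ⟨Subtype.ext h3, Subtype.ext h4⟩⟩, (u i : HomogAvgCtr P).2⟩
  refine ⟨c, v, ?_⟩
  apply Subtype.ext
  have h3 := congrArg (fun z : HomogAvgCtr P => (z : H →L[ℂ] H)) huc
  refine Eq.trans h3 ?_
  simp [v]

variable {P}

/-- the matrix average composed with a unitary -/
noncomputable def HomogAvgU {n : ℕ} (E : Fin n → Fin n → Alg P) (u : Alg P) :
    (Alg P →L[ℂ] Alg P) →L[ℂ] Alg P :=
  ((ContinuousLinearMap.mul ℂ (Alg P)).flip u).comp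
    ((matAvg E).comp ((ContinuousLinearMap.compL ℂ (Alg P) (Alg P) (Alg P)).flip (mulL (star u))))

lemma HomogAvgU_apply {n : ℕ} (E : Fin n → Fin n → Alg P) (u : Alg P) (φ : Alg P →L[ℂ] Alg P) :
    HomogAvgU E u φ = matAvg E (φ.comp (mulL (star u))) * u := rfl

lemma HomogAvg_comp (φ : Alg P →L[ℂ] Alg P) (b c : Alg P) :
    (φ.comp (mulL b)).comp (mulL c) = φ.comp (mulL (b * c)) := by
  ext1 y
  simp [mul_assoc]

lemma HomogAvgU_isAvg {n : ℕ} [NeZero n] {E : Fin n → Fin n → Alg P} (hE : MatUnits (Alg P) n E)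
    {u : Alg P} (hu : star u * u = 1) : IsAvg (HomogAvgU E u) := by
  have h := matAvg_isAvg hE
  constructor
  · intro c φ
    rw [HomogAvgU_apply, HomogAvgU_apply, ContinuousLinearMap.comp_assoc, h.left, mul_assoc]
  · rw [HomogAvgU_apply, ContinuousLinearMap.id_comp, h.mulL, hu]

lemma HomogAvgU_norm {n : ℕ} [NeZero n] {E : Fin n → Fin n → Alg P} (hE : MatUnits (Alg P) n E)
    {u : Alg P} (hu : star u * u = 1) (φ : Alg P →L[ℂ] Alg P) : ‖HomogAvgU E u φ‖ ≤ ‖φ‖ := by
  rw [HomogAvgU_apply]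
  have h1 := norm_le_one_of_star_mul_self P hu
  have h2 : ‖star u‖ ≤ 1 := by rw [norm_star_alg]; exact h1
  have h3 : ‖mulL (star u)‖ ≤ 1 := (ContinuousLinearMap.opNorm_mul_apply_le ℂ _ _).trans h2
  calc ‖matAvg E (φ.comp (mulL (star u))) * u‖
      ≤ ‖matAvg E (φ.comp (mulL (star u)))‖ * ‖u‖ := norm_mul_le _ _
    _ ≤ (‖φ‖ * 1) * 1 := by
        gcongr
        refine (norm_matAvg_le P hE _).trans ((ContinuousLinearMap.opNorm_comp_le _ _).trans ?_)
        gcongr
    _ = ‖φ‖ := by ring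

lemma HomogAvg_matAvg_modular {n : ℕ} {E : Fin n → Fin n → Alg P} (hE : MatUnits (Alg P) n E)
    (φ : Alg P →L[ℂ] Alg P) (p q : Fin n) :
    matAvg E (φ.comp (mulL (E p q))) = matAvg E φ * E p q := by
  have h := tw_matAvg_modular hE φ 1 p q
  have h1 : tw (matAvg E) φ 1 = 0 := by
    have h2 : φ.comp (mulL 1) = φ := by
      ext1 y
      simp
    rw [tw_apply, mul_one, h2, sub_self]
  rw [h1, zero_mul, one_mul, tw_apply, sub_eq_zero] at h
  exact h

lemma HomogAvg_comm_star {u y : Alg P} (h1 : star u * u = 1) (h2 : u * star u = 1)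
    (h : y * u = u * y) : y * star u = star u * y := by
  calc y * star u = (star u * u) * y * star u := by rw [h1, one_mul]
    _ = star u * (u * y) * star u := by rw [mul_assoc (star u) u y]
    _ = star u * (y * u) * star u := by rw [h]
    _ = star u * y * (u * star u) := by simp only [mul_assoc]
    _ = star u * y := by rw [h2, mul_one]

/-- `a` is right modular for `b` -/
def HomogAvgGood (a : (Alg P →L[ℂ] Alg P) →L[ℂ] Alg P) (b : Alg P) : Prop :=
  ∀ φ : Alg P →L[ℂ] Alg P, a (φ.comp (mulL b)) = a φ * b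

lemma HomogAvgGood.add {a : (Alg P →L[ℂ] Alg P) →L[ℂ] Alg P} {x y : Alg P}
    (hx : HomogAvgGood a x) (hy : HomogAvgGood a y) : HomogAvgGood a (x + y) := by
  intro φ
  have h : φ.comp (mulL (x + y)) = φ.comp (mulL x) + φ.comp (mulL y) := by
    ext1 z
    simp
  rw [h, map_add, hx φ, hy φ, mul_add]

lemma HomogAvgGood.smul {a : (Alg P →L[ℂ] Alg P) →L[ℂ] Alg P} {x : Alg P}
    (hx : HomogAvgGood a x) (c : ℂ) : HomogAvgGood a (c • x) := by
  intro φ
  have h : φ.comp (mulL (c • x)) = c • φ.comp (mulL x) := by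
    ext1 z
    simp
  rw [h, map_smul, hx φ, mul_smul_comm]

lemma HomogAvgGood.zero (a : (Alg P →L[ℂ] Alg P) →L[ℂ] Alg P) : HomogAvgGood a 0 := by
  intro φ
  have h : φ.comp (mulL (0 : Alg P)) = 0 := by
    ext1 z
    simp
  rw [h, map_zero, mul_zero]

lemma HomogAvgGood.mul {a : (Alg P →L[ℂ] Alg P) →L[ℂ] Alg P} {x y : Alg P}
    (hx : HomogAvgGood a x) (hy : HomogAvgGood a y) : HomogAvgGood a (x * y) := by
  intro φ
  rw [← HomogAvg_comp, hy, hx, mul_assoc]

lemma HomogAvgGood.sum {a : (Alg P →L[ℂ] Alg P) →L[ℂ] Alg P} {ι : Type*} (s : Finset ι)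
    (x : ι → Alg P) (h : ∀ i ∈ s, HomogAvgGood a (x i)) : HomogAvgGood a (∑ i ∈ s, x i) := by
  classical
  induction s using Finset.induction_on with
  | empty => rw [Finset.sum_empty]; exact HomogAvgGood.zero a
  | insert i s his ih =>
    rw [Finset.sum_insert his]
    exact HomogAvgGood.add (h i (Finset.mem_insert_self _ _))
      (ih (fun j hj => h j (Finset.mem_insert_of_mem hj)))

/-- decomposition over the center -/
lemma HomogAvg_decomp {n : ℕ} {E : Fin (n + 1) → Fin (n + 1) → Alg P}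
    (hE : MatUnits (Alg P) (n + 1) E)
    (hab : ∀ x y : Alg P, (E 0 0 * x * E 0 0) * (E 0 0 * y * E 0 0) =
      (E 0 0 * y * E 0 0) * (E 0 0 * x * E 0 0)) (b : Alg P) :
    ∃ z : Fin (n + 1) → Fin (n + 1) → Alg P, (∀ i j, ∀ y : Alg P, y * z i j = z i j * y) ∧
      b = ∑ i, ∑ j, z i j * E i j := by
  refine ⟨fun i j => ∑ k, E k 0 * (E 0 i * b * E j 0) * E 0 k, ?_, ?_⟩
  · intro i j y
    -- commutation in the corner
    have key : ∀ k m : Fin (n + 1), (E 0 k * y * E m 0) * (E 0 i * b * E j 0) =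
        (E 0 i * b * E j 0) * (E 0 k * y * E m 0) := by
      intro k m
      have h := hab (E 0 k * y * E m 0) (E 0 i * b * E j 0)
      have h1 : ∀ (p q : Fin (n + 1)) (w : Alg P), E 0 0 * (E 0 p * w * E q 0) * E 0 0 =
          E 0 p * w * E q 0 := by
        intro p q w
        rw [← mul_assoc, ← mul_assoc, hE.mul_eq, mul_assoc, mul_assoc, hE.mul_eq, ← mul_assoc]
      rwa [h1, h1] at h
    have e1 : y * ∑ k, E k 0 * (E 0 i * b * E j 0) * E 0 k =
        ∑ l, ∑ k, E l 0 * ((E 0 l * y * E k 0) * (E 0 i * b * E j 0)) * E 0 k := by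
      rw [Finset.mul_sum]
      rw [Finset.sum_comm]
      refine Finset.sum_congr rfl fun k _ => ?_
      have e2 : y * (E k 0 * (E 0 i * b * E j 0) * E 0 k) =
          (∑ l, E l l) * (y * (E k 0 * (E 0 i * b * E j 0) * E 0 k)) := by
        rw [hE.sum_eq, one_mul]
      rw [e2, Finset.sum_mul]
      refine Finset.sum_congr rfl fun l _ => ?_
      rw [← hE.mul_eq l 0 l]
      simp only [mul_assoc]
    have e3 : (∑ k, E k 0 * (E 0 i * b * E j 0) * E 0 k) * y =
        ∑ l, ∑ k, E l 0 * ((E 0 i * b * E j 0) * (E 0 l * y * E k 0)) * E 0 k := by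
      rw [Finset.sum_mul]
      refine Finset.sum_congr rfl fun l _ => ?_
      have e2 : E l 0 * (E 0 i * b * E j 0) * E 0 l * y =
          (E l 0 * (E 0 i * b * E j 0) * E 0 l * y) * ∑ k, E k k := by
        rw [hE.sum_eq, mul_one]
      rw [e2, Finset.mul_sum]
      refine Finset.sum_congr rfl fun k _ => ?_
      rw [← hE.mul_eq k 0 k]
      simp only [mul_assoc]
    rw [e1, e3]
    refine Finset.sum_congr rfl fun l _ => Finset.sum_congr rfl fun k _ => ?_
    rw [key]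
  · have e1 : ∀ i j, (∑ k, E k 0 * (E 0 i * b * E j 0) * E 0 k) * E i j = E i i * b * E j j := by
      intro i j
      rw [Finset.sum_mul, Finset.sum_eq_single i]
      · rw [mul_assoc _ (E 0 i) (E i j), hE.mul_eq]
        rw [← mul_assoc (E i 0) (E 0 i * b) (E j 0), ← mul_assoc (E i 0) (E 0 i) b, hE.mul_eq,
          mul_assoc _ (E j 0) (E 0 j), hE.mul_eq]
      · intro k _ hk
        rw [mul_assoc _ (E 0 k) (E i j), hE.mul_ne _ _ _ _ hk, mul_zero]
      · intro h; exact absurd (Finset.mem_univ _) h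
    simp only [e1]
    have e2 : ∀ i, ∑ j, E i i * b * E j j = E i i * b := by
      intro i
      rw [← Finset.mul_sum, hE.sum_eq, mul_one]
    simp only [e2]
    rw [← Finset.sum_mul, hE.sum_eq, one_mul]

/-- averages over homogeneous algebras -/
theorem HomogAvg_exists {n : ℕ} {E : Fin (n + 1) → Fin (n + 1) → Alg P}
    (hE : MatUnits (Alg P) (n + 1) E)
    (hab : ∀ x y : Alg P, (E 0 0 * x * E 0 0) * (E 0 0 * y * E 0 0) =
      (E 0 0 * y * E 0 0) * (E 0 0 * x * E 0 0)) :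
    ∃ a : (Alg P →L[ℂ] Alg P) →L[ℂ] Alg P, IsAvg a ∧ (∀ φ, ‖a φ‖ ≤ ‖φ‖) ∧
      ∀ φ b, tw a φ b = 0 := by
  set G : Subgroup (unitary (Alg P)) := grpOf P (HomogAvgCtr P) with hG
  have hcen : ∀ (u : G) (y : Alg P), y * ((u : unitary (Alg P)) : Alg P) =
      ((u : unitary (Alg P)) : Alg P) * y := by
    intro u y
    have h := ((HomogAvg_mem_ctr P _).mp u.2).2 _ y.2
    exact Subtype.ext h
  let iG : CommGroup G :=
    { (inferInstance : Group G) with
      mul_comm := fun u v => Subtype.ext (Subtype.ext (hcen v ((u : unitary (Alg P)) : Alg P))) }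
  obtain ⟨m, hm⟩ := exists_mean_comm G
  have hu1 : ∀ u : G, star ((u : unitary (Alg P)) : Alg P) * ((u : unitary (Alg P)) : Alg P) = 1 :=
    fun u => unitary_star_mul P _
  have hu2 : ∀ u : G, ((u : unitary (Alg P)) : Alg P) * star ((u : unitary (Alg P)) : Alg P) = 1 :=
    fun u => unitary_mul_star P _
  have hcens : ∀ (u : G) (y : Alg P), y * star ((u : unitary (Alg P)) : Alg P) =
      star ((u : unitary (Alg P)) : Alg P) * y := by
    intro u y
    exact HomogAvg_comm_star (hu1 u) (hu2 u) (hcen u y)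
  obtain ⟨a, ha, haf⟩ := exists_mean_avgs P m
    (fun u : G => HomogAvgU E ((u : unitary (Alg P)) : Alg P))
    (fun u => HomogAvgU_isAvg hE (hu1 u)) (fun u φ => HomogAvgU_norm hE (hu1 u) φ)
  have hbd : ∀ (φ : Alg P →L[ℂ] Alg P) (α β : H), ∀ u : G,
      ‖⟪β, (HomogAvgU E ((u : unitary (Alg P)) : Alg P) φ : H →L[ℂ] H) α⟫_ℂ‖ ≤
        ‖φ‖ * ‖β‖ * ‖α‖ := by
    intro φ α β u
    refine (norm_inner_apply_le _ _ _).trans ?_
    have h : ‖(HomogAvgU E ((u : unitary (Alg P)) : Alg P) φ : H →L[ℂ] H)‖ ≤ ‖φ‖ :=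
      HomogAvgU_norm hE (hu1 u) φ
    gcongr
  -- the good elements
  have hgoodE : ∀ p q, HomogAvgGood a (E p q) := by
    intro p q φ
    refine alg_ext P (fun β α => ?_)
    have h1 : ⟪β, ((a φ * E p q : Alg P) : H →L[ℂ] H) α⟫_ℂ
        = ⟪β, (a φ : H →L[ℂ] H) ((E p q : H →L[ℂ] H) α)⟫_ℂ := rfl
    rw [haf, h1, haf]
    congr 1
    funext u
    have h2 : HomogAvgU E ((u : unitary (Alg P)) : Alg P) (φ.comp (mulL (E p q))) =
        HomogAvgU E ((u : unitary (Alg P)) : Alg P) φ * E p q := by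
      rw [HomogAvgU_apply, HomogAvgU_apply, HomogAvg_comp, hcens, ← HomogAvg_comp,
        HomogAvg_matAvg_modular hE, mul_assoc, mul_assoc, hcen]
    rw [h2]
    rfl
  have hgoodG : ∀ v : G, HomogAvgGood a ((v : unitary (Alg P)) : Alg P) := by
    intro v φ
    refine alg_ext P (fun β α => ?_)
    have h1 : ⟪β, ((a φ * ((v : unitary (Alg P)) : Alg P) : Alg P) : H →L[ℂ] H) α⟫_ℂ
        = ⟪β, (a φ : H →L[ℂ] H) ((((v : unitary (Alg P)) : Alg P) : H →L[ℂ] H) α)⟫_ℂ := rfl
    rw [haf, h1, haf]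
    rw [← hm _ ⟨_, hbd φ _ β⟩ v⁻¹]
    congr 1
    funext u
    have e0 : (((u * v⁻¹ : G) : unitary (Alg P)) : Alg P) =
        ((u : unitary (Alg P)) : Alg P) * star ((v : unitary (Alg P)) : Alg P) := rfl
    have h2 : HomogAvgU E ((u : unitary (Alg P)) : Alg P)
          (φ.comp (mulL ((v : unitary (Alg P)) : Alg P))) =
        HomogAvgU E (((u * v⁻¹ : G) : unitary (Alg P)) : Alg P) φ *
          ((v : unitary (Alg P)) : Alg P) := by
      rw [HomogAvgU_apply, HomogAvgU_apply, HomogAvg_comp, e0, star_mul, star_star, mul_assoc,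
        mul_assoc, hu1, mul_one]
    rw [h2]
    rfl
  have hcent : ∀ z : Alg P, (∀ y : Alg P, y * z = z * y) → HomogAvgGood a z := by
    intro z hz
    obtain ⟨c, v, hv⟩ := HomogAvg_span P z hz
    rw [hv]
    exact HomogAvgGood.sum _ _ (fun i _ => HomogAvgGood.smul (hgoodG _) _)
  have hgood : ∀ b, HomogAvgGood a b := by
    intro b
    obtain ⟨z, hz, hb⟩ := HomogAvg_decomp hE hab b
    rw [hb]
    exact HomogAvgGood.sum _ _ (fun i _ => HomogAvgGood.sum _ _ (fun j _ =>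
      HomogAvgGood.mul (hcent _ (hz i j)) (hgoodE i j)))
  refine ⟨a, ha, fun φ => ?_, fun φ b => ?_⟩
  · have : ‖(a φ : H →L[ℂ] H)‖ ≤ ‖φ‖ := by
      refine ContinuousLinearMap.opNorm_le_bound _ (norm_nonneg _) (fun α => ?_)
      by_cases h0 : ‖(a φ : H →L[ℂ] H) α‖ = 0
      · rw [h0]; (clear * -; positivity)
      · have h0' : 0 < ‖(a φ : H →L[ℂ] H) α‖ := lt_of_le_of_ne (norm_nonneg _) (Ne.symm h0)
        have h3 : ‖⟪(a φ : H →L[ℂ] H) α, (a φ : H →L[ℂ] H) α⟫_ℂ‖
            = ‖(a φ : H →L[ℂ] H) α‖ * ‖(a φ : H →L[ℂ] H) α‖ := by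
          rw [inner_self_eq_norm_sq_to_K]
          simp [sq]
        have h1 : ‖(a φ : H →L[ℂ] H) α‖ * ‖(a φ : H →L[ℂ] H) α‖
            ≤ (‖φ‖ * ‖α‖) * ‖(a φ : H →L[ℂ] H) α‖ := by
          rw [← h3, haf]
          refine (m.norm_le _ _ (hbd φ α _)).trans (le_of_eq (by ring))
        exact le_of_mul_le_mul_right h1 h0'
    exact this
  · rw [tw_apply, hgood b φ, sub_self]

end Center

/-- homogeneous central projections carry an averaging functional for all bounded maps -/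
theorem exists_avgOn_homog {c : H →L[ℂ] H} (hc : IsCPr M c) (hh : Homog M c) :
    ∃ a, IsAvgOn M c (fun _ => True) a := by
  obtain ⟨n, e, hem, he1, he2, he3, he4, heab⟩ := hh
  obtain ⟨K, _, _, _, P, ι, up, down, hD⟩ := exists_corner hc
  set E : Fin (n + 1) → Fin (n + 1) → Alg P := fun i j => down ⟨e i j, hem i j⟩ with hE
  have hcM : c ∈ M := hc.mem
  have hdc : down (⟨c, hcM⟩ : Alg M) = 1 := by
    have h1 : (⟨c, hcM⟩ : Alg M) = up 1 := by
      apply Subtype.ext
      have h2 := hD.up_down 1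
      rw [hD.down_one] at h2
      rw [h2]
      exact (mul_one c).symm
    rw [h1, hD.down_up]
  have hmu : MatUnits (Alg P) (n + 1) E := by
    refine ⟨fun i j k => ?_, fun i j k l hjk => ?_, fun i j => ?_, ?_⟩
    · rw [hE]
      simp only
      rw [← hD.down_mul]
      congr 1
      exact Subtype.ext (he1 i j k)
    · rw [hE]
      simp only
      rw [← hD.down_mul]
      have : (⟨e i j, hem i j⟩ : Alg M) * ⟨e k l, hem k l⟩ = 0 := Subtype.ext (he2 i j k l hjk)
      rw [this, map_zero]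
    · rw [hE]
      simp only
      rw [← hD.down_star]
      congr 1
      exact Subtype.ext (he3 i j)
    · rw [hE]
      simp only
      rw [← map_sum, ← hdc]
      have h1 : ∑ x, (⟨e x x, hem x x⟩ : Alg M) = ⟨c, hcM⟩ := by
        apply Subtype.ext
        refine Eq.trans ?_ he4
        simp
      rw [h1]
  have hab : ∀ x y : Alg P, (E 0 0 * x * E 0 0) * (E 0 0 * y * E 0 0) =
      (E 0 0 * y * E 0 0) * (E 0 0 * x * E 0 0) := by
    intro x y
    have h1 : ∀ x : Alg P, E 0 0 * x * E 0 0 =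
        down ((⟨e 0 0, hem 0 0⟩ : Alg M) * up x * ⟨e 0 0, hem 0 0⟩) := by
      intro x
      rw [hD.down_mul, hD.down_mul, hD.down_up]
    rw [h1, h1, ← hD.down_mul, ← hD.down_mul]
    congr 1
    exact Subtype.ext (heab _ (up x).2 _ (up y).2)
  obtain ⟨a, ha, hn, hinv⟩ := HomogAvg_exists hmu hab
  obtain ⟨a', -, h2, h3, h4, h5, h6⟩ := hD.lift hc a ha hn
  exact ⟨a', h2, h3, h4, h5, fun φ _ b => by rw [h6, hinv, map_zero]⟩

end Vale.Agent.P082.VN
end

section
attribute [local instance] Vale.Agent.P082.AlgFast.nr Vale.Agent.P082.AlgFast.na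
  Vale.Agent.P082.AlgFast.sr Vale.Agent.P082.AlgFast.ng Vale.Agent.P082.AlgFast.sg
  Vale.Agent.P082.AlgFast.ns Vale.Agent.P082.AlgFast.ri Vale.Agent.P082.AlgFast.ag
  Vale.Agent.P082.AlgFast.am Vale.Agent.P082.AlgFast.mo Vale.Agent.P082.AlgFast.pm
  Vale.Agent.P082.AlgFast.us Vale.Agent.P082.AlgFast.ts Vale.Agent.P082.AlgFast.ets
  Vale.Agent.P082.AlgFast.eng Vale.Agent.P082.AlgFast.esg Vale.Agent.P082.AlgFast.ens
  Vale.Agent.P082.AlgFast.eam Vale.Agent.P082.AlgFast.emo Vale.Agent.P082.AlgFast.nu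
  Vale.Agent.P082.AlgFast.sag Vale.Agent.P082.AlgFast.agr Vale.Agent.P082.AlgFast.mon
  Vale.Agent.P082.AlgFast.srg

/-!
# Completely bounded maps and averages by rows (theorem CB)

Everything is on the level of quadratic forms; constants `C` are SQUARES of cb norms.
-/

open scoped InnerProductSpace ComplexConjugate Topology

namespace Vale.Agent.P082.CB

open Vale.Agent.P082

universe u

variable {H : Type u} [NormedAddCommGroup H] [InnerProductSpace ℂ H] [CompleteSpace H]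

/-- the matrix `Y` of operators is a contraction `H^κ → H^ι` -/
def MatContr {ι κ : Type} [Fintype ι] [Fintype κ] (Y : ι → κ → H →L[ℂ] H) : Prop :=
  ∀ ζ : κ → H, ∑ i, ‖∑ j, Y i j (ζ j)‖ ^ 2 ≤ ∑ j, ‖ζ j‖ ^ 2

/-- Localised cb bound of `ψ` (`C` = square of the norm): contractive matrices `Y` with entries in
`M e`, and vectors in the range of the projection `f`. -/
def LBound (M : VonNeumannAlgebra H) (ψ : Alg M →L[ℂ] Alg M) (e f : H →L[ℂ] H) (C : ℝ) : Prop :=
  ∀ (ι κ : Type) [Fintype ι] [Fintype κ] (Y : ι → κ → Alg M),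
    MatContr (fun i j => ((Y i j : Alg M) : H →L[ℂ] H)) →
    (∀ i j, ((Y i j : Alg M) : H →L[ℂ] H) * e = (Y i j : Alg M)) →
    ∀ ζ : κ → H, (∀ j, f (ζ j) = ζ j) →
      ∑ i, ‖∑ j, ((ψ (Y i j) : Alg M) : H →L[ℂ] H) (ζ j)‖ ^ 2 ≤ C * ∑ j, ‖ζ j‖ ^ 2

/-- completely bounded maps -/
def IsCB (M : VonNeumannAlgebra H) (ψ : Alg M →L[ℂ] Alg M) : Prop :=
  ∃ C : ℝ, 0 ≤ C ∧ LBound M ψ 1 1 C

/-- finite rows `m = (m_k)` with `∑ m_k m_k^* = 1` -/
def Row (M : VonNeumannAlgebra H) : Type u :=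
  {l : List (Alg M) // (l.map fun m => m * star m).sum = 1}

/-- the average `a_m(ψ) = ∑ ψ(m_k) m_k^*` -/
noncomputable def rowAvg (M : VonNeumannAlgebra H) (m : Row M) (ψ : Alg M →L[ℂ] Alg M) : Alg M :=
  (m.1.map fun x => ψ x * star x).sum

end Vale.Agent.P082.CB
end

section
attribute [local instance] Vale.Agent.P082.AlgFast.nr Vale.Agent.P082.AlgFast.na
  Vale.Agent.P082.AlgFast.sr Vale.Agent.P082.AlgFast.ng Vale.Agent.P082.AlgFast.sg
  Vale.Agent.P082.AlgFast.ns Vale.Agent.P082.AlgFast.ri Vale.Agent.P082.AlgFast.ag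
  Vale.Agent.P082.AlgFast.am Vale.Agent.P082.AlgFast.mo Vale.Agent.P082.AlgFast.pm
  Vale.Agent.P082.AlgFast.us Vale.Agent.P082.AlgFast.ts Vale.Agent.P082.AlgFast.ets
  Vale.Agent.P082.AlgFast.eng Vale.Agent.P082.AlgFast.esg Vale.Agent.P082.AlgFast.ens
  Vale.Agent.P082.AlgFast.eam Vale.Agent.P082.AlgFast.emo Vale.Agent.P082.AlgFast.nu
  Vale.Agent.P082.AlgFast.sag Vale.Agent.P082.AlgFast.agr Vale.Agent.P082.AlgFast.mon
  Vale.Agent.P082.AlgFast.srg

open scoped InnerProductSpace ComplexConjugate Topology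

namespace Vale.Agent.P082.CB

open Vale.Agent.P082

universe u

variable {H : Type u} [NormedAddCommGroup H] [InnerProductSpace ℂ H] [CompleteSpace H]
  {M : VonNeumannAlgebra H}

lemma Row.sum_flatMap_aux {A B : Type*} [Mul A] [AddMonoid B] (l l' : List A) (f : A → B) :
    ((l.flatMap fun a => l'.map fun b => a * b).map f).sum =
      (l.map fun a => (l'.map fun b => f (a * b)).sum).sum := by
  induction l with
  | nil => simp
  | cons a l ih =>
    rw [List.flatMap_cons, List.map_append, List.sum_append, ih, List.map_cons, List.sum_cons,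
      List.map_map]
    rfl

lemma Row.mul_sum_aux (m n : Row M) :
    ((m.1.flatMap fun a => n.1.map fun b => a * b).map fun x => x * star x).sum = 1 := by
  rw [Row.sum_flatMap_aux]
  have h : ∀ a : Alg M, (n.1.map fun b => a * b * star (a * b)).sum = a * star a := by
    intro a
    have e : (fun b : Alg M => a * b * star (a * b)) = fun b => a * ((b * star b) * star a) := by
      funext b
      rw [star_mul]
      noncomm_ring
    rw [e, List.sum_map_mul_left, List.sum_map_mul_right, n.2, one_mul]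
  simp only [h]
  exact m.2

/-- (C4) the monoid structure: `m * n = (m_k n_l)_{k,l}` -/
noncomputable instance Row.instSemigroup (M : VonNeumannAlgebra H) : Semigroup (Row M) where
  mul m n := ⟨m.1.flatMap fun a => n.1.map fun b => a * b, Row.mul_sum_aux m n⟩
  mul_assoc := by
    intro a b c
    apply Subtype.ext
    show ((a.1.flatMap fun x => b.1.map fun y => x * y).flatMap fun x => c.1.map fun y => x * y) =
      a.1.flatMap fun x => (b.1.flatMap fun x => c.1.map fun y => x * y).map fun y => x * y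
    rw [List.flatMap_assoc]
    congr 1
    funext x
    rw [List.map_flatMap, List.flatMap_map]
    congr 1
    funext y
    rw [List.map_map]
    refine List.map_congr_left fun z _ => ?_
    exact mul_assoc x y z

lemma Row.mul_val (m n : Row M) : (m * n).1 = m.1.flatMap fun a => n.1.map fun b => a * b := rfl

/-- the row `(1)` -/
noncomputable instance (M : VonNeumannAlgebra H) : Nonempty (Row M) := ⟨⟨[1], by simp⟩⟩

/-- `b ↦ a_m(ψ(b ·)) = ∑ ψ(b m_k) m_k^*` as a bounded map -/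
noncomputable def rowTw (M : VonNeumannAlgebra H) (m : Row M) (ψ : Alg M →L[ℂ] Alg M) :
    Alg M →L[ℂ] Alg M :=
  (m.1.map fun x => ((ContinuousLinearMap.mul ℂ (Alg M)).flip (star x)).comp
    (ψ.comp ((ContinuousLinearMap.mul ℂ (Alg M)).flip x))).sum

lemma rowTw_apply (m : Row M) (ψ : Alg M →L[ℂ] Alg M) (b : Alg M) :
    rowTw M m ψ b = rowAvg M m (ψ.comp (mulL b)) := by
  have h : ∀ l : List (Alg M), (l.map fun x => ((ContinuousLinearMap.mul ℂ (Alg M)).flip
      (star x)).comp (ψ.comp ((ContinuousLinearMap.mul ℂ (Alg M)).flip x))).sum b =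
      (l.map fun x => (ψ.comp (mulL b)) x * star x).sum := by
    intro l
    induction l with
    | nil => simp
    | cons a l ih =>
      rw [List.map_cons, List.sum_cons, List.map_cons, List.sum_cons, add_apply, ih]
      simp
  exact h m.1

/-- `a_{mn}(ψ) = a_m(ψ_n)` -/
lemma rowAvg_mul (m n : Row M) (ψ : Alg M →L[ℂ] Alg M) :
    rowAvg M (m * n) ψ = rowAvg M m (rowTw M n ψ) := by
  unfold rowAvg
  rw [Row.mul_val, Row.sum_flatMap_aux]
  congr 1
  refine List.map_congr_left fun a _ => ?_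
  rw [rowTw_apply, rowAvg, ← List.sum_map_mul_right]
  refine congrArg List.sum (List.map_congr_left fun b _ => ?_)
  simp [mul_assoc]

lemma rowAvg_mulL (m : Row M) (c : Alg M) (ψ : Alg M →L[ℂ] Alg M) :
    rowAvg M m ((mulL c).comp ψ) = c * rowAvg M m ψ := by
  unfold rowAvg
  rw [← List.sum_map_mul_left]
  refine congrArg List.sum (List.map_congr_left fun b _ => ?_)
  simp [mul_assoc]

lemma rowAvg_id (m : Row M) : rowAvg M m (ContinuousLinearMap.id ℂ (Alg M)) = 1 := by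
  unfold rowAvg
  simpa only [ContinuousLinearMap.id_apply] using m.2

lemma rowAvg_add (m : Row M) (ψ φ : Alg M →L[ℂ] Alg M) :
    rowAvg M m (ψ + φ) = rowAvg M m ψ + rowAvg M m φ := by
  unfold rowAvg
  rw [← List.sum_map_add]
  refine congrArg List.sum (List.map_congr_left fun b _ => ?_)
  simp [add_mul]

lemma rowAvg_smul (m : Row M) (c : ℂ) (ψ : Alg M →L[ℂ] Alg M) :
    rowAvg M m (c • ψ) = c • rowAvg M m ψ := by
  unfold rowAvg
  rw [List.smul_sum, List.map_map]
  refine congrArg List.sum (List.map_congr_left fun b _ => ?_)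
  simp

end Vale.Agent.P082.CB
end

section
attribute [local instance] Vale.Agent.P082.AlgFast.nr Vale.Agent.P082.AlgFast.na
  Vale.Agent.P082.AlgFast.sr Vale.Agent.P082.AlgFast.ng Vale.Agent.P082.AlgFast.sg
  Vale.Agent.P082.AlgFast.ns Vale.Agent.P082.AlgFast.ri Vale.Agent.P082.AlgFast.ag
  Vale.Agent.P082.AlgFast.am Vale.Agent.P082.AlgFast.mo Vale.Agent.P082.AlgFast.pm
  Vale.Agent.P082.AlgFast.us Vale.Agent.P082.AlgFast.ts Vale.Agent.P082.AlgFast.ets
  Vale.Agent.P082.AlgFast.eng Vale.Agent.P082.AlgFast.esg Vale.Agent.P082.AlgFast.ens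
  Vale.Agent.P082.AlgFast.eam Vale.Agent.P082.AlgFast.emo Vale.Agent.P082.AlgFast.nu
  Vale.Agent.P082.AlgFast.sag Vale.Agent.P082.AlgFast.agr Vale.Agent.P082.AlgFast.mon
  Vale.Agent.P082.AlgFast.srg

open scoped InnerProductSpace ComplexConjugate Topology

namespace Vale.Agent.P082.CB

open Vale.Agent.P082

universe u

variable {H : Type u} [NormedAddCommGroup H] [InnerProductSpace ℂ H] [CompleteSpace H]
  {M : VonNeumannAlgebra H}

/-! ### Rows as families -/

/-- a row `X` is a contraction if its columns of adjoints are -/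
lemma rb_row_contr {κ' : Type} [Fintype κ'] (X : κ' → Alg M)
    (hX : ∀ η : H, ∑ k, ‖((star (X k) : Alg M) : H →L[ℂ] H) η‖ ^ 2 ≤ ‖η‖ ^ 2) (ζ : κ' → H) :
    ‖∑ k, ((X k : Alg M) : H →L[ℂ] H) (ζ k)‖ ^ 2 ≤ ∑ k, ‖ζ k‖ ^ 2 := by
  set v := ∑ k, ((X k : Alg M) : H →L[ℂ] H) (ζ k) with hv
  have h1 : ‖v‖ ^ 2 = RCLike.re (∑ k, ⟪((star (X k) : Alg M) : H →L[ℂ] H) v, ζ k⟫_ℂ) := by
    rw [← inner_self_eq_norm_sq (𝕜 := ℂ) v]
    conv_lhs => rw [hv, ← hv]
    have : ∀ k, ⟪((star (X k) : Alg M) : H →L[ℂ] H) v, ζ k⟫_ℂ =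
        ⟪v, ((X k : Alg M) : H →L[ℂ] H) (ζ k)⟫_ℂ := fun k => by
      rw [StarMemClass.coe_star, ContinuousLinearMap.star_eq_adjoint,
        ContinuousLinearMap.adjoint_inner_left]
    simp_rw [this]
    rw [← inner_sum, ← hv]
  have h2 : ‖v‖ ^ 2 ≤ ∑ k, ‖((star (X k) : Alg M) : H →L[ℂ] H) v‖ * ‖ζ k‖ := by
    rw [h1]
    refine (RCLike.re_le_norm _).trans ((norm_sum_le _ _).trans ?_)
    exact Finset.sum_le_sum fun k _ => norm_inner_le_norm _ _
  have h3 : (∑ k, ‖((star (X k) : Alg M) : H →L[ℂ] H) v‖ * ‖ζ k‖) ^ 2 ≤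
      (∑ k, ‖((star (X k) : Alg M) : H →L[ℂ] H) v‖ ^ 2) * ∑ k, ‖ζ k‖ ^ 2 :=
    Finset.sum_mul_sq_le_sq_mul_sq _ _ _
  have h4 : (‖v‖ ^ 2) ^ 2 ≤ ‖v‖ ^ 2 * ∑ k, ‖ζ k‖ ^ 2 := by
    calc (‖v‖ ^ 2) ^ 2 ≤ (∑ k, ‖((star (X k) : Alg M) : H →L[ℂ] H) v‖ * ‖ζ k‖) ^ 2 :=
          pow_le_pow_left₀ (sq_nonneg _) h2 2
      _ ≤ _ := h3.trans (mul_le_mul_of_nonneg_right (hX v)
          (Finset.sum_nonneg fun _ _ => sq_nonneg _))
  rcases eq_or_lt_of_le (sq_nonneg ‖v‖) with h5 | h5
  · rw [← h5]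
    exact Finset.sum_nonneg fun _ _ => sq_nonneg _
  · rw [pow_two (‖v‖ ^ 2)] at h4
    exact le_of_mul_le_mul_left h4 h5

/-- the basic estimate for averages over partial rows -/
lemma rb_row_key {κ' : Type} [Fintype κ'] (X : κ' → Alg M)
    (hX : ∀ η : H, ∑ k, ‖((star (X k) : Alg M) : H →L[ℂ] H) η‖ ^ 2 ≤ ‖η‖ ^ 2)
    (ψ : Alg M →L[ℂ] Alg M) {e f : H →L[ℂ] H} {C : ℝ} (h : LBound M ψ e f C)
    {ι κ : Type} [Fintype ι] [Fintype κ] (Y : ι → κ → Alg M)
    (hY : MatContr (fun i j => ((Y i j : Alg M) : H →L[ℂ] H)))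
    (hXe : ∀ k, ((X k : Alg M) : H →L[ℂ] H) * e = X k) (ζ : κ → H)
    (hζ : ∀ j k, f (((star (X k) : Alg M) : H →L[ℂ] H) (ζ j)) =
      ((star (X k) : Alg M) : H →L[ℂ] H) (ζ j)) :
    ∑ i, ‖∑ j, ∑ k, ((ψ (Y i j * X k) : Alg M) : H →L[ℂ] H)
        (((star (X k) : Alg M) : H →L[ℂ] H) (ζ j))‖ ^ 2 ≤
      C * ∑ j, ∑ k, ‖((star (X k) : Alg M) : H →L[ℂ] H) (ζ j)‖ ^ 2 := by
  have h1 := h ι (κ × κ') (fun i p => Y i p.1 * X p.2) ?_ ?_
    (fun p => ((star (X p.2) : Alg M) : H →L[ℂ] H) (ζ p.1)) (fun p => hζ p.1 p.2)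
  · simpa only [Fintype.sum_prod_type] using h1
  · intro η
    have h2 : ∀ i, ∑ p : κ × κ', (((Y i p.1 * X p.2 : Alg M)) : H →L[ℂ] H) (η p) =
        ∑ j, ((Y i j : Alg M) : H →L[ℂ] H) (∑ k, ((X k : Alg M) : H →L[ℂ] H) (η (j, k))) := by
      intro i
      rw [Fintype.sum_prod_type]
      refine Finset.sum_congr rfl fun j _ => ?_
      rw [map_sum]
      rfl
    simp_rw [h2]
    refine (hY _).trans ?_
    rw [Fintype.sum_prod_type]
    exact Finset.sum_le_sum fun j _ => rb_row_contr X hX _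
  · intro i p
    change ((Y i p.1 : Alg M) : H →L[ℂ] H) * ((X p.2 : Alg M) : H →L[ℂ] H) * e =
      ((Y i p.1 : Alg M) : H →L[ℂ] H) * ((X p.2 : Alg M) : H →L[ℂ] H)
    rw [mul_assoc, hXe]

/-- the columns of adjoints of a full row are isometric -/
lemma rb_row_isom (m : Row M) (η : H) :
    ∑ k : Fin m.1.length, ‖((star (m.1[(k : ℕ)]) : Alg M) : H →L[ℂ] H) η‖ ^ 2 = ‖η‖ ^ 2 := by
  have h1 : ∑ k : Fin m.1.length, m.1[(k : ℕ)] * star m.1[(k : ℕ)] = (1 : Alg M) := by
    rw [Fin.sum_univ_fun_getElem m.1 fun x => x * star x]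
    exact m.2
  have h2 : ∀ x : Alg M, ((‖((star x : Alg M) : H →L[ℂ] H) η‖ ^ 2 : ℝ) : ℂ) =
      ⟪((x * star x : Alg M) : H →L[ℂ] H) η, η⟫_ℂ := by
    intro x
    have h3 : ((x * star x : Alg M) : H →L[ℂ] H) η =
        ((x : Alg M) : H →L[ℂ] H) (((star x : Alg M) : H →L[ℂ] H) η) := rfl
    have h4 : ((x : Alg M) : H →L[ℂ] H) =
        ContinuousLinearMap.adjoint (((star x : Alg M) : H →L[ℂ] H)) := by
      rw [StarMemClass.coe_star, ContinuousLinearMap.star_eq_adjoint,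
        ContinuousLinearMap.adjoint_adjoint]
    rw [h3]
    conv_rhs => rw [h4]
    rw [ContinuousLinearMap.adjoint_inner_left, inner_self_eq_norm_sq_to_K]
    push_cast
    rfl
  have h5 : ((∑ k : Fin m.1.length, ‖((star (m.1[(k : ℕ)]) : Alg M) : H →L[ℂ] H) η‖ ^ 2 : ℝ) : ℂ) =
      ((‖η‖ ^ 2 : ℝ) : ℂ) := by
    rw [Complex.ofReal_sum]
    simp_rw [h2]
    rw [← sum_inner]
    have h6 : ∑ k : Fin m.1.length, ((m.1[(k : ℕ)] * star m.1[(k : ℕ)] : Alg M) : H →L[ℂ] H) η =
        η := by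
      have h7 : ((∑ k : Fin m.1.length, m.1[(k : ℕ)] * star m.1[(k : ℕ)] : Alg M) :
          H →L[ℂ] H) η = η := by
        rw [h1]
        rfl
      rw [AddSubmonoidClass.coe_finsetSum, sum_apply] at h7
      exact h7
    rw [h6, inner_self_eq_norm_sq_to_K]
    push_cast
    rfl
  exact_mod_cast h5

lemma rb_coe_list_sum_apply {A : Type*} (l : List A) (F : A → Alg M) (η : H) :
    (((l.map F).sum : Alg M) : H →L[ℂ] H) η =
      ∑ k : Fin l.length, ((F l[(k : ℕ)] : Alg M) : H →L[ℂ] H) η := by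
  rw [← Fin.sum_univ_fun_getElem l F, AddSubmonoidClass.coe_finsetSum,
    sum_apply]

lemma rb_comm_star {z : H →L[ℂ] H} (hz : ∀ x ∈ M, z * x = x * z) (x : Alg M) (η : H) :
    z (((star x : Alg M) : H →L[ℂ] H) η) = ((star x : Alg M) : H →L[ℂ] H) (z η) := by
  have h := hz _ (star x : Alg M).2
  exact congrArg (fun T : H →L[ℂ] H => T η) h

/-- averages do not increase the localised cb norms `LBound M ψ 1 z` (`z` central) -/
lemma rowTw_bound (m : Row M) (ψ : Alg M →L[ℂ] Alg M) {z : H →L[ℂ] H}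
    (hz : ∀ x ∈ M, z * x = x * z) {C : ℝ} (h : LBound M ψ 1 z C) :
    LBound M (rowTw M m ψ) 1 z C := by
  intro ι κ _ _ Y hY _ ζ hζ
  have h1 := rb_row_key (fun k : Fin m.1.length => m.1[(k : ℕ)]) (fun η => (rb_row_isom m η).le) ψ h Y hY
    (fun k => mul_one _) ζ (fun j k => by rw [rb_comm_star hz, hζ])
  have h2 : ∀ i j, ((rowTw M m ψ (Y i j) : Alg M) : H →L[ℂ] H) (ζ j) =
      ∑ k : Fin m.1.length, ((ψ (Y i j * m.1[(k : ℕ)]) : Alg M) : H →L[ℂ] H)
        (((star (m.1[(k : ℕ)]) : Alg M) : H →L[ℂ] H) (ζ j)) := by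
    intro i j
    rw [rowTw_apply, rowAvg, rb_coe_list_sum_apply]
    rfl
  simp_rw [h2]
  refine h1.trans (le_of_eq ?_)
  congr 1
  exact Finset.sum_congr rfl fun j _ => rb_row_isom m (ζ j)

/-- `‖a_m(ψ)‖ ≤ ‖ψ‖_cb` -/
lemma norm_rowAvg_le (m : Row M) (ψ : Alg M →L[ℂ] Alg M) {C : ℝ} (hC : 0 ≤ C)
    (h : LBound M ψ 1 1 C) : ‖rowAvg M m ψ‖ ≤ √C := by
  refine ContinuousLinearMap.opNorm_le_bound _ (Real.sqrt_nonneg C) fun α => ?_
  have h1 := rb_row_key (fun k : Fin m.1.length => m.1[(k : ℕ)]) (fun η => (rb_row_isom m η).le) ψ h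
    (ι := Unit) (κ := Unit) (fun _ _ => 1) (fun ζ => by simp) (fun k => mul_one _) (fun _ => α)
    (fun j k => rfl)
  simp only [Finset.univ_unique, Finset.sum_singleton, one_mul] at h1
  rw [rb_row_isom m α] at h1
  have h2 : ((rowAvg M m ψ : Alg M) : H →L[ℂ] H) α =
      ∑ k : Fin m.1.length, ((ψ (m.1[(k : ℕ)]) : Alg M) : H →L[ℂ] H)
        (((star (m.1[(k : ℕ)]) : Alg M) : H →L[ℂ] H) α) := by
    rw [rowAvg, rb_coe_list_sum_apply]
    rfl
  change ‖((rowAvg M m ψ : Alg M) : H →L[ℂ] H) α‖ ≤ _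
  rw [h2]
  have h3 : √C * ‖α‖ = √(C * ‖α‖ ^ 2) := by
    rw [Real.sqrt_mul hC, Real.sqrt_sq (norm_nonneg _)]
  rw [h3]
  exact Real.le_sqrt_of_sq_le h1

/-- Localisation: if the first part of the row has `m_k e = m_k`, the rest is
`r` (a projection) and `1 - z`, then on `range z` the average is controlled by
`LBound M ψ e e C` up to the contribution of `r`. -/
lemma rowTw_local (ψ : Alg M →L[ℂ] Alg M) {e z : H →L[ℂ] H} (l : List (Alg M))
    (hl : ∀ x ∈ l, (x : H →L[ℂ] H) * e = x) (r zc : Alg M) (hzc : ((zc : Alg M) : H →L[ℂ] H) = 1 - z)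
    (hz1 : z * z = z) (hzs : star z = z) (hz : ∀ x ∈ M, z * x = x * z) (he : e * e = e)
    (hes : star e = e)
    (m : Row M) (hm : m.1 = l ++ [r, zc]) {C : ℝ} (hC : 0 ≤ C) (h : LBound M ψ e e C)
    (ι κ : Type) [Fintype ι] [Fintype κ] (Y : ι → κ → Alg M)
    (hY : MatContr (fun i j => ((Y i j : Alg M) : H →L[ℂ] H)))
    (ζ : κ → H) (hζ : ∀ j, z (ζ j) = ζ j) :
    ∑ i, ‖∑ j, ((rowTw M m ψ (Y i j) - ψ (Y i j * r) * star r : Alg M) : H →L[ℂ] H) (ζ j)‖ ^ 2
      ≤ C * ∑ j, ‖ζ j‖ ^ 2 := by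
  -- the partial row
  have hX : ∀ η : H, ∑ k : Fin l.length, ‖((star (l[(k : ℕ)]'k.2) : Alg M) : H →L[ℂ] H) η‖ ^ 2 ≤
      ‖η‖ ^ 2 := by
    intro η
    have h1 := rb_row_isom m η
    rw [Fin.sum_univ_fun_getElem m.1 fun x => ‖((star x : Alg M) : H →L[ℂ] H) η‖ ^ 2, hm,
      List.map_append, List.sum_append] at h1
    rw [Fin.sum_univ_fun_getElem l fun x => ‖((star x : Alg M) : H →L[ℂ] H) η‖ ^ 2]
    have h2 : 0 ≤ (List.map (fun x => ‖((star x : Alg M) : H →L[ℂ] H) η‖ ^ 2) [r, zc]).sum := by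
      simp only [List.map_cons, List.map_nil, List.sum_cons, List.sum_nil]
      (clear * -; positivity)
    linarith
  have hcoe : ∀ k : Fin l.length, ∀ η : H, e (((star (l[(k : ℕ)]'k.2) : Alg M) : H →L[ℂ] H) η) =
      ((star (l[(k : ℕ)]'k.2) : Alg M) : H →L[ℂ] H) η := by
    intro k η
    have h1 := hl (l[(k : ℕ)]'k.2) (List.getElem_mem k.2)
    have h2 : e * star ((l[(k : ℕ)]'k.2 : Alg M) : H →L[ℂ] H) = star ((l[(k : ℕ)]'k.2 : Alg M) : H →L[ℂ] H) := by
      have := congrArg star h1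
      rwa [star_mul, hes] at this
    exact congrArg (fun T : H →L[ℂ] H => T η) h2
  have h1 := rb_row_key (fun k : Fin l.length => l[(k : ℕ)]'k.2) hX ψ h Y hY
    (fun k => hl _ (List.getElem_mem k.2)) ζ (fun j k => hcoe k (ζ j))
  have hz0 : ∀ j, ((star zc : Alg M) : H →L[ℂ] H) (ζ j) = 0 := by
    intro j
    rw [StarMemClass.coe_star, hzc, star_sub, star_one, hzs]
    change ζ j - z (ζ j) = 0
    rw [hζ, sub_self]
  have h2 : ∀ i j, ((rowTw M m ψ (Y i j) - ψ (Y i j * r) * star r : Alg M) : H →L[ℂ] H) (ζ j) =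
      ∑ k : Fin l.length, ((ψ (Y i j * l[(k : ℕ)]'k.2) : Alg M) : H →L[ℂ] H)
        (((star (l[(k : ℕ)]'k.2) : Alg M) : H →L[ℂ] H) (ζ j)) := by
    intro i j
    have h3 : (rowTw M m ψ (Y i j) - ψ (Y i j * r) * star r : Alg M) =
        (l.map fun x => ψ (Y i j * x) * star x).sum + ψ (Y i j * zc) * star zc := by
      rw [rowTw_apply, rowAvg, hm, List.map_append, List.sum_append]
      simp only [List.map_cons, List.map_nil, List.sum_cons, List.sum_nil, add_zero,
        ContinuousLinearMap.comp_apply, ContinuousLinearMap.mul_apply']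
      abel
    rw [h3]
    change (((l.map fun x => ψ (Y i j * x) * star x).sum : Alg M) : H →L[ℂ] H) (ζ j) +
      ((ψ (Y i j * zc) : Alg M) : H →L[ℂ] H) (((star zc : Alg M) : H →L[ℂ] H) (ζ j)) = _
    rw [hz0, map_zero, add_zero, rb_coe_list_sum_apply]
    rfl
  simp_rw [h2]
  refine h1.trans (mul_le_mul_of_nonneg_left ?_ hC)
  exact Finset.sum_le_sum fun j _ => hX (ζ j)

omit [InnerProductSpace ℂ H] [CompleteSpace H] in
lemma rb_norm_add_sq_le (a b : H) : ‖a + b‖ ^ 2 ≤ 2 * ‖a‖ ^ 2 + 2 * ‖b‖ ^ 2 := by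
  have h1 := norm_add_le a b
  have h2 := norm_nonneg (a + b)
  linarith only [mul_nonneg (sub_nonneg.2 h1) (sub_nonneg.2 h2), mul_nonneg (sub_nonneg.2 h1) (sub_nonneg.2 h1), sq_nonneg (‖a‖ - ‖b‖)]

/-- completely bounded maps form a submodule -/
def cbMaps (M : VonNeumannAlgebra H) : Submodule ℂ (Alg M →L[ℂ] Alg M) where
  carrier := {ψ | IsCB M ψ}
  add_mem' := by
    rintro ψ φ ⟨C, hC, h⟩ ⟨C', hC', h'⟩
    refine ⟨2 * C + 2 * C', by positivity, ?_⟩
    intro ι κ _ _ Y hY hYe ζ hζ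
    have h1 := h ι κ Y hY hYe ζ hζ
    have h2 := h' ι κ Y hY hYe ζ hζ
    calc ∑ i, ‖∑ j, (((ψ + φ) (Y i j) : Alg M) : H →L[ℂ] H) (ζ j)‖ ^ 2
        = ∑ i, ‖∑ j, ((ψ (Y i j) : Alg M) : H →L[ℂ] H) (ζ j) +
            ∑ j, ((φ (Y i j) : Alg M) : H →L[ℂ] H) (ζ j)‖ ^ 2 := by
          refine Finset.sum_congr rfl fun i _ => ?_
          rw [← Finset.sum_add_distrib]
          rfl
      _ ≤ ∑ i, (2 * ‖∑ j, ((ψ (Y i j) : Alg M) : H →L[ℂ] H) (ζ j)‖ ^ 2 +
            2 * ‖∑ j, ((φ (Y i j) : Alg M) : H →L[ℂ] H) (ζ j)‖ ^ 2) :=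
          Finset.sum_le_sum fun i _ => rb_norm_add_sq_le _ _
      _ ≤ (2 * C + 2 * C') * ∑ j, ‖ζ j‖ ^ 2 := by
          rw [Finset.sum_add_distrib, ← Finset.mul_sum, ← Finset.mul_sum]
          linarith
  zero_mem' := by
    refine ⟨0, le_rfl, ?_⟩
    intro ι κ _ _ Y hY hYe ζ hζ
    have : ∀ i, ∑ j, ((((0 : Alg M →L[ℂ] Alg M) (Y i j) : Alg M)) : H →L[ℂ] H) (ζ j) = 0 :=
      fun i => Finset.sum_eq_zero fun j _ => rfl
    simp_rw [this]
    simp
  smul_mem' := by
    rintro c ψ ⟨C, hC, h⟩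
    refine ⟨‖c‖ ^ 2 * C, by positivity, ?_⟩
    intro ι κ _ _ Y hY hYe ζ hζ
    have h1 := h ι κ Y hY hYe ζ hζ
    calc ∑ i, ‖∑ j, (((c • ψ) (Y i j) : Alg M) : H →L[ℂ] H) (ζ j)‖ ^ 2
        = ∑ i, ‖c • ∑ j, ((ψ (Y i j) : Alg M) : H →L[ℂ] H) (ζ j)‖ ^ 2 := by
          refine Finset.sum_congr rfl fun i _ => ?_
          rw [Finset.smul_sum]
          rfl
      _ = ‖c‖ ^ 2 * ∑ i, ‖∑ j, ((ψ (Y i j) : Alg M) : H →L[ℂ] H) (ζ j)‖ ^ 2 := by
          rw [Finset.mul_sum]
          refine Finset.sum_congr rfl fun i _ => ?_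
          rw [norm_smul, mul_pow]
      _ ≤ ‖c‖ ^ 2 * C * ∑ j, ‖ζ j‖ ^ 2 := by
          rw [mul_assoc]
          exact mul_le_mul_of_nonneg_left h1 (by positivity)

lemma cb_id (M : VonNeumannAlgebra H) : IsCB M (ContinuousLinearMap.id ℂ (Alg M)) := by
  refine ⟨1, zero_le_one, ?_⟩
  intro ι κ _ _ Y hY hYe ζ hζ
  rw [one_mul]
  exact hY ζ

lemma cb_mulL (c : Alg M) {ψ : Alg M →L[ℂ] Alg M} (h : IsCB M ψ) : IsCB M ((mulL c).comp ψ) := by
  obtain ⟨C, hC, h⟩ := h
  refine ⟨‖c‖ ^ 2 * C, by positivity, ?_⟩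
  intro ι κ _ _ Y hY hYe ζ hζ
  have h1 := h ι κ Y hY hYe ζ hζ
  calc ∑ i, ‖∑ j, ((((mulL c).comp ψ) (Y i j) : Alg M) : H →L[ℂ] H) (ζ j)‖ ^ 2
      = ∑ i, ‖((c : Alg M) : H →L[ℂ] H) (∑ j, ((ψ (Y i j) : Alg M) : H →L[ℂ] H) (ζ j))‖ ^ 2 := by
        refine Finset.sum_congr rfl fun i _ => ?_
        rw [map_sum]
        rfl
    _ ≤ ∑ i, ‖c‖ ^ 2 * ‖∑ j, ((ψ (Y i j) : Alg M) : H →L[ℂ] H) (ζ j)‖ ^ 2 := by
        refine Finset.sum_le_sum fun i _ => ?_
        rw [← mul_pow]
        exact pow_le_pow_left₀ (norm_nonneg _)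
          (ContinuousLinearMap.le_opNorm ((c : Alg M) : H →L[ℂ] H) _) 2
    _ ≤ ‖c‖ ^ 2 * C * ∑ j, ‖ζ j‖ ^ 2 := by
        rw [← Finset.mul_sum, mul_assoc]
        exact mul_le_mul_of_nonneg_left h1 (by positivity)

lemma cb_comp_mulL (b : Alg M) {ψ : Alg M →L[ℂ] Alg M} (h : IsCB M ψ) :
    IsCB M (ψ.comp (mulL b)) := by
  obtain ⟨C, hC, h⟩ := h
  refine ⟨‖b‖ ^ 2 * C, by positivity, ?_⟩
  intro ι κ _ _ Y hY hYe ζ hζ
  by_cases hb : b = 0
  · have h1 : ∀ i, ∑ j, (((ψ.comp (mulL b)) (Y i j) : Alg M) : H →L[ℂ] H) (ζ j) = 0 := by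
      intro i
      refine Finset.sum_eq_zero fun j _ => ?_
      have h2 : (ψ.comp (mulL b)) (Y i j) = 0 := by
        rw [ContinuousLinearMap.comp_apply, ContinuousLinearMap.mul_apply', hb, zero_mul, map_zero]
      rw [h2]
      rfl
    simp_rw [h1]
    rw [hb]
    simp
  · have hb0 : 0 < ‖b‖ := norm_pos_iff.mpr hb
    have hb1 : (‖b‖ : ℂ) ≠ 0 := by exact_mod_cast hb0.ne'
    have h1 := h ι κ (fun i j => ((‖b‖ : ℂ)⁻¹) • (b * Y i j)) ?_ ?_ ζ hζ
    · have h2 : ∀ i, ∑ j, (((ψ.comp (mulL b)) (Y i j) : Alg M) : H →L[ℂ] H) (ζ j) =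
          (‖b‖ : ℂ) • ∑ j, ((ψ (((‖b‖ : ℂ)⁻¹) • (b * Y i j)) : Alg M) : H →L[ℂ] H) (ζ j) := by
        intro i
        rw [Finset.smul_sum]
        refine Finset.sum_congr rfl fun j _ => ?_
        have h3 : (ψ.comp (mulL b)) (Y i j) = (‖b‖ : ℂ) • ψ (((‖b‖ : ℂ)⁻¹) • (b * Y i j)) := by
          rw [← map_smul, smul_smul, mul_inv_cancel₀ hb1, one_smul]
          rfl
        rw [h3]
        rfl
      simp_rw [h2, norm_smul, mul_pow]
      rw [← Finset.mul_sum, mul_assoc, Complex.norm_real, norm_norm]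
      exact mul_le_mul_of_nonneg_left h1 (by positivity)
    · intro η
      have h2 : ∀ i, ∑ j, ((((‖b‖ : ℂ)⁻¹) • (b * Y i j) : Alg M) : H →L[ℂ] H) (η j) =
          ((‖b‖ : ℂ)⁻¹) • ((b : Alg M) : H →L[ℂ] H) (∑ j, ((Y i j : Alg M) : H →L[ℂ] H) (η j)) := by
        intro i
        rw [map_sum, Finset.smul_sum]
        rfl
      have h3 : ∀ i, ‖∑ j, ((((‖b‖ : ℂ)⁻¹) • (b * Y i j) : Alg M) : H →L[ℂ] H) (η j)‖ ^ 2 ≤
          ‖∑ j, ((Y i j : Alg M) : H →L[ℂ] H) (η j)‖ ^ 2 := by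
        intro i
        rw [h2, norm_smul, norm_inv, Complex.norm_real, norm_norm]
        refine pow_le_pow_left₀ (by positivity) ?_ 2
        rw [inv_mul_le_iff₀ hb0]
        exact ContinuousLinearMap.le_opNorm ((b : Alg M) : H →L[ℂ] H) _
      exact (Finset.sum_le_sum fun i _ => h3 i).trans (hY η)
    · intro i j
      have := hYe i j
      change ((‖b‖ : ℂ)⁻¹ • (((b : Alg M) : H →L[ℂ] H) * ((Y i j : Alg M) : H →L[ℂ] H))) * 1 = _
      rw [mul_one]
      rfl

end Vale.Agent.P082.CB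
end

section
attribute [local instance] Vale.Agent.P082.AlgFast.nr Vale.Agent.P082.AlgFast.na
  Vale.Agent.P082.AlgFast.sr Vale.Agent.P082.AlgFast.ng Vale.Agent.P082.AlgFast.sg
  Vale.Agent.P082.AlgFast.ns Vale.Agent.P082.AlgFast.ri Vale.Agent.P082.AlgFast.ag
  Vale.Agent.P082.AlgFast.am Vale.Agent.P082.AlgFast.mo Vale.Agent.P082.AlgFast.pm
  Vale.Agent.P082.AlgFast.us Vale.Agent.P082.AlgFast.ts Vale.Agent.P082.AlgFast.ets
  Vale.Agent.P082.AlgFast.eng Vale.Agent.P082.AlgFast.esg Vale.Agent.P082.AlgFast.ens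
  Vale.Agent.P082.AlgFast.eam Vale.Agent.P082.AlgFast.emo Vale.Agent.P082.AlgFast.nu
  Vale.Agent.P082.AlgFast.sag Vale.Agent.P082.AlgFast.agr Vale.Agent.P082.AlgFast.mon
  Vale.Agent.P082.AlgFast.srg

open scoped InnerProductSpace ComplexConjugate Topology

namespace Vale.Agent.P082.CB

open Vale.Agent.P082

universe u

variable {H : Type u} [NormedAddCommGroup H] [InnerProductSpace ℂ H] [CompleteSpace H]
  {M : VonNeumannAlgebra H}

/-- weak operator limits of bounded families along ultrafilters -/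
theorem lim_exists_weak {I : Type*} (U : Ultrafilter I) (F : I → Alg M) (C : ℝ)
    (hF : ∀ i, ‖F i‖ ≤ C) :
    ∃ T : Alg M, ∀ β α : H, Filter.Tendsto
      (fun i => ⟪β, ((F i : Alg M) : H →L[ℂ] H) α⟫_ℂ) U (𝓝 ⟪β, (T : H →L[ℂ] H) α⟫_ℂ) := by
  have hle : ∀ i (β α : H), ‖⟪β, ((F i : Alg M) : H →L[ℂ] H) α⟫_ℂ‖ ≤ C * ‖β‖ * ‖α‖ := by
    intro i β α
    refine (norm_inner_apply_le _ _ _).trans ?_
    have h : ‖((F i : Alg M) : H →L[ℂ] H)‖ ≤ C := hF i
    gcongr
  have hb : ∀ β α : H, Bdd (fun i => ⟪β, ((F i : Alg M) : H →L[ℂ] H) α⟫_ℂ) :=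
    fun β α => ⟨_, fun i => hle i β α⟩
  obtain ⟨T, hT⟩ := exists_oper M C
    (fun β α => ulim U (fun i => ⟪β, ((F i : Alg M) : H →L[ℂ] H) α⟫_ℂ))
    (fun β β' α => by
      refine ulim_eq U (((tendsto_ulim U (hb β α)).add (tendsto_ulim U (hb β' α))).congr ?_)
      intro i
      rw [inner_add_left])
    (fun c β α => by
      refine ulim_eq U (((tendsto_ulim U (hb β α)).const_mul (conj c)).congr ?_)
      intro i
      rw [inner_smul_left])
    (fun β α α' => by
      refine ulim_eq U (((tendsto_ulim U (hb β α)).add (tendsto_ulim U (hb β α'))).congr ?_)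
      intro i
      rw [← inner_add_right, map_add])
    (fun c β α => by
      refine ulim_eq U (((tendsto_ulim U (hb β α)).const_mul c).congr ?_)
      intro i
      rw [← inner_smul_right, map_smul])
    (fun β α => le_of_tendsto (tendsto_ulim U (hb β α)).norm
      (Filter.Eventually.of_forall fun i => hle i β α))
    (fun S hS β α => by
      congr 1; funext i
      rw [ContinuousLinearMap.adjoint_inner_left]
      congr 1
      have := hS _ (F i : Alg M).2
      exact (congrArg (fun T : H →L[ℂ] H => T α) this).symm)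
  refine ⟨T, fun β α => ?_⟩
  rw [hT]
  exact tendsto_ulim U (hb β α)

/-- the norm bound of a completely bounded map -/
lemma lim_norm_le_of_lbound {φ : Alg M →L[ℂ] Alg M} {C : ℝ} (hC : 0 ≤ C) (h : LBound M φ 1 1 C)
    (b : Alg M) : ‖φ b‖ ≤ √C * ‖b‖ := by
  have key : ∀ b : Alg M, ‖b‖ ≤ 1 → ‖φ b‖ ≤ √C := by
    intro b hb
    have h1 : ‖((φ b : Alg M) : H →L[ℂ] H)‖ ≤ √C := by
      refine ContinuousLinearMap.opNorm_le_bound _ (Real.sqrt_nonneg _) (fun α => ?_)
      have h2 := h (Fin 1) (Fin 1) (fun _ _ => b) (by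
        intro ζ
        simp only [Finset.univ_unique, Finset.sum_singleton]
        have h3 : ‖(b : H →L[ℂ] H) (ζ default)‖ ≤ ‖ζ default‖ := by
          have h4 : ‖(b : H →L[ℂ] H)‖ ≤ 1 := hb
          refine ((b : H →L[ℂ] H).le_opNorm _).trans ?_
          exact mul_le_of_le_one_left (norm_nonneg _) h4
        gcongr) (by intro i j; exact mul_one _) (fun _ => α) (by intro j; rfl)
      simp only [Finset.univ_unique, Finset.sum_singleton] at h2
      rw [← Real.sqrt_sq (norm_nonneg α), ← Real.sqrt_mul hC]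
      exact Real.le_sqrt_of_sq_le h2
    exact h1
  by_cases hb : ‖b‖ = 0
  · have : b = 0 := by
      have h0 : (b : H →L[ℂ] H) = 0 := norm_eq_zero.1 hb
      exact Subtype.ext h0
    rw [this, map_zero]
    simp
  · have hb' : 0 < ‖b‖ := lt_of_le_of_ne (norm_nonneg _) (Ne.symm hb)
    have h1 := key (((‖b‖⁻¹ : ℝ) : ℂ) • b) (by
      rw [norm_smul, Complex.norm_real, norm_inv, norm_norm, inv_mul_cancel₀ hb])
    rw [map_smul, norm_smul, Complex.norm_real, norm_inv, norm_norm, inv_mul_le_iff₀ hb'] at h1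
    rw [mul_comm]
    exact h1

lemma lim_norm_le_of_inner {T : Alg M} {C : ℝ} (hC : 0 ≤ C)
    (h : ∀ β α : H, ‖⟪β, (T : H →L[ℂ] H) α⟫_ℂ‖ ≤ C * ‖β‖ * ‖α‖) : ‖T‖ ≤ C := by
  have h1 : ‖(T : H →L[ℂ] H)‖ ≤ C := by
    refine ContinuousLinearMap.opNorm_le_bound _ hC (fun α => ?_)
    by_cases h0 : ‖(T : H →L[ℂ] H) α‖ = 0
    · rw [h0]; positivity
    · have h0' : 0 < ‖(T : H →L[ℂ] H) α‖ := lt_of_le_of_ne (norm_nonneg _) (Ne.symm h0)
      have h2 := h ((T : H →L[ℂ] H) α) α
      rw [inner_self_eq_norm_sq_to_K] at h2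
      have h3 : ‖((‖(T : H →L[ℂ] H) α‖ : ℂ)) ^ 2‖ = ‖(T : H →L[ℂ] H) α‖ * ‖(T : H →L[ℂ] H) α‖ := by
        rw [norm_pow, Complex.norm_real, norm_norm, sq]
      have h4 : ‖(T : H →L[ℂ] H) α‖ * ‖(T : H →L[ℂ] H) α‖
          ≤ (C * ‖α‖) * ‖(T : H →L[ℂ] H) α‖ := by
        refine (le_of_eq h3.symm).trans (h2.trans (le_of_eq ?_))
        ring
      exact le_of_mul_le_mul_right h4 h0'
  exact h1

/-- (C6) weak limit of the averages along an ultrafilter -/
theorem exists_lim_avg (U : Ultrafilter (Row M)) {ψ : Alg M →L[ℂ] Alg M} (h : IsCB M ψ) :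
    ∃ T : Alg M, ∀ β α : H, Filter.Tendsto
      (fun m => ⟪β, ((rowAvg M m ψ : Alg M) : H →L[ℂ] H) α⟫_ℂ) U (𝓝 ⟪β, (T : H →L[ℂ] H) α⟫_ℂ) := by
  obtain ⟨C, hC, hb⟩ := h
  exact lim_exists_weak U (fun m => rowAvg M m ψ) (√C) (fun m => norm_rowAvg_le m ψ hC hb)

lemma lim_rowTw_bound_one (m : Row M) (ψ : Alg M →L[ℂ] Alg M) {C : ℝ} (h : LBound M ψ 1 1 C) :
    LBound M (rowTw M m ψ) 1 1 C :=
  rowTw_bound m ψ (fun x _ => by rw [one_mul, mul_one]) h

/-- (C6) weak limit of the averaged maps along an ultrafilter -/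
theorem exists_lim_tw (U : Ultrafilter (Row M)) {ψ : Alg M →L[ℂ] Alg M} (h : IsCB M ψ) :
    ∃ ψ' : Alg M →L[ℂ] Alg M, (∀ (b : Alg M) (β α : H), Filter.Tendsto
      (fun m => ⟪β, ((rowTw M m ψ b : Alg M) : H →L[ℂ] H) α⟫_ℂ) U
        (𝓝 ⟪β, ((ψ' b : Alg M) : H →L[ℂ] H) α⟫_ℂ)) := by
  obtain ⟨C, hC, hb⟩ := h
  have hn : ∀ (b : Alg M) (m : Row M), ‖rowTw M m ψ b‖ ≤ √C * ‖b‖ := fun b m =>
    lim_norm_le_of_lbound hC (lim_rowTw_bound_one m ψ hb) b
  have key : ∀ b : Alg M, ∃ T : Alg M, ∀ β α : H, Filter.Tendsto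
      (fun m => ⟪β, ((rowTw M m ψ b : Alg M) : H →L[ℂ] H) α⟫_ℂ) U
        (𝓝 ⟪β, (T : H →L[ℂ] H) α⟫_ℂ) := fun b =>
    lim_exists_weak U (fun m => rowTw M m ψ b) (√C * ‖b‖) (hn b)
  choose T hT using key
  refine ⟨LinearMap.mkContinuous
    { toFun := T
      map_add' := fun b b' => alg_ext M (fun β α => ?_)
      map_smul' := fun c b => alg_ext M (fun β α => ?_) } (√C) (fun b => ?_), fun b => hT b⟩
  · refine tendsto_nhds_unique (hT (b + b') β α) ?_
    have h1 := (hT b β α).add (hT b' β α)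
    have h2 : ⟪β, ((T b + T b' : Alg M) : H →L[ℂ] H) α⟫_ℂ
        = ⟪β, (T b : H →L[ℂ] H) α⟫_ℂ + ⟪β, (T b' : H →L[ℂ] H) α⟫_ℂ := by
      rw [← inner_add_right]; rfl
    rw [h2]
    refine h1.congr (fun m => ?_)
    rw [map_add, ← inner_add_right]; rfl
  · refine tendsto_nhds_unique (hT (c • b) β α) ?_
    have h1 := (hT b β α).const_mul c
    have h2 : ⟪β, (((RingHom.id ℂ) c • T b : Alg M) : H →L[ℂ] H) α⟫_ℂ
        = c * ⟪β, (T b : H →L[ℂ] H) α⟫_ℂ := by
      rw [← inner_smul_right]; rfl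
    rw [h2]
    refine h1.congr (fun m => ?_)
    rw [map_smul, ← inner_smul_right]; rfl
  · refine lim_norm_le_of_inner (by positivity) (fun β α => ?_)
    refine le_of_tendsto (hT b β α).norm (Filter.Eventually.of_forall fun m => ?_)
    refine (norm_inner_apply_le _ _ _).trans ?_
    have h3 : ‖((rowTw M m ψ b : Alg M) : H →L[ℂ] H)‖ ≤ √C * ‖b‖ := hn b m
    gcongr

/-- the functional `a_U` -/
noncomputable def limAvg (M : VonNeumannAlgebra H) (U : Ultrafilter (Row M))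
    (ψ : Alg M →L[ℂ] Alg M) (h : IsCB M ψ) : Alg M := (exists_lim_avg U h).choose

lemma limAvg_spec (U : Ultrafilter (Row M)) {ψ : Alg M →L[ℂ] Alg M} (h : IsCB M ψ) (β α : H) :
    Filter.Tendsto (fun m => ⟪β, ((rowAvg M m ψ : Alg M) : H →L[ℂ] H) α⟫_ℂ) U
      (𝓝 ⟪β, ((limAvg M U ψ h : Alg M) : H →L[ℂ] H) α⟫_ℂ) := (exists_lim_avg U h).choose_spec β α

/-- the map `ψ_U` -/
noncomputable def limTw (M : VonNeumannAlgebra H) (U : Ultrafilter (Row M))
    (ψ : Alg M →L[ℂ] Alg M) (h : IsCB M ψ) : Alg M →L[ℂ] Alg M := (exists_lim_tw U h).choose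

lemma limTw_spec (U : Ultrafilter (Row M)) {ψ : Alg M →L[ℂ] Alg M} (h : IsCB M ψ) (b : Alg M)
    (β α : H) : Filter.Tendsto (fun m => ⟪β, ((rowTw M m ψ b : Alg M) : H →L[ℂ] H) α⟫_ℂ) U
      (𝓝 ⟪β, ((limTw M U ψ h b : Alg M) : H →L[ℂ] H) α⟫_ℂ) :=
  (exists_lim_tw U h).choose_spec b β α

/-- weak limits preserve the localised bounds -/
lemma limTw_bound_of_eventually (U : Ultrafilter (Row M)) {ψ : Alg M →L[ℂ] Alg M} (h : IsCB M ψ)
    {e f : H →L[ℂ] H} {C : ℝ}
    (hC : ∀ (ι κ : Type) [Fintype ι] [Fintype κ] (Y : ι → κ → Alg M),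
      MatContr (fun i j => ((Y i j : Alg M) : H →L[ℂ] H)) →
      (∀ i j, ((Y i j : Alg M) : H →L[ℂ] H) * e = (Y i j : Alg M)) →
      ∀ ζ : κ → H, (∀ j, f (ζ j) = ζ j) → ∀ η : ℝ, 0 < η → ∀ᶠ m in (U : Filter (Row M)),
        ∑ i, ‖∑ j, ((rowTw M m ψ (Y i j) : Alg M) : H →L[ℂ] H) (ζ j)‖ ^ 2
          ≤ C * ∑ j, ‖ζ j‖ ^ 2 + η) : LBound M (limTw M U ψ h) e f C := by
  intro ι κ _ _ Y hY hYe ζ hζ
  refine le_of_forall_pos_le_add (fun η hη => ?_)
  set v : ι → H := fun i => ∑ j, ((limTw M U ψ h (Y i j) : Alg M) : H →L[ℂ] H) (ζ j) with hv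
  have h1 : ∀ i, Filter.Tendsto (fun m => ⟪v i,
      ∑ j, ((rowTw M m ψ (Y i j) : Alg M) : H →L[ℂ] H) (ζ j)⟫_ℂ) U (𝓝 ⟪v i, v i⟫_ℂ) := by
    intro i
    have h2 : Filter.Tendsto (fun m => ∑ j, ⟪v i,
      ((rowTw M m ψ (Y i j) : Alg M) : H →L[ℂ] H) (ζ j)⟫_ℂ) U
        (𝓝 (∑ j, ⟪v i, ((limTw M U ψ h (Y i j) : Alg M) : H →L[ℂ] H) (ζ j)⟫_ℂ)) :=
      tendsto_finsetSum _ (fun j _ => limTw_spec U h (Y i j) (v i) (ζ j))
    rw [← inner_sum] at h2
    refine h2.congr (fun m => ?_)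
    rw [inner_sum]
  have h2 : Filter.Tendsto (fun m => ∑ i, (⟪v i,
      ∑ j, ((rowTw M m ψ (Y i j) : Alg M) : H →L[ℂ] H) (ζ j)⟫_ℂ).re) U
      (𝓝 (∑ i, (⟪v i, v i⟫_ℂ).re)) :=
    tendsto_finsetSum _ (fun i _ => (Complex.continuous_re.tendsto _).comp (h1 i))
  have h3 : ∑ i, (⟪v i, v i⟫_ℂ).re = ∑ i, ‖v i‖ ^ 2 := by
    refine Finset.sum_congr rfl (fun i _ => ?_)
    rw [inner_self_eq_norm_sq_to_K]
    norm_cast
  rw [h3] at h2
  have h4 : 2 * ∑ i, ‖v i‖ ^ 2 ≤ (∑ i, ‖v i‖ ^ 2) + (C * ∑ j, ‖ζ j‖ ^ 2 + η) := by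
    refine le_of_tendsto (h2.const_mul 2) ?_
    filter_upwards [hC ι κ Y hY hYe ζ hζ η hη] with m hm
    refine le_trans ?_ (add_le_add_right hm _)
    rw [← Finset.sum_add_distrib, Finset.mul_sum]
    refine Finset.sum_le_sum (fun i _ => ?_)
    have h5 := norm_sub_sq (𝕜 := ℂ) (v i)
      (∑ j, ((rowTw M m ψ (Y i j) : Alg M) : H →L[ℂ] H) (ζ j))
    have h6 := sq_nonneg ‖v i - ∑ j, ((rowTw M m ψ (Y i j) : Alg M) : H →L[ℂ] H) (ζ j)‖
    rw [h5] at h6
    have h7 : RCLike.re ⟪v i, ∑ j, ((rowTw M m ψ (Y i j) : Alg M) : H →L[ℂ] H) (ζ j)⟫_ℂ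
      = (⟪v i, ∑ j, ((rowTw M m ψ (Y i j) : Alg M) : H →L[ℂ] H) (ζ j)⟫_ℂ).re := rfl
    rw [h7] at h6
    linarith
  have h5 : (∑ i, ‖∑ j, ((limTw M U ψ h (Y i j) : Alg M) : H →L[ℂ] H) (ζ j)‖ ^ 2)
      = ∑ i, ‖v i‖ ^ 2 := rfl
  rw [h5]
  linarith

lemma limTw_bound (U : Ultrafilter (Row M)) {ψ : Alg M →L[ℂ] Alg M} (h : IsCB M ψ)
    {z : H →L[ℂ] H} (hz : ∀ x ∈ M, z * x = x * z) {C : ℝ} (hC : LBound M ψ 1 z C) :
    LBound M (limTw M U ψ h) 1 z C := by
  refine limTw_bound_of_eventually U h (fun ι κ _ _ Y hY hYe ζ hζ η hη => ?_)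
  refine Filter.Eventually.of_forall (fun m => ?_)
  have := rowTw_bound m ψ hz hC ι κ Y hY hYe ζ hζ
  linarith

lemma limTw_cb (U : Ultrafilter (Row M)) {ψ : Alg M →L[ℂ] Alg M} (h : IsCB M ψ) :
    IsCB M (limTw M U ψ h) := by
  obtain ⟨C, hC, hb⟩ := id h
  exact ⟨C, hC, limTw_bound U h (fun x _ => by rw [one_mul, mul_one]) hb⟩

lemma limTw_apply (U : Ultrafilter (Row M)) {ψ : Alg M →L[ℂ] Alg M} (h : IsCB M ψ) (b : Alg M) :
    limTw M U ψ h b = limAvg M U (ψ.comp (mulL b)) (cb_comp_mulL b h) := by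
  refine alg_ext M (fun β α => tendsto_nhds_unique (limTw_spec U h b β α) ?_)
  refine (limAvg_spec U (cb_comp_mulL b h) β α).congr (fun m => ?_)
  rw [rowTw_apply]

end Vale.Agent.P082.CB
end

section
attribute [local instance] Vale.Agent.P082.AlgFast.nr Vale.Agent.P082.AlgFast.na
  Vale.Agent.P082.AlgFast.sr Vale.Agent.P082.AlgFast.ng Vale.Agent.P082.AlgFast.sg
  Vale.Agent.P082.AlgFast.ns Vale.Agent.P082.AlgFast.ri Vale.Agent.P082.AlgFast.ag
  Vale.Agent.P082.AlgFast.am Vale.Agent.P082.AlgFast.mo Vale.Agent.P082.AlgFast.pm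
  Vale.Agent.P082.AlgFast.us Vale.Agent.P082.AlgFast.ts Vale.Agent.P082.AlgFast.ets
  Vale.Agent.P082.AlgFast.eng Vale.Agent.P082.AlgFast.esg Vale.Agent.P082.AlgFast.ens
  Vale.Agent.P082.AlgFast.eam Vale.Agent.P082.AlgFast.emo Vale.Agent.P082.AlgFast.nu
  Vale.Agent.P082.AlgFast.sag Vale.Agent.P082.AlgFast.agr Vale.Agent.P082.AlgFast.mon
  Vale.Agent.P082.AlgFast.srg

/-! (C9) rows of partial isometries filling the central cover of a projection -/

open scoped InnerProductSpace ComplexConjugate Topology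

namespace Vale.Agent.P082.CB

open Vale.Agent.P082 Vale.Agent.P082.VN

universe u

variable {H : Type u} [NormedAddCommGroup H] [InnerProductSpace ℂ H] [CompleteSpace H]
  {M : VonNeumannAlgebra H}

/-- families of partial isometries with sources below `e₁` and orthogonal ranges -/
def RowsFam (M : VonNeumannAlgebra H) (e₁ : H →L[ℂ] H) : Set (Set (H →L[ℂ] H)) :=
  {X | (∀ m ∈ X, m ∈ M ∧ m * (star m * m) = m ∧ m * e₁ = m) ∧
    ∀ m ∈ X, ∀ m' ∈ X, m ≠ m' → star m * m' = 0}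

/-- (C9) partial isometries with sources in `e₁` whose orthogonal ranges fill the central cover -/
theorem exists_rows {e₁ : H →L[ℂ] H} (he : IsPr M e₁) :
    ∃ z, IsCPr M z ∧ z * e₁ = e₁ ∧ ∃ (K : Type u) (m : K → H →L[ℂ] H),
      (∀ k, m k ∈ M ∧ m k * (star (m k) * m k) = m k ∧ m k * e₁ = m k) ∧
      (∀ k l, k ≠ l → star (m k) * m l = 0) ∧ IsSum (fun k => m k * star (m k)) z := by
  obtain ⟨z, hz, hze, hzf⟩ := exists_central_cover (M := M) he
  have hchain : ∀ C ⊆ RowsFam M e₁, IsChain (· ⊆ ·) C → ∃ ub ∈ RowsFam M e₁, ∀ X ∈ C, X ⊆ ub := by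
    intro C hCS hC
    refine ⟨⋃₀ C, ⟨?_, ?_⟩, fun X hX => Set.subset_sUnion_of_mem hX⟩
    · rintro f ⟨X, hX, hf⟩
      exact (hCS hX).1 f hf
    · rintro f ⟨X, hX, hf⟩ g ⟨Y, hY, hg⟩ hne
      rcases hC.total hX hY with h | h
      · exact (hCS hY).2 f (h hf) g hg hne
      · exact (hCS hX).2 f hf g (h hg) hne
  obtain ⟨X, hX⟩ := zorn_subset (RowsFam M e₁) hchain
  obtain ⟨hX1, hX2⟩ := hX.prop
  have hr : ∀ m ∈ X, IsPr M (m * star m) := by
    intro m hm
    obtain ⟨h1, h2, -⟩ := hX1 m hm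
    refine ⟨mul_mem h1 (star_mem h1), ?_, ?_⟩
    · calc m * star m * (m * star m) = (m * (star m * m)) * star m := by noncomm_ring
        _ = m * star m := by rw [h2]
    · rw [star_mul, star_star]
  have hzm : ∀ v : H →L[ℂ] H, v ∈ M → v * e₁ = v → z * v = v := by
    intro v hv hve
    calc z * v = z * (v * e₁) := by rw [hve]
      _ = (z * v) * e₁ := by rw [mul_assoc]
      _ = v * (z * e₁) := by rw [hz.comm v hv, mul_assoc]
      _ = v := by rw [hze, hve]
  obtain ⟨s, hs, hsum, hsle⟩ := exists_sum_proj (M := M) (fun m : X => (m : H →L[ℂ] H) * star m.1)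
    (fun m => hr m.1 m.2) (fun m m' hne => by
      have h1 := hX2 m.1 m.2 m'.1 m'.2 (fun h => hne (Subtype.ext h))
      calc (m : H →L[ℂ] H) * star m.1 * (m'.1 * star m'.1)
          = m.1 * (star m.1 * m'.1) * star m'.1 := by noncomm_ring
        _ = 0 := by rw [h1, mul_zero, zero_mul])
  have hzs : z * s = s := hsum.le_of (fun m : X => by
    change z * (m.1 * star m.1) = m.1 * star m.1
    rw [← mul_assoc, hzm m.1 (hX1 m.1 m.2).1 (hX1 m.1 m.2).2.2])
  have hsz : s * z = s := by rw [← hz.comm s hs.mem, hzs]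
  have hsm : ∀ m ∈ X, s * m = m := by
    intro m hm
    obtain ⟨h1, h2, -⟩ := hX1 m hm
    have h3 : s * (m * star m) = m * star m := hsle ⟨m, hm⟩
    calc s * m = s * (m * star m) * m := by
          rw [mul_assoc, mul_assoc, h2]
      _ = m := by rw [h3, mul_assoc, h2]
  have hf : IsPr M (z - s) := by
    refine ⟨sub_mem hz.mem hs.mem, ?_, ?_⟩
    · rw [sub_mul, mul_sub, mul_sub, hz.idem, hzs, hsz, hs.idem]; abel
    · rw [star_sub, hz.sa, hs.sa]
  have hkey : ∀ x ∈ M, (z - s) * x * e₁ = 0 := by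
    intro x hx
    by_contra hne
    obtain ⟨v, hv, hv0, hvv, hve, hfv⟩ := exists_pi_of_ne_zero he hf hx hne
    have hfm : ∀ m ∈ X, (z - s) * m = 0 := by
      intro m hm
      rw [sub_mul, hzm m (hX1 m hm).1 (hX1 m hm).2.2, hsm m hm, sub_self]
    have h1 : ∀ m ∈ X, star m * v = 0 := by
      intro m hm
      have c1 := congrArg star (hfm m hm)
      rw [star_mul, hf.sa, star_zero] at c1
      calc star m * v = (star m * (z - s)) * v := by rw [mul_assoc, hfv]
        _ = 0 := by rw [c1, zero_mul]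
    have h2 : ∀ m ∈ X, star v * m = 0 := by
      intro m hm
      have := congrArg star (h1 m hm)
      rwa [star_mul, star_star, star_zero] at this
    have hins : insert v X ∈ RowsFam M e₁ := by
      refine ⟨?_, ?_⟩
      · intro m hm
        rcases Set.mem_insert_iff.mp hm with rfl | hm
        · exact ⟨hv, hvv, hve⟩
        · exact hX1 m hm
      · intro m hm m' hm' hne'
        rcases Set.mem_insert_iff.mp hm with h | h
        · rcases Set.mem_insert_iff.mp hm' with h' | h'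
          · exact absurd (h.trans h'.symm) hne'
          · rw [h]
            exact h2 m' h'
        · rcases Set.mem_insert_iff.mp hm' with h' | h'
          · rw [h']
            exact h1 m h
          · exact hX2 m h m' h' hne'
    have hin : v ∈ X := hX.le_of_ge hins (Set.subset_insert v X) (Set.mem_insert v X)
    exact hv0 (by rw [← hfv, hfm v hin])
  have h0 : (z - s) * z = 0 := hzf _ hf hkey
  have hzeq : s = z := by
    rw [sub_mul, hz.idem, hsz, sub_eq_zero] at h0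
    exact h0.symm
  refine ⟨z, hz, hze, X, fun m => m.1, fun m => hX1 m.1 m.2, fun m m' hne => ?_, ?_⟩
  · exact hX2 m.1 m.2 m'.1 m'.2 (fun h => hne (Subtype.ext h))
  · rw [← hzeq]
    exact hsum

end Vale.Agent.P082.CB
end

section
attribute [local instance] Vale.Agent.P082.AlgFast.nr Vale.Agent.P082.AlgFast.na
  Vale.Agent.P082.AlgFast.sr Vale.Agent.P082.AlgFast.ng Vale.Agent.P082.AlgFast.sg
  Vale.Agent.P082.AlgFast.ns Vale.Agent.P082.AlgFast.ri Vale.Agent.P082.AlgFast.ag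
  Vale.Agent.P082.AlgFast.am Vale.Agent.P082.AlgFast.mo Vale.Agent.P082.AlgFast.pm
  Vale.Agent.P082.AlgFast.us Vale.Agent.P082.AlgFast.ts Vale.Agent.P082.AlgFast.ets
  Vale.Agent.P082.AlgFast.eng Vale.Agent.P082.AlgFast.esg Vale.Agent.P082.AlgFast.ens
  Vale.Agent.P082.AlgFast.eam Vale.Agent.P082.AlgFast.emo Vale.Agent.P082.AlgFast.nu
  Vale.Agent.P082.AlgFast.sag Vale.Agent.P082.AlgFast.agr Vale.Agent.P082.AlgFast.mon
  Vale.Agent.P082.AlgFast.srg

/-! The statements C8, C9, C9' are proved in `ProjA.lean` and `Rows.lean`. -/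
end

section
attribute [local instance] Vale.Agent.P082.AlgFast.nr Vale.Agent.P082.AlgFast.na
  Vale.Agent.P082.AlgFast.sr Vale.Agent.P082.AlgFast.ng Vale.Agent.P082.AlgFast.sg
  Vale.Agent.P082.AlgFast.ns Vale.Agent.P082.AlgFast.ri Vale.Agent.P082.AlgFast.ag
  Vale.Agent.P082.AlgFast.am Vale.Agent.P082.AlgFast.mo Vale.Agent.P082.AlgFast.pm
  Vale.Agent.P082.AlgFast.us Vale.Agent.P082.AlgFast.ts Vale.Agent.P082.AlgFast.ets
  Vale.Agent.P082.AlgFast.eng Vale.Agent.P082.AlgFast.esg Vale.Agent.P082.AlgFast.ens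
  Vale.Agent.P082.AlgFast.eam Vale.Agent.P082.AlgFast.emo Vale.Agent.P082.AlgFast.nu
  Vale.Agent.P082.AlgFast.sag Vale.Agent.P082.AlgFast.agr Vale.Agent.P082.AlgFast.mon
  Vale.Agent.P082.AlgFast.srg

open scoped InnerProductSpace ComplexConjugate Topology

namespace Vale.Agent.P082.CB

open Vale.Agent.P082

universe u

variable {H : Type u} [NormedAddCommGroup H] [InnerProductSpace ℂ H] [CompleteSpace H]
  {M : VonNeumannAlgebra H}

/-- Pythagoras for a projection. -/
theorem stack_pyth {p : H →L[ℂ] H} (hp : p * p = p) (hps : star p = p) (η : H) :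
    ‖p η‖ ^ 2 + ‖(1 - p) η‖ ^ 2 = ‖η‖ ^ 2 := by
  have h1 : ⟪p η, (1 - p) η⟫_ℂ = 0 := by
    have h2 : ⟪p η, (1 - p) η⟫_ℂ = ⟪η, star p ((1 - p) η)⟫_ℂ := by
      rw [ContinuousLinearMap.star_eq_adjoint, ContinuousLinearMap.adjoint_inner_right]
    have h3 : p ((1 - p) η) = 0 := by
      have h4 : p * (1 - p) = 0 := by rw [mul_sub, mul_one, hp, sub_self]
      have h5 : (p * (1 - p)) η = 0 := by rw [h4]; rfl
      exact h5
    rw [h2, hps, h3, inner_zero_right]
  have h6 : p η + (1 - p) η = η := by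
    have : p + (1 - p) = 1 := by abel
    calc p η + (1 - p) η = (p + (1 - p)) η := rfl
      _ = η := by rw [this]; rfl
  have h7 := norm_add_sq (𝕜 := ℂ) (p η) ((1 - p) η)
  rw [h6, h1] at h7
  simp only [map_zero, mul_zero, add_zero] at h7
  exact h7.symm

theorem stack_proj_le {p : H →L[ℂ] H} (hp : p * p = p) (hps : star p = p) (η : H) :
    ‖p η‖ ^ 2 ≤ ‖η‖ ^ 2 := by
  have := stack_pyth hp hps η
  linarith only [this, sq_nonneg ‖(1 - p) η‖]

/-- (C5) The stacking argument: if the localised norm at `e₁ ≤ e` controls the norm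
`LBound M ψ 1 z`, then `ψ(y(1-e))` cannot be bounded below on the range of `e₁`. -/
theorem stack_false (ψ : Alg M →L[ℂ] Alg M) {e e₁ z : H →L[ℂ] H} (he : e ∈ M)
    (hee : e * e = e) (hes : star e = e) (he₁ : e₁ * e₁ = e₁) (he₁s : star e₁ = e₁)
    (hle : e * e₁ = e₁) (hz : z * e₁ = e₁) (hne : e₁ ≠ 0)
    (hfin : ∃ C, 0 ≤ C ∧ LBound M ψ e₁ e₁ C)
    (htr : ∀ C, 0 ≤ C → LBound M ψ e₁ e₁ C → LBound M ψ 1 z C)
    (y w : Alg M) (hy : ‖y‖ ≤ 1) (hw : (w : H →L[ℂ] H) = (y : H →L[ℂ] H) * (1 - e)) {δ : ℝ}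
    (hδ : 0 < δ)
    (hX : ∀ ζ : H, e₁ ζ = ζ → δ * ‖ζ‖ ^ 2 ≤ ‖((ψ w : Alg M) : H →L[ℂ] H) ζ‖ ^ 2) : False := by
  classical
  set S : Set ℝ := {C | 0 ≤ C ∧ LBound M ψ e₁ e₁ C} with hS
  have hSne : S.Nonempty := hfin
  have hSbd : BddBelow S := ⟨0, fun C hC => hC.1⟩
  set Cs : ℝ := sInf S with hCs
  have hCs0 : 0 ≤ Cs := Real.sInf_nonneg fun C hC => hC.1
  have hLs : LBound M ψ e₁ e₁ Cs := by
    intro ι κ _ _ Y hY hYe ζ hζ
    set L := ∑ i, ‖∑ j, ((ψ (Y i j) : Alg M) : H →L[ℂ] H) (ζ j)‖ ^ 2 with hL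
    set s := ∑ j, ‖ζ j‖ ^ 2 with hs
    have hs0 : 0 ≤ s := Finset.sum_nonneg fun j _ => sq_nonneg _
    rcases hs0.eq_or_lt with h0 | h0
    · obtain ⟨C, hC⟩ := hSne
      have h1 := hC.2 ι κ Y hY hYe ζ hζ
      rw [← hs, ← h0, mul_zero] at h1
      rw [← h0, mul_zero]
      exact h1
    · have h1 : L / s ≤ Cs := by
        refine le_csInf hSne fun C hC => ?_
        rw [div_le_iff₀ h0]
        exact hC.2 ι κ Y hY hYe ζ hζ
      rwa [div_le_iff₀ h0] at h1
  have hL1 : LBound M ψ 1 z Cs := htr Cs hCs0 hLs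
  have hwle : ∀ η : H, ‖(w : H →L[ℂ] H) η‖ ^ 2 ≤ ‖(1 - e) η‖ ^ 2 := by
    intro η
    have h1 : (w : H →L[ℂ] H) η = (y : H →L[ℂ] H) ((1 - e) η) := by rw [hw]; rfl
    rw [h1]
    have h2 : ‖(y : H →L[ℂ] H) ((1 - e) η)‖ ≤ ‖(1 - e) η‖ := by
      refine ((y : H →L[ℂ] H).le_opNorm _).trans ?_
      have h3 : ‖(y : H →L[ℂ] H)‖ ≤ 1 := hy
      calc ‖(y : H →L[ℂ] H)‖ * ‖(1 - e) η‖ ≤ 1 * ‖(1 - e) η‖ :=
            mul_le_mul_of_nonneg_right h3 (norm_nonneg _)
        _ = ‖(1 - e) η‖ := one_mul _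
    exact pow_le_pow_left₀ (norm_nonneg _) h2 2
  have hzz : ∀ ζ : H, e₁ ζ = ζ → z ζ = ζ := by
    intro ζ hζ
    have h1 : z (e₁ ζ) = (z * e₁) ζ := rfl
    rw [hz, hζ] at h1
    exact h1
  -- step (a)
  have hδC : δ ≤ Cs := by
    by_contra hcon
    push Not at hcon
    obtain ⟨η, hη⟩ : ∃ η, e₁ η ≠ 0 := by
      by_contra h
      push Not at h
      exact hne (ContinuousLinearMap.ext h)
    set ζ := e₁ η with hζ
    have hζ1 : e₁ ζ = ζ := by
      have h1 : e₁ (e₁ η) = (e₁ * e₁) η := rfl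
      rw [he₁] at h1
      exact h1
    have h2 := hL1 Unit Unit (fun _ _ => w) (by
      intro ζ'
      simp only [Finset.univ_unique, Finset.sum_singleton]
      refine (hwle _).trans ?_
      have := stack_pyth hee hes (ζ' default)
      linarith only [this, sq_nonneg ‖e (ζ' default)‖]) (fun _ _ => mul_one _) (fun _ => ζ)
      (fun _ => hzz ζ hζ1)
    simp only [Finset.univ_unique, Finset.sum_singleton] at h2
    have h3 := hX ζ hζ1
    have h4 : 0 < ‖ζ‖ ^ 2 := by
      have := norm_pos_iff.2 hη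
      positivity
    linarith only [mul_pos (sub_pos.2 hcon) (sub_pos.2 h4), h3, h2]
  -- step (b)
  have hC' : ¬ LBound M ψ e₁ e₁ (Cs - δ / 2) := by
    intro h
    have h1 : Cs - δ / 2 ∈ S := ⟨by linarith only [hδ, hδC], h⟩
    have h2 := csInf_le hSbd h1
    linarith only [hδ, h2]
  unfold LBound at hC'
  push Not at hC'
  obtain ⟨ι, κ, _, _, Y, hY, hYe, ζ, hζ, hlt⟩ := hC'
  have hs0 : 0 ≤ ∑ j, ‖ζ j‖ ^ 2 := Finset.sum_nonneg fun j _ => sq_nonneg _
  have he₁e : e₁ * e = e₁ := by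
    have h1 := congrArg star hle
    rwa [star_mul, hes, he₁s] at h1
  let Z : ι ⊕ κ → κ → Alg M := fun a j =>
    Sum.elim (fun i => Y i j) (fun j' => if j = j' then w else 0) a
  have hZw : ∀ (j' : κ) (F : Alg M →L[ℂ] Alg M) (η : κ → H),
      ∑ j, ((F (Z (Sum.inr j') j) : Alg M) : H →L[ℂ] H) (η j) =
        ((F w : Alg M) : H →L[ℂ] H) (η j') := by
    intro j' F η
    rw [Finset.sum_eq_single j']
    · simp [Z]
    · intro j _ hj
      have h1 : Z (Sum.inr j') j = 0 := by simp [Z, hj]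
      rw [h1, map_zero]
      rfl
    · intro h
      exact absurd (Finset.mem_univ _) h
  have hZc : MatContr (fun a j => ((Z a j : Alg M) : H →L[ℂ] H)) := by
    intro η
    rw [Fintype.sum_sum_type]
    have h1 : ∑ i, ‖∑ j, ((Z (Sum.inl i) j : Alg M) : H →L[ℂ] H) (η j)‖ ^ 2 ≤
        ∑ j, ‖e₁ (η j)‖ ^ 2 := by
      refine le_trans (le_of_eq ?_) (hY fun j => e₁ (η j))
      refine Finset.sum_congr rfl fun i _ => ?_
      congr 2
      refine Finset.sum_congr rfl fun j _ => ?_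
      have h2 : ((Y i j : Alg M) : H →L[ℂ] H) (e₁ (η j)) =
        (((Y i j : Alg M) : H →L[ℂ] H) * e₁) (η j) := rfl
      rw [h2, hYe i j]
      rfl
    have h3 : ∑ j', ‖∑ j, ((Z (Sum.inr j') j : Alg M) : H →L[ℂ] H) (η j)‖ ^ 2 ≤
        ∑ j, ‖(1 - e) (η j)‖ ^ 2 := by
      refine Finset.sum_le_sum fun j' _ => ?_
      have h4 := hZw j' (ContinuousLinearMap.id ℂ (Alg M)) η
      simp only [ContinuousLinearMap.id_apply] at h4
      rw [h4]
      exact hwle _
    have h5 : ∑ j, ‖e₁ (η j)‖ ^ 2 + ∑ j, ‖(1 - e) (η j)‖ ^ 2 ≤ ∑ j, ‖η j‖ ^ 2 := by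
      rw [← Finset.sum_add_distrib]
      refine Finset.sum_le_sum fun j _ => ?_
      have h6 := stack_pyth hee hes (η j)
      have h7 : e₁ (η j) = e₁ (e (η j)) := by
        have h8 : (e₁ * e) (η j) = e₁ (e (η j)) := rfl
        rw [← h8, he₁e]
      have h9 := stack_proj_le he₁ he₁s (e (η j))
      rw [← h7] at h9
      linarith only [h6, h9]
    linarith only [h1, h3, h5]
  have hfinal := hL1 (ι ⊕ κ) κ Z hZc (fun _ _ => mul_one _) ζ (fun j => hzz _ (hζ j))
  rw [Fintype.sum_sum_type] at hfinal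
  have h1 : ∑ i, ‖∑ j, ((ψ (Z (Sum.inl i) j) : Alg M) : H →L[ℂ] H) (ζ j)‖ ^ 2 =
      ∑ i, ‖∑ j, ((ψ (Y i j) : Alg M) : H →L[ℂ] H) (ζ j)‖ ^ 2 := rfl
  have h2 : δ * ∑ j, ‖ζ j‖ ^ 2 ≤
      ∑ j', ‖∑ j, ((ψ (Z (Sum.inr j') j) : Alg M) : H →L[ℂ] H) (ζ j)‖ ^ 2 := by
    rw [Finset.mul_sum]
    refine Finset.sum_le_sum fun j' _ => ?_
    rw [hZw j' ψ ζ]
    exact hX _ (hζ j')
  rw [h1] at hfinal
  linarith only [mul_nonneg (le_of_lt (sub_pos.2 hδ)) (sub_nonneg.2 hs0), h2, hfinal, hlt]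

end Vale.Agent.P082.CB
end

section
attribute [local instance] Vale.Agent.P082.AlgFast.nr Vale.Agent.P082.AlgFast.na
  Vale.Agent.P082.AlgFast.sr Vale.Agent.P082.AlgFast.ng Vale.Agent.P082.AlgFast.sg
  Vale.Agent.P082.AlgFast.ns Vale.Agent.P082.AlgFast.ri Vale.Agent.P082.AlgFast.ag
  Vale.Agent.P082.AlgFast.am Vale.Agent.P082.AlgFast.mo Vale.Agent.P082.AlgFast.pm
  Vale.Agent.P082.AlgFast.us Vale.Agent.P082.AlgFast.ts Vale.Agent.P082.AlgFast.ets
  Vale.Agent.P082.AlgFast.eng Vale.Agent.P082.AlgFast.esg Vale.Agent.P082.AlgFast.ens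
  Vale.Agent.P082.AlgFast.eam Vale.Agent.P082.AlgFast.emo Vale.Agent.P082.AlgFast.nu
  Vale.Agent.P082.AlgFast.sag Vale.Agent.P082.AlgFast.agr Vale.Agent.P082.AlgFast.mon
  Vale.Agent.P082.AlgFast.srg

open scoped InnerProductSpace ComplexConjugate Topology

namespace Vale.Agent.P082.CB

open Vale.Agent.P082 Vale.Agent.P082.VN

universe u

variable {H : Type u} [NormedAddCommGroup H] [InnerProductSpace ℂ H] [CompleteSpace H]
  {M : VonNeumannAlgebra H}

/-- perturbation of a sum of squares -/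
lemma loc_sum_sq_le {ι : Type} [Fintype ι] {E : Type*} [NormedAddCommGroup E] (v w : ι → E)
    (b : ι → ℝ) {A : ℝ} (hA : ∑ i, ‖v i‖ ^ 2 ≤ A) (hw : ∀ i, ‖w i‖ ≤ b i) :
    ∑ i, ‖v i + w i‖ ^ 2 ≤ A + (2 * √A * ∑ i, b i + ∑ i, b i ^ 2) := by
  have hb : ∀ i, 0 ≤ b i := fun i => (norm_nonneg _).trans (hw i)
  have h1 : ∀ i, ‖v i‖ ≤ √A := by
    intro i
    apply Real.le_sqrt_of_sq_le
    exact (Finset.single_le_sum (f := fun i => ‖v i‖ ^ 2) (fun j _ => sq_nonneg _)
      (Finset.mem_univ i)).trans hA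
  have h2 : ∀ i, ‖v i + w i‖ ^ 2 ≤ ‖v i‖ ^ 2 + (2 * √A * b i + b i ^ 2) := by
    intro i
    have h3 : ‖v i + w i‖ ≤ ‖v i‖ + b i := (norm_add_le _ _).trans (by linarith [hw i])
    have h4 : ‖v i + w i‖ ^ 2 ≤ (‖v i‖ + b i) ^ 2 :=
      pow_le_pow_left₀ (norm_nonneg _) h3 2
    have h5 : ‖v i‖ * b i ≤ √A * b i := mul_le_mul_of_nonneg_right (h1 i) (hb i)
    linarith only [h4, h5]
  calc ∑ i, ‖v i + w i‖ ^ 2 ≤ ∑ i, (‖v i‖ ^ 2 + (2 * √A * b i + b i ^ 2)) :=
        Finset.sum_le_sum fun i _ => h2 i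
    _ = ∑ i, ‖v i‖ ^ 2 + (2 * √A * ∑ i, b i + ∑ i, b i ^ 2) := by
        rw [Finset.sum_add_distrib, Finset.sum_add_distrib, Finset.mul_sum]
    _ ≤ _ := by linarith only [hA]

lemma loc_norm_le_one {r : H →L[ℂ] H} (h1 : r * r = r) (h2 : star r = r) : ‖r‖ ≤ 1 := by
  have h3 : ‖star r * r‖ = ‖r‖ * ‖r‖ := CStarRing.norm_star_mul_self
  rw [h2, h1] at h3
  by_contra h
  push Not at h
  nlinarith only [h3, h]

/-- (C10) a limit average that localises at `e₁` -/
theorem exists_local_ultrafilter {e₁ z : H →L[ℂ] H} (he : IsPr M e₁) (hz : IsCPr M z) {K : Type u}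
    (m : K → H →L[ℂ] H)
    (hm : ∀ k, m k ∈ M ∧ m k * (star (m k) * m k) = m k ∧ m k * e₁ = m k)
    (ho : ∀ k l, k ≠ l → star (m k) * m l = 0) (hs : IsSum (fun k => m k * star (m k)) z) :
    ∃ U : Ultrafilter (Row M), ∀ (ψ : Alg M →L[ℂ] Alg M) (h : IsCB M ψ) (C : ℝ), 0 ≤ C →
      LBound M ψ e₁ e₁ C → LBound M (limTw M U ψ h) 1 z C := by
  classical
  -- the projections `p k`
  have hpp : ∀ k, (m k * star (m k)) * (m k * star (m k)) = m k * star (m k) := by
    intro k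
    have h1 : (m k * star (m k)) * (m k * star (m k)) =
        (m k * (star (m k) * m k)) * star (m k) := by simp only [mul_assoc]
    rw [h1, (hm k).2.1]
  have hpq : ∀ k l, k ≠ l → (m k * star (m k)) * (m l * star (m l)) = 0 := by
    intro k l hkl
    have h1 : (m k * star (m k)) * (m l * star (m l)) =
        m k * (star (m k) * m l) * star (m l) := by simp only [mul_assoc]
    rw [h1, ho k l hkl, mul_zero, zero_mul]
  have hzp : ∀ k, z * (m k * star (m k)) = m k * star (m k) := by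
    intro k
    have h1 := hs.mul_right (m k * star (m k))
    have h2 := IsSum.single_of (fun l => (m l * star (m l)) * (m k * star (m k))) k
      (fun l hl => hpq l k hl)
    rw [h1.unique h2, hpp]
  -- elements of the algebra
  let mk : K → Alg M := fun k => ⟨m k, (hm k).1⟩
  let zA : Alg M := ⟨z, hz.mem⟩
  let s : Finset K → Alg M := fun F => ∑ k ∈ F, mk k * star (mk k)
  have hsc : ∀ F, ((s F : Alg M) : H →L[ℂ] H) = ∑ k ∈ F, m k * star (m k) := by
    intro F
    change ((∑ k ∈ F, mk k * star (mk k) : Alg M) : H →L[ℂ] H) = _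
    rw [AddSubmonoidClass.coe_finsetSum]
    rfl
  have hzz : zA * zA = zA := Subtype.ext hz.idem
  have hzs : star zA = zA := Subtype.ext hz.sa
  have hss : ∀ F, s F * s F = s F := by
    intro F
    apply Subtype.ext
    change ((s F : Alg M) : H →L[ℂ] H) * ((s F : Alg M) : H →L[ℂ] H) = _
    rw [hsc, Finset.sum_mul_sum]
    refine Finset.sum_congr rfl fun k hk => ?_
    rw [Finset.sum_eq_single k (fun l _ hl => hpq k l (Ne.symm hl)) (fun h => absurd hk h), hpp]
  have hzsF : ∀ F, zA * s F = s F := by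
    intro F
    apply Subtype.ext
    change z * ((s F : Alg M) : H →L[ℂ] H) = _
    rw [hsc, Finset.mul_sum]
    exact Finset.sum_congr rfl fun k _ => hzp k
  have hsz : ∀ F, s F * zA = s F := by
    intro F
    rw [← hzsF F]
    have h1 : s F * zA = zA * s F := Subtype.ext (hz.comm _ (s F).2).symm
    rw [mul_assoc, h1, ← mul_assoc, hzz]
  have hsst : ∀ F, star (s F) = s F := by
    intro F
    change star (∑ k ∈ F, mk k * star (mk k)) = ∑ k ∈ F, mk k * star (mk k)
    rw [star_sum]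
    refine Finset.sum_congr rfl fun k _ => ?_
    rw [star_mul, star_star]
  let r : Finset K → Alg M := fun F => zA - s F
  have hrr : ∀ F, r F * r F = r F := by
    intro F
    change (zA - s F) * (zA - s F) = zA - s F
    rw [sub_mul, mul_sub, mul_sub, hzz, hzsF, hsz, hss]
    abel
  have hrs : ∀ F, star (r F) = r F := by
    intro F
    change star (zA - s F) = zA - s F
    rw [star_sub, hzs, hsst]
  let row : Finset K → Row M := fun F => ⟨F.toList.map mk ++ [r F, 1 - zA], by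
    rw [List.map_append, List.sum_append, List.map_map]
    have h1 : (F.toList.map ((fun m => m * star m) ∘ mk)).sum = s F := by
      rw [Finset.sum_map_toList]
      rfl
    rw [h1]
    simp only [List.map_cons, List.map_nil, List.sum_cons, List.sum_nil, add_zero]
    rw [hrs, hrr, star_sub, star_one, hzs]
    change s F + ((zA - s F) + (1 - zA) * (1 - zA)) = 1
    rw [sub_mul, mul_sub, mul_sub, hzz]
    simp⟩
  refine ⟨(Ultrafilter.of (Filter.atTop : Filter (Finset K))).map row, fun ψ h C hC hb => ?_⟩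
  refine limTw_bound_of_eventually _ h fun ι κ _ _ Y hY _ ζ hζ η hη => ?_
  rw [Ultrafilter.coe_map, Filter.eventually_map]
  refine (Ultrafilter.of_le (Filter.atTop : Filter (Finset K))) ?_
  -- the error terms
  let b : Finset K → ι → ℝ := fun F i => ∑ j, ‖ψ‖ * ‖Y i j‖ * ‖((r F : Alg M) : H →L[ℂ] H) (ζ j)‖
  set A : ℝ := C * ∑ j, ‖ζ j‖ ^ 2 with hAdef
  have hr0 : ∀ j, Filter.Tendsto (fun F => ‖((r F : Alg M) : H →L[ℂ] H) (ζ j)‖) Filter.atTop
      (𝓝 0) := by
    intro j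
    have h1 : Filter.Tendsto (fun F : Finset K => ∑ k ∈ F, (m k * star (m k)) (ζ j)) Filter.atTop
        (𝓝 (z (ζ j))) := hs (ζ j)
    have h2 : Filter.Tendsto (fun F : Finset K => z (ζ j) - ∑ k ∈ F, (m k * star (m k)) (ζ j))
        Filter.atTop (𝓝 (z (ζ j) - z (ζ j))) := tendsto_const_nhds.sub h1
    rw [sub_self] at h2
    have h3 := h2.norm
    rw [norm_zero] at h3
    refine h3.congr fun F => ?_
    congr 1
    change _ = (z - ((s F : Alg M) : H →L[ℂ] H)) (ζ j)
    rw [hsc]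
    simp
  have hb0 : ∀ i, Filter.Tendsto (fun F => b F i) Filter.atTop (𝓝 0) := by
    intro i
    have h1 : Filter.Tendsto (fun F => ∑ j, ‖ψ‖ * ‖Y i j‖ *
        ‖((r F : Alg M) : H →L[ℂ] H) (ζ j)‖) Filter.atTop
        (𝓝 (∑ j : κ, ‖ψ‖ * ‖Y i j‖ * 0)) := tendsto_finsetSum _ fun j _ =>
      (hr0 j).const_mul _
    have h2 : (∑ j : κ, ‖ψ‖ * ‖Y i j‖ * (0 : ℝ)) = 0 := by simp
    rw [h2] at h1
    exact h1
  have hlim : Filter.Tendsto (fun F => A + (2 * √A * ∑ i, b F i + ∑ i, b F i ^ 2)) Filter.atTop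
      (𝓝 (A + (2 * √A * ∑ _i : ι, (0 : ℝ) + ∑ _i : ι, (0 : ℝ) ^ 2))) :=
    tendsto_const_nhds.add (((tendsto_finsetSum _ fun i _ => hb0 i).const_mul _).add
      (tendsto_finsetSum _ fun i _ => (hb0 i).pow 2))
  have hlt : A + (2 * √A * ∑ _i : ι, (0 : ℝ) + ∑ _i : ι, (0 : ℝ) ^ 2) < A + η := by
    simp
    exact hη
  filter_upwards [hlim.eventually_lt_const hlt] with F hF
  refine le_trans ?_ hF.le
  have hloc := rowTw_local ψ (e := e₁) (z := z) (F.toList.map mk) (by
    intro x hx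
    obtain ⟨k, -, rfl⟩ := List.mem_map.mp hx
    exact (hm k).2.2) (r F) (1 - zA) rfl hz.idem hz.sa hz.comm he.idem he.sa (row F) rfl hC hb
    ι κ Y hY ζ hζ
  have hsplit : ∀ i, ∑ j, ((rowTw M (row F) ψ (Y i j) : Alg M) : H →L[ℂ] H) (ζ j) =
      (∑ j, ((rowTw M (row F) ψ (Y i j) - ψ (Y i j * r F) * star (r F) : Alg M) :
        H →L[ℂ] H) (ζ j)) +
      ∑ j, ((ψ (Y i j * r F) * star (r F) : Alg M) : H →L[ℂ] H) (ζ j) := by
    intro i
    rw [← Finset.sum_add_distrib]
    refine Finset.sum_congr rfl fun j _ => ?_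
    rw [← _root_.add_apply]
    congr 1
    change _ = (((rowTw M (row F) ψ (Y i j) - ψ (Y i j * r F) * star (r F)) +
      ψ (Y i j * r F) * star (r F) : Alg M) : H →L[ℂ] H)
    rw [sub_add_cancel]
  simp only [hsplit]
  refine loc_sum_sq_le _ _ (b F) hloc fun i => ?_
  refine (norm_sum_le _ _).trans (Finset.sum_le_sum fun j _ => ?_)
  rw [hrs F]
  change ‖((ψ (Y i j * r F) : Alg M) : H →L[ℂ] H) (((r F : Alg M) : H →L[ℂ] H) (ζ j))‖ ≤ _
  refine (ContinuousLinearMap.le_opNorm _ _).trans (mul_le_mul_of_nonneg_right ?_ (norm_nonneg _))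
  have h1 : ‖(r F : Alg M)‖ ≤ 1 := loc_norm_le_one (r := ((r F : Alg M) : H →L[ℂ] H))
    (congrArg Subtype.val (hrr F)) (congrArg Subtype.val (hrs F))
  calc ‖(ψ (Y i j * r F) : Alg M)‖ ≤ ‖ψ‖ * ‖Y i j * r F‖ := ψ.le_opNorm _
    _ ≤ ‖ψ‖ * (‖Y i j‖ * ‖r F‖) := mul_le_mul_of_nonneg_left (norm_mul_le _ _) (norm_nonneg _)
    _ ≤ ‖ψ‖ * (‖Y i j‖ * 1) := by (clear * - h1; gcongr)
    _ = ‖ψ‖ * ‖Y i j‖ := by rw [mul_one]

end Vale.Agent.P082.CB
end

section
attribute [local instance] Vale.Agent.P082.AlgFast.nr Vale.Agent.P082.AlgFast.na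
  Vale.Agent.P082.AlgFast.sr Vale.Agent.P082.AlgFast.ng Vale.Agent.P082.AlgFast.sg
  Vale.Agent.P082.AlgFast.ns Vale.Agent.P082.AlgFast.ri Vale.Agent.P082.AlgFast.ag
  Vale.Agent.P082.AlgFast.am Vale.Agent.P082.AlgFast.mo Vale.Agent.P082.AlgFast.pm
  Vale.Agent.P082.AlgFast.us Vale.Agent.P082.AlgFast.ts Vale.Agent.P082.AlgFast.ets
  Vale.Agent.P082.AlgFast.eng Vale.Agent.P082.AlgFast.esg Vale.Agent.P082.AlgFast.ens
  Vale.Agent.P082.AlgFast.eam Vale.Agent.P082.AlgFast.emo Vale.Agent.P082.AlgFast.nu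
  Vale.Agent.P082.AlgFast.sag Vale.Agent.P082.AlgFast.agr Vale.Agent.P082.AlgFast.mon
  Vale.Agent.P082.AlgFast.srg

namespace Vale.Agent.P082.CB

open Vale.Agent.P082

section algebra

variable {A : Type*} [Ring A]

/-- prepend a first variable -/
def pre {k : ℕ} (c : A) (x : Fin k → A) : Fin (k + 1) → A := Fin.cons (α := fun _ => A) c x

@[simp] lemma pre_zero {k : ℕ} (c : A) (x : Fin k → A) : pre c x 0 = c := rfl

@[simp] lemma pre_succ {k : ℕ} (c : A) (x : Fin k → A) (i : Fin k) : pre c x i.succ = x i := rfl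

lemma pre_tail {k : ℕ} (a : Fin (k + 1) → A) : pre (a 0) (fun i => a i.succ) = a := by
  funext i
  refine Fin.cases ?_ (fun i => ?_) i <;> simp

/-- the differential without its first term -/
def dpost {k : ℕ} (g : (Fin k → A) → A) (a : Fin (k + 1) → A) : A :=
  ∑ j : Fin k, (-1) ^ ((j : ℕ) + 1) * g (contract j a)
    + (-1) ^ (k + 1) * (g (fun i => a i.castSucc) * a (Fin.last k))

lemma hochschild_eq_dpost {k : ℕ} (g : (Fin k → A) → A) (a : Fin (k + 1) → A) :
    hochschild g a = a 0 * g (fun i => a i.succ) + dpost g a := by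
  unfold hochschild dpost
  rw [add_assoc]

lemma contract_zero_pre {k : ℕ} (c : A) (a : Fin (k + 1) → A) :
    contract (0 : Fin (k + 1)) (pre c a) = pre (c * a 0) (fun i => a i.succ) := by
  funext i
  refine Fin.cases ?_ (fun i => ?_) i
  · simp [contract, pre]
  · have h1 : ¬ (i.succ < (0 : Fin (k + 1))) := Fin.not_lt_zero _
    have h2 : ¬ (i.succ = (0 : Fin (k + 1))) := Fin.succ_ne_zero i
    simp only [contract, h1, h2, if_false, pre_succ]

lemma contract_succ_pre {k : ℕ} (j : Fin k) (c : A) (a : Fin (k + 1) → A) :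
    contract j.succ (pre c a) = pre c (contract j a) := by
  funext i
  refine Fin.cases ?_ (fun i => ?_) i
  · have h1 : (0 : Fin (k + 1)) < j.succ := Fin.succ_pos j
    simp only [contract, h1, if_true, pre_zero, Fin.castSucc_zero]
  · simp only [contract, pre_succ, Fin.succ_lt_succ_iff, Fin.succ_inj]
    split_ifs
    · rw [← Fin.succ_castSucc, pre_succ]
    · rw [← Fin.succ_castSucc, pre_succ]
    · rfl

lemma dpost_pre {k : ℕ} (g : (Fin (k + 1) → A) → A) (c : A) (a : Fin (k + 1) → A) :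
    dpost g (pre c a) = - g (pre (c * a 0) (fun i => a i.succ))
      - dpost (fun z => g (pre c z)) a := by
  unfold dpost
  rw [Fin.sum_univ_succ, contract_zero_pre]
  have h1 : (fun i : Fin (k + 1) => pre c a i.castSucc) = pre c (fun i => a i.castSucc) := by
    funext i
    refine Fin.cases ?_ (fun i => ?_) i
    · simp [pre]
    · rw [← Fin.succ_castSucc, pre_succ, pre_succ]
  have h2 : pre c a (Fin.last (k + 1)) = a (Fin.last k) := by
    rw [← Fin.succ_last, pre_succ]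
  rw [h1, h2]
  simp only [contract_succ_pre, Fin.val_succ, Fin.val_zero, zero_add, pow_one, neg_mul, one_mul]
  have h3 : ∑ i : Fin k, (-1 : A) ^ ((i : ℕ) + 1 + 1) * g (pre c (contract i a))
      = - ∑ i : Fin k, (-1 : A) ^ ((i : ℕ) + 1) * g (pre c (contract i a)) := by
    rw [← Finset.sum_neg_distrib]
    refine Finset.sum_congr rfl fun i _ => ?_
    rw [pow_succ]
    simp
  rw [h3, pow_succ (-1 : A) (k + 1)]
  simp only [mul_neg, mul_one, neg_mul]
  abel

lemma dpost_sub {k : ℕ} (g h : (Fin k → A) → A) (a : Fin (k + 1) → A) :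
    dpost (fun z => g z - h z) a = dpost g a - dpost h a := by
  unfold dpost
  simp only [mul_sub, sub_mul, Finset.sum_sub_distrib]
  abel

lemma dpost_mulL {k : ℕ} (T : A) (g : (Fin k → A) → A) (a : Fin (k + 1) → A) :
    dpost (fun z => T * g z) a = T * dpost g a := by
  unfold dpost
  have hc : ∀ (n : ℕ) (y : A), (-1 : A) ^ n * (T * y) = T * ((-1) ^ n * y) := by
    intro n y
    rcases Nat.even_or_odd n with h | h <;> simp [h.neg_one_pow]
  simp only [hc, mul_add, Finset.mul_sum, mul_assoc]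

/-- `∑_j (-1)^j f(σx₁,…,σx_j,S,x_{j+1},…,x_k)` -/
def hF (σ : A → A) (S : A) : (k : ℕ) → ((Fin (k + 1) → A) → A) → (Fin k → A) → A
  | 0, f, _ => f (fun _ => S)
  | k + 1, f, x => f (pre S x) - hF σ S k (fun a => f (pre (σ (x 0)) a)) (fun i => x i.succ)

lemma hF_succ (σ : A → A) (S : A) {k : ℕ} (f : (Fin (k + 2) → A) → A) (x : Fin (k + 1) → A) :
    hF σ S (k + 1) f x
      = f (pre S x) - hF σ S k (fun a => f (pre (σ (x 0)) a)) (fun i => x i.succ) := rfl

lemma hF_sub (σ : A → A) (S : A) : ∀ {k : ℕ} (f g : (Fin (k + 1) → A) → A) (x : Fin k → A),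
    hF σ S k (fun a => f a - g a) x = hF σ S k f x - hF σ S k g x := by
  intro k
  induction k with
  | zero => intro f g x; rfl
  | succ k ih =>
    intro f g x
    rw [hF_succ, hF_succ, hF_succ, ih]
    abel

lemma hF_neg (σ : A → A) (S : A) : ∀ {k : ℕ} (f : (Fin (k + 1) → A) → A) (x : Fin k → A),
    hF σ S k (fun a => - f a) x = - hF σ S k f x := by
  intro k
  induction k with
  | zero => intro f x; rfl
  | succ k ih =>
    intro f x
    rw [hF_succ, hF_succ, ih]
    abel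

lemma hF_mulL (σ : A → A) (S : A) (T : A) :
    ∀ {k : ℕ} (f : (Fin (k + 1) → A) → A) (x : Fin k → A),
    hF σ S k (fun a => T * f a) x = T * hF σ S k f x := by
  intro k
  induction k with
  | zero => intro f x; rfl
  | succ k ih =>
    intro f x
    rw [hF_succ, hF_succ, ih, mul_sub]

/-- the main algebraic identity -/
lemma hF_dpost (σ : A → A) (S : A) (hσ : ∀ x y, σ (x * y) = σ x * σ y)
    (hS : ∀ x, σ x * S = S * x) : ∀ {k : ℕ} (f : (Fin (k + 1) → A) → A) (x : Fin (k + 1) → A),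
    hF σ S (k + 1) (dpost f) x
      = - dpost (hF σ S k f) x - f (fun i => σ (x i)) * S := by
  intro k
  induction k with
  | zero =>
    intro f x
    have hx : ∀ (a b : A) , dpost f (pre a (fun _ : Fin 1 => b))
        = - f (fun _ => a * b) + f (fun _ => a) * b := by
      intro a b
      unfold dpost
      rw [Fin.sum_univ_succ]
      have e1 : contract (0 : Fin 1) (pre a (fun _ : Fin 1 => b)) = fun _ => a * b := by
        funext i
        have : i = 0 := Subsingleton.elim _ _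
        subst this
        rfl
      have e2 : (fun i : Fin 1 => pre a (fun _ : Fin 1 => b) i.castSucc) = fun _ => a := by
        funext i
        have : i = 0 := Subsingleton.elim _ _
        subst this
        rfl
      have e3 : pre a (fun _ : Fin 1 => b) (Fin.last 1) = b := rfl
      rw [e1, e2, e3]
      simp
    have hx0 : x = fun _ => x 0 := by
      funext i
      have : i = 0 := Fin.fin_one_eq_zero i
      subst this
      rfl
    rw [hF_succ]
    have h1 : hF σ S 0 (fun a => dpost f (pre (σ (x 0)) a)) (fun i => x i.succ)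
        = dpost f (pre (σ (x 0)) (fun _ => S)) := rfl
    have h2 : dpost f (pre S x) = dpost f (pre S (fun _ => x 0)) := by rw [← hx0]
    rw [h1, h2, hx, hx, hS]
    have h3 : dpost (hF σ S 0 f) x = - (f (fun _ => S) * x 0) := by
      unfold dpost
      simp [hF]
    have h4 : (fun i => σ (x i)) = fun _ : Fin 1 => σ (x 0) := by
      funext i
      have : i = 0 := Fin.fin_one_eq_zero i
      subst this
      rfl
    rw [h3, h4]
    abel
  | succ k ih =>
    intro f x
    have hx : pre (x 0) (fun i => x i.succ) = x := pre_tail x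
    set b := x 0 with hb
    set y : Fin (k + 1) → A := fun i => x i.succ with hy
    rw [← hx]
    -- left hand side
    have e1 : hF σ S (k + 2) (dpost f) (pre b y)
        = dpost f (pre S (pre b y)) - hF σ S (k + 1) (fun a => dpost f (pre (σ b) a)) y := rfl
    have e2 : dpost f (pre S (pre b y))
        = - f (pre (S * b) y) - dpost (fun z => f (pre S z)) (pre b y) := dpost_pre f S (pre b y)
    have e3 : hF σ S (k + 1) (fun a => dpost f (pre (σ b) a)) y
        = - hF σ S (k + 1) (fun a => f (pre (σ b * a 0) (fun i => a i.succ))) y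
          - hF σ S (k + 1) (dpost (fun z => f (pre (σ b) z))) y := by
      have : (fun a => dpost f (pre (σ b) a))
          = fun a => (fun a => - f (pre (σ b * a 0) (fun i => a i.succ))) a
            - dpost (fun z => f (pre (σ b) z)) a := by
        funext a
        exact dpost_pre f (σ b) a
      rw [this, hF_sub, hF_neg]
    have e4 : hF σ S (k + 1) (fun a => f (pre (σ b * a 0) (fun i => a i.succ))) y
        = f (pre (σ b * S) y) - hF σ S k (fun a => f (pre (σ b * σ (y 0)) a)) (fun i => y i.succ) :=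
      rfl
    have e5 := ih (fun z => f (pre (σ b) z)) y
    have e6 : (fun i => σ (pre b y i)) = pre (σ b) (fun i => σ (y i)) := by
      funext i
      refine Fin.cases ?_ (fun i => ?_) i <;> simp
    -- right hand side
    have r1 : dpost (hF σ S (k + 1) f) (pre b y)
        = dpost (fun z => f (pre S z)) (pre b y)
          - dpost (fun x => hF σ S k (fun a => f (pre (σ (x 0)) a)) (fun i => x i.succ)) (pre b y) := by
      rw [← dpost_sub]
      rfl
    have r2 : dpost (fun x => hF σ S k (fun a => f (pre (σ (x 0)) a)) (fun i => x i.succ)) (pre b y)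
        = - hF σ S k (fun a => f (pre (σ (b * y 0)) a)) (fun i => y i.succ)
          - dpost (hF σ S k (fun a => f (pre (σ b) a))) y :=
      dpost_pre _ b y
    rw [e1, e2, e3, e4, e5, r1, r2, e6, hS, hσ]
    abel

end algebra

section analysis

variable {A : Type*} [NormedRing A] [NormedAlgebra ℂ A]

/-- the operator `f ↦ ∑_j (-1)^j f(σx₁,…,σx_j,S,x_{j+1},…,x_k)` -/
theorem exists_homL (σ : A →L[ℂ] A) (S : A) (hσ1 : ‖σ‖ ≤ 1) (hS1 : ‖S‖ ≤ 1) : ∀ k : ℕ,
    ∃ L : ContinuousMultilinearMap ℂ (fun _ : Fin (k + 1) => A) A →L[ℂ]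
        ContinuousMultilinearMap ℂ (fun _ : Fin k => A) A,
      ‖L‖ ≤ k + 1 ∧ ∀ f x, L f x = hF σ S k (fun y => f y) x := by
  intro k
  induction k with
  | zero =>
    refine ⟨((continuousMultilinearCurryFin0 ℂ A A).symm.toContinuousLinearEquiv :
        A →L[ℂ] ContinuousMultilinearMap ℂ (fun _ : Fin 0 => A) A).comp
      (ContinuousMultilinearMap.apply ℂ (fun _ : Fin 1 => A) A (fun _ => S)), ?_, fun f x => rfl⟩
    refine ContinuousLinearMap.opNorm_le_bound _ (by norm_num) fun f => ?_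
    have h1 : ‖(((continuousMultilinearCurryFin0 ℂ A A).symm.toContinuousLinearEquiv :
        A →L[ℂ] ContinuousMultilinearMap ℂ (fun _ : Fin 0 => A) A).comp
      (ContinuousMultilinearMap.apply ℂ (fun _ : Fin 1 => A) A (fun _ => S))) f‖
        = ‖f (fun _ => S)‖ := (continuousMultilinearCurryFin0 ℂ A A).symm.norm_map _
    rw [h1]
    refine (f.le_opNorm _).trans ?_
    rw [Finset.prod_const, Finset.card_univ, Fintype.card_fin, pow_one]
    simp only [Nat.cast_zero, zero_add, one_mul]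
    calc ‖f‖ * ‖S‖ ≤ ‖f‖ * 1 := by (clear * - hS1; gcongr)
      _ = ‖f‖ := mul_one _
  | succ k ih =>
    obtain ⟨L, hL, hLf⟩ := ih
    let c : ContinuousMultilinearMap ℂ (fun _ : Fin (k + 2) => A) A →L[ℂ]
        (A →L[ℂ] ContinuousMultilinearMap ℂ (fun _ : Fin (k + 1) => A) A) :=
      ((continuousMultilinearCurryLeftEquiv ℂ (fun _ : Fin (k + 2) => A)
        A).toContinuousLinearEquiv : _ →L[ℂ] _)
    let d : (A →L[ℂ] ContinuousMultilinearMap ℂ (fun _ : Fin k => A) A) →L[ℂ]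
        ContinuousMultilinearMap ℂ (fun _ : Fin (k + 1) => A) A :=
      ((continuousMultilinearCurryLeftEquiv ℂ (fun _ : Fin (k + 1) => A)
        A).symm.toContinuousLinearEquiv : _ →L[ℂ] _)
    let e : (A →L[ℂ] ContinuousMultilinearMap ℂ (fun _ : Fin (k + 1) => A) A) →L[ℂ]
        (A →L[ℂ] ContinuousMultilinearMap ℂ (fun _ : Fin k => A) A) :=
      (ContinuousLinearMap.compL ℂ A (ContinuousMultilinearMap ℂ (fun _ : Fin (k + 1) => A) A)
        (ContinuousMultilinearMap ℂ (fun _ : Fin k => A) A) L).comp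
        ((ContinuousLinearMap.compL ℂ A A
          (ContinuousMultilinearMap ℂ (fun _ : Fin (k + 1) => A) A)).flip σ)
    refine ⟨(ContinuousLinearMap.apply ℂ
      (ContinuousMultilinearMap ℂ (fun _ : Fin (k + 1) => A) A) S).comp c - (d.comp (e.comp c)),
      ?_, fun f x => ?_⟩
    · refine ContinuousLinearMap.opNorm_le_bound _ (by (clear * -; positivity)) fun f => ?_
      have hc : ‖c f‖ = ‖f‖ := (continuousMultilinearCurryLeftEquiv ℂ (fun _ : Fin (k + 2) => A)
        A).norm_map f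
      have h1 : ‖(c f) S‖ ≤ ‖f‖ := by
        refine ((c f).le_opNorm S).trans ?_
        rw [hc]
        calc ‖f‖ * ‖S‖ ≤ ‖f‖ * 1 := by (clear * - hS1; gcongr)
          _ = ‖f‖ := mul_one _
      have hd : ∀ g, ‖d g‖ = ‖g‖ := fun g => (continuousMultilinearCurryLeftEquiv ℂ
        (fun _ : Fin (k + 1) => A) A).symm.norm_map g
      have h2 : ‖d (e (c f))‖ ≤ (k + 1) * ‖f‖ := by
        rw [hd]
        have : e (c f) = L.comp ((c f).comp σ) := rfl
        rw [this]
        refine (L.opNorm_comp_le _).trans ?_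
        have h3 : ‖(c f).comp σ‖ ≤ ‖f‖ := by
          refine ((c f).opNorm_comp_le σ).trans ?_
          rw [hc]
          calc ‖f‖ * ‖σ‖ ≤ ‖f‖ * 1 := by gcongr
            _ = ‖f‖ := mul_one _
        exact mul_le_mul hL h3 (norm_nonneg _) (by (clear * -; positivity))
      calc ‖((ContinuousLinearMap.apply ℂ
          (ContinuousMultilinearMap ℂ (fun _ : Fin (k + 1) => A) A) S).comp c
            - (d.comp (e.comp c))) f‖ = ‖(c f) S - d (e (c f))‖ := rfl
        _ ≤ ‖(c f) S‖ + ‖d (e (c f))‖ := norm_sub_le _ _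
        _ ≤ ‖f‖ + (k + 1) * ‖f‖ := add_le_add h1 h2
        _ = ((k + 1 : ℕ) + 1) * ‖f‖ := by push_cast; ring
    · have h1 : (((ContinuousLinearMap.apply ℂ
          (ContinuousMultilinearMap ℂ (fun _ : Fin (k + 1) => A) A) S).comp c
            - (d.comp (e.comp c))) f) x = (c f) S x - d (e (c f)) x := rfl
      rw [h1, hF_succ]
      have h2 : (c f) S x = f (pre S x) := rfl
      have h3 : d (e (c f)) x = L ((c f) (σ (x 0))) (fun i => x i.succ) := rfl
      rw [h2, h3, hLf]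
      rfl

/-- (C1) Homotopy: if `σ` is multiplicative and `σ(x) S = S x`, `T σ(x) = x T`, then
`T S f(x₁,…) - T f(σx₁,…) S` is the coboundary of
`g(x₁,…,x_{k}) = ∑_{j=0}^{k} (-1)^j T f(σx₁,…,σx_j,S,x_{j+1},…,x_k)`. -/
theorem exists_homotopy {k : ℕ}
    (f : ContinuousMultilinearMap ℂ (fun _ : Fin (k + 1) => A) A)
    (hf : ∀ a, hochschild (fun x => f x) a = 0)
    (σ : A →L[ℂ] A) (hσ : ∀ x y, σ (x * y) = σ x * σ y) (S T : A)
    (hS : ∀ x, σ x * S = S * x) (hT : ∀ x, T * σ x = x * T)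
    (hσ1 : ‖σ‖ ≤ 1) (hS1 : ‖S‖ ≤ 1) (hT1 : ‖T‖ ≤ 1) :
    ∃ g : ContinuousMultilinearMap ℂ (fun _ : Fin k => A) A,
      ‖g‖ ≤ (k + 1) * ‖f‖ ∧
      ∀ x, hochschild (fun y => g y) x = T * S * f x - T * f (fun i => σ (x i)) * S := by
  obtain ⟨L, hL, hLf⟩ := exists_homL σ S hσ1 hS1 k
  refine ⟨(mulL T).compContinuousMultilinearMap (L f), ?_, fun x => ?_⟩
  · refine (ContinuousLinearMap.norm_compContinuousMultilinearMap_le _ _).trans ?_
    have h1 : ‖mulL T‖ ≤ 1 := (ContinuousLinearMap.opNorm_mul_apply_le ℂ A T).trans hT1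
    have h2 : ‖L f‖ ≤ (k + 1) * ‖f‖ := (L.le_opNorm f).trans (by gcongr)
    calc ‖mulL T‖ * ‖L f‖ ≤ 1 * ((k + 1) * ‖f‖) := by (clear * - h1 h2; gcongr)
      _ = _ := one_mul _
  · have hg : (fun y => ((mulL T).compContinuousMultilinearMap (L f)) y)
        = fun y => T * hF σ S k (fun z => f z) y := by
      funext y
      change T * (L f y) = _
      rw [hLf]
    rw [hg, hochschild_eq_dpost, dpost_mulL]
    have h1 := hF_dpost (fun z => σ z) S hσ hS (fun z => f z) x
    have h2 : dpost (fun z => f z) = fun a : Fin (k + 2) → A => - (a 0 * f (fun i => a i.succ)) := by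
      funext a
      have := hf a
      rw [hochschild_eq_dpost] at this
      exact eq_neg_of_add_eq_zero_right this
    rw [h2] at h1
    have h3 : hF (fun z => σ z) S (k + 1) (fun a : Fin (k + 2) → A => - (a 0 * f (fun i => a i.succ))) x
        = - (S * f x - σ (x 0) * hF (fun z => σ z) S k (fun z => f z) (fun i => x i.succ)) := by
      rw [hF_neg, hF_succ, ← hF_mulL]
      rfl
    rw [h3] at h1
    have h4 : dpost (hF (fun z => σ z) S k (fun z => f z)) x
        = S * f x - σ (x 0) * hF (fun z => σ z) S k (fun z => f z) (fun i => x i.succ)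
          - f (fun i => σ (x i)) * S := by
      have h5 : dpost (hF (fun z => σ z) S k (fun z => f z)) x
          = - (- dpost (hF (fun z => σ z) S k (fun z => f z)) x - f (fun i => σ (x i)) * S)
            - f (fun i => σ (x i)) * S := by abel
      rw [h5, ← h1]
      abel
    rw [h4]
    simp only [mul_sub, ← mul_assoc]
    rw [hT]
    abel

end analysis

end Vale.Agent.P082.CB
end

section
attribute [local instance] Vale.Agent.P082.AlgFast.nr Vale.Agent.P082.AlgFast.na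
  Vale.Agent.P082.AlgFast.sr Vale.Agent.P082.AlgFast.ng Vale.Agent.P082.AlgFast.sg
  Vale.Agent.P082.AlgFast.ns Vale.Agent.P082.AlgFast.ri Vale.Agent.P082.AlgFast.ag
  Vale.Agent.P082.AlgFast.am Vale.Agent.P082.AlgFast.mo Vale.Agent.P082.AlgFast.pm
  Vale.Agent.P082.AlgFast.us Vale.Agent.P082.AlgFast.ts Vale.Agent.P082.AlgFast.ets
  Vale.Agent.P082.AlgFast.eng Vale.Agent.P082.AlgFast.esg Vale.Agent.P082.AlgFast.ens
  Vale.Agent.P082.AlgFast.eam Vale.Agent.P082.AlgFast.emo Vale.Agent.P082.AlgFast.nu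
  Vale.Agent.P082.AlgFast.sag Vale.Agent.P082.AlgFast.agr Vale.Agent.P082.AlgFast.mon
  Vale.Agent.P082.AlgFast.srg

open scoped InnerProductSpace ComplexConjugate Topology

namespace Vale.Agent.P082.CB

open Vale.Agent.P082 Vale.Agent.P082.VN

universe u

variable {H : Type u} [NormedAddCommGroup H] [InnerProductSpace ℂ H] [CompleteSpace H]
  {M : VonNeumannAlgebra H}

/-- cb bound for matrices of size at most `n` -/
def LevelBound (M : VonNeumannAlgebra H) (n : ℕ) (ψ : Alg M →L[ℂ] Alg M) (C : ℝ) : Prop :=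
  ∀ (ι κ : Type) [Fintype ι] [Fintype κ], Fintype.card ι ≤ n → Fintype.card κ ≤ n →
    ∀ (Y : ι → κ → Alg M), MatContr (fun i j => ((Y i j : Alg M) : H →L[ℂ] H)) →
    ∀ ζ : κ → H,
      ∑ i, ‖∑ j, ((ψ (Y i j) : Alg M) : H →L[ℂ] H) (ζ j)‖ ^ 2 ≤ C * ∑ j, ‖ζ j‖ ^ 2

/-- the endomorphism `σ(x) = ∑ S_i x S_i^*` -/
noncomputable def cuntzEndo {n : ℕ} (S : Fin n → Alg M) : Alg M →L[ℂ] Alg M :=
  ∑ i, (mulL (S i)).comp ((ContinuousLinearMap.mul ℂ (Alg M)).flip (star (S i)))

lemma cuntzEndo_apply {n : ℕ} (S : Fin n → Alg M) (x : Alg M) :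
    cuntzEndo S x = ∑ i, S i * x * star (S i) := by
  simp [cuntzEndo, mul_assoc]

lemma cuntzEndo_mul_iso {n : ℕ} {S : Fin n → Alg M}
    (hS : ∀ i j, star (S i) * S j = if i = j then 1 else 0) (x : Alg M) (l : Fin n) :
    cuntzEndo S x * S l = S l * x := by
  rw [cuntzEndo_apply, Finset.sum_mul, Finset.sum_eq_single l]
  · rw [mul_assoc, hS, if_pos rfl, mul_one]
  · intro i _ hi
    rw [mul_assoc, hS, if_neg hi, mul_zero]
  · intro h; exact absurd (Finset.mem_univ _) h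

lemma cuntzEndo_mul {n : ℕ} {S : Fin n → Alg M}
    (hS : ∀ i j, star (S i) * S j = if i = j then 1 else 0) (x y : Alg M) :
    cuntzEndo S (x * y) = cuntzEndo S x * cuntzEndo S y := by
  rw [cuntzEndo_apply S (x * y), cuntzEndo_apply S y, Finset.mul_sum]
  refine Finset.sum_congr rfl (fun i _ => ?_)
  rw [mul_assoc (S i) y, ← mul_assoc (cuntzEndo S x) (S i), cuntzEndo_mul_iso hS]
  simp only [mul_assoc]

/-- orthonormal isometries: Parseval -/
lemma shift_parseval {α : Type*} [Fintype α] [DecidableEq α] {T : α → H →L[ℂ] H}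
    (hT : ∀ i j, ContinuousLinearMap.adjoint (T i) * T j = if i = j then 1 else 0) (ξ : α → H) :
    ‖∑ i, T i (ξ i)‖ ^ 2 = ∑ i, ‖ξ i‖ ^ 2 := by
  have h : ∀ i j, ⟪T i (ξ i), T j (ξ j)⟫_ℂ = if i = j then ((‖ξ i‖ : ℂ)) ^ 2 else 0 := by
    intro i j
    have h1 : ⟪T i (ξ i), T j (ξ j)⟫_ℂ
        = ⟪ξ i, (ContinuousLinearMap.adjoint (T i) * T j) (ξ j)⟫_ℂ := by
      rw [ContinuousLinearMap.mul_apply, ContinuousLinearMap.adjoint_inner_right]
    rw [h1, hT]
    by_cases hij : i = j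
    · subst hij
      rw [if_pos rfl, if_pos rfl, ContinuousLinearMap.one_apply, inner_self_eq_norm_sq_to_K]
      rfl
    · rw [if_neg hij, if_neg hij, ContinuousLinearMap.zero_apply, inner_zero_right]
  have h2 : ((‖∑ i, T i (ξ i)‖ ^ 2 : ℝ) : ℂ) = ((∑ i, ‖ξ i‖ ^ 2 : ℝ) : ℂ) := by
    have h3 : ((‖∑ i, T i (ξ i)‖ ^ 2 : ℝ) : ℂ) = ⟪∑ i, T i (ξ i), ∑ i, T i (ξ i)⟫_ℂ := by
      rw [inner_self_eq_norm_sq_to_K]; simp
    rw [h3, sum_inner]
    simp only [inner_sum, h]
    simp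
  exact_mod_cast h2

/-- orthonormal isometries: Bessel -/
lemma shift_bessel {α : Type*} [Fintype α] [DecidableEq α] {T : α → H →L[ℂ] H}
    (hT : ∀ i j, ContinuousLinearMap.adjoint (T i) * T j = if i = j then 1 else 0) (η : H) :
    ∑ i, ‖ContinuousLinearMap.adjoint (T i) η‖ ^ 2 ≤ ‖η‖ ^ 2 := by
  set P : H := ∑ i, T i (ContinuousLinearMap.adjoint (T i) η) with hP
  have h1 : ‖P‖ ^ 2 = ∑ i, ‖ContinuousLinearMap.adjoint (T i) η‖ ^ 2 := shift_parseval hT _
  have h2 : ⟪P, η⟫_ℂ = ((∑ i, ‖ContinuousLinearMap.adjoint (T i) η‖ ^ 2 : ℝ) : ℂ) := by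
    rw [hP, sum_inner]
    push_cast
    refine Finset.sum_congr rfl (fun i _ => ?_)
    rw [← ContinuousLinearMap.adjoint_inner_right, inner_self_eq_norm_sq_to_K]
    rfl
  have h3 : ‖P‖ ^ 2 ≤ ‖P‖ * ‖η‖ := by
    have h4 := norm_inner_le_norm (𝕜 := ℂ) P η
    rw [h2, ← h1, Complex.norm_real, Real.norm_of_nonneg (by positivity)] at h4
    exact h4
  have h5 : ‖P‖ ≤ ‖η‖ := by
    by_contra hlt
    push Not at hlt
    linarith [mul_nonneg (le_of_lt (sub_pos.2 hlt)) (sub_nonneg.2 (norm_nonneg η)), mul_pos (sub_pos.2 hlt) (sub_pos.2 hlt), h3]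
  rw [← h1]
  exact pow_le_pow_left₀ (norm_nonneg _) h5 2

lemma shift_iso_coe {n : ℕ} {S : Fin n → Alg M}
    (hS : ∀ i j, star (S i) * S j = if i = j then 1 else 0)
    {α : Type*} [DecidableEq α] (b : α → Fin n) (hb : Function.Injective b) (i j : α) :
    ContinuousLinearMap.adjoint ((S (b i) : Alg M) : H →L[ℂ] H) * ((S (b j) : Alg M) : H →L[ℂ] H)
      = if i = j then 1 else 0 := by
  have h := congrArg (fun x : Alg M => (x : H →L[ℂ] H)) (hS (b i) (b j))
  have h1 : ((star (S (b i)) * S (b j) : Alg M) : H →L[ℂ] H)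
      = ContinuousLinearMap.adjoint ((S (b i) : Alg M) : H →L[ℂ] H)
        * ((S (b j) : Alg M) : H →L[ℂ] H) := rfl
  rw [← h1]
  refine h.trans ?_
  by_cases hij : i = j
  · subst hij; simp
  · have : b i ≠ b j := fun h => hij (hb h)
    simp [hij, this]

lemma shift_norm_alg_le {x : Alg M} {C : ℝ} (hC : 0 ≤ C)
    (h : ∀ η : H, ‖(x : H →L[ℂ] H) η‖ ^ 2 ≤ (C * ‖η‖) ^ 2) : ‖x‖ ≤ C := by
  have : ‖(x : H →L[ℂ] H)‖ ≤ C := by
    refine ContinuousLinearMap.opNorm_le_bound _ hC (fun η => ?_)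
    exact le_of_sq_le_sq (h η) (by positivity)
  exact this

lemma norm_cuntzEndo_le {n : ℕ} {S : Fin n → Alg M}
    (hS : ∀ i j, star (S i) * S j = if i = j then 1 else 0) : ‖cuntzEndo S‖ ≤ 1 := by
  refine ContinuousLinearMap.opNorm_le_bound _ zero_le_one (fun x => ?_)
  rw [one_mul]
  refine shift_norm_alg_le (norm_nonneg _) (fun η => ?_)
  have hT := shift_iso_coe (H := H) hS (id : Fin n → Fin n) Function.injective_id
  simp only [id] at hT
  have h1 : ((cuntzEndo S x : Alg M) : H →L[ℂ] H) η = ∑ i, ((S i : Alg M) : H →L[ℂ] H)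
      ((x : H →L[ℂ] H) (ContinuousLinearMap.adjoint ((S i : Alg M) : H →L[ℂ] H) η)) := by
    rw [cuntzEndo_apply]
    have h2 : ((∑ i, S i * x * star (S i) : Alg M) : H →L[ℂ] H)
        = ∑ i, ((S i * x * star (S i) : Alg M) : H →L[ℂ] H) := by
      simp
    rw [h2, ContinuousLinearMap.sum_apply]
    rfl
  rw [h1, shift_parseval hT, mul_pow]
  refine le_trans (Finset.sum_le_sum (fun i _ => ?_))
    (le_trans (Finset.mul_sum _ _ _).ge (mul_le_mul_of_nonneg_left (shift_bessel hT η)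
      (by positivity)))
  rw [← mul_pow]
  exact pow_le_pow_left₀ (norm_nonneg _) ((x : H →L[ℂ] H).le_opNorm _) 2

/-- matrix units from isometries -/
lemma matUnits_cuntz {n : ℕ} {S : Fin n → Alg M}
    (hS : ∀ i j, star (S i) * S j = if i = j then 1 else 0) (hsum : ∑ i, S i * star (S i) = 1) :
    MatUnits (Alg M) n (fun i j => S i * star (S j)) where
  mul_eq a b c := by
    rw [mul_assoc, ← mul_assoc (star (S b)), hS, if_pos rfl, one_mul]
  mul_ne a b c d hbc := by
    rw [mul_assoc, ← mul_assoc (star (S b)), hS, if_neg hbc, zero_mul, mul_zero]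
  star_eq a b := by simp
  sum_eq := hsum

/-- (C13) the shift average `φ(y) = (1/n) ∑_l S_l^* ψ(σ(y)) S_l` of a right `M_n`-modular bounded
map satisfies the cb estimate for matrices of size at most `n`. -/
theorem shift_levelBound {n : ℕ} [NeZero n] {S : Fin n → Alg M}
    (hS : ∀ i j, star (S i) * S j = if i = j then 1 else 0) (ψ φ : Alg M →L[ℂ] Alg M)
    (hψ : ∀ x i j, ψ (x * (S i * star (S j))) = ψ x * (S i * star (S j)))
    (hφ : ∀ y, φ y = ((n : ℂ)⁻¹) • ∑ l, star (S l) * ψ (cuntzEndo S y) * S l) :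
    LevelBound M n φ (‖ψ‖ ^ 2) := by
  classical
  intro ι κ _ _ hι hκ Y hY ζ
  obtain ⟨b⟩ : Nonempty (ι ↪ Fin n) :=
    Function.Embedding.nonempty_of_card_le (by simpa using hι)
  obtain ⟨a⟩ : Nonempty (κ ↪ Fin n) :=
    Function.Embedding.nonempty_of_card_le (by simpa using hκ)
  -- the vectors
  set w : ι → Fin n → H := fun i l =>
    ∑ j, ((ψ (cuntzEndo S (Y i j)) : Alg M) : H →L[ℂ] H) (((S l : Alg M) : H →L[ℂ] H) (ζ j))
    with hw
  have hTa : ∀ i j, ContinuousLinearMap.adjoint ((S (a i) : Alg M) : H →L[ℂ] H)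
      * ((S (a j) : Alg M) : H →L[ℂ] H) = if i = j then 1 else 0 :=
    shift_iso_coe (H := H) hS a a.injective
  -- key estimate for a fixed shift
  have key : ∀ s : Fin n, ∑ i, ‖w i (b i + s)‖ ^ 2 ≤ ‖ψ‖ ^ 2 * ∑ j, ‖ζ j‖ ^ 2 := by
    intro s
    have hTb : ∀ i j, ContinuousLinearMap.adjoint ((S (b i + s) : Alg M) : H →L[ℂ] H)
        * ((S (b j + s) : Alg M) : H →L[ℂ] H) = if i = j then 1 else 0 :=
      shift_iso_coe (H := H) hS (fun i => b i + s)
        (fun i j h => b.injective (by simpa using h))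
    obtain ⟨ε, hε, hle⟩ := exists_signs (Finset.univ : Finset ι) (fun i => w i (b i + s))
    refine hle.trans ?_
    set Z : Alg M := ∑ i, ∑ j, ε i • (cuntzEndo S (Y i j) * (S (b i + s) * star (S (a j)))) with hZ
    set η : H := ∑ j, ((S (a j) : Alg M) : H →L[ℂ] H) (ζ j) with hη
    have hηn : ‖η‖ ^ 2 = ∑ j, ‖ζ j‖ ^ 2 := shift_parseval hTa ζ
    have hSη : ∀ j, ContinuousLinearMap.adjoint ((S (a j) : Alg M) : H →L[ℂ] H) η = ζ j := by
      intro j
      rw [hη, map_sum, Finset.sum_eq_single j]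
      · have := hTa j j
        rw [if_pos rfl] at this
        have h2 := congrArg (fun T : H →L[ℂ] H => T (ζ j)) this
        simpa using h2
      · intro i _ hij
        have := hTa j i
        rw [if_neg (Ne.symm hij)] at this
        have h2 := congrArg (fun T : H →L[ℂ] H => T (ζ i)) this
        simpa using h2
      · intro h; exact absurd (Finset.mem_univ _) h
    have hZn : ‖Z‖ ≤ 1 := by
      refine shift_norm_alg_le zero_le_one (fun θ => ?_)
      have h1 : ((Z : Alg M) : H →L[ℂ] H) θ = ∑ i, ((S (b i + s) : Alg M) : H →L[ℂ] H)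
          (ε i • ∑ j, ((Y i j : Alg M) : H →L[ℂ] H)
            (ContinuousLinearMap.adjoint ((S (a j) : Alg M) : H →L[ℂ] H) θ)) := by
        have h2 : Z = ∑ i, ∑ j, ε i • (S (b i + s) * (Y i j * star (S (a j)))) := by
          rw [hZ]
          refine Finset.sum_congr rfl (fun i _ => Finset.sum_congr rfl (fun j _ => ?_))
          rw [← mul_assoc, cuntzEndo_mul_iso hS, mul_assoc]
        rw [h2]
        have h3 : ((∑ i, ∑ j, ε i • (S (b i + s) * (Y i j * star (S (a j)))) : Alg M) :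
            H →L[ℂ] H) = ∑ i, ∑ j, ε i • ((S (b i + s) * (Y i j * star (S (a j))) : Alg M) :
              H →L[ℂ] H) := by
          simp
        rw [h3, ContinuousLinearMap.sum_apply]
        refine Finset.sum_congr rfl (fun i _ => ?_)
        rw [ContinuousLinearMap.sum_apply, Finset.smul_sum, map_sum]
        refine Finset.sum_congr rfl (fun j _ => ?_)
        rw [ContinuousLinearMap.smul_apply, map_smul]
        rfl
      rw [h1, shift_parseval hTb, one_mul]
      have h2 : ∀ i, ‖ε i • ∑ j, ((Y i j : Alg M) : H →L[ℂ] H)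
            (ContinuousLinearMap.adjoint ((S (a j) : Alg M) : H →L[ℂ] H) θ)‖ ^ 2
          = ‖∑ j, ((Y i j : Alg M) : H →L[ℂ] H)
            (ContinuousLinearMap.adjoint ((S (a j) : Alg M) : H →L[ℂ] H) θ)‖ ^ 2 := by
        intro i
        rw [norm_smul]
        rcases hε i with h | h <;> simp [h]
      rw [Finset.sum_congr rfl (fun i _ => h2 i)]
      exact (hY _).trans (shift_bessel hTa θ)
    have hψZ : ψ Z = ∑ i, ∑ j, ε i • (ψ (cuntzEndo S (Y i j)) *
        (S (b i + s) * star (S (a j)))) := by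
      rw [hZ, map_sum]
      refine Finset.sum_congr rfl (fun i _ => ?_)
      rw [map_sum]
      refine Finset.sum_congr rfl (fun j _ => ?_)
      rw [map_smul, hψ]
    have hψη : ((ψ Z : Alg M) : H →L[ℂ] H) η = ∑ i, ε i • w i (b i + s) := by
      rw [hψZ]
      have h3 : ((∑ i, ∑ j, ε i • (ψ (cuntzEndo S (Y i j)) *
        (S (b i + s) * star (S (a j)))) : Alg M) :
            H →L[ℂ] H) = ∑ i, ∑ j, ε i • ((ψ (cuntzEndo S (Y i j)) *
        (S (b i + s) * star (S (a j))) : Alg M) : H →L[ℂ] H) := by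
        simp
      rw [h3, ContinuousLinearMap.sum_apply]
      refine Finset.sum_congr rfl (fun i _ => ?_)
      rw [ContinuousLinearMap.sum_apply, hw, Finset.smul_sum]
      refine Finset.sum_congr rfl (fun j _ => ?_)
      rw [ContinuousLinearMap.smul_apply]
      congr 1
      have h4 : ((ψ (cuntzEndo S (Y i j)) * (S (b i + s) * star (S (a j))) : Alg M) :
          H →L[ℂ] H) η = ((ψ (cuntzEndo S (Y i j)) : Alg M) : H →L[ℂ] H)
          (((S (b i + s) : Alg M) : H →L[ℂ] H)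
            (ContinuousLinearMap.adjoint ((S (a j) : Alg M) : H →L[ℂ] H) η)) := rfl
      rw [h4, hSη]
    rw [← hψη, ← hηn, ← mul_pow]
    refine pow_le_pow_left₀ (norm_nonneg _) ?_ 2
    calc ‖((ψ Z : Alg M) : H →L[ℂ] H) η‖ ≤ ‖((ψ Z : Alg M) : H →L[ℂ] H)‖ * ‖η‖ :=
          ContinuousLinearMap.le_opNorm _ _
      _ ≤ ‖ψ‖ * ‖η‖ := by
          refine mul_le_mul_of_nonneg_right ?_ (norm_nonneg _)
          have h5 : ‖ψ Z‖ ≤ ‖ψ‖ * ‖Z‖ := ψ.le_opNorm Z
          have h6 : ‖ψ‖ * ‖Z‖ ≤ ‖ψ‖ := mul_le_of_le_one_right (norm_nonneg _) hZn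
          exact h5.trans h6
  -- average over the shifts
  have hn : (0 : ℝ) < n := by exact_mod_cast Nat.pos_of_ne_zero (NeZero.ne n)
  have hall : ∑ i, ∑ l, ‖w i l‖ ^ 2 ≤ n * (‖ψ‖ ^ 2 * ∑ j, ‖ζ j‖ ^ 2) := by
    have h1 : ∑ s : Fin n, ∑ i, ‖w i (b i + s)‖ ^ 2 = ∑ i, ∑ l, ‖w i l‖ ^ 2 := by
      rw [Finset.sum_comm]
      refine Finset.sum_congr rfl (fun i _ => ?_)
      exact Equiv.sum_comp (Equiv.addLeft (b i)) (fun l => ‖w i l‖ ^ 2)
    rw [← h1]
    refine (Finset.sum_le_sum (fun s _ => key s)).trans ?_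
    simp
  have hφw : ∀ i, ‖∑ j, ((φ (Y i j) : Alg M) : H →L[ℂ] H) (ζ j)‖ ^ 2
      ≤ (n : ℝ)⁻¹ * ∑ l, ‖w i l‖ ^ 2 := by
    intro i
    have h1 : ∑ j, ((φ (Y i j) : Alg M) : H →L[ℂ] H) (ζ j)
        = ((n : ℂ)⁻¹) • ∑ l, ContinuousLinearMap.adjoint ((S l : Alg M) : H →L[ℂ] H) (w i l) := by
      have h2 : ∀ j, ((φ (Y i j) : Alg M) : H →L[ℂ] H) (ζ j)
          = ((n : ℂ)⁻¹) • ∑ l, ContinuousLinearMap.adjoint ((S l : Alg M) : H →L[ℂ] H)
            (((ψ (cuntzEndo S (Y i j)) : Alg M) : H →L[ℂ] H)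
              (((S l : Alg M) : H →L[ℂ] H) (ζ j))) := by
        intro j
        rw [hφ]
        have h3 : ((((n : ℂ)⁻¹) • ∑ l, star (S l) * ψ (cuntzEndo S (Y i j)) * S l : Alg M) :
            H →L[ℂ] H) = ((n : ℂ)⁻¹) • ∑ l, ((star (S l) * ψ (cuntzEndo S (Y i j)) * S l :
              Alg M) : H →L[ℂ] H) := by
          simp
        rw [h3, ContinuousLinearMap.smul_apply, ContinuousLinearMap.sum_apply]
        rfl
      rw [Finset.sum_congr rfl (fun j _ => h2 j), ← Finset.smul_sum, Finset.sum_comm]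
      congr 1
      refine Finset.sum_congr rfl (fun l _ => ?_)
      rw [hw, map_sum]
    rw [h1, norm_smul, mul_pow]
    have h4 : ‖((n : ℂ)⁻¹)‖ ^ 2 = (n : ℝ)⁻¹ * (n : ℝ)⁻¹ := by
      rw [norm_inv, Complex.norm_natCast, sq]
    rw [h4, mul_assoc]
    refine mul_le_mul_of_nonneg_left ?_ (by (clear * - hn; positivity))
    have h5 : ‖∑ l, ContinuousLinearMap.adjoint ((S l : Alg M) : H →L[ℂ] H) (w i l)‖
        ≤ ∑ l, ‖w i l‖ := by
      refine (norm_sum_le _ _).trans (Finset.sum_le_sum (fun l _ => ?_))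
      have hTl : ∀ i j, ContinuousLinearMap.adjoint ((S (id i) : Alg M) : H →L[ℂ] H)
        * ((S (id j) : Alg M) : H →L[ℂ] H) = if i = j then 1 else 0 :=
        shift_iso_coe (H := H) hS (id : Fin n → Fin n) Function.injective_id
      have h6 := shift_bessel hTl (w i l)
      have h7 : ‖ContinuousLinearMap.adjoint ((S l : Alg M) : H →L[ℂ] H) (w i l)‖ ^ 2
          ≤ ‖w i l‖ ^ 2 :=
        (Finset.single_le_sum (f := fun l' =>
          ‖ContinuousLinearMap.adjoint ((S (id l') : Alg M) : H →L[ℂ] H) (w i l)‖ ^ 2)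
          (fun _ _ => by (clear * -; positivity)) (Finset.mem_univ l)).trans h6
      exact le_of_sq_le_sq h7 (norm_nonneg _)
    have h8 : (∑ l, ‖w i l‖) ^ 2 ≤ n * ∑ l, ‖w i l‖ ^ 2 := by
      have := sq_sum_le_card_mul_sum_sq (s := (Finset.univ : Finset (Fin n)))
        (f := fun l => ‖w i l‖)
      simpa using this
    calc (n : ℝ)⁻¹ * ‖∑ l, ContinuousLinearMap.adjoint ((S l : Alg M) : H →L[ℂ] H) (w i l)‖ ^ 2
        ≤ (n : ℝ)⁻¹ * (n * ∑ l, ‖w i l‖ ^ 2) := by
          refine mul_le_mul_of_nonneg_left ?_ (by (clear * - hn; positivity))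
          exact (pow_le_pow_left₀ (norm_nonneg _) h5 2).trans h8
      _ = ∑ l, ‖w i l‖ ^ 2 := by
          rw [← mul_assoc, inv_mul_cancel₀ hn.ne', one_mul]
  calc ∑ i, ‖∑ j, ((φ (Y i j) : Alg M) : H →L[ℂ] H) (ζ j)‖ ^ 2
      ≤ ∑ i, (n : ℝ)⁻¹ * ∑ l, ‖w i l‖ ^ 2 := Finset.sum_le_sum (fun i _ => hφw i)
    _ = (n : ℝ)⁻¹ * ∑ i, ∑ l, ‖w i l‖ ^ 2 := by rw [Finset.mul_sum]
    _ ≤ (n : ℝ)⁻¹ * (n * (‖ψ‖ ^ 2 * ∑ j, ‖ζ j‖ ^ 2)) :=
        mul_le_mul_of_nonneg_left hall (by (clear * - hn; positivity))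
    _ = ‖ψ‖ ^ 2 * ∑ j, ‖ζ j‖ ^ 2 := by rw [← mul_assoc, inv_mul_cancel₀ hn.ne', one_mul]

end Vale.Agent.P082.CB
end

section
attribute [local instance] Vale.Agent.P082.AlgFast.nr Vale.Agent.P082.AlgFast.na
  Vale.Agent.P082.AlgFast.sr Vale.Agent.P082.AlgFast.ng Vale.Agent.P082.AlgFast.sg
  Vale.Agent.P082.AlgFast.ns Vale.Agent.P082.AlgFast.ri Vale.Agent.P082.AlgFast.ag
  Vale.Agent.P082.AlgFast.am Vale.Agent.P082.AlgFast.mo Vale.Agent.P082.AlgFast.pm
  Vale.Agent.P082.AlgFast.us Vale.Agent.P082.AlgFast.ts Vale.Agent.P082.AlgFast.ets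
  Vale.Agent.P082.AlgFast.eng Vale.Agent.P082.AlgFast.esg Vale.Agent.P082.AlgFast.ens
  Vale.Agent.P082.AlgFast.eam Vale.Agent.P082.AlgFast.emo Vale.Agent.P082.AlgFast.nu
  Vale.Agent.P082.AlgFast.sag Vale.Agent.P082.AlgFast.agr Vale.Agent.P082.AlgFast.mon
  Vale.Agent.P082.AlgFast.srg

open scoped InnerProductSpace ComplexConjugate Topology

namespace Vale.Agent.P082.CB

open Vale.Agent.P082 Vale.Agent.P082.VN

universe u

/-- the differential commutes with a change of algebras -/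
lemma level_hochschild_conj {A B : Type*} [NormedRing A] [NormedAlgebra ℂ A] [NormedRing B]
    [NormedAlgebra ℂ B] (D : A →L[ℂ] B) (U : B →L[ℂ] A)
    (hU : ∀ x y, U (x * y) = U x * U y) (hl : ∀ x y, D (U x * y) = x * D y)
    (hr : ∀ x y, D (y * U x) = D y * x) {k : ℕ} (f : (Fin k → A) → A) (a : Fin (k + 1) → B) :
    hochschild (fun x => D (f (fun i => U (x i)))) a = D (hochschild f (fun i => U (a i))) := by
  have hc : ∀ j : Fin k, (fun i => U (contract j a i)) = contract j (fun i => U (a i)) := by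
    intro j
    funext i
    unfold contract
    split_ifs
    · rfl
    · exact hU _ _
    · rfl
  unfold hochschild
  simp only [neg_one_pow_mul, hc, map_add, map_sum, map_smul, hl, hr]

/-- the differential of a finite sum -/
lemma level_hochschild_sum {A : Type*} [NormedRing A] [NormedAlgebra ℂ A] {k : ℕ} {ι : Type*}
    (s : Finset ι) (g : ι → ContinuousMultilinearMap ℂ (fun _ : Fin k => A) A)
    (x : Fin (k + 1) → A) :
    hochschild (fun y => (∑ l ∈ s, g l) y) x = ∑ l ∈ s, hochschild (fun y => g l y) x := by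
  classical
  induction s using Finset.induction_on with
  | empty =>
    unfold hochschild
    simp
  | insert a s ha ih =>
    rw [Finset.sum_insert ha, Finset.sum_insert ha, ← ih]
    have h := hochschild_add_smul (∑ l ∈ s, g l) (g a) 1 x
    rw [one_smul, one_smul] at h
    exact h

variable {H : Type u} [NormedAddCommGroup H] [InnerProductSpace ℂ H] [CompleteSpace H]
  {M : VonNeumannAlgebra H}

/-- isometries have norm at most one -/
lemma level_norm_isometry {n : ℕ} {S : Fin n → Alg M}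
    (hS : ∀ i j, star (S i) * S j = if i = j then 1 else 0) (l : Fin n) : ‖S l‖ ≤ 1 := by
  have h1 : ‖((S l : Alg M) : H →L[ℂ] H)‖ * ‖((S l : Alg M) : H →L[ℂ] H)‖ ≤ 1 := by
    rw [← CStarRing.norm_star_mul_self]
    have h2 : star ((S l : Alg M) : H →L[ℂ] H) * ((S l : Alg M) : H →L[ℂ] H) = 1 := by
      have h3 := hS l l
      rw [if_pos rfl] at h3
      exact congrArg (fun T : Alg M => (T : H →L[ℂ] H)) h3
    rw [h2]
    refine ContinuousLinearMap.opNorm_le_bound _ zero_le_one (fun x => ?_)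
    simp
  have h3 : ‖S l‖ * ‖S l‖ ≤ 1 := h1
  nlinarith only [h3]

lemma level_norm_star_isometry {n : ℕ} {S : Fin n → Alg M}
    (hS : ∀ i j, star (S i) * S j = if i = j then 1 else 0) (l : Fin n) :
    ‖star (S l)‖ ≤ 1 := by
  have h : ‖star ((S l : Alg M) : H →L[ℂ] H)‖ = ‖((S l : Alg M) : H →L[ℂ] H)‖ := norm_star _
  have h' : ‖star (S l)‖ = ‖S l‖ := h
  rw [h']
  exact level_norm_isometry hS l

lemma level_endo_mul_iso {n : ℕ} {S : Fin n → Alg M}
    (hS : ∀ i j, star (S i) * S j = if i = j then 1 else 0) (x : Alg M) (l : Fin n) :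
    cuntzEndo S x * S l = S l * x := by
  rw [cuntzEndo_apply, Finset.sum_mul, Finset.sum_eq_single l]
  · rw [mul_assoc, hS, if_pos rfl, mul_one]
  · intro b _ hb
    rw [mul_assoc, hS, if_neg hb, mul_zero]
  · intro h; exact absurd (Finset.mem_univ _) h

lemma level_iso_mul_endo {n : ℕ} {S : Fin n → Alg M}
    (hS : ∀ i j, star (S i) * S j = if i = j then 1 else 0) (x : Alg M) (l : Fin n) :
    star (S l) * cuntzEndo S x = x * star (S l) := by
  rw [cuntzEndo_apply, Finset.mul_sum, Finset.sum_eq_single l]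
  · rw [← mul_assoc, ← mul_assoc, hS, if_pos rfl, one_mul]
  · intro b _ hb
    rw [← mul_assoc, ← mul_assoc, hS, if_neg (Ne.symm hb), zero_mul, zero_mul]
  · intro h; exact absurd (Finset.mem_univ _) h

/-- the shift average as a map -/
lemma level_exists_D {n : ℕ} [NeZero n] {S : Fin n → Alg M}
    (hS : ∀ i j, star (S i) * S j = if i = j then 1 else 0) :
    ∃ D : Alg M →L[ℂ] Alg M, (∀ y, D y = (n : ℂ)⁻¹ • ∑ l, star (S l) * y * S l) ∧
      (∀ y, ‖D y‖ ≤ ‖y‖) ∧ (∀ x y, D (cuntzEndo S x * y) = x * D y) ∧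
      (∀ x y, D (y * cuntzEndo S x) = D y * x) := by
  let Dl : Fin n → Alg M →L[ℂ] Alg M := fun l =>
    (mulL (star (S l))).comp ((ContinuousLinearMap.mul ℂ (Alg M)).flip (S l))
  have hDl : ∀ l y, Dl l y = star (S l) * y * S l := by
    intro l y
    show star (S l) * (y * S l) = _
    rw [mul_assoc]
  let D : Alg M →L[ℂ] Alg M := (n : ℂ)⁻¹ • ∑ l, Dl l
  have hD : ∀ y, D y = (n : ℂ)⁻¹ • ∑ l, star (S l) * y * S l := by
    intro y
    show ((n : ℂ)⁻¹ • ∑ l, Dl l) y = _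
    rw [smul_apply, sum_apply]
    congr 1
  have hnpos : (0 : ℝ) < n := by exact_mod_cast Nat.pos_of_ne_zero (NeZero.ne n)
  have hninv : ‖(n : ℂ)⁻¹‖ = (n : ℝ)⁻¹ := by simp
  refine ⟨D, hD, ?_, ?_, ?_⟩
  · intro y
    rw [hD, norm_smul, hninv]
    have h1 : ‖∑ l, star (S l) * y * S l‖ ≤ n * ‖y‖ := by
      refine (norm_sum_le _ _).trans ?_
      have h2 : ∀ l ∈ (Finset.univ : Finset (Fin n)), ‖star (S l) * y * S l‖ ≤ ‖y‖ := by
        intro l _
        have h3 := level_norm_isometry hS l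
        have h4 := level_norm_star_isometry hS l
        calc ‖star (S l) * y * S l‖ ≤ ‖star (S l) * y‖ * ‖S l‖ := norm_mul_le _ _
          _ ≤ (‖star (S l)‖ * ‖y‖) * ‖S l‖ := by gcongr; exact norm_mul_le _ _
          _ ≤ (1 * ‖y‖) * 1 := by (clear * - h3 h4; gcongr)
          _ = ‖y‖ := by ring
      refine (Finset.sum_le_sum h2).trans ?_
      simp
    calc (n : ℝ)⁻¹ * ‖∑ l, star (S l) * y * S l‖ ≤ (n : ℝ)⁻¹ * (n * ‖y‖) := by (clear * - hnpos h1; gcongr)
      _ = ‖y‖ := by field_simp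
  · intro x y
    rw [hD, hD, mul_smul_comm, Finset.mul_sum]
    congr 1
    refine Finset.sum_congr rfl (fun l _ => ?_)
    rw [← mul_assoc (star (S l)), level_iso_mul_endo hS, mul_assoc, mul_assoc, mul_assoc]
  · intro x y
    rw [hD, hD, smul_mul_assoc, Finset.sum_mul]
    congr 1
    refine Finset.sum_congr rfl (fun l _ => ?_)
    rw [mul_assoc, mul_assoc y, level_endo_mul_iso hS, mul_assoc, mul_assoc]

lemma level_curry_norm {k : ℕ}
    (f : ContinuousMultilinearMap ℂ (fun _ : Fin (k + 1) => Alg M) (Alg M)) (x : Fin k → Alg M) :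
    ‖f.curryRight x‖ ≤ ‖f‖ * ∏ i, ‖x i‖ := by
  have h := f.curryRight.le_opNorm x
  rwa [ContinuousMultilinearMap.curryRight_norm] at h

/-- the first step: averaging over the matrix units -/
lemma level_step {n : ℕ} [NeZero n] {S : Fin n → Alg M}
    (hS : ∀ i j, star (S i) * S j = if i = j then 1 else 0) (hsum : ∑ i, S i * star (S i) = 1)
    {k : ℕ} (f : ContinuousMultilinearMap ℂ (fun _ : Fin (k + 1) => Alg M) (Alg M))
    (hf : ∀ a, hochschild (fun x => f x) a = 0) :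
    ∃ (f0 : ContinuousMultilinearMap ℂ (fun _ : Fin (k + 1) => Alg M) (Alg M))
      (g0 : ContinuousMultilinearMap ℂ (fun _ : Fin k => Alg M) (Alg M)),
      (∀ x, f x = f0 x + hochschild (fun y => g0 y) x) ∧
      (∀ a, hochschild (fun x => f0 x) a = 0) ∧ ‖f0‖ ≤ 2 * ‖f‖ ∧ ‖g0‖ ≤ ‖f‖ ∧
      ∀ (x : Fin k → Alg M) (y : Alg M) (i j : Fin n),
        f0.curryRight x (y * (S i * star (S j))) = f0.curryRight x y * (S i * star (S j)) := by
  have he : MatUnits (Alg M) n (fun i j => S i * star (S j)) := matUnits_cuntz hS hsum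
  obtain ⟨e, hedef⟩ : ∃ e : Fin n → Fin n → Alg M, e = fun i j => S i * star (S j) := ⟨_, rfl⟩
  rw [← hedef] at he
  have ha : IsAvg (matAvg e) := matAvg_isAvg he
  have hna : ∀ φ, ‖matAvg e φ‖ ≤ ‖φ‖ := fun φ => norm_matAvg_le M he φ
  have hf0cur : ∀ x : Fin k → Alg M,
      (fav (matAvg e) f).curryRight x = tw (matAvg e) (f.curryRight x) := by
    intro x
    unfold fav
    rw [ContinuousMultilinearMap.curry_uncurryRight]
    rfl
  refine ⟨fav (matAvg e) f, ((-1 : ℂ) ^ (k + 1)) • gav (matAvg e) f, ?_, fav_cocycle ha f hf,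
    ?_, ?_, ?_⟩
  · intro x
    have h0 : ∀ y, (((-1 : ℂ) ^ (k + 1)) • gav (matAvg e) f) y
        = ((0 : ContinuousMultilinearMap ℂ (fun _ : Fin k => Alg M) (Alg M))
          + ((-1 : ℂ) ^ (k + 1)) • gav (matAvg e) f) y := by
      intro y
      rw [zero_add]
    simp only [h0]
    rw [hochschild_add_smul]
    have hz : hochschild (fun y => (0 : ContinuousMultilinearMap ℂ
        (fun _ : Fin k => Alg M) (Alg M)) y) x = 0 := by
      unfold hochschild
      simp
    rw [hz, zero_add]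
    exact hochschild_gav ha f hf x
  · unfold fav
    rw [ContinuousMultilinearMap.uncurryRight_norm]
    refine ContinuousMultilinearMap.opNorm_le_bound (by (clear * -; positivity)) (fun x => ?_)
    show ‖tw (matAvg e) (f.curryRight x)‖ ≤ _
    refine (norm_tw_le M hna _).trans ?_
    have := level_curry_norm f x
    linarith only [this]
  · rw [norm_smul, norm_pow, norm_neg, norm_one, one_pow, one_mul]
    refine ContinuousMultilinearMap.opNorm_le_bound (norm_nonneg _) (fun x => ?_)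
    rw [gav_apply]
    exact (hna _).trans (level_curry_norm f x)
  · intro x y i j
    rw [hf0cur]
    have h := tw_matAvg_modular he (f.curryRight x) y i j
    have h2 : e i j = S i * star (S j) := by rw [hedef]
    rw [h2] at h
    exact h

/-- the second step: shifting, cb estimate -/
lemma level_shift_bound {n : ℕ} [NeZero n] {S : Fin n → Alg M}
    (hS : ∀ i j, star (S i) * S j = if i = j then 1 else 0) {D : Alg M →L[ℂ] Alg M}
    (hD : ∀ y, D y = (n : ℂ)⁻¹ • ∑ l, star (S l) * y * S l)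
    {k : ℕ} (f0 : ContinuousMultilinearMap ℂ (fun _ : Fin (k + 1) => Alg M) (Alg M)) {C : ℝ}
    (hC : ‖f0‖ ≤ C)
    (hmod : ∀ (x : Fin k → Alg M) (y : Alg M) (i j : Fin n),
        f0.curryRight x (y * (S i * star (S j))) = f0.curryRight x y * (S i * star (S j)))
    (F : ContinuousMultilinearMap ℂ (fun _ : Fin (k + 1) => Alg M) (Alg M))
    (hF : ∀ x, F x = D (f0 (fun i => cuntzEndo S (x i)))) (x : Fin k → Alg M) :
    LevelBound M n (F.curryRight x) ((C * ∏ i, ‖x i‖) ^ 2) := by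
  have hσ1 : ‖cuntzEndo S‖ ≤ 1 := norm_cuntzEndo_le hS
  have hσx : ∀ x : Alg M, ‖cuntzEndo S x‖ ≤ ‖x‖ := by
    intro x
    exact ((cuntzEndo S).le_opNorm x).trans (mul_le_of_le_one_left (norm_nonneg _) hσ1)
  have hC0 : 0 ≤ C := (norm_nonneg _).trans hC
  have hlev := shift_levelBound hS (f0.curryRight (fun i => cuntzEndo S (x i)))
    (F.curryRight x) (hmod _)
    (fun y => by
      have h1 : F.curryRight x y = F (Fin.snoc x y) := rfl
      have h2 : f0.curryRight (fun i => cuntzEndo S (x i)) (cuntzEndo S y)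
          = f0 (Fin.snoc (fun i => cuntzEndo S (x i)) (cuntzEndo S y)) := rfl
      rw [h1, h2, hF, hD]
      have h3 : (fun i => cuntzEndo S ((Fin.snoc x y : Fin (k + 1) → Alg M) i))
          = (Fin.snoc (fun i => cuntzEndo S (x i)) (cuntzEndo S y) : Fin (k + 1) → Alg M) := by
        funext i
        refine Fin.lastCases ?_ (fun i => ?_) i
        · rw [Fin.snoc_last, Fin.snoc_last]
        · rw [Fin.snoc_castSucc, Fin.snoc_castSucc]
      rw [h3])
  have hψ : ‖f0.curryRight (fun i => cuntzEndo S (x i))‖ ≤ C * ∏ i, ‖x i‖ := by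
    refine (level_curry_norm f0 _).trans ?_
    exact mul_le_mul hC (Finset.prod_le_prod (fun i _ => norm_nonneg _) (fun i _ => hσx _))
      (Finset.prod_nonneg fun i _ => norm_nonneg _) hC0
  intro ι κ _ _ hι hκ Y hY ζ
  refine (hlev ι κ hι hκ Y hY ζ).trans ?_
  have hnn : 0 ≤ ∑ j, ‖ζ j‖ ^ 2 := Finset.sum_nonneg (fun j _ => by (clear * -; positivity))
  (clear * - hψ; gcongr)

/-- the second step: shifting, the coboundary -/
lemma level_shift_cob {n : ℕ} [NeZero n] {S : Fin n → Alg M}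
    (hS : ∀ i j, star (S i) * S j = if i = j then 1 else 0) {D : Alg M →L[ℂ] Alg M}
    (hD : ∀ y, D y = (n : ℂ)⁻¹ • ∑ l, star (S l) * y * S l)
    {k : ℕ} (f0 : ContinuousMultilinearMap ℂ (fun _ : Fin (k + 1) => Alg M) (Alg M))
    (hf0c : ∀ a, hochschild (fun x => f0 x) a = 0) {C : ℝ} (hC : ‖f0‖ ≤ C) :
    ∃ g : ContinuousMultilinearMap ℂ (fun _ : Fin k => Alg M) (Alg M),
      ‖g‖ ≤ (k + 1) * C ∧ ∀ x, hochschild (fun y => g y) x
        = f0 x - D (f0 (fun i => cuntzEndo S (x i))) := by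
  have hn0 : (n : ℂ) ≠ 0 := by exact_mod_cast NeZero.ne n
  have hnpos : (0 : ℝ) < n := by exact_mod_cast Nat.pos_of_ne_zero (NeZero.ne n)
  have hninv : ‖(n : ℂ)⁻¹‖ = (n : ℝ)⁻¹ := by simp
  have hh : ∀ l : Fin n, ∃ g : ContinuousMultilinearMap ℂ (fun _ : Fin k => Alg M) (Alg M),
      ‖g‖ ≤ (k + 1) * ‖f0‖ ∧ ∀ x, hochschild (fun y => g y) x
        = star (S l) * S l * f0 x - star (S l) * f0 (fun i => cuntzEndo S (x i)) * S l := by
    intro l
    exact exists_homotopy f0 hf0c (cuntzEndo S) (cuntzEndo_mul hS) (S l) (star (S l))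
      (fun x => level_endo_mul_iso hS x l) (fun x => level_iso_mul_endo hS x l)
      (norm_cuntzEndo_le hS) (level_norm_isometry hS l) (level_norm_star_isometry hS l)
  choose gl hgln hgl using hh
  refine ⟨(n : ℂ)⁻¹ • ∑ l, gl l, ?_, ?_⟩
  · rw [norm_smul, hninv]
    have h3 : ‖∑ l, gl l‖ ≤ n * ((k + 1) * C) := by
      refine (norm_sum_le _ _).trans ?_
      refine (Finset.sum_le_sum (fun l _ => (hgln l).trans
        (mul_le_mul_of_nonneg_left hC (by (clear * -; positivity))))).trans ?_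
      simp
    calc (n : ℝ)⁻¹ * ‖∑ l, gl l‖ ≤ (n : ℝ)⁻¹ * (n * ((k + 1) * C)) := by (clear * - hnpos h3; gcongr)
      _ = (k + 1) * C := by (clear * - hnpos; field_simp)
  · intro x
    have h0 : ∀ y, ((n : ℂ)⁻¹ • ∑ l, gl l) y
        = ((0 : ContinuousMultilinearMap ℂ (fun _ : Fin k => Alg M) (Alg M))
          + (n : ℂ)⁻¹ • ∑ l, gl l) y := by
      intro y
      rw [zero_add]
    simp only [h0]
    rw [hochschild_add_smul, level_hochschild_sum]
    have hz : hochschild (fun y => (0 : ContinuousMultilinearMap ℂ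
        (fun _ : Fin k => Alg M) (Alg M)) y) x = 0 := by
      unfold hochschild
      simp
    rw [hz, zero_add, Finset.sum_congr rfl (fun l _ => hgl l x)]
    have h1 : ∑ l, (star (S l) * S l * f0 x
        - star (S l) * f0 (fun i => cuntzEndo S (x i)) * S l)
        = (n : ℂ) • f0 x - ∑ l, star (S l) * f0 (fun i => cuntzEndo S (x i)) * S l := by
      rw [Finset.sum_sub_distrib]
      congr 1
      have h2 : ∀ l ∈ (Finset.univ : Finset (Fin n)), star (S l) * S l * f0 x = f0 x := by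
        intro l _
        rw [hS, if_pos rfl, one_mul]
      rw [Finset.sum_congr rfl h2]
      simp [Nat.cast_smul_eq_nsmul]
    rw [h1, smul_sub, smul_smul, inv_mul_cancel₀ hn0, one_smul, ← hD]

/-- (C14) for `n` isometries with orthogonal ranges summing up to one, every cocycle is cohomologous
to one with an `n`-bounded last variable, with uniform bounds. -/
theorem exists_level {n : ℕ} [NeZero n] {S : Fin n → Alg M}
    (hS : ∀ i j, star (S i) * S j = if i = j then 1 else 0) (hsum : ∑ i, S i * star (S i) = 1)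
    {k : ℕ} (f : ContinuousMultilinearMap ℂ (fun _ : Fin (k + 1) => Alg M) (Alg M))
    (hf : ∀ a, hochschild (fun x => f x) a = 0) :
    ∃ (F : ContinuousMultilinearMap ℂ (fun _ : Fin (k + 1) => Alg M) (Alg M))
      (g : ContinuousMultilinearMap ℂ (fun _ : Fin k => Alg M) (Alg M)),
      (∀ x, f x = F x + hochschild (fun y => g y) x) ∧
      (∀ a, hochschild (fun x => F x) a = 0) ∧ ‖F‖ ≤ 2 * ‖f‖ ∧
      ‖g‖ ≤ (2 * k + 3) * ‖f‖ ∧
      ∀ x : Fin k → Alg M, LevelBound M n (F.curryRight x) ((2 * ‖f‖ * ∏ i, ‖x i‖) ^ 2) := by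
  obtain ⟨f0, g0, hf0, hf0c, hf0n, hg0n, hmod⟩ := level_step hS hsum f hf
  obtain ⟨D, hD, hDn, hDl, hDr⟩ := level_exists_D hS
  obtain ⟨g1, hg1n, hg1⟩ := level_shift_cob hS hD f0 hf0c hf0n
  have hσx : ∀ x : Alg M, ‖cuntzEndo S x‖ ≤ ‖x‖ := by
    intro x
    exact ((cuntzEndo S).le_opNorm x).trans
      (mul_le_of_le_one_left (norm_nonneg _) (norm_cuntzEndo_le hS))
  obtain ⟨F, hF⟩ : ∃ F : ContinuousMultilinearMap ℂ (fun _ : Fin (k + 1) => Alg M) (Alg M),
      ∀ x, F x = D (f0 (fun i => cuntzEndo S (x i))) :=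
    ⟨D.compContinuousMultilinearMap (f0.compContinuousLinearMap (fun _ => cuntzEndo S)),
      fun _ => rfl⟩
  refine ⟨F, g0 + (1 : ℂ) • g1, ?_, ?_, ?_, ?_, level_shift_bound hS hD f0 hf0n hmod F hF⟩
  · intro x
    rw [hochschild_add_smul, hg1, hF, hf0, one_smul]
    abel
  · intro a
    simp only [hF]
    rw [level_hochschild_conj D (cuntzEndo S) (cuntzEndo_mul hS) hDl hDr
      (fun x => f0 x) a, hf0c, map_zero]
  · refine (ContinuousMultilinearMap.opNorm_le_bound (norm_nonneg f0) (fun x => ?_)).trans hf0n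
    rw [hF]
    refine (hDn _).trans ((f0.le_opNorm _).trans ?_)
    gcongr
    exact hσx _
  · rw [one_smul]
    refine (norm_add_le _ _).trans ((add_le_add hg0n hg1n).trans (le_of_eq ?_))
    ring

end Vale.Agent.P082.CB
end

section
attribute [local instance] Vale.Agent.P082.AlgFast.nr Vale.Agent.P082.AlgFast.na
  Vale.Agent.P082.AlgFast.sr Vale.Agent.P082.AlgFast.ng Vale.Agent.P082.AlgFast.sg
  Vale.Agent.P082.AlgFast.ns Vale.Agent.P082.AlgFast.ri Vale.Agent.P082.AlgFast.ag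
  Vale.Agent.P082.AlgFast.am Vale.Agent.P082.AlgFast.mo Vale.Agent.P082.AlgFast.pm
  Vale.Agent.P082.AlgFast.us Vale.Agent.P082.AlgFast.ts Vale.Agent.P082.AlgFast.ets
  Vale.Agent.P082.AlgFast.eng Vale.Agent.P082.AlgFast.esg Vale.Agent.P082.AlgFast.ens
  Vale.Agent.P082.AlgFast.eam Vale.Agent.P082.AlgFast.emo Vale.Agent.P082.AlgFast.nu
  Vale.Agent.P082.AlgFast.sag Vale.Agent.P082.AlgFast.agr Vale.Agent.P082.AlgFast.mon
  Vale.Agent.P082.AlgFast.srg

open scoped InnerProductSpace ComplexConjugate Topology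

namespace Vale.Agent.P082.CB

open Vale.Agent.P082 Vale.Agent.P082.VN

universe u

/-- the differential commutes with a change of algebras -/
lemma split_hochschild_conj {A B : Type*} [NormedRing A] [NormedAlgebra ℂ A] [NormedRing B]
    [NormedAlgebra ℂ B] (D : A →L[ℂ] B) (U : B →L[ℂ] A)
    (hU : ∀ x y, U (x * y) = U x * U y) (hl : ∀ x y, D (U x * y) = x * D y)
    (hr : ∀ x y, D (y * U x) = D y * x) {k : ℕ} (f : (Fin k → A) → A) (a : Fin (k + 1) → B) :
    hochschild (fun x => D (f (fun i => U (x i)))) a = D (hochschild f (fun i => U (a i))) := by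
  have hc : ∀ j : Fin k, (fun i => U (contract j a i)) = contract j (fun i => U (a i)) := by
    intro j
    funext i
    unfold contract
    split_ifs
    · rfl
    · exact hU _ _
    · rfl
  unfold hochschild
  simp only [neg_one_pow_mul, hc, map_add, map_sum, map_smul, hl, hr]

section

variable {H : Type u} [NormedAddCommGroup H] [InnerProductSpace ℂ H] [CompleteSpace H]
  {M : VonNeumannAlgebra H}

/-- one corner: `z f` is a coboundary -/
lemma split_corner {z : H →L[ℂ] H} (hz : IsCPr M z)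
    {K₁ : Type u} [NormedAddCommGroup K₁] [InnerProductSpace ℂ K₁] [CompleteSpace K₁]
    {P₁ : VonNeumannAlgebra K₁} {ι₁ : K₁ →ₗᵢ[ℂ] H} {up₁ : Alg P₁ →L[ℂ] Alg M}
    {down₁ : Alg M →L[ℂ] Alg P₁} (h₁ : CornerData M z P₁ ι₁ up₁ down₁) {k : ℕ}
    (hv₁ : BoundedCohomologyVanishes (Alg P₁) k)
    (f : ContinuousMultilinearMap ℂ (fun _ : Fin (k + 1) => Alg M) (Alg M))
    (hf : ∀ a, hochschild (fun x => f x) a = 0) :
    ∃ g : ContinuousMultilinearMap ℂ (fun _ : Fin k => Alg M) (Alg M),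
      ∀ x, hochschild (fun y => g y) x = (⟨z, hz.mem⟩ : Alg M) * f x := by
  obtain ⟨Z, hZdef⟩ : ∃ Z : Alg M, Z = (⟨z, hz.mem⟩ : Alg M) := ⟨_, rfl⟩
  rw [← hZdef]
  have hZc : (Z : H →L[ℂ] H) = z := by rw [hZdef]
  have hcomm : ∀ x : Alg M, Z * x = x * Z := by
    intro x
    apply Subtype.ext
    show (Z : H →L[ℂ] H) * (x : H →L[ℂ] H) = (x : H →L[ℂ] H) * (Z : H →L[ℂ] H)
    rw [hZc]
    exact hz.comm _ x.2
  have hid : Z * Z = Z := by
    apply Subtype.ext
    show (Z : H →L[ℂ] H) * (Z : H →L[ℂ] H) = (Z : H →L[ℂ] H)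
    rw [hZc]
    exact hz.idem
  have hn : ‖Z‖ ≤ 1 := by
    have h1 : ‖(Z : H →L[ℂ] H)‖ * ‖(Z : H →L[ℂ] H)‖ = ‖(Z : H →L[ℂ] H)‖ := by
      rw [hZc]
      conv_rhs => rw [← hz.idem]
      have h2 := CStarRing.norm_star_mul_self (x := z)
      rw [hz.sa] at h2
      exact h2.symm
    have h3 : ‖Z‖ * ‖Z‖ = ‖Z‖ := h1
    by_contra hcon
    push Not at hcon
    linarith only [mul_pos (sub_pos.2 hcon) (sub_pos.2 hcon), mul_eq_zero_of_left (sub_eq_zero.2 h3) (‖Z‖ - (1)), mul_eq_zero_of_left (sub_eq_zero.2 h3) (‖Z‖ * ‖Z‖ - (‖Z‖)), mul_eq_zero_of_left (sub_eq_zero.2 h3) (0 - (0 - ‖Z‖ * ‖Z‖)), hcon]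
  have hσn : ‖mulL Z‖ ≤ 1 := (ContinuousLinearMap.opNorm_mul_apply_le ℂ (Alg M) Z).trans hn
  obtain ⟨g, -, hg⟩ := exists_homotopy f hf (mulL Z)
    (fun x y => by
      show Z * (x * y) = Z * x * (Z * y)
      rw [mul_assoc, ← mul_assoc x Z y, ← hcomm x, mul_assoc, ← mul_assoc Z Z, hid])
    Z Z
    (fun x => by
      show Z * x * Z = Z * x
      rw [mul_assoc, ← hcomm x, ← mul_assoc, hid])
    (fun x => by
      show Z * (Z * x) = x * Z
      rw [← mul_assoc, hid, hcomm])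
    hσn hn hn
  -- the corner
  have hud : ∀ x : Alg M, up₁ (down₁ x) = Z * x := by
    intro x
    apply Subtype.ext
    rw [h₁.up_down]
    show z * (x : H →L[ℂ] H) = (Z : H →L[ℂ] H) * (x : H →L[ℂ] H)
    rw [hZc]
  have hZup : ∀ y : Alg P₁, Z * up₁ y = up₁ y := by
    intro y
    apply Subtype.ext
    show (Z : H →L[ℂ] H) * ((up₁ y : Alg M) : H →L[ℂ] H) = ((up₁ y : Alg M) : H →L[ℂ] H)
    rw [hZc]
    exact h₁.up_supp y
  have hul : ∀ (x : Alg M) (y : Alg P₁), up₁ (down₁ x * y) = x * up₁ y := by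
    intro x y
    rw [h₁.up_mul, hud, hcomm, mul_assoc, hZup]
  have hur : ∀ (x : Alg M) (y : Alg P₁), up₁ (y * down₁ x) = up₁ y * x := by
    intro x y
    rw [h₁.up_mul, hud, ← mul_assoc, ← hcomm (up₁ y), hZup]
  have hdl : ∀ (x : Alg P₁) (y : Alg M), down₁ (up₁ x * y) = x * down₁ y := by
    intro x y
    rw [h₁.down_mul, h₁.down_up]
  have hdr : ∀ (x : Alg P₁) (y : Alg M), down₁ (y * up₁ x) = down₁ y * x := by
    intro x y
    rw [h₁.down_mul, h₁.down_up]
  let f₁ : ContinuousMultilinearMap ℂ (fun _ : Fin (k + 1) => Alg P₁) (Alg P₁) :=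
    down₁.compContinuousMultilinearMap (f.compContinuousLinearMap (fun _ => up₁))
  have hf₁a : ∀ a, f₁ a = down₁ (f (fun i => up₁ (a i))) := fun a => rfl
  have hf₁ : ∀ a, hochschild (fun x => f₁ x) a = 0 := by
    intro a
    simp only [hf₁a]
    rw [split_hochschild_conj down₁ up₁ h₁.up_mul hdl hdr (fun x => f x) a, hf, map_zero]
  obtain ⟨g₁, hg₁⟩ := hv₁ f₁ hf₁
  let g₂ : ContinuousMultilinearMap ℂ (fun _ : Fin k => Alg M) (Alg M) :=
    up₁.compContinuousMultilinearMap (g₁.compContinuousLinearMap (fun _ => down₁))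
  have hg₂a : ∀ a, g₂ a = up₁ (g₁ (fun i => down₁ (a i))) := fun a => rfl
  have hg₂ : ∀ x, hochschild (fun y => g₂ y) x = Z * f (fun i => Z * x i) := by
    intro x
    simp only [hg₂a]
    rw [split_hochschild_conj up₁ down₁ h₁.down_mul hul hur (fun x => g₁ x) x, hg₁, hf₁a, hud]
    simp only [hud]
  refine ⟨g + (1 : ℂ) • g₂, fun x => ?_⟩
  rw [hochschild_add_smul, hg, hg₂, one_smul, hid]
  have e : (fun i => (mulL Z) (x i)) = fun i => Z * x i := rfl
  rw [e, mul_assoc Z (f fun i => Z * x i) Z, ← hcomm (f fun i => Z * x i), ← mul_assoc Z Z, hid]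
  abel

/-- (C18) vanishing for two complementary central corners gives vanishing -/
theorem vanishing_of_corners {z : H →L[ℂ] H} (hz : IsCPr M z)
    {K₁ : Type u} [NormedAddCommGroup K₁] [InnerProductSpace ℂ K₁] [CompleteSpace K₁]
    {P₁ : VonNeumannAlgebra K₁} {ι₁ : K₁ →ₗᵢ[ℂ] H} {up₁ : Alg P₁ →L[ℂ] Alg M}
    {down₁ : Alg M →L[ℂ] Alg P₁} (h₁ : CornerData M z P₁ ι₁ up₁ down₁)
    {K₂ : Type u} [NormedAddCommGroup K₂] [InnerProductSpace ℂ K₂] [CompleteSpace K₂]
    {P₂ : VonNeumannAlgebra K₂} {ι₂ : K₂ →ₗᵢ[ℂ] H} {up₂ : Alg P₂ →L[ℂ] Alg M}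
    {down₂ : Alg M →L[ℂ] Alg P₂} (h₂ : CornerData M (1 - z) P₂ ι₂ up₂ down₂) {k : ℕ}
    (hv₁ : BoundedCohomologyVanishes (Alg P₁) k) (hv₂ : BoundedCohomologyVanishes (Alg P₂) k) :
    BoundedCohomologyVanishes (Alg M) k := by
  have hz' : IsCPr M (1 - z) := by
    refine ⟨⟨sub_mem (one_mem M) hz.mem, ?_, ?_⟩, ?_⟩
    · rw [mul_sub, sub_mul, sub_mul, hz.idem]
      simp
    · rw [star_sub, star_one, hz.sa]
    · intro x hx
      rw [sub_mul, mul_sub, hz.comm x hx, one_mul, mul_one]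
  intro f hf
  obtain ⟨g, hg⟩ := split_corner hz h₁ hv₁ f hf
  obtain ⟨g', hg'⟩ := split_corner hz' h₂ hv₂ f hf
  refine ⟨g + (1 : ℂ) • g', fun x => ?_⟩
  rw [hochschild_add_smul, hg, hg', one_smul, ← add_mul]
  have e : (⟨z, hz.mem⟩ : Alg M) + ⟨1 - z, hz'.mem⟩ = 1 := by
    apply Subtype.ext
    show z + (1 - z) = 1
    abel
  rw [e, one_mul]

end

end Vale.Agent.P082.CB
end
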