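import Mathlib.Algebra.BigOperators.Field
import Mathlib.Algebra.BigOperators.Fin
import Mathlib.Algebra.BigOperators.Option
import Mathlib.Algebra.Order.Chebyshev
import Mathlib.Algebra.Star.Subalgebra
import Mathlib.Analysis.CStarAlgebra.Basic
import Mathlib.Analysis.CStarAlgebra.ContinuousFunctionalCalculus.Basic
import Mathlib.Analysis.CStarAlgebra.ContinuousFunctionalCalculus.Commute
import Mathlib.Analysis.CStarAlgebra.ContinuousFunctionalCalculus.Instances
import Mathlib.Analysis.CStarAlgebra.ContinuousFunctionalCalculus.Isometric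
import Mathlib.Analysis.CStarAlgebra.ContinuousFunctionalCalculus.Order
import Mathlib.Analysis.CStarAlgebra.ContinuousFunctionalCalculus.Range
import Mathlib.Analysis.CStarAlgebra.ContinuousFunctionalCalculus.Unital
import Mathlib.Analysis.CStarAlgebra.ContinuousLinearMap
import Mathlib.Analysis.CStarAlgebra.Spectrum
import Mathlib.Analysis.CStarAlgebra.Unitary.Span
import Mathlib.Analysis.Complex.Basic
import Mathlib.Analysis.Convex.Basic
import Mathlib.Analysis.Convex.Mul
import Mathlib.Analysis.InnerProductSpace.Adjoint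
import Mathlib.Analysis.InnerProductSpace.Basic
import Mathlib.Analysis.InnerProductSpace.Continuous
import Mathlib.Analysis.InnerProductSpace.Dual
import Mathlib.Analysis.InnerProductSpace.LaxMilgram
import Mathlib.Analysis.InnerProductSpace.PiL2
import Mathlib.Analysis.InnerProductSpace.Positive
import Mathlib.Analysis.InnerProductSpace.Projection.Basic
import Mathlib.Analysis.InnerProductSpace.StarOrder
import Mathlib.Analysis.InnerProductSpace.Subspace
import Mathlib.Analysis.InnerProductSpace.l2Space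
import Mathlib.Analysis.Normed.Group.Basic
import Mathlib.Analysis.Normed.Group.InfiniteSum
import Mathlib.Analysis.Normed.Group.Tannery
import Mathlib.Analysis.Normed.Module.Basic
import Mathlib.Analysis.Normed.Module.Multilinear.Basic
import Mathlib.Analysis.Normed.Module.Multilinear.Curry
import Mathlib.Analysis.Normed.Operator.Extend
import Mathlib.Analysis.Normed.Operator.Mul
import Mathlib.Analysis.Normed.Operator.NormedSpace
import Mathlib.Analysis.Normed.Ring.Units
import Mathlib.Analysis.PSeries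
import Mathlib.Analysis.Seminorm
import Mathlib.Analysis.SpecialFunctions.Complex.Circle
import Mathlib.Analysis.SpecialFunctions.ContinuousFunctionalCalculus.PosPart.Basic
import Mathlib.Analysis.SpecialFunctions.ContinuousFunctionalCalculus.Rpow.Basic
import Mathlib.Analysis.SpecialFunctions.Exp
import Mathlib.Analysis.SpecialFunctions.Pow.Real
import Mathlib.Analysis.SpecialFunctions.Sqrt
import Mathlib.Analysis.SpecialFunctions.Trigonometric.Basic
import Mathlib.Analysis.SpecificLimits.Basic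
import Mathlib.Analysis.VonNeumannAlgebra.Basic
import Mathlib.Combinatorics.Hindman
import Mathlib.LinearAlgebra.Complex.Module
import Mathlib.LinearAlgebra.Matrix.NonsingularInverse
import Mathlib.LinearAlgebra.Matrix.Trace
import Mathlib.Order.Filter.AtTopBot.Finset
import Mathlib.Order.Filter.Ultrafilter.Basic
import Mathlib.Order.Interval.Finset.Nat
import Mathlib.RingTheory.RootsOfUnity.Complex
import Mathlib.Tactic
import Mathlib.Topology.Algebra.InfiniteSum.Basic
import Mathlib.Topology.Algebra.Module.Basic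
import Mathlib.Topology.Algebra.Semigroup
import Mathlib.Topology.Algebra.Star.Unitary
import Mathlib.Topology.Algebra.StarSubalgebra
import Mathlib.Topology.Compactness.Compact
import Mathlib.Topology.Instances.Complex
import Mathlib.Topology.MetricSpace.ProperSpace
import Vale.Agent.P082.Bd8.B1

set_option linter.all false

section

namespace Vale.Agent.P082

open Filter Topology

variable {A : Type*} [CStarAlgebra A] {J : Type*} (q : J → Seminorm ℂ A)

include q in
/-- Simultaneous version of `exists_tame_cut`. -/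
lemma exists_tame_cut_finset (hl : ∀ j a x, q j (a * x) ≤ ‖a‖ * q j x)
    (hr : ∀ j a x, q j (x * a) ≤ ‖a‖ * q j x) (Θ : Finset (A →L[ℂ] ℂ)) {ε : ℝ} (hε : 0 < ε)
    (F : Finset J) : ∀ {δ : ℝ}, 0 < δ →
    ∃ e : A, ‖e‖ ≤ 1 ∧ (∀ j ∈ F, q j (1 - e) ≤ δ) ∧ ∀ θ ∈ Θ, EpsTame q ε (rT θ e) := by
  classical
  induction Θ using Finset.induction_on with
  | empty =>
    intro δ hδ
    refine ⟨1, ?_, fun j _ => by simpa using hδ.le, by simp⟩
    rcases subsingleton_or_nontrivial A with hA | hA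
    · have : (1 : A) = 0 := Subsingleton.elim _ _
      rw [this]; simp
    · simp
  | insert θ Θ _ ih =>
    intro δ hδ
    obtain ⟨e₁, he₁, hq₁, ht₁⟩ := ih (half_pos hδ)
    obtain ⟨e₂, he₂, hq₂, ht₂⟩ := exists_tame_cut q hl hr (rT θ e₁) hε F (half_pos hδ)
    refine ⟨e₂ * e₁, ?_, ?_, ?_⟩
    · calc ‖e₂ * e₁‖ ≤ ‖e₂‖ * ‖e₁‖ := norm_mul_le _ _
        _ ≤ 1 * 1 := by (clear * - he₁ he₂; gcongr)
        _ = 1 := one_mul 1
    · intro j hj
      have h1 : (1 : A) - e₂ * e₁ = (1 - e₂) * e₁ + (1 - e₁) := by noncomm_ring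
      calc q j (1 - e₂ * e₁) ≤ q j ((1 - e₂) * e₁) + q j (1 - e₁) := by
            rw [h1]; exact map_add_le_add _ _ _
        _ ≤ ‖e₁‖ * q j (1 - e₂) + q j (1 - e₁) := by gcongr; exact hr j _ _
        _ ≤ 1 * (δ / 2) + δ / 2 := by
            gcongr
            · exact hq₂ j hj
            · exact hq₁ j hj
        _ = δ := by ring
    · intro θ' hθ'
      rw [Finset.mem_insert] at hθ'
      rcases hθ' with rfl | hθ'
      · obtain ⟨F', δ', hδ', h⟩ := ht₂
        refine ⟨F', δ', hδ', fun y hy hj => ?_⟩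
        have := h y hy hj
        simpa only [rT_apply, mul_assoc] using this
      · obtain ⟨F', δ', hδ', h⟩ := ht₁ θ' hθ'
        refine ⟨F', δ', hδ', fun y hy hj => ?_⟩
        have h2 := h (y * e₂) ?_ ?_
        · simpa only [rT_apply, mul_assoc] using h2
        · calc ‖y * e₂‖ ≤ ‖y‖ * ‖e₂‖ := norm_mul_le _ _
            _ ≤ 1 * 1 := by (clear * - he₂ hy; gcongr)
            _ = 1 := one_mul 1
        · intro j hj'
          calc q j (y * e₂) ≤ ‖e₂‖ * q j y := hr j _ _
            _ ≤ 1 * δ' := by gcongr; exact hj j hj'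
            _ = δ' := one_mul _

/-- Smallness of `θ` on small elements `z` such that `θ(· z)` is almost tame. -/
def UnifSmall (θ : A →L[ℂ] ℂ) (β : ℝ) : Prop :=
  ∃ η : ℝ, 0 < η ∧ ∃ F : Finset J, ∃ δ : ℝ, 0 < δ ∧ ∀ z : A, ‖z‖ ≤ 1 → (∀ j ∈ F, q j z ≤ δ) →
    EpsTame q η (rT θ z) → ‖θ z‖ ≤ β

lemma UnifSmall.mono {θ : A →L[ℂ] ℂ} {β β' : ℝ} (h : UnifSmall q θ β) (hβ : β ≤ β') :
    UnifSmall q θ β' := by
  obtain ⟨η, hη, F, δ, hδ, h⟩ := h
  exact ⟨η, hη, F, δ, hδ, fun z h1 h2 h3 => (h z h1 h2 h3).trans hβ⟩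

lemma unifSmall (hl : ∀ j a x, q j (a * x) ≤ ‖a‖ * q j x)
    (hr : ∀ j a x, q j (x * a) ≤ ‖a‖ * q j x)
    (θ : A →L[ℂ] ℂ) {ε : ℝ} (hε : 0 < ε) : UnifSmall q θ ε := by
  classical
  by_contra hnε
  set S : Set ℝ := {a | 0 ≤ a ∧ UnifSmall q θ a} with hS
  have hSne : S.Nonempty := ⟨‖θ‖, norm_nonneg _, 1, one_pos, ∅, 1, one_pos, fun y hy _ _ => by
    calc ‖θ y‖ ≤ ‖θ‖ * ‖y‖ := θ.le_opNorm y
      _ ≤ ‖θ‖ * 1 := by gcongr
      _ = ‖θ‖ := mul_one _⟩
  have hSbdd : BddBelow S := ⟨0, fun a ha => ha.1⟩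
  set β : ℝ := sInf S with hβ
  have hβε : ε ≤ β := by
    apply le_csInf hSne
    intro a ha
    by_contra hlt
    exact hnε (ha.2.mono (hβ := (not_le.mp hlt).le))
  have hβ0 : 0 < β := hε.trans_le hβε
  obtain ⟨κ, hκ0, hκ⟩ : ∃ κ : ℝ, 0 < κ ∧ κ = β / 100 := ⟨β / 100, by positivity, rfl⟩
  obtain ⟨a₀, ha₀S, ha₀⟩ : ∃ a ∈ S, a < β + κ := exists_lt_of_csInf_lt hSne (by linarith only [hκ0])
  obtain ⟨η₀, hη₀, F₀, δ₀, hδ₀, hgood⟩ := ha₀S.2.mono (hβ := ha₀.le)
  have hnot : ¬ UnifSmall q θ (β - κ) := by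
    intro h
    have : β - κ ∈ S := ⟨by linarith only [hκ0, hκ], h⟩
    have := csInf_le hSbdd this
    linarith only [hκ0, this]
  have hex : ∀ η : ℝ, 0 < η → ∀ F : Finset J, ∀ δ : ℝ, 0 < δ → ∃ z : A, ‖z‖ ≤ 1 ∧
      (∀ j ∈ F, q j z ≤ δ) ∧ EpsTame q η (rT θ z) ∧ β - κ < ‖θ z‖ := by
    intro η hη F δ hδ
    by_contra hcon
    push Not at hcon
    exact hnot ⟨η, hη, F, δ, hδ, fun z h1 h2 h3 => hcon z h1 h2 h3⟩
  obtain ⟨η₁, hη₁0, hη₁1, hη₁2⟩ : ∃ η₁ : ℝ, 0 < η₁ ∧ η₁ ≤ η₀ / 4 ∧ η₁ ≤ κ :=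
    ⟨min (η₀ / 4) κ, by positivity, min_le_left _ _, min_le_right _ _⟩
  obtain ⟨z₁, hz₁, hqz₁, htz₁, hθz₁⟩ := hex η₁ hη₁0 F₀ (δ₀ / 4) (by positivity)
  obtain ⟨F₁, δ₁, hδ₁, hmod⟩ := id htz₁
  obtain ⟨z₂, hz₂, hqz₂, htz₂, hθz₂⟩ :=
    hex η₁ hη₁0 (F₀ ∪ F₁) (min (δ₀ / 4) (δ₁ / 100)) (by (clear * - hδ₀ hδ₁; positivity))
  obtain ⟨e, c, hest, he1, he1', hye, hc, hec⟩ :=
    exists_cutoff (z₂ * star z₁) (ε := (1 / 100 : ℝ)) (by positivity)
  have hye' : ‖z₂ * star z₁ * e‖ ≤ 1 / 10 :=
    le_of_sq_le_sq (hye.trans (by norm_num)) (by positivity)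
  have horth : ‖e * z₁ * star z₂‖ ≤ 1 / 10 := by
    have : e * z₁ * star z₂ = star (z₂ * star z₁ * e) := by
      rw [star_mul, star_mul, star_star, hest, mul_assoc]
    rw [this, norm_star]; exact hye'
  have hq1e : ∀ j ∈ F₁, q j (1 - e) ≤ δ₁ := by
    intro j hj
    have h2 : q j z₂ ≤ δ₁ / 100 := (hqz₂ j (Finset.mem_union_right _ hj)).trans (min_le_right _ _)
    have h3 : ‖star z₁‖ ≤ 1 := by rwa [norm_star]
    have h4 : ‖star (z₂ * star z₁)‖ ≤ 1 := by
      rw [norm_star]
      calc ‖z₂ * star z₁‖ ≤ ‖z₂‖ * ‖star z₁‖ := norm_mul_le _ _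
        _ ≤ 1 * 1 := by (clear * - hz₂ h3; gcongr)
        _ = 1 := one_mul 1
    have h5 : 0 ≤ q j z₂ := apply_nonneg _ _
    rw [hec]
    calc q j (c * (star (z₂ * star z₁) * (z₂ * star z₁)))
        ≤ ‖c‖ * (‖star (z₂ * star z₁)‖ * (‖star z₁‖ * q j z₂)) := by
          refine (hl j c _).trans ?_
          gcongr
          refine (hl j _ _).trans ?_
          gcongr
          exact hr j _ _
      _ ≤ (1 / 100 : ℝ)⁻¹ * (1 * (1 * (δ₁ / 100))) := by (clear * - hc h2 h3 h4; gcongr)
      _ = δ₁ := by norm_num; ring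
  have hθe : ‖θ ((1 - e) * z₁)‖ ≤ η₁ := by
    have := hmod (1 - e) he1' hq1e
    simpa only [rT_apply] using this
  have hθe2 : β - 2 * κ ≤ ‖θ (e * z₁)‖ := by
    have h1 : θ z₁ = θ (e * z₁) + θ ((1 - e) * z₁) := by
      rw [← map_add]; congr 1; noncomm_ring
    have h2 : ‖θ z₁‖ ≤ ‖θ (e * z₁)‖ + ‖θ ((1 - e) * z₁)‖ := by rw [h1]; exact norm_add_le _ _
    linarith only [hη₁2, hθz₁, hθe, h2]
  obtain ⟨u, hu1, hu⟩ := exists_phase (θ (e * z₁))
  obtain ⟨v, hv1, hv⟩ := exists_phase (θ z₂)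
  set T : A := u • (e * z₁) + v • z₂ with hT
  have hez : ‖e * z₁‖ ≤ 1 := by
    calc ‖e * z₁‖ ≤ ‖e‖ * ‖z₁‖ := norm_mul_le _ _
      _ ≤ 1 * 1 := by (clear * - hz₁ he1; gcongr)
      _ = 1 := one_mul 1
  have hTn : ‖T‖ ≤ 3 / 2 := by
    have h1 := norm_add_sq_le_of_almost_orthogonal (u • (e * z₁)) (v • z₂)
    have h2 : ‖u • (e * z₁)‖ ≤ 1 := by rw [norm_smul, hu1, one_mul]; exact hez
    have h3 : ‖v • z₂‖ ≤ 1 := by rw [norm_smul, hv1, one_mul]; exact hz₂
    have h4 : ‖(u • (e * z₁)) * star (v • z₂)‖ ≤ 1 / 10 := by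
      have h7 : (u • (e * z₁)) * star (v • z₂) = (u * star v) • (e * z₁ * star z₂) := by
        rw [star_smul, smul_mul_smul_comm]
      rw [h7, norm_smul, norm_mul, hu1, norm_star, hv1, one_mul, one_mul]
      exact horth
    refine le_of_sq_le_sq ?_ (by positivity)
    calc ‖T‖ ^ 2 ≤ ‖u • (e * z₁)‖ ^ 2 + ‖v • z₂‖ ^ 2 + 2 * ‖(u • (e * z₁)) * star (v • z₂)‖ := h1
      _ ≤ 1 ^ 2 + 1 ^ 2 + 2 * (1 / 10) := by (clear * - h2 h3 h4; gcongr)
      _ ≤ (3 / 2) ^ 2 := by norm_num
  have h23 : ‖(2 / 3 : ℂ)‖ = 2 / 3 := by norm_num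
  have hmain : ‖θ ((2 / 3 : ℂ) • T)‖ ≤ β + κ := by
    apply hgood
    · rw [norm_smul, h23]
      linarith only [hTn]
    · intro j hj
      rw [map_smul_eq_mul, h23]
      have h1 : q j T ≤ q j z₁ + q j z₂ := by
        calc q j T ≤ q j (u • (e * z₁)) + q j (v • z₂) := map_add_le_add _ _ _
          _ = q j (e * z₁) + q j z₂ := by
              rw [map_smul_eq_mul, map_smul_eq_mul, hu1, hv1, one_mul, one_mul]
          _ ≤ ‖e‖ * q j z₁ + q j z₂ := by gcongr; exact hl j _ _
          _ ≤ 1 * q j z₁ + q j z₂ := by (clear * - he1; gcongr)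
          _ = q j z₁ + q j z₂ := by rw [one_mul]
      have h2 := hqz₁ j hj
      have h3 : q j z₂ ≤ δ₀ / 4 := (hqz₂ j (Finset.mem_union_left _ hj)).trans (min_le_left _ _)
      have h4 : 0 ≤ q j T := apply_nonneg _ _
      linarith only [hδ₀, h1, h2, h3]
    · obtain ⟨F₂, δ₂, hδ₂, hmod₂⟩ := htz₂
      refine ⟨F₁ ∪ F₂, min δ₁ δ₂, by (clear * - hδ₁ hδ₂; positivity), fun y hy hj => ?_⟩
      have h1 : ‖θ (y * e * z₁)‖ ≤ η₁ := by
        have := hmod (y * e) ?_ ?_
        · simpa only [rT_apply] using this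
        · calc ‖y * e‖ ≤ ‖y‖ * ‖e‖ := norm_mul_le _ _
            _ ≤ 1 * 1 := by (clear * - he1 hy; gcongr)
            _ = 1 := one_mul 1
        · intro j hj'
          have h6 : q j y ≤ δ₁ := (hj j (Finset.mem_union_left _ hj')).trans (min_le_left _ _)
          calc q j (y * e) ≤ ‖e‖ * q j y := hr j _ _
            _ ≤ 1 * δ₁ := by (clear * - he1 h6; gcongr)
            _ = δ₁ := one_mul _
      have h2 : ‖θ (y * z₂)‖ ≤ η₁ := by
        have := hmod₂ y hy fun j hj' =>
          (hj j (Finset.mem_union_right _ hj')).trans (min_le_right _ _)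
        simpa only [rT_apply] using this
      have h3 : rT θ ((2 / 3 : ℂ) • T) y = (2 / 3 : ℂ) * (u * θ (y * e * z₁) + v * θ (y * z₂)) := by
        rw [rT_apply, hT, mul_smul_comm, map_smul, mul_add, map_add, mul_smul_comm, mul_smul_comm,
          map_smul, map_smul, smul_eq_mul, smul_eq_mul, smul_eq_mul, mul_assoc]
      rw [h3, norm_mul, h23]
      have h4 : ‖u * θ (y * e * z₁) + v * θ (y * z₂)‖ ≤ η₁ + η₁ := by
        refine (norm_add_le _ _).trans ?_
        rw [norm_mul, norm_mul, hu1, hv1, one_mul, one_mul]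
        exact add_le_add h1 h2
      have h5 := norm_nonneg (u * θ (y * e * z₁) + v * θ (y * z₂))
      linarith only [hη₁0, hη₁1, h4]
  have hθT : θ T = ((‖θ (e * z₁)‖ + ‖θ z₂‖ : ℝ) : ℂ) := by
    rw [hT, map_add, map_smul, map_smul, smul_eq_mul, smul_eq_mul, hu, hv]
    push_cast
    ring
  rw [map_smul, norm_smul, h23, hθT, Complex.norm_real, Real.norm_eq_abs,
    abs_of_nonneg (by (clear * -; positivity))] at hmain
  linarith only [hκ0, hκ, hθz₂, hθe2, hmain]

/-- `a ↦ θ(· a)` as a continuous linear map. -/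
noncomputable def rTL (θ : A →L[ℂ] ℂ) : A →L[ℂ] (A →L[ℂ] ℂ) :=
  (ContinuousLinearMap.compL ℂ A A ℂ θ).comp ((ContinuousLinearMap.mul ℂ A).flip)

@[simp] lemma rTL_apply (θ : A →L[ℂ] ℂ) (a : A) : rTL θ a = rT θ a := rfl

/-- The abstract form of Lemma Z. -/
theorem exists_z (hl : ∀ j a x, q j (a * x) ≤ ‖a‖ * q j x)
    (hr : ∀ j a x, q j (x * a) ≤ ‖a‖ * q j x) :
    ∃ z : (A →L[ℂ] ℂ) →L[ℂ] ℂ,
      (∀ θ x, z (lT θ x) = z (rT θ x)) ∧
      (∀ θ, (∀ ε, 0 < ε → EpsTame q ε θ) → z θ = θ 1) ∧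
      (∀ θ ε, 0 < ε → EpsTame q ε (z.comp (rTL θ))) := by
  classical
  let I := Finset (A →L[ℂ] ℂ) × Finset J × ℕ
  have hchoose : ∀ i : I, ∃ e : A, ‖e‖ ≤ 1 ∧ (∀ j ∈ i.2.1, q j (1 - e) ≤ 1 / ((i.2.2 : ℝ) + 1)) ∧
      ∀ θ ∈ i.1, EpsTame q (1 / ((i.2.2 : ℝ) + 1)) (rT θ e) := fun i =>
    exists_tame_cut_finset q hl hr i.1 (by (clear * -; positivity)) i.2.1 (by (clear * -; positivity))
  choose e he1 heq het using hchoose
  let U : Ultrafilter I := Ultrafilter.of atTop
  have hU : (U : Filter I) ≤ atTop := Ultrafilter.of_le atTop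
  have hlim : ∀ θ : A →L[ℂ] ℂ, ∃ w : ℂ, Tendsto (fun i => θ (e i)) U (𝓝 w) := by
    intro θ
    have hc : IsCompact (Metric.closedBall (0 : ℂ) ‖θ‖) := isCompact_closedBall _ _
    have hmem : ∀ i, θ (e i) ∈ Metric.closedBall (0 : ℂ) ‖θ‖ := by
      intro i
      rw [mem_closedBall_zero_iff]
      calc ‖θ (e i)‖ ≤ ‖θ‖ * ‖e i‖ := θ.le_opNorm _
        _ ≤ ‖θ‖ * 1 := by gcongr; exact he1 i
        _ = ‖θ‖ := mul_one _
    obtain ⟨w, -, hw⟩ := hc.ultrafilter_le_nhds (U.map fun i => θ (e i)) (by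
      rw [Filter.le_principal_iff]
      change (fun i => θ (e i)) ⁻¹' Metric.closedBall (0 : ℂ) ‖θ‖ ∈ (U : Filter I)
      exact Filter.univ_mem' hmem)
    exact ⟨w, hw⟩
  choose z₀ hz₀ using hlim
  have hbound : ∀ θ, ‖z₀ θ‖ ≤ ‖θ‖ := by
    intro θ
    refine le_of_tendsto (hz₀ θ).norm (Filter.Eventually.of_forall fun i => ?_)
    calc ‖θ (e i)‖ ≤ ‖θ‖ * ‖e i‖ := θ.le_opNorm _
      _ ≤ ‖θ‖ * 1 := by gcongr; exact he1 i
      _ = ‖θ‖ := mul_one _
  let zl : (A →L[ℂ] ℂ) →ₗ[ℂ] ℂ :=
    { toFun := z₀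
      map_add' := fun θ₁ θ₂ => by
        refine tendsto_nhds_unique (hz₀ (θ₁ + θ₂)) ?_
        exact (hz₀ θ₁).add (hz₀ θ₂)
      map_smul' := fun c θ => by
        refine tendsto_nhds_unique (hz₀ (c • θ)) ?_
        exact (hz₀ θ).const_mul c }
  let z : (A →L[ℂ] ℂ) →L[ℂ] ℂ := zl.mkContinuous 1 fun θ => by
    rw [one_mul]; exact hbound θ
  have hz : ∀ θ, Tendsto (fun i => θ (e i)) U (𝓝 (z θ)) := hz₀
  -- eventual properties
  have hevΘ : ∀ θ : A →L[ℂ] ℂ, ∀ᶠ i in (U : Filter I), θ ∈ i.1 := by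
    intro θ
    apply hU
    filter_upwards [eventually_ge_atTop (({θ}, ∅, 0) : I)] with i hi
    exact hi.1 (Finset.mem_singleton_self θ)
  have hevF : ∀ F : Finset J, ∀ᶠ i in (U : Filter I), F ⊆ i.2.1 := by
    intro F
    apply hU
    filter_upwards [eventually_ge_atTop ((∅, F, 0) : I)] with i hi
    exact hi.2.1
  have hevn : ∀ ε : ℝ, 0 < ε → ∀ᶠ i in (U : Filter I), 1 / ((i.2.2 : ℝ) + 1) ≤ ε := by
    intro ε hε
    obtain ⟨n, hn⟩ := exists_nat_one_div_lt hε
    apply hU
    filter_upwards [eventually_ge_atTop ((∅, ∅, n) : I)] with i hi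
    have : n ≤ i.2.2 := hi.2.2
    have h2 : (n : ℝ) ≤ (i.2.2 : ℝ) := by exact_mod_cast this
    calc 1 / ((i.2.2 : ℝ) + 1) ≤ 1 / ((n : ℝ) + 1) := by (clear * - h2; gcongr)
      _ ≤ ε := hn.le
  -- (a)
  have ha : ∀ θ x, z (lT θ x) = z (rT θ x) := by
    intro θ x
    obtain ⟨c, hc0, hc1, hc2⟩ : ∃ c : ℝ, 0 < c ∧ c * (‖x‖ + 1) = 1 / 2 ∧ c ≤ 1 / 2 := by
      have hx : 0 < ‖x‖ + 1 := by positivity
      have hx1 : 1 ≤ ‖x‖ + 1 := by linarith [norm_nonneg x]
      refine ⟨(2 * (‖x‖ + 1))⁻¹, by (clear * -; positivity), by field_simp, ?_⟩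
      rw [mul_inv]
      have : (‖x‖ + 1)⁻¹ ≤ 1 := inv_le_one_of_one_le₀ hx1
      linarith only [this]
    have hcx : c * ‖x‖ ≤ 1 / 2 := by linarith only [hc0, hc1]
    have hcn : ‖(c : ℂ)‖ = c := by rw [Complex.norm_real, Real.norm_eq_abs, abs_of_pos hc0]
    have hw : ∀ i, θ ((c : ℂ) • (x * e i - e i * x)) = (c : ℂ) * (lT θ x (e i) - rT θ x (e i)) := by
      intro i
      rw [map_smul, map_sub, smul_eq_mul, lT_apply, rT_apply]
    have hlim1 : Tendsto (fun i => θ ((c : ℂ) • (x * e i - e i * x))) U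
        (𝓝 ((c : ℂ) * (z (lT θ x) - z (rT θ x)))) := by
      simp only [hw]
      exact ((hz (lT θ x)).sub (hz (rT θ x))).const_mul _
    have hlim2 : Tendsto (fun i => θ ((c : ℂ) • (x * e i - e i * x))) U (𝓝 0) := by
      rw [Metric.tendsto_nhds]
      intro ε hε
      obtain ⟨η, hη, F, δ, hδ, hsm⟩ := unifSmall q hl hr θ (half_pos hε)
      filter_upwards [hevΘ θ, hevΘ (rT θ x), hevF F, hevn (min η δ) (by positivity)]
        with i h1 h2 h3 h4
      rw [dist_zero_right]
      refine lt_of_le_of_lt (hsm _ ?_ ?_ ?_) (half_lt_self hε)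
      · rw [norm_smul, hcn]
        have h5 : ‖x * e i - e i * x‖ ≤ 2 * ‖x‖ := by
          calc ‖x * e i - e i * x‖ ≤ ‖x * e i‖ + ‖e i * x‖ := norm_sub_le _ _
            _ ≤ ‖x‖ * ‖e i‖ + ‖e i‖ * ‖x‖ := add_le_add (norm_mul_le _ _) (norm_mul_le _ _)
            _ ≤ ‖x‖ * 1 + 1 * ‖x‖ := by gcongr <;> exact he1 i
            _ = 2 * ‖x‖ := by ring
        calc c * ‖x * e i - e i * x‖ ≤ c * (2 * ‖x‖) := by (clear * - hc0 h5; gcongr)
          _ ≤ 1 := by linarith only [hc0, hc1]
      · intro j hj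
        rw [map_smul_eq_mul, hcn]
        have h5 : x * e i - e i * x = (1 - e i) * x - x * (1 - e i) := by noncomm_ring
        have h6 : q j (x * e i - e i * x) ≤ 2 * ‖x‖ * q j (1 - e i) := by
          rw [h5]
          calc q j ((1 - e i) * x - x * (1 - e i)) ≤ q j ((1 - e i) * x) + q j (x * (1 - e i)) :=
                map_sub_le_add _ _ _
            _ ≤ ‖x‖ * q j (1 - e i) + ‖x‖ * q j (1 - e i) := add_le_add (hr j _ _) (hl j _ _)
            _ = 2 * ‖x‖ * q j (1 - e i) := by ring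
        have h7 : q j (1 - e i) ≤ δ := (heq i j (h3 hj)).trans (h4.trans (min_le_right _ _))
        have h8 : 0 ≤ q j (1 - e i) := apply_nonneg _ _
        calc c * q j (x * e i - e i * x) ≤ c * (2 * ‖x‖ * q j (1 - e i)) := by (clear * - hc0 h6; gcongr)
          _ = (2 * (c * ‖x‖)) * q j (1 - e i) := by ring
          _ ≤ (2 * (1 / 2)) * q j (1 - e i) := by (clear * - hcx; gcongr)
          _ ≤ δ := by linarith only [h7]
      · obtain ⟨F₁, δ₁, hδ₁, hm₁⟩ := het i θ h1
        obtain ⟨F₂, δ₂, hδ₂, hm₂⟩ := het i (rT θ x) h2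
        refine ⟨F₁ ∪ F₂, min δ₁ δ₂, by (clear * - hδ₁ hδ₂; positivity), fun y hy hyq => ?_⟩
        have e1 : ‖θ ((c : ℂ) • (y * x) * e i)‖ ≤ 1 / ((i.2.2 : ℝ) + 1) / 2 := by
          have hkey := hm₁ ((2 * c : ℂ) • (y * x)) ?_ ?_
          · have h9 : rT θ (e i) ((2 * c : ℂ) • (y * x)) = 2 * θ ((c : ℂ) • (y * x) * e i) := by
              rw [rT_apply, smul_mul_assoc, smul_mul_assoc, map_smul, map_smul, smul_eq_mul,
                smul_eq_mul]
              ring
            rw [h9, norm_mul] at hkey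
            have : ‖(2 : ℂ)‖ = 2 := by norm_num
            rw [this] at hkey
            linarith only [hkey]
          · rw [norm_smul, norm_mul, hcn]
            have : ‖(2 : ℂ)‖ = 2 := by norm_num
            rw [this]
            calc 2 * c * ‖y * x‖ ≤ 2 * c * (‖y‖ * ‖x‖) := by gcongr; exact norm_mul_le _ _
              _ ≤ 2 * c * (1 * ‖x‖) := by (clear * - hc0 hy; gcongr)
              _ ≤ 1 := by linarith only [hc0, hc1]
          · intro j hj
            rw [map_smul_eq_mul, norm_mul, hcn]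
            have : ‖(2 : ℂ)‖ = 2 := by norm_num
            rw [this]
            have h10 : q j y ≤ δ₁ := (hyq j (Finset.mem_union_left _ hj)).trans (min_le_left _ _)
            have h11 : 0 ≤ q j y := apply_nonneg _ _
            calc 2 * c * q j (y * x) ≤ 2 * c * (‖x‖ * q j y) := by gcongr; exact hr j _ _
              _ = (2 * (c * ‖x‖)) * q j y := by ring
              _ ≤ (2 * (1 / 2)) * q j y := by (clear * - hcx; gcongr)
              _ ≤ δ₁ := by linarith only [h10]
        have e2 : ‖θ (y * e i * x)‖ ≤ 1 / ((i.2.2 : ℝ) + 1) := by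
          have := hm₂ y hy fun j hj =>
            (hyq j (Finset.mem_union_right _ hj)).trans (min_le_right _ _)
          simpa only [rT_apply] using this
        have h12 : rT θ ((c : ℂ) • (x * e i - e i * x)) y
            = θ ((c : ℂ) • (y * x) * e i) - (c : ℂ) * θ (y * e i * x) := by
          rw [rT_apply, mul_smul_comm, map_smul, mul_sub, map_sub, smul_mul_assoc, map_smul,
            smul_eq_mul, smul_eq_mul, mul_sub, mul_assoc, mul_assoc]
        rw [h12]
        have h13 : ‖θ ((c : ℂ) • (y * x) * e i) - (c : ℂ) * θ (y * e i * x)‖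
            ≤ 1 / ((i.2.2 : ℝ) + 1) / 2 + (1 / 2) * (1 / ((i.2.2 : ℝ) + 1)) := by
          refine (norm_sub_le _ _).trans (add_le_add e1 ?_)
          rw [norm_mul, hcn]
          (clear * - hc2 e2; gcongr)
        have h14 := h4.trans (min_le_left _ _)
        linarith only [h13, h14]
    have h0 := tendsto_nhds_unique hlim1 hlim2
    have hc0' : (c : ℂ) ≠ 0 := by
      exact_mod_cast hc0.ne'
    rcases mul_eq_zero.mp h0 with h | h
    · exact absurd h hc0'
    · exact sub_eq_zero.mp h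
  refine ⟨z, ha, ?_, ?_⟩
  · intro θ hθ
    have hlim2 : Tendsto (fun i => θ (e i)) U (𝓝 (θ 1)) := by
      rw [Metric.tendsto_nhds]
      intro ε hε
      obtain ⟨F, δ, hδ, hm⟩ := hθ (ε / 4) (by (clear * - hε; positivity))
      filter_upwards [hevF F, hevn δ hδ] with i h1 h2
      rw [dist_comm, dist_eq_norm, ← map_sub]
      have h3 := hm ((1 / 2 : ℂ) • (1 - e i)) ?_ ?_
      · rw [map_smul, norm_smul] at h3
        have : ‖(1 / 2 : ℂ)‖ = 1 / 2 := by norm_num
        rw [this] at h3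
        linarith only [hε, h3]
      · rw [norm_smul]
        have : ‖(1 / 2 : ℂ)‖ = 1 / 2 := by norm_num
        rw [this]
        have h4 : ‖(1 : A) - e i‖ ≤ ‖(1 : A)‖ + ‖e i‖ := norm_sub_le _ _
        have h5 : ‖(1 : A)‖ ≤ 1 := by
          rcases subsingleton_or_nontrivial A with hA | hA
          · have : (1 : A) = 0 := Subsingleton.elim _ _
            rw [this]; simp
          · simp
        have h6 := he1 i
        linarith only [h4, h5, h6]
      · intro j hj
        rw [map_smul_eq_mul]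
        have : ‖(1 / 2 : ℂ)‖ = 1 / 2 := by norm_num
        rw [this]
        have h4 := heq i j (h1 hj)
        have h5 : 0 ≤ q j (1 - e i) := apply_nonneg _ _
        linarith only [hδ, h2, h4]
    exact tendsto_nhds_unique (hz θ) hlim2
  · intro θ ε hε
    obtain ⟨η, hη, F, δ, hδ, hsm⟩ := unifSmall q hl hr θ (ε := ε / 4) (by positivity)
    -- the fixed index
    obtain ⟨i₀, hi₀θ, hi₀F, hi₀n⟩ : ∃ i₀ : I, θ ∈ i₀.1 ∧ F ⊆ i₀.2.1 ∧
        1 / ((i₀.2.2 : ℝ) + 1) ≤ min (min η δ) (ε / 4) := by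
      have := (hevΘ θ).and ((hevF F).and (hevn (min (min η δ) (ε / 4)) (by (clear * - hε hη hδ; positivity))))
      exact this.exists
    have hn₀η : 1 / ((i₀.2.2 : ℝ) + 1) ≤ η := hi₀n.trans ((min_le_left _ _).trans (min_le_left _ _))
    have hn₀δ : 1 / ((i₀.2.2 : ℝ) + 1) ≤ δ := hi₀n.trans ((min_le_left _ _).trans (min_le_right _ _))
    have hn₀ε : 1 / ((i₀.2.2 : ℝ) + 1) ≤ ε / 4 := hi₀n.trans (min_le_right _ _)
    obtain ⟨F', δ', hδ', hm⟩ := het i₀ θ hi₀θ
    refine ⟨F', δ', hδ', fun a ha1 haq => ?_⟩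
    have h1 : (z.comp (rTL θ)) a = z (lT θ a) := by
      rw [ContinuousLinearMap.comp_apply, rTL_apply, ha]
    rw [h1]
    refine le_of_tendsto (hz (lT θ a)).norm ?_
    filter_upwards [hevΘ θ, hevF F, hevn (min η δ) (by positivity)] with i g1 g2 g3
    have hniη : 1 / ((i.2.2 : ℝ) + 1) ≤ η := g3.trans (min_le_left _ _)
    have hniδ : 1 / ((i.2.2 : ℝ) + 1) ≤ δ := g3.trans (min_le_right _ _)
    have h12 : ‖(1 / 2 : ℂ)‖ = 1 / 2 := by norm_num
    have hdiff : ‖θ ((1 / 2 : ℂ) • (a * (e i - e i₀)))‖ ≤ ε / 4 := by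
      apply hsm
      · rw [norm_smul, h12]
        have h5 : ‖a * (e i - e i₀)‖ ≤ 2 := by
          calc ‖a * (e i - e i₀)‖ ≤ ‖a‖ * ‖e i - e i₀‖ := norm_mul_le _ _
            _ ≤ 1 * (‖e i‖ + ‖e i₀‖) := by gcongr; exact norm_sub_le _ _
            _ ≤ 1 * (1 + 1) := by gcongr <;> exact he1 _
            _ = 2 := by norm_num
        linarith only [h5]
      · intro j hj
        rw [map_smul_eq_mul, h12]
        have h5 : e i - e i₀ = (1 - e i₀) - (1 - e i) := by noncomm_ring
        have h6 : q j (e i - e i₀) ≤ δ + δ := by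
          rw [h5]
          refine (map_sub_le_add _ _ _).trans (add_le_add ?_ ?_)
          · exact (heq i₀ j (hi₀F hj)).trans hn₀δ
          · exact (heq i j (g2 hj)).trans hniδ
        have h7 : q j (a * (e i - e i₀)) ≤ δ + δ := by
          have h8 : 0 ≤ q j (e i - e i₀) := apply_nonneg _ _
          calc q j (a * (e i - e i₀)) ≤ ‖a‖ * q j (e i - e i₀) := hl j _ _
            _ ≤ 1 * q j (e i - e i₀) := by (clear * - ha1; gcongr)
            _ ≤ δ + δ := by linarith only [h6]
        linarith only [h7]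
      · obtain ⟨F₁, δ₁, hδ₁, hm₁⟩ := het i θ g1
        refine ⟨F₁ ∪ F', min δ₁ δ', by (clear * - hδ' hδ₁; positivity), fun y hy hyq => ?_⟩
        have hya : ‖y * a‖ ≤ 1 := by
          calc ‖y * a‖ ≤ ‖y‖ * ‖a‖ := norm_mul_le _ _
            _ ≤ 1 * 1 := by (clear * - ha1 hy; gcongr)
            _ = 1 := one_mul 1
        have hqya : ∀ j, q j (y * a) ≤ q j y := by
          intro j
          have h8 : 0 ≤ q j y := apply_nonneg _ _
          calc q j (y * a) ≤ ‖a‖ * q j y := hr j _ _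
            _ ≤ 1 * q j y := by (clear * - ha1; gcongr)
            _ = q j y := one_mul _
        have k1 : ‖θ (y * a * e i)‖ ≤ η := by
          have := hm₁ (y * a) hya fun j hj => (hqya j).trans
            ((hyq j (Finset.mem_union_left _ hj)).trans (min_le_left _ _))
          rw [rT_apply] at this
          exact this.trans hniη
        have k2 : ‖θ (y * a * e i₀)‖ ≤ η := by
          have := hm (y * a) hya fun j hj => (hqya j).trans
            ((hyq j (Finset.mem_union_right _ hj)).trans (min_le_right _ _))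
          rw [rT_apply] at this
          exact this.trans hn₀η
        have k3 : rT θ ((1 / 2 : ℂ) • (a * (e i - e i₀))) y
            = (1 / 2 : ℂ) * (θ (y * a * e i) - θ (y * a * e i₀)) := by
          rw [rT_apply, mul_smul_comm, map_smul, smul_eq_mul, ← mul_assoc, mul_sub, map_sub]
        rw [k3, norm_mul, h12]
        have k4 : ‖θ (y * a * e i) - θ (y * a * e i₀)‖ ≤ η + η :=
          (norm_sub_le _ _).trans (add_le_add k1 k2)
        linarith only [k4]
    have h3 : lT θ a (e i) = 2 * θ ((1 / 2 : ℂ) • (a * (e i - e i₀))) + θ (a * e i₀) := by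
      rw [lT_apply, map_smul, mul_sub, map_sub, smul_eq_mul]
      ring
    have h4 : ‖θ (a * e i₀)‖ ≤ ε / 4 := by
      have := hm a ha1 haq
      rw [rT_apply] at this
      exact this.trans hn₀ε
    rw [h3]
    refine (norm_add_le _ _).trans ?_
    rw [norm_mul]
    have : ‖(2 : ℂ)‖ = 2 := by norm_num
    rw [this]
    linarith only [hε, hdiff, h4]

end Vale.Agent.P082
end

section
attribute [local instance] Vale.Agent.P082.AlgFast.nr Vale.Agent.P082.AlgFast.na
  Vale.Agent.P082.AlgFast.sr Vale.Agent.P082.AlgFast.ng Vale.Agent.P082.AlgFast.sg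
  Vale.Agent.P082.AlgFast.ns Vale.Agent.P082.AlgFast.ri Vale.Agent.P082.AlgFast.ag
  Vale.Agent.P082.AlgFast.am Vale.Agent.P082.AlgFast.mo Vale.Agent.P082.AlgFast.pm
  Vale.Agent.P082.AlgFast.us Vale.Agent.P082.AlgFast.ts Vale.Agent.P082.AlgFast.ets
  Vale.Agent.P082.AlgFast.eng Vale.Agent.P082.AlgFast.esg Vale.Agent.P082.AlgFast.ens
  Vale.Agent.P082.AlgFast.eam Vale.Agent.P082.AlgFast.emo Vale.Agent.P082.AlgFast.nu
  Vale.Agent.P082.AlgFast.sag Vale.Agent.P082.AlgFast.agr Vale.Agent.P082.AlgFast.mon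
  Vale.Agent.P082.AlgFast.srg

open scoped InnerProductSpace ComplexConjugate

namespace Vale.Agent.P082

universe u

set_option maxSynthPendingDepth 3

variable {H : Type u} [NormedAddCommGroup H] [InnerProductSpace ℂ H] [CompleteSpace H]

/-- the functional `y ↦ ⟪β, φ(y) α⟫` -/
noncomputable def matCoef (P : VonNeumannAlgebra H) (φ : Alg P →L[ℂ] Alg P) (α β : H) :
    Alg P →L[ℂ] ℂ := (vecFun P α β).comp φ

lemma matCoef_apply (P : VonNeumannAlgebra H) (φ : Alg P →L[ℂ] Alg P) (α β : H) (y : Alg P) :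
    matCoef P φ α β y = ⟪β, (φ y : H →L[ℂ] H) α⟫_ℂ := rfl

lemma norm_matCoef_le (P : VonNeumannAlgebra H) (φ : Alg P →L[ℂ] Alg P) (α β : H) :
    ‖matCoef P φ α β‖ ≤ ‖β‖ * ‖φ‖ * ‖α‖ := by
  refine ContinuousLinearMap.opNorm_le_bound _ (by positivity) (fun y => ?_)
  rw [matCoef_apply]
  refine (norm_inner_apply_le _ _ _).trans ?_
  have h : ‖(φ y : H →L[ℂ] H)‖ ≤ ‖φ‖ * ‖y‖ := φ.le_opNorm y
  calc ‖(φ y : H →L[ℂ] H)‖ * ‖β‖ * ‖α‖ ≤ (‖φ‖ * ‖y‖) * ‖β‖ * ‖α‖ := by gcongr
    _ = ‖β‖ * ‖φ‖ * ‖α‖ * ‖y‖ := by ring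

end Vale.Agent.P082
end

section
attribute [local instance] Vale.Agent.P082.AlgFast.nr Vale.Agent.P082.AlgFast.na
  Vale.Agent.P082.AlgFast.sr Vale.Agent.P082.AlgFast.ng Vale.Agent.P082.AlgFast.sg
  Vale.Agent.P082.AlgFast.ns Vale.Agent.P082.AlgFast.ri Vale.Agent.P082.AlgFast.ag
  Vale.Agent.P082.AlgFast.am Vale.Agent.P082.AlgFast.mo Vale.Agent.P082.AlgFast.pm
  Vale.Agent.P082.AlgFast.us Vale.Agent.P082.AlgFast.ts Vale.Agent.P082.AlgFast.ets
  Vale.Agent.P082.AlgFast.eng Vale.Agent.P082.AlgFast.esg Vale.Agent.P082.AlgFast.ens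
  Vale.Agent.P082.AlgFast.eam Vale.Agent.P082.AlgFast.emo Vale.Agent.P082.AlgFast.nu
  Vale.Agent.P082.AlgFast.sag Vale.Agent.P082.AlgFast.agr Vale.Agent.P082.AlgFast.mon
  Vale.Agent.P082.AlgFast.srg

open scoped InnerProductSpace ComplexConjugate Topology ComplexStarModule

namespace Vale.Agent.P082

universe u

section NormTame

variable {A : Type*} [CStarAlgebra A] {J : Type*}

/-- For a selfadjoint contraction `y` there are `c, k` with `c² + y² = 1`, `c` selfadjoint commuting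
with `y`, `1 - c = k y`, `‖k‖ ≤ 1`. -/
lemma exists_sqrt_one_sub (y : A) (hy : IsSelfAdjoint y) (hy1 : ‖y‖ ≤ 1) :
    ∃ c k : A, IsSelfAdjoint c ∧ c * y = y * c ∧ y * y + c * c = 1 ∧ 1 - c = k * y ∧ ‖k‖ ≤ 1 := by
  have hspec : ∀ t ∈ spectrum ℝ y, 0 ≤ 1 - t ^ 2 := by
    intro t ht
    have h1 : ‖t‖ ≤ ‖y‖ * ‖(1 : A)‖ := spectrum.norm_le_norm_mul_of_mem ht
    have h2 : ‖(1 : A)‖ ≤ 1 := by
      rcases subsingleton_or_nontrivial A with hA | hA
      · have : (1 : A) = 0 := Subsingleton.elim _ _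
        rw [this, norm_zero]; exact zero_le_one
      · rw [CStarRing.norm_one]
    have h3 : |t| ≤ 1 := by
      rw [Real.norm_eq_abs] at h1
      calc |t| ≤ ‖y‖ * ‖(1 : A)‖ := h1
        _ ≤ 1 * 1 := by gcongr
        _ = 1 := one_mul 1
    nlinarith only [h3, abs_nonneg t, sq_abs t]
  have hc1 : Continuous (fun t : ℝ => √(1 - t ^ 2)) := by fun_prop
  have hk1 : Continuous (fun t : ℝ => t / (1 + √(1 - t ^ 2))) := by
    refine Continuous.div (by fun_prop) (by fun_prop) (fun t => ?_)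
    have := Real.sqrt_nonneg (1 - t ^ 2)
    (clear * -; positivity)
  have hcy : cfc (fun t : ℝ => √(1 - t ^ 2)) y * y = y * cfc (fun t : ℝ => √(1 - t ^ 2)) y := by
    have h := (cfc_commute_cfc (fun t : ℝ => √(1 - t ^ 2)) (fun t : ℝ => t) y).eq
    rwa [cfc_id' ℝ y] at h
  refine ⟨cfc (fun t : ℝ => √(1 - t ^ 2)) y, cfc (fun t : ℝ => t / (1 + √(1 - t ^ 2))) y,
    cfc_predicate _ _, hcy, ?_, ?_, ?_⟩
  · rw [← cfc_mul (fun t : ℝ => √(1 - t ^ 2)) (fun t : ℝ => √(1 - t ^ 2)) y
      hc1.continuousOn hc1.continuousOn]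
    have h1 : y * y = cfc (fun t : ℝ => t * t) y := by
      rw [cfc_mul (fun t : ℝ => t) (fun t : ℝ => t) y continuousOn_id continuousOn_id,
        cfc_id' ℝ y]
    rw [h1, ← cfc_add (a := y) (fun t : ℝ => t * t) (fun t : ℝ => √(1 - t ^ 2) * √(1 - t ^ 2))
      (by fun_prop) (by fun_prop)]
    rw [← cfc_const_one ℝ y]
    apply cfc_congr
    intro t ht
    have := Real.mul_self_sqrt (hspec t ht)
    simp only
    rw [this]
    ring
  · have h1 : (1 : A) - cfc (fun t : ℝ => √(1 - t ^ 2)) y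
        = cfc (fun t : ℝ => 1 - √(1 - t ^ 2)) y := by
      rw [cfc_sub (fun _ : ℝ => (1 : ℝ)) (fun t : ℝ => √(1 - t ^ 2)) y
        continuousOn_const hc1.continuousOn, cfc_const_one ℝ y]
    have h2 : cfc (fun t : ℝ => t / (1 + √(1 - t ^ 2))) y * y
        = cfc (fun t : ℝ => t / (1 + √(1 - t ^ 2)) * t) y := by
      rw [cfc_mul (fun t : ℝ => t / (1 + √(1 - t ^ 2))) (fun t : ℝ => t) y
        hk1.continuousOn continuousOn_id, cfc_id' ℝ y]
    rw [h1, h2]
    apply cfc_congr
    intro t ht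
    have h3 := Real.mul_self_sqrt (hspec t ht)
    have h4 := Real.sqrt_nonneg (1 - t ^ 2)
    simp only
    field_simp
    linarith only [h3]
  · apply norm_cfc_le zero_le_one
    intro t ht
    have h3 := hspec t ht
    have h4 := Real.sqrt_nonneg (1 - t ^ 2)
    have h5 : |t| ≤ 1 := by
      rw [abs_le]; constructor <;> nlinarith only [h3]
    rw [norm_div, Real.norm_eq_abs, Real.norm_eq_abs, abs_of_pos (by linarith only [h4] : 0 < 1 + √(1 - t ^ 2)),
      div_le_one (by linarith only [h4])]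
    linarith only [h4, h5]

variable {K : Type*} [NormedAddCommGroup K] [InnerProductSpace ℂ K]

/-- Lemma 1: a bounded map into a Hilbert space which is weakly tame is tame in norm. -/
theorem norm_tame_of_weak (q : J → Seminorm ℂ A) (hl : ∀ j a x, q j (a * x) ≤ ‖a‖ * q j x)
    (hstar : ∀ j x, q j (star x) = q j x)
    (T : A →ₗ[ℂ] K) (C : ℝ) (hC : ∀ x, ‖T x‖ ≤ C * ‖x‖)
    (hT : ∀ (w : K) (ε : ℝ), 0 < ε → ∃ F : Finset J, ∃ δ : ℝ, 0 < δ ∧ ∀ y : A, ‖y‖ ≤ 1 →
      (∀ j ∈ F, q j y ≤ δ) → ‖⟪w, T y⟫_ℂ‖ ≤ ε)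
    {ε : ℝ} (hε : 0 < ε) :
    ∃ F : Finset J, ∃ δ : ℝ, 0 < δ ∧ ∀ y : A, ‖y‖ ≤ 1 → (∀ j ∈ F, q j y ≤ δ) → ‖T y‖ ≤ ε := by
  classical
  set S : Set ℝ := {r | ∃ u ∈ unitary A, r = ‖T u‖ ^ 2} with hS
  have hu1 : ∀ u ∈ unitary A, ‖u‖ ≤ 1 := by
    intro u hu
    rcases subsingleton_or_nontrivial A with hA | hA
    · have : u = 0 := Subsingleton.elim _ _
      rw [this, norm_zero]; exact zero_le_one
    · exact (CStarRing.norm_of_mem_unitary hu).le
  have hSb : BddAbove S := by
    refine ⟨|C| ^ 2, ?_⟩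
    rintro r ⟨u, hu, rfl⟩
    have h1 : ‖T u‖ ≤ |C| := by
      calc ‖T u‖ ≤ C * ‖u‖ := hC u
        _ ≤ |C| * 1 := by
            gcongr
            · exact le_abs_self C
            · exact hu1 u hu
        _ = |C| := mul_one _
    (clear * - h1; gcongr)
  have hSne : S.Nonempty := ⟨_, 1, one_mem _, rfl⟩
  set d : ℝ := ε ^ 2 / 12 with hd
  have hd0 : 0 < d := by positivity
  obtain ⟨r, ⟨u, hu, rfl⟩, hr⟩ := exists_lt_of_lt_csSup hSne (by linarith only [hd0] : sSup S - d < sSup S)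
  obtain ⟨F, δ, hδ, hF⟩ := hT (T u) d hd0
  have huu : star u * u = 1 := Unitary.star_mul_self_of_mem hu
  have huu' : u * star u = 1 := Unitary.mul_star_self_of_mem hu
  -- the selfadjoint case
  have key : ∀ y : A, IsSelfAdjoint y → ‖y‖ ≤ 1 → (∀ j ∈ F, q j y ≤ δ) →
      ‖T (u * y)‖ ^ 2 ≤ 3 * d := by
    intro y hy hy1 hyq
    obtain ⟨c, k, hc, hcy, hyc, hck, hk⟩ := exists_sqrt_one_sub y hy hy1
    have hv1 : u * (y + Complex.I • c) ∈ unitary A := by
      refine mul_mem hu ?_
      rw [Unitary.mem_iff]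
      have e1 : star (y + Complex.I • c) = y - Complex.I • c := by
        rw [star_add, star_smul, hy.star_eq, hc.star_eq]
        simp [sub_eq_add_neg]
      rw [e1]
      have e2 : Complex.I * Complex.I = -1 := Complex.I_mul_I
      constructor
      · calc (y - Complex.I • c) * (y + Complex.I • c)
            = y * y - (Complex.I * Complex.I) • (c * c) + Complex.I • (y * c - c * y) := by
              simp only [sub_mul, mul_add, smul_mul_assoc, mul_smul_comm, smul_smul, smul_sub]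
              abel
          _ = 1 := by rw [e2, hcy, sub_self, smul_zero, neg_smul, one_smul, sub_neg_eq_add, hyc,
              add_zero]
      · calc (y + Complex.I • c) * (y - Complex.I • c)
            = y * y - (Complex.I * Complex.I) • (c * c) + Complex.I • (c * y - y * c) := by
              simp only [add_mul, mul_sub, smul_mul_assoc, mul_smul_comm, smul_sub, smul_add,
                smul_smul]
              abel
          _ = 1 := by rw [e2, hcy, sub_self, smul_zero, neg_smul, one_smul, sub_neg_eq_add, hyc,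
              add_zero]
    have hv2 : u * (y - Complex.I • c) ∈ unitary A := by
      refine mul_mem hu ?_
      have e1 : star (y + Complex.I • c) = y - Complex.I • c := by
        rw [star_add, star_smul, hy.star_eq, hc.star_eq]
        simp [sub_eq_add_neg]
      rw [← e1]
      have h3 : star u * (u * (y + Complex.I • c)) = y + Complex.I • c := by
        rw [← mul_assoc, huu, one_mul]
      rw [← h3]
      exact Unitary.star_mem (mul_mem (Unitary.star_mem hu) hv1)
    have b1 : ‖T (u * (y + Complex.I • c))‖ ^ 2 ≤ sSup S := le_csSup hSb ⟨_, hv1, rfl⟩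
    have b2 : ‖T (u * (y - Complex.I • c))‖ ^ 2 ≤ sSup S := le_csSup hSb ⟨_, hv2, rfl⟩
    have e3 : T (u * (y + Complex.I • c)) = T (u * y) + Complex.I • T (u * c) := by
      rw [mul_add, map_add, mul_smul_comm, map_smul]
    have e4 : T (u * (y - Complex.I • c)) = T (u * y) - Complex.I • T (u * c) := by
      rw [mul_sub, map_sub, mul_smul_comm, map_smul]
    rw [e3] at b1
    rw [e4] at b2
    have par := parallelogram_law_with_norm ℂ (T (u * y)) (Complex.I • T (u * c))
    have e5 : ‖Complex.I • T (u * c)‖ = ‖T (u * c)‖ := by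
      rw [norm_smul, Complex.norm_I, one_mul]
    rw [e5] at par
    have b3 : ‖T (u * y)‖ ^ 2 + ‖T (u * c)‖ ^ 2 ≤ sSup S := by linarith only [b1, b2, par]
    -- lower bound for the second term
    have e6 : T (u * c) = T u - T (u * (k * y)) := by
      rw [← hck, mul_sub, mul_one, map_sub, sub_sub_cancel]
    have hq : ‖⟪T u, T (u * (k * y))⟫_ℂ‖ ≤ d := by
      apply hF
      · have h1 := hu1 u hu
        calc ‖u * (k * y)‖ ≤ ‖u‖ * (‖k‖ * ‖y‖) :=
              (norm_mul_le _ _).trans (by gcongr; exact norm_mul_le _ _)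
          _ ≤ 1 * (1 * 1) := by (clear * - hy1 hk h1; gcongr)
          _ = 1 := by norm_num
      · intro j hj
        have h1 := hu1 u hu
        calc q j (u * (k * y)) ≤ ‖u‖ * (‖k‖ * q j y) :=
              (hl j _ _).trans (by gcongr; exact hl j _ _)
          _ ≤ 1 * (1 * δ) := by
              gcongr
              exact hyq j hj
          _ = δ := by ring
    have b4 : ‖T (u * c)‖ ^ 2 ≥ ‖T u‖ ^ 2 - 2 * d := by
      rw [e6]
      have h1 := norm_sub_sq (𝕜 := ℂ) (T u) (T (u * (k * y)))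
      have h2 : RCLike.re ⟪T u, T (u * (k * y))⟫_ℂ ≤ d :=
        (RCLike.re_le_norm _).trans hq
      rw [h1]
      have h3 : 0 ≤ ‖T (u * (k * y))‖ ^ 2 := by (clear * -; positivity)
      linarith only [h2, h3]
    linarith only [hr, b1, b2, par, b4]
  refine ⟨F, δ, hδ, fun x hx hxq => ?_⟩
  have key2 : ∀ y : A, IsSelfAdjoint y → ‖y‖ ≤ 1 → (∀ j ∈ F, q j y ≤ δ) →
      ‖T (u * y)‖ ≤ ε / 2 := by
    intro y h1 h2 h3
    have h4 := key y h1 h2 h3
    have h5 : ‖T (u * y)‖ ^ 2 ≤ (ε / 2) ^ 2 := by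
      refine h4.trans (le_of_eq ?_)
      rw [hd]; ring
    exact le_of_sq_le_sq h5 (by positivity)
  set w : A := star u * x with hw
  have hw1 : ‖w‖ ≤ 1 := by
    calc ‖star u * x‖ ≤ ‖star u‖ * ‖x‖ := norm_mul_le _ _
      _ ≤ 1 * 1 := by
          have := hu1 _ (Unitary.star_mem hu)
          (clear * - hx this; gcongr)
      _ = 1 := one_mul 1
  have hwq : ∀ j ∈ F, q j w ≤ δ := by
    intro j hj
    calc q j (star u * x) ≤ ‖star u‖ * q j x := hl j _ _
      _ ≤ 1 * δ := by
          have := hu1 _ (Unitary.star_mem hu)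
          gcongr
          exact hxq j hj
      _ = δ := one_mul _
  have hre : ∀ j, q j (ℜ w : A) ≤ q j w := by
    intro j
    rw [realPart_apply_coe]
    have h1 : ‖(2⁻¹ : ℝ)‖ = 1 / 2 := by norm_num
    have h2 : (2⁻¹ : ℝ) • (w + star w) = ((2⁻¹ : ℝ) : ℂ) • (w + star w) := by
      rw [Complex.coe_smul]
    rw [h2, map_smul_eq_mul, Complex.norm_real, h1]
    have h3 : q j (w + star w) ≤ q j w + q j w := by
      refine (map_add_le_add _ _ _).trans ?_
      rw [hstar]
    linarith only [h3]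
  have him : ∀ j, q j (ℑ w : A) ≤ q j w := by
    intro j
    rw [imaginaryPart_apply_coe]
    have h1 : ‖(2⁻¹ : ℝ)‖ = 1 / 2 := by norm_num
    have h2 : -Complex.I • (2⁻¹ : ℝ) • (w - star w)
        = (-Complex.I * ((2⁻¹ : ℝ) : ℂ)) • (w - star w) := by
      rw [← Complex.coe_smul, smul_smul]
    rw [h2, map_smul_eq_mul, norm_mul, norm_neg, Complex.norm_I, Complex.norm_real, h1]
    have h3 : q j (w - star w) ≤ q j w + q j w := by
      refine (map_sub_le_add _ _ _).trans ?_
      rw [hstar]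
    linarith only [h3]
  have hx2 : x = u * (ℜ w : A) + Complex.I • (u * (ℑ w : A)) := by
    have h1 := realPart_add_I_smul_imaginaryPart w
    have h2 : x = u * w := by rw [hw, ← mul_assoc, huu', one_mul]
    rw [← mul_smul_comm, ← mul_add, h1, ← h2]
  rw [hx2, map_add, map_smul]
  have n1 := key2 (ℜ w : A) (ℜ w).2 ((realPart.norm_le w).trans hw1)
    (fun j hj => (hre j).trans (hwq j hj))
  have n2 := key2 (ℑ w : A) (ℑ w).2 ((imaginaryPart.norm_le w).trans hw1)
    (fun j hj => (him j).trans (hwq j hj))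
  calc ‖T (u * (ℜ w : A)) + Complex.I • T (u * (ℑ w : A))‖
      ≤ ‖T (u * (ℜ w : A))‖ + ‖Complex.I • T (u * (ℑ w : A))‖ := norm_add_le _ _
    _ = ‖T (u * (ℜ w : A))‖ + ‖T (u * (ℑ w : A))‖ := by
        rw [norm_smul, Complex.norm_I, one_mul]
    _ ≤ ε := by linarith only [n1, n2]

/-- The form with constants: `‖T x‖ ≤ ε ‖x‖ + C' ∑ q_j x`. -/
theorem exists_tame_bound (q : J → Seminorm ℂ A) (hl : ∀ j a x, q j (a * x) ≤ ‖a‖ * q j x)
    (hstar : ∀ j x, q j (star x) = q j x)
    (T : A →ₗ[ℂ] K) (C : ℝ) (hC : ∀ x, ‖T x‖ ≤ C * ‖x‖)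
    (hT : ∀ (w : K) (ε : ℝ), 0 < ε → ∃ F : Finset J, ∃ δ : ℝ, 0 < δ ∧ ∀ y : A, ‖y‖ ≤ 1 →
      (∀ j ∈ F, q j y ≤ δ) → ‖⟪w, T y⟫_ℂ‖ ≤ ε)
    {ε : ℝ} (hε : 0 < ε) :
    ∃ F : Finset J, ∃ C' : ℝ, 0 ≤ C' ∧ ∀ x : A, ‖T x‖ ≤ ε * ‖x‖ + C' * ∑ j ∈ F, q j x := by
  obtain ⟨F, δ, hδ, h⟩ := norm_tame_of_weak q hl hstar T C hC hT hε
  refine ⟨F, |C| / δ, by (clear * - hδ; positivity), fun x => ?_⟩
  by_cases hx0 : ‖x‖ = 0
  · have h1 : x = 0 := norm_eq_zero.mp hx0
    rw [h1, map_zero, norm_zero, norm_zero, mul_zero, zero_add]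
    have : 0 ≤ ∑ j ∈ F, q j (0 : A) := Finset.sum_nonneg (fun j _ => apply_nonneg _ _)
    (clear * - hδ; positivity)
  have hxp : 0 < ‖x‖ := lt_of_le_of_ne (norm_nonneg _) (Ne.symm hx0)
  have hsum : 0 ≤ ∑ j ∈ F, q j x := Finset.sum_nonneg (fun j _ => apply_nonneg _ _)
  by_cases hq : ∀ j ∈ F, q j x ≤ δ * ‖x‖
  · have h1 := h (((‖x‖ : ℂ)⁻¹) • x) ?_ ?_
    · rw [map_smul, norm_smul, norm_inv, Complex.norm_real, norm_norm] at h1
      have h2 : ‖T x‖ ≤ ε * ‖x‖ := by
        have h3 : ‖x‖ * (‖x‖⁻¹ * ‖T x‖) ≤ ‖x‖ * ε := by gcongr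
        rw [← mul_assoc, mul_inv_cancel₀ hx0, one_mul] at h3
        linarith only [h3]
      have h4 : 0 ≤ |C| / δ * ∑ j ∈ F, q j x := by (clear * - hδ; positivity)
      linarith only [h2, h4]
    · rw [norm_smul, norm_inv, Complex.norm_real, norm_norm, inv_mul_cancel₀ hx0]
    · intro j hj
      rw [map_smul_eq_mul, norm_inv, Complex.norm_real, norm_norm]
      calc ‖x‖⁻¹ * q j x ≤ ‖x‖⁻¹ * (δ * ‖x‖) := by gcongr; exact hq j hj
        _ = δ := by field_simp
  · push Not at hq
    obtain ⟨j, hj, hjq⟩ := hq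
    have h1 : δ * ‖x‖ ≤ ∑ j ∈ F, q j x :=
      hjq.le.trans (Finset.single_le_sum (fun i _ => apply_nonneg (q i) x) hj)
    have h2 : ‖T x‖ ≤ |C| * ‖x‖ := (hC x).trans (by gcongr; exact le_abs_self C)
    have h3 : |C| * ‖x‖ ≤ |C| / δ * ∑ j ∈ F, q j x := by
      calc |C| * ‖x‖ = |C| / δ * (δ * ‖x‖) := by (clear * - hδ hx0; field_simp)
        _ ≤ |C| / δ * ∑ j ∈ F, q j x := by (clear * - hδ h1; gcongr)
    have h4 : 0 ≤ ε * ‖x‖ := by positivity
    linarith only [h2, h3, h4]

end NormTame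

variable {H : Type u} [NormedAddCommGroup H] [InnerProductSpace ℂ H] [CompleteSpace H]

/-- The averaging functional given by the finite part `z`: after applying it all matrix
coefficients of the last variable are tame. -/
theorem exists_tame_avg {J : Type*} (P : VonNeumannAlgebra H) (Xi : J → ℕ → H)
    (hs : ∀ j, Summable fun n => ‖Xi j n‖ ^ 2)
    (htr : ∀ j, ∀ x ∈ P, ∀ y ∈ P,
      ∑' n, ⟪Xi j n, x (y (Xi j n))⟫_ℂ = ∑' n, ⟪Xi j n, y (x (Xi j n))⟫_ℂ)
    (hsep : ∀ x ∈ P, (∀ j n, x (Xi j n) = 0) → x = 0) :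
    ∃ a : (Alg P →L[ℂ] Alg P) →L[ℂ] Alg P, IsAvg a ∧
      ∀ (φ : Alg P →L[ℂ] Alg P) (α β : H) (ε : ℝ), 0 < ε →
        ∃ F : Finset J, ∃ δ : ℝ, 0 < δ ∧ ∀ y : Alg P, ‖y‖ ≤ 1 →
          (∀ j ∈ F, trSemi P Xi hs j y ≤ δ) → ‖⟪β, (tw a φ y : H →L[ℂ] H) α⟫_ℂ‖ ≤ ε := by
  letI : CStarAlgebra (Alg P) := cstarAlg P
  set q : J → Seminorm ℂ (Alg P) := trSemi P Xi hs with hq
  have hl : ∀ j a x, q j (a * x) ≤ ‖a‖ * q j x := trSemi_mul_left P Xi hs
  have hr : ∀ j a x, q j (x * a) ≤ ‖a‖ * q j x := trSemi_mul_right P Xi hs htr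
  obtain ⟨z, ha, hb, hc⟩ := exists_z q hl hr
  have hvec : ∀ α β : H, ∀ ε, 0 < ε → EpsTame q ε (vecFun P α β) := by
    intro α β ε hε
    obtain ⟨F, δ, hδ, h⟩ := vector_tame P Xi hs hsep α (ε / (‖β‖ + 1)) (by (clear * - hε; positivity))
    refine ⟨F, δ, hδ, fun y hy hj => ?_⟩
    have g := h y hy hj
    rw [vecFun_apply]
    calc ‖⟪β, (y : H →L[ℂ] H) α⟫_ℂ‖ ≤ ‖β‖ * ‖(y : H →L[ℂ] H) α‖ := norm_inner_le_norm _ _
      _ ≤ (‖β‖ + 1) * (ε / (‖β‖ + 1)) := by gcongr; linarith only []
      _ = ε := by (clear * - hε; field_simp)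
  obtain ⟨a, haz⟩ := exists_avg P ‖z‖ (fun β φ α => z (matCoef P φ α β))
    (fun β β' φ α => by
      rw [← map_add]; congr 1; ext y
      simp [matCoef_apply, inner_add_left])
    (fun c β φ α => by
      rw [← smul_eq_mul, ← map_smul]; congr 1; ext y
      simp [matCoef_apply, inner_smul_left])
    (fun β φ φ' α => by
      rw [← map_add]; congr 1; ext y
      simp [matCoef_apply, inner_add_right])
    (fun c β φ α => by
      rw [← smul_eq_mul, ← map_smul]; congr 1; ext y
      simp [matCoef_apply, inner_smul_right])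
    (fun β φ α α' => by
      rw [← map_add]; congr 1; ext y
      simp [matCoef_apply, inner_add_right])
    (fun c β φ α => by
      rw [← smul_eq_mul, ← map_smul]; congr 1; ext y
      simp [matCoef_apply, inner_smul_right])
    (fun β φ α => by
      refine (z.le_opNorm _).trans ?_
      calc ‖z‖ * ‖matCoef P φ α β‖ ≤ ‖z‖ * (‖β‖ * ‖φ‖ * ‖α‖) := by
            gcongr; exact norm_matCoef_le P φ α β
        _ = ‖z‖ * ‖β‖ * ‖φ‖ * ‖α‖ := by ring)
    (fun S hS β φ α => by
      congr 1; ext y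
      rw [matCoef_apply, matCoef_apply, ContinuousLinearMap.adjoint_inner_left]
      congr 1
      exact (congrArg (fun T : H →L[ℂ] H => T α) (hS _ (φ y).2)).symm)
  refine ⟨a, ⟨fun c φ => alg_ext P (fun β α => ?_), alg_ext P (fun β α => ?_)⟩,
    fun φ α β ε hε => ?_⟩
  · rw [haz]
    have h1 : ⟪β, ((c * a φ : Alg P) : H →L[ℂ] H) α⟫_ℂ
        = ⟪ContinuousLinearMap.adjoint (c : H →L[ℂ] H) β, (a φ : H →L[ℂ] H) α⟫_ℂ := by
      rw [ContinuousLinearMap.adjoint_inner_left]; rfl
    rw [h1, haz]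
    congr 1; ext y
    rw [matCoef_apply, matCoef_apply, ContinuousLinearMap.adjoint_inner_left]
    rfl
  · rw [haz]
    have : matCoef P (ContinuousLinearMap.id ℂ (Alg P)) α β = vecFun P α β := rfl
    rw [this, hb _ (hvec α β)]
    rfl
  · obtain ⟨F₁, δ₁, hδ₁, h₁⟩ := hc (matCoef P φ α β) (ε / 2) (by positivity)
    obtain ⟨F₂, δ₂, hδ₂, h₂⟩ := hvec α (ContinuousLinearMap.adjoint (a φ : H →L[ℂ] H) β) (ε / 2)
      (by positivity)
    classical
    refine ⟨F₁ ∪ F₂, min δ₁ δ₂, by positivity, fun y hy hj => ?_⟩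
    have g1 := h₁ y hy fun j hj' =>
      (hj j (Finset.mem_union_left _ hj')).trans (min_le_left _ _)
    have g2 := h₂ y hy fun j hj' =>
      (hj j (Finset.mem_union_right _ hj')).trans (min_le_right _ _)
    have e1 : ⟪β, (tw a φ y : H →L[ℂ] H) α⟫_ℂ
        = (z.comp (rTL (matCoef P φ α β))) y
          - vecFun P α (ContinuousLinearMap.adjoint (a φ : H →L[ℂ] H) β) y := by
      have e2 : (z.comp (rTL (matCoef P φ α β))) y
          = ⟪β, (a (φ.comp (mulL y)) : H →L[ℂ] H) α⟫_ℂ := by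
        rw [haz]
        exact (ha (matCoef P φ α β) y).symm
      rw [e2, vecFun_apply, ContinuousLinearMap.adjoint_inner_left, tw_apply, ← inner_sub_right]
      rfl
    rw [e1]
    calc _ ≤ ε / 2 + ε / 2 := (norm_sub_le _ _).trans (add_le_add g1 g2)
      _ = ε := by ring

/-- Norm tameness of a bounded map `P → P` with respect to the trace seminorms. -/
def NTame {J : Type*} (P : VonNeumannAlgebra H) (Xi : J → ℕ → H)
    (hs : ∀ j, Summable fun n => ‖Xi j n‖ ^ 2) (φ : Alg P →L[ℂ] Alg P) : Prop :=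
  ∀ (j : J) (ε : ℝ), 0 < ε → ∃ F : Finset J, ∃ C' : ℝ, 0 ≤ C' ∧ ∀ x : Alg P,
    trSemi P Xi hs j (φ x) ≤ ε * ‖x‖ + C' * ∑ i ∈ F, trSemi P Xi hs i x

/-- finite sums of tame functionals are tame -/
lemma tame_sum {J ι : Type*} {B : Type*} [SeminormedAddCommGroup B] [Module ℂ B]
    (q : J → Seminorm ℂ B) (g : ι → B → ℂ)
    (hg : ∀ i (ε : ℝ), 0 < ε → ∃ F : Finset J, ∃ δ : ℝ, 0 < δ ∧ ∀ y : B, ‖y‖ ≤ 1 →
          (∀ j ∈ F, q j y ≤ δ) → ‖g i y‖ ≤ ε) (s : Finset ι) :
    ∀ ε : ℝ, 0 < ε → ∃ F : Finset J, ∃ δ : ℝ, 0 < δ ∧ ∀ y : B, ‖y‖ ≤ 1 →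
          (∀ j ∈ F, q j y ≤ δ) → ‖∑ i ∈ s, g i y‖ ≤ ε := by
  classical
  induction s using Finset.induction_on with
  | empty =>
    intro ε hε
    exact ⟨∅, 1, one_pos, fun y _ _ => by simpa using hε.le⟩
  | insert i s hi ih =>
    intro ε hε
    obtain ⟨F₁, δ₁, hδ₁, h₁⟩ := hg i (ε / 2) (by (clear * - hε; positivity))
    obtain ⟨F₂, δ₂, hδ₂, h₂⟩ := ih (ε / 2) (by (clear * - hε; positivity))
    refine ⟨F₁ ∪ F₂, min δ₁ δ₂, by positivity, fun y hy hj => ?_⟩
    have g1 := h₁ y hy fun j hj' =>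
      (hj j (Finset.mem_union_left _ hj')).trans (min_le_left _ _)
    have g2 := h₂ y hy fun j hj' =>
      (hj j (Finset.mem_union_right _ hj')).trans (min_le_right _ _)
    rw [Finset.sum_insert hi]
    refine (norm_add_le _ _).trans ?_
    linarith only [g1, g2]

/-- Section 1 of the blueprint: after the finite part average every map is norm tame. -/
theorem exists_zeta_tame {J : Type*} (P : VonNeumannAlgebra H) (Xi : J → ℕ → H)
    (hs : ∀ j, Summable fun n => ‖Xi j n‖ ^ 2)
    (htr : ∀ j, ∀ x ∈ P, ∀ y ∈ P,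
      ∑' n, ⟪Xi j n, x (y (Xi j n))⟫_ℂ = ∑' n, ⟪Xi j n, y (x (Xi j n))⟫_ℂ)
    (hsep : ∀ x ∈ P, (∀ j n, x (Xi j n) = 0) → x = 0) :
    ∃ a : (Alg P →L[ℂ] Alg P) →L[ℂ] Alg P, IsAvg a ∧
      ∀ φ : Alg P →L[ℂ] Alg P, NTame P Xi hs (tw a φ) := by
  classical
  letI : CStarAlgebra (Alg P) := cstarAlg P
  obtain ⟨a, ha, hta⟩ := exists_tame_avg P Xi hs htr hsep
  refine ⟨a, ha, fun φ j ε hε => ?_⟩
  set ψ : Alg P →L[ℂ] Alg P := tw a φ with hψ
  set Ω : L2 ℕ H := vec (Xi j) (hs j) with hΩ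
  let T : Alg P →ₗ[ℂ] L2 ℕ H :=
    ((ampL Ω).comp P.toStarSubalgebra.toSubalgebra.toSubmodule.subtype).comp (ψ : Alg P →ₗ[ℂ] Alg P)
  have hTq : ∀ x, ‖T x‖ = trSemi P Xi hs j (ψ x) := fun x => rfl
  have hTa : ∀ x, T x = amp (ψ x : H →L[ℂ] H) Ω := fun x => rfl
  have hT1 : ∀ x, ‖T x‖ ≤ (‖ψ‖ * ‖Ω‖) * ‖x‖ := by
    intro x
    rw [hTa]
    refine (norm_amp_le _ _).trans ?_
    have h1 : ‖(ψ x : H →L[ℂ] H)‖ ≤ ‖ψ‖ * ‖x‖ := ψ.le_opNorm x
    calc ‖(ψ x : H →L[ℂ] H)‖ * ‖Ω‖ ≤ (‖ψ‖ * ‖x‖) * ‖Ω‖ := by gcongr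
      _ = (‖ψ‖ * ‖Ω‖) * ‖x‖ := by ring
  have hweak : ∀ (w : L2 ℕ H) (ε : ℝ), 0 < ε → ∃ F : Finset J, ∃ δ : ℝ, 0 < δ ∧
      ∀ y : Alg P, ‖y‖ ≤ 1 → (∀ i ∈ F, trSemi P Xi hs i y ≤ δ) → ‖⟪w, T y⟫_ℂ‖ ≤ ε := by
    intro w ε hε
    set C : ℝ := ‖ψ‖ * ‖Ω‖ with hC
    have hC0 : 0 ≤ C := by (clear * - H P ψ Ω; positivity)
    have hsum := lp.hasSum_single (E := fun _ : ℕ => H) (p := 2) (by norm_num) w
    have hev := (Metric.tendsto_nhds.mp hsum) (ε / (2 * (C + 1))) (by (clear * - H P ψ Ω hε; positivity))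
    obtain ⟨s, hsw⟩ := hev.exists
    obtain ⟨F, δ, hδ, hF⟩ := tame_sum (trSemi P Xi hs)
      (fun n (y : Alg P) => ⟪w n, (ψ y : H →L[ℂ] H) (Xi j n)⟫_ℂ)
      (fun n ε hε => hta φ (Xi j n) (w n) ε hε) s (ε / 2) (by positivity)
    refine ⟨F, δ, hδ, fun y hy hq => ?_⟩
    have h1 := hF y hy hq
    have h2 : ⟪w, T y⟫_ℂ = ⟪w - ∑ n ∈ s, lp.single 2 n (w n), T y⟫_ℂ
        + ∑ n ∈ s, ⟪w n, (ψ y : H →L[ℂ] H) (Xi j n)⟫_ℂ := by
      rw [inner_sub_left, sum_inner]
      have h3 : ∀ n, ⟪(lp.single 2 n (w n) : L2 ℕ H), T y⟫_ℂ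
          = ⟪w n, (ψ y : H →L[ℂ] H) (Xi j n)⟫_ℂ := by
        intro n
        rw [lp.inner_single_left]
        rfl
      simp only [h3]
      ring
    rw [h2]
    have h4 : ‖w - ∑ n ∈ s, lp.single 2 n (w n)‖ ≤ ε / (2 * (C + 1)) := by
      rw [dist_comm, dist_eq_norm] at hsw
      exact hsw.le
    have h5 : ‖⟪w - ∑ n ∈ s, lp.single 2 n (w n), T y⟫_ℂ‖ ≤ ε / 2 := by
      calc _ ≤ ‖w - ∑ n ∈ s, lp.single 2 n (w n)‖ * ‖T y‖ := norm_inner_le_norm _ _
        _ ≤ (ε / (2 * (C + 1))) * (C * 1) := by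
            gcongr
            exact (hT1 y).trans (by (clear * - ψ Ω hy; gcongr))
        _ ≤ (ε / (2 * (C + 1))) * (C + 1) := by gcongr; linarith only []
        _ = ε / 2 := by field_simp
    refine (norm_add_le _ _).trans ?_
    linarith only [h1, h5]
  obtain ⟨F, C', hC', h⟩ := exists_tame_bound (trSemi P Xi hs) (trSemi_mul_left P Xi hs)
    (fun j x => trSemi_star P Xi hs htr j x) T (‖ψ‖ * ‖Ω‖) hT1 hweak hε
  exact ⟨F, C', hC', fun x => by rw [← hTq]; exact h x⟩

end Vale.Agent.P082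
end

section
attribute [local instance] Vale.Agent.P082.AlgFast.nr Vale.Agent.P082.AlgFast.na
  Vale.Agent.P082.AlgFast.sr Vale.Agent.P082.AlgFast.ng Vale.Agent.P082.AlgFast.sg
  Vale.Agent.P082.AlgFast.ns Vale.Agent.P082.AlgFast.ri Vale.Agent.P082.AlgFast.ag
  Vale.Agent.P082.AlgFast.am Vale.Agent.P082.AlgFast.mo Vale.Agent.P082.AlgFast.pm
  Vale.Agent.P082.AlgFast.us Vale.Agent.P082.AlgFast.ts Vale.Agent.P082.AlgFast.ets
  Vale.Agent.P082.AlgFast.eng Vale.Agent.P082.AlgFast.esg Vale.Agent.P082.AlgFast.ens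
  Vale.Agent.P082.AlgFast.eam Vale.Agent.P082.AlgFast.emo Vale.Agent.P082.AlgFast.nu
  Vale.Agent.P082.AlgFast.sag Vale.Agent.P082.AlgFast.agr Vale.Agent.P082.AlgFast.mon
  Vale.Agent.P082.AlgFast.srg

open scoped InnerProductSpace ComplexConjugate

namespace Vale.Agent.P082.VN

universe u

variable {H : Type u} [NormedAddCommGroup H] [InnerProductSpace ℂ H] [CompleteSpace H]
  {M : VonNeumannAlgebra H}

/-- a positive operator commuting with `M` has a square root commuting with `M` -/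
theorem rn_exists_sqrt (h : H →L[ℂ] H) (hp : h.IsPositive)
    (hc : ∀ x ∈ M, x * h = h * x) :
    ∃ k : H →L[ℂ] H, k * k = h ∧ (∀ α β : H, ⟪k α, β⟫_ℂ = ⟪α, k β⟫_ℂ) ∧
      ∀ x ∈ M, x * k = k * x := by
  have h0 : 0 ≤ h := ContinuousLinearMap.nonneg_iff_isPositive h |>.2 hp
  refine ⟨CFC.sqrt h, CFC.sqrt_mul_sqrt_self h h0, fun α β => ?_, fun x hx => ?_⟩
  · have h1 : 0 ≤ CFC.sqrt h := CFC.sqrt_nonneg h
    have h2 := (ContinuousLinearMap.nonneg_iff_isPositive _ |>.1 h1)
    exact h2.isSymmetric α β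
  · have h1 : Commute h x := (hc x hx).symm
    exact (h1.cfcₙ_nnreal _).symm

/-- Radon-Nikodym: a positive functional dominated by a vector state is a vector state -/
theorem exists_vec_of_dominated (ξ : H) (τ : Alg M →L[ℂ] ℂ)
    (hpos : ∀ x : Alg M, 0 ≤ (τ (star x * x)).re ∧ (τ (star x * x)).im = 0)
    (hdom : ∀ x y : Alg M,
      ‖τ (star y * x)‖ ≤ ‖(y : H →L[ℂ] H) ξ‖ * ‖(x : H →L[ℂ] H) ξ‖) :
    ∃ η : H, ∀ x : Alg M, τ x = ⟪η, (x : H →L[ℂ] H) η⟫_ℂ := by
  classical
  let S : Alg M →ₗ[ℂ] H := (ContinuousLinearMap.apply ℂ H ξ).toLinearMap.comp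
    (M.toStarSubalgebra.toSubalgebra.toSubmodule.subtype)
  have hS : ∀ x : Alg M, S x = (x : H →L[ℂ] H) ξ := fun x => rfl
  let L : Submodule ℂ H := (LinearMap.range S).topologicalClosure
  have hSL : ∀ x, S x ∈ L := fun x =>
    Submodule.le_topologicalClosure _ (LinearMap.mem_range_self S x)
  have : CompleteSpace L := (Submodule.isClosed_topologicalClosure _).completeSpace_coe
  let e : Alg M →ₗ[ℂ] L := S.codRestrict L hSL
  have he : ∀ x, ((e x : L) : H) = (x : H →L[ℂ] H) ξ := fun x => rfl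
  have hd : DenseRange e := by
    intro v
    rw [Metric.mem_closure_iff]
    intro ε hε
    obtain ⟨w, ⟨x, rfl⟩, hdist⟩ := Metric.mem_closure_iff.1
      (show (v : H) ∈ closure (LinearMap.range S : Set H) from v.2) ε hε
    exact ⟨e x, ⟨x, rfl⟩, hdist⟩
  have huniq : ∀ a b : L, (∀ y, ⟪a, e y⟫_ℂ = ⟪b, e y⟫_ℂ) → a = b := by
    intro a b hab
    have h1 : (fun v : L => ⟪a, v⟫_ℂ) = fun v => ⟪b, v⟫_ℂ :=
      hd.equalizer (continuous_const.inner continuous_id) (continuous_const.inner continuous_id)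
        (funext hab)
    exact ext_inner_right ℂ (fun v => congr_fun h1 v)
  -- the functionals
  have hg : ∀ x : Alg M, ∃ a : L, (∀ y, ⟪a, e y⟫_ℂ = τ (star x * y)) ∧ ‖a‖ ≤ 1 * ‖e x‖ := by
    intro x
    let f : Alg M →ₗ[ℂ] ℂ := (lTr M τ (star x)).toLinearMap
    have hf : ∀ y, ‖f y‖ ≤ ‖e x‖ * ‖e y‖ := fun y => hdom y x
    let g : L →L[ℂ] ℂ := f.extendOfNorm e
    have hge : ∀ y, g (e y) = f y := fun y =>
      LinearMap.extendOfNorm_eq hd ⟨_, hf⟩ y
    have hgn : ‖g‖ ≤ ‖e x‖ := LinearMap.opNorm_extendOfNorm_le hd (norm_nonneg _) hf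
    refine ⟨(InnerProductSpace.toDual ℂ L).symm g, fun y => ?_, ?_⟩
    · rw [InnerProductSpace.toDual_symm_apply, hge]; rfl
    · rw [LinearIsometryEquiv.norm_map, one_mul]; exact hgn
  choose a ha han using hg
  let f : Alg M →ₗ[ℂ] L :=
    { toFun := a
      map_add' := fun x y => huniq _ _ (fun z => by
        rw [inner_add_left, ha, ha, ha, star_add, add_mul, map_add])
      map_smul' := fun c x => huniq _ _ (fun z => by
        rw [RingHom.id_apply, inner_smul_left, ha, ha, star_smul, smul_mul_assoc, map_smul]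
        rfl) }
  let T : L →L[ℂ] L := f.extendOfNorm e
  have hT : ∀ x, T (e x) = a x := fun x =>
    LinearMap.extendOfNorm_eq hd ⟨1, han⟩ x
  have hTin : ∀ x y, ⟪T (e x), e y⟫_ℂ = τ (star x * y) := fun x y => by rw [hT, ha]
  have hTpos : ∀ v : L, 0 ≤ (⟪T v, v⟫_ℂ).re ∧ (⟪T v, v⟫_ℂ).im = 0 := by
    intro v
    have hcl : IsClosed {v : L | 0 ≤ (⟪T v, v⟫_ℂ).re ∧ (⟪T v, v⟫_ℂ).im = 0} := by
      apply IsClosed.inter
      · exact isClosed_le continuous_const
          (Complex.continuous_re.comp (T.continuous.inner continuous_id))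
      · exact isClosed_eq
          (Complex.continuous_im.comp (T.continuous.inner continuous_id)) continuous_const
    refine hd.induction_on (p := fun v => 0 ≤ (⟪T v, v⟫_ℂ).re ∧ (⟪T v, v⟫_ℂ).im = 0) v hcl
      (fun x => ?_)
    rw [hTin]
    exact hpos x
  let h : H →L[ℂ] H := L.subtypeL.comp (T.comp L.orthogonalProjectionOnto)
  have hh : ∀ α, h α = (T (L.orthogonalProjectionOnto α) : H) := fun α => rfl
  have hin : ∀ α β, ⟪h α, β⟫_ℂ = ⟪T (L.orthogonalProjectionOnto α), L.orthogonalProjectionOnto β⟫_ℂ := by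
    intro α β
    rw [hh, ← Submodule.inner_orthogonalProjectionOnto_eq_of_mem_left]
  have hp : h.IsPositive := by
    rw [ContinuousLinearMap.isPositive_iff_complex]
    intro α
    rw [hin]
    obtain ⟨h1, h2⟩ := hTpos (L.orthogonalProjectionOnto α)
    exact ⟨Complex.ext (by simp) (by simpa using h2.symm), h1⟩
  have hPe : ∀ x : Alg M, L.orthogonalProjectionOnto ((x : H →L[ℂ] H) ξ) = e x := by
    intro x
    exact Submodule.orthogonalProjectionOnto_mem_subspace_eq_self (e x)
  -- commutation with `M`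
  have hPin : ∀ (α : H) (v : L), ⟪L.orthogonalProjectionOnto α, v⟫_ℂ = ⟪α, (v : H)⟫_ℂ :=
    fun α v => Submodule.inner_orthogonalProjectionOnto_eq_of_mem_right v α
  have hadj : ∀ (X : Alg M) (α β : H), ⟪(X : H →L[ℂ] H) α, β⟫_ℂ
      = ⟪α, ((star X : Alg M) : H →L[ℂ] H) β⟫_ℂ := by
    intro X α β
    have h1 : ((star X : Alg M) : H →L[ℂ] H) = ContinuousLinearMap.adjoint (X : H →L[ℂ] H) := rfl
    rw [h1, ContinuousLinearMap.adjoint_inner_right]
  have hPX : ∀ (X : Alg M) (α : H), L.orthogonalProjectionOnto ((X : H →L[ℂ] H) α)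
      = L.orthogonalProjectionOnto
        ((X : H →L[ℂ] H) ((L.orthogonalProjectionOnto α : L) : H)) := by
    intro X α
    apply huniq
    intro y
    have h1 : ((star X : Alg M) : H →L[ℂ] H) ((e y : L) : H) = ((e (star X * y) : L) : H) := rfl
    rw [hPin, hPin, hadj, hadj, h1, ← hPin, Submodule.coe_inner]
  have hTX : ∀ (X : Alg M) (u v : L),
      ⟪T (L.orthogonalProjectionOnto ((X : H →L[ℂ] H) (u : H))), v⟫_ℂ
      = ⟪T u, L.orthogonalProjectionOnto (((star X : Alg M) : H →L[ℂ] H) (v : H))⟫_ℂ := by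
    intro X u v
    have hcu : ∀ v : L, IsClosed {u : L |
        ⟪T (L.orthogonalProjectionOnto ((X : H →L[ℂ] H) (u : H))), v⟫_ℂ
        = ⟪T u, L.orthogonalProjectionOnto
          (((star X : Alg M) : H →L[ℂ] H) (v : H))⟫_ℂ} := fun v =>
      isClosed_eq (by (clear * - e f; fun_prop)) (by fun_prop)
    have hcv : ∀ u : L, IsClosed {v : L |
        ⟪T (L.orthogonalProjectionOnto ((X : H →L[ℂ] H) (u : H))), v⟫_ℂ
        = ⟪T u, L.orthogonalProjectionOnto
          (((star X : Alg M) : H →L[ℂ] H) (v : H))⟫_ℂ} := fun u =>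
      isClosed_eq (by fun_prop) (by fun_prop)
    refine hd.induction_on (p := fun u =>
        ⟪T (L.orthogonalProjectionOnto ((X : H →L[ℂ] H) (u : H))), v⟫_ℂ
        = ⟪T u, L.orthogonalProjectionOnto
          (((star X : Alg M) : H →L[ℂ] H) (v : H))⟫_ℂ) u (hcu v) (fun y => ?_)
    refine hd.induction_on (p := fun v =>
        ⟪T (L.orthogonalProjectionOnto ((X : H →L[ℂ] H) ((e y : L) : H))), v⟫_ℂ
        = ⟪T (e y), L.orthogonalProjectionOnto
          (((star X : Alg M) : H →L[ℂ] H) (v : H))⟫_ℂ) v (hcv (e y)) (fun z => ?_)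
    have h1 : L.orthogonalProjectionOnto ((X : H →L[ℂ] H) ((e y : L) : H)) = e (X * y) :=
      hPe (X * y)
    have h2 : L.orthogonalProjectionOnto (((star X : Alg M) : H →L[ℂ] H) ((e z : L) : H))
        = e (star X * z) := hPe (star X * z)
    rw [h1, h2, hTin, hTin, star_mul, mul_assoc]
  have hcomm : ∀ x ∈ M, x * h = h * x := by
    intro x hx
    have key : ∀ α β : H, ⟪(x * h) α, β⟫_ℂ = ⟪(h * x) α, β⟫_ℂ := by
      intro α β
      let X : Alg M := ⟨x, hx⟩
      have h1 : ⟪(x * h) α, β⟫_ℂ = ⟪h α, ((star X : Alg M) : H →L[ℂ] H) β⟫_ℂ := hadj X (h α) β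
      have h2 : ⟪(h * x) α, β⟫_ℂ = ⟪h ((X : H →L[ℂ] H) α), β⟫_ℂ := rfl
      rw [h1, h2, hin, hin, hPX X α, hPX (star X) β, hTX]
    ext α
    exact ext_inner_right ℂ (key α)
  obtain ⟨k, hkk, hks, hkc⟩ := rn_exists_sqrt (M := M) h hp hcomm
  refine ⟨k ξ, fun x => ?_⟩
  have h1 : (x : H →L[ℂ] H) (k ξ) = k ((x : H →L[ℂ] H) ξ) := by
    have := congrArg (fun T : H →L[ℂ] H => T ξ) (hkc x x.2)
    exact this
  have h2 : k (k ξ) = h ξ := by
    have := congrArg (fun T : H →L[ℂ] H => T ξ) hkk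
    exact this
  rw [h1, ← hks, h2, hin, hPe]
  have h3 : L.orthogonalProjectionOnto ξ = e 1 := hPe 1
  rw [h3, hTin]
  simp

end Vale.Agent.P082.VN
end

section
attribute [local instance] Vale.Agent.P082.AlgFast.nr Vale.Agent.P082.AlgFast.na
  Vale.Agent.P082.AlgFast.sr Vale.Agent.P082.AlgFast.ng Vale.Agent.P082.AlgFast.sg
  Vale.Agent.P082.AlgFast.ns Vale.Agent.P082.AlgFast.ri Vale.Agent.P082.AlgFast.ag
  Vale.Agent.P082.AlgFast.am Vale.Agent.P082.AlgFast.mo Vale.Agent.P082.AlgFast.pm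
  Vale.Agent.P082.AlgFast.us Vale.Agent.P082.AlgFast.ts Vale.Agent.P082.AlgFast.ets
  Vale.Agent.P082.AlgFast.eng Vale.Agent.P082.AlgFast.esg Vale.Agent.P082.AlgFast.ens
  Vale.Agent.P082.AlgFast.eam Vale.Agent.P082.AlgFast.emo Vale.Agent.P082.AlgFast.nu
  Vale.Agent.P082.AlgFast.sag Vale.Agent.P082.AlgFast.agr Vale.Agent.P082.AlgFast.mon
  Vale.Agent.P082.AlgFast.srg

open scoped InnerProductSpace ComplexConjugate

namespace Vale.Agent.P082.VN

universe u

variable {H : Type u} [NormedAddCommGroup H] [InnerProductSpace ℂ H] [CompleteSpace H]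
  {M : VonNeumannAlgebra H}

theorem dom_norm_iso {w : H →L[ℂ] H} (hw1 : star w * w = 1) (v : H) : ‖w v‖ = ‖v‖ :=
  (ContinuousLinearMap.norm_map_iff_adjoint_comp_self w).2 hw1 v

theorem dom_re_inner_proj {e : H →L[ℂ] H} (he : IsPr M e) (v : H) :
    (⟪v, e v⟫_ℂ).re = ‖e v‖ ^ 2 := by
  have h : ⟪v, e v⟫_ℂ = ⟪e v, e v⟫_ℂ := by
    have h1 : e v = (star e) (e v) := by
      rw [he.sa]
      exact (congrArg (fun T : H →L[ℂ] H => T v) he.idem).symm
    conv_lhs => rw [h1]
    exact ContinuousLinearMap.adjoint_inner_right e v (e v)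
  rw [h, inner_self_eq_norm_sq_to_K]
  norm_cast

theorem dom_proj_le {p : H →L[ℂ] H} {ξ₁ ξ₂ : H}
    (hdom : ∀ e f, IsPr M e → IsPr M f → Le e p → Le f p → Eqv M e f → ‖e ξ₁‖ ≤ ‖f ξ₂‖)
    {w : H →L[ℂ] H} (hw : w ∈ M) (hw1 : star w * w = 1)
    (hwp : w * p = p * w) {g : H →L[ℂ] H} (hg : IsPr M g) (hgp : Le g p) :
    ‖g (star w ξ₁)‖ ≤ ‖g ξ₂‖ := by
  have hsw : star w ∈ M := star_mem hw
  have he : IsPr M (w * g * star w) := by
    refine ⟨mul_mem (mul_mem hw hg.mem) hsw, ?_, ?_⟩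
    · calc w * g * star w * (w * g * star w) = w * g * (star w * w) * (g * star w) := by
            simp only [mul_assoc]
        _ = w * (g * g) * star w := by rw [hw1]; simp only [mul_assoc, one_mul]
        _ = w * g * star w := by rw [hg.idem]
    · rw [star_mul, star_mul, star_star, hg.sa, mul_assoc]
  have hep : Le (w * g * star w) p := by
    unfold Le at hgp ⊢
    calc p * (w * g * star w) = (p * w) * g * star w := by simp only [mul_assoc]
      _ = w * (p * g) * star w := by rw [← hwp]; simp only [mul_assoc]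
      _ = w * g * star w := by rw [hgp]
  have heq : Eqv M (w * g * star w) g := by
    refine ⟨g * star w, mul_mem hg.mem hsw, ?_, ?_⟩
    · rw [star_mul, star_star, hg.sa]
      calc w * g * (g * star w) = w * (g * g) * star w := by simp only [mul_assoc]
        _ = _ := by rw [hg.idem]
    · rw [star_mul, star_star, hg.sa]
      calc g * star w * (w * g) = g * (star w * w) * g := by simp only [mul_assoc]
        _ = g := by rw [hw1, mul_one, hg.idem]
  have h := hdom _ _ he hg hep hgp heq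
  have h2 : (w * g * star w) ξ₁ = w (g (star w ξ₁)) := rfl
  rwa [h2, dom_norm_iso hw1] at h

theorem dom_inner_sq {p x : H →L[ℂ] H} (hp : IsPr M p) (v : H) :
    (⟪v, (p * star x * x * p) v⟫_ℂ).re = ‖x (p v)‖ ^ 2 := by
  have h : ⟪v, (p * star x * x * p) v⟫_ℂ = ⟪x (p v), x (p v)⟫_ℂ := by
    have h1 : (p * star x * x * p) v = (star (x * p)) (x (p v)) := by
      rw [star_mul, hp.sa]
      rfl
    rw [h1]
    exact ContinuousLinearMap.adjoint_inner_right (x * p) v (x (p v))
  rw [h, inner_self_eq_norm_sq_to_K]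
  norm_cast

/-- domination on projections gives domination on all elements, for all unitary conjugates -/
theorem norm_le_of_proj_le {p : H →L[ℂ] H} (hp : IsPr M p) {ξ₁ ξ₂ : H} (h1 : p ξ₁ = ξ₁)
    (h2 : p ξ₂ = ξ₂)
    (hdom : ∀ e f, IsPr M e → IsPr M f → Le e p → Le f p → Eqv M e f → ‖e ξ₁‖ ≤ ‖f ξ₂‖)
    {w : H →L[ℂ] H} (hw : w ∈ M) (hw1 : star w * w = 1) (hw2 : w * star w = 1)
    (hwp : w * p = p * w) {x : H →L[ℂ] H} (hx : x ∈ M) :
    ‖x (star w ξ₁)‖ ≤ ‖x ξ₂‖ := by
  have hpw : p (star w ξ₁) = star w ξ₁ := by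
    have h3 : p * star w = star w * p := by
      have := congrArg star hwp
      rwa [star_mul, star_mul, hp.sa] at this
    calc p (star w ξ₁) = (p * star w) ξ₁ := rfl
      _ = star w (p ξ₁) := by rw [h3]; rfl
      _ = star w ξ₁ := by rw [h1]
  set u : H := star w ξ₁ with hu
  set a : H →L[ℂ] H := p * star x * x * p with ha
  have hau : (⟪u, a u⟫_ℂ).re = ‖x u‖ ^ 2 := by rw [ha, dom_inner_sq hp, hpw]
  have haξ : (⟪ξ₂, a ξ₂⟫_ℂ).re = ‖x ξ₂‖ ^ 2 := by rw [ha, dom_inner_sq hp, h2]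
  have key : ‖x u‖ ^ 2 ≤ ‖x ξ₂‖ ^ 2 := by
    rw [← hau, ← haξ]
    by_cases hN : ‖a‖ = 0
    · rw [norm_eq_zero] at hN
      rw [hN]
      simp
    have hN0 : 0 < ‖a‖ := lt_of_le_of_ne (norm_nonneg _) (Ne.symm hN)
    set b : H →L[ℂ] H := ((1 / ‖a‖ : ℝ) : ℂ) • a with hb
    have haM : a ∈ M := mul_mem (mul_mem (mul_mem hp.mem (star_mem hx)) hx) hp.mem
    have hbM : b ∈ M := M.toStarSubalgebra.smul_mem haM _
    have hastar : star a = a := by
      rw [ha, star_mul, star_mul, star_mul, star_star, hp.sa]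
      simp only [mul_assoc]
    have hbstar : star b = b := by
      rw [hb, star_smul, hastar]
      congr 1
      exact Complex.conj_ofReal _
    have hpa : p * a = a := by
      rw [ha]
      simp only [← mul_assoc]
      rw [hp.idem]
    have hpb : p * b = b := by rw [hb, mul_smul_comm, hpa]
    have hbre : ∀ v, (⟪v, b v⟫_ℂ).re = 1 / ‖a‖ * (⟪v, a v⟫_ℂ).re := by
      intro v
      rw [hb, smul_apply, inner_smul_right, Complex.re_ofReal_mul]
    have hbpos : ∀ v, 0 ≤ (⟪v, b v⟫_ℂ).re := by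
      intro v
      rw [hbre, ha, dom_inner_sq hp]
      (clear * - hN; positivity)
    have hbn : ‖b‖ ≤ 1 := by
      rw [hb, norm_smul, Complex.norm_real, Real.norm_of_nonneg (by (clear * - hN; positivity)), one_div,
        inv_mul_cancel₀ hN]
    have hmain : ∀ n : ℕ, (⟪u, b u⟫_ℂ).re ≤ (⟪ξ₂, b ξ₂⟫_ℂ).re +
        (1 / 2) ^ n * (‖u‖ ^ 2 + ‖ξ₂‖ ^ 2) := by
      intro n
      obtain ⟨q, hq, hqn⟩ := exists_proj_approx hp hbM hbstar hpb hbpos hbn n
      set S : H →L[ℂ] H := ∑ k ∈ Finset.range n, (((1 / 2 : ℝ) ^ (k + 1) : ℝ) : ℂ) • q k with hS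
      have hSre : ∀ v, (⟪v, S v⟫_ℂ).re =
          ∑ k ∈ Finset.range n, (1 / 2 : ℝ) ^ (k + 1) * ‖q k v‖ ^ 2 := by
        intro v
        rw [hS, sum_apply, inner_sum, Complex.re_sum]
        refine Finset.sum_congr rfl fun k _ => ?_
        rw [smul_apply, inner_smul_right, Complex.re_ofReal_mul,
          dom_re_inner_proj (hq k).1]
      have hdiff : ∀ v, |(⟪v, b v⟫_ℂ).re - (⟪v, S v⟫_ℂ).re| ≤ (1 / 2) ^ n * ‖v‖ ^ 2 := by
        intro v
        have h3 : (⟪v, b v⟫_ℂ).re - (⟪v, S v⟫_ℂ).re = (⟪v, (b - S) v⟫_ℂ).re := by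
          rw [sub_apply, inner_sub_right, Complex.sub_re]
        rw [h3]
        refine (Complex.abs_re_le_norm _).trans ((norm_inner_le_norm _ _).trans ?_)
        calc ‖v‖ * ‖(b - S) v‖ ≤ ‖v‖ * ((1 / 2) ^ n * ‖v‖) := by
              gcongr
              exact ((b - S).le_opNorm v).trans (by (clear * - hqn; gcongr))
          _ = _ := by ring
      have h4 := abs_le.1 (hdiff u)
      have h5 := abs_le.1 (hdiff ξ₂)
      have h6 : (⟪u, S u⟫_ℂ).re ≤ (⟪ξ₂, S ξ₂⟫_ℂ).re := by
        rw [hSre, hSre]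
        refine Finset.sum_le_sum fun k _ => ?_
        have h7 := dom_proj_le hdom hw hw1 hwp (hq k).1 (hq k).2
        (clear * - h7; gcongr)
      linarith only [h6, h4.2, h5.1]
    have hlim : (⟪u, b u⟫_ℂ).re ≤ (⟪ξ₂, b ξ₂⟫_ℂ).re := by
      have ht : Filter.Tendsto (fun n : ℕ => (⟪ξ₂, b ξ₂⟫_ℂ).re +
          (1 / 2 : ℝ) ^ n * (‖u‖ ^ 2 + ‖ξ₂‖ ^ 2)) Filter.atTop
          (nhds ((⟪ξ₂, b ξ₂⟫_ℂ).re + 0 * (‖u‖ ^ 2 + ‖ξ₂‖ ^ 2))) :=
        (tendsto_const_nhds).add
          ((tendsto_pow_atTop_nhds_zero_of_lt_one (by norm_num) (by norm_num)).mul_const _)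
      rw [zero_mul, add_zero] at ht
      exact ge_of_tendsto ht (Filter.Eventually.of_forall hmain)
    rw [hbre, hbre] at hlim
    exact le_of_mul_le_mul_left hlim (by (clear * - hN; positivity))
  exact le_of_sq_le_sq key (norm_nonneg _)

/-! ### representing vectors -/

/-- evaluation at `ξ` -/
noncomputable def domEv (M : VonNeumannAlgebra H) (ξ : H) : Alg M →ₗ[ℂ] H where
  toFun x := (x : H →L[ℂ] H) ξ
  map_add' _ _ := rfl
  map_smul' _ _ := rfl

/-- closure of the orbit `M ξ` -/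
noncomputable def domL (M : VonNeumannAlgebra H) (ξ : H) : Submodule ℂ H :=
  (LinearMap.range (domEv M ξ)).topologicalClosure

theorem domL_complete (ξ : H) : CompleteSpace (domL M ξ) :=
  (LinearMap.range (domEv M ξ)).isClosed_topologicalClosure.completeSpace_coe

theorem mem_domL (ξ : H) (x : Alg M) : (x : H →L[ℂ] H) ξ ∈ domL M ξ :=
  Submodule.le_topologicalClosure _ ⟨x, rfl⟩

theorem dom_repr_unique {ξ ζ ζ' : H} (h : ζ ∈ domL M ξ) (h' : ζ' ∈ domL M ξ)
    (he : ∀ x : Alg M, ⟪ζ, (x : H →L[ℂ] H) ξ⟫_ℂ = ⟪ζ', (x : H →L[ℂ] H) ξ⟫_ℂ) : ζ = ζ' := by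
  have h1 : domL M ξ ≤ (ℂ ∙ (ζ - ζ'))ᗮ := by
    refine Submodule.topologicalClosure_minimal _ ?_ (Submodule.isClosed_orthogonal _)
    rintro _ ⟨x, rfl⟩
    rw [Submodule.mem_orthogonal_singleton_iff_inner_right, inner_sub_left]
    exact sub_eq_zero.2 (he x)
  have h2 := h1 (Submodule.sub_mem _ h h')
  rw [Submodule.mem_orthogonal_singleton_iff_inner_right, inner_self_eq_zero] at h2
  exact sub_eq_zero.1 h2

theorem dom_exists_repr (ξ : H) (ω : Alg M →L[ℂ] ℂ) {C : ℝ} (hC : 0 ≤ C)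
    (h : ∀ x : Alg M, ‖ω x‖ ≤ C * ‖(x : H →L[ℂ] H) ξ‖) :
    ∃ ζ ∈ domL M ξ, (∀ x : Alg M, ω x = ⟪ζ, (x : H →L[ℂ] H) ξ⟫_ℂ) ∧ ‖ζ‖ ≤ C := by
  have hwd : ∀ x y : Alg M, domEv M ξ x = domEv M ξ y → ω x = ω y := by
    intro x y hxy
    have h1 := h (x - y)
    have h2 : ((x - y : Alg M) : H →L[ℂ] H) ξ = 0 := by
      have : ((x - y : Alg M) : H →L[ℂ] H) ξ = domEv M ξ x - domEv M ξ y := rfl
      rw [this, hxy, sub_self]
    rw [h2, norm_zero, mul_zero] at h1
    have h3 : ω (x - y) = 0 := norm_le_zero_iff.1 h1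
    rwa [map_sub, sub_eq_zero] at h3
  let ch : LinearMap.range (domEv M ξ) → Alg M := fun s => s.2.choose
  have hch : ∀ s : LinearMap.range (domEv M ξ), domEv M ξ (ch s) = s := fun s => s.2.choose_spec
  let f₀ : LinearMap.range (domEv M ξ) →ₗ[ℂ] ℂ :=
    { toFun := fun s => ω (ch s)
      map_add' := fun s t => by
        rw [← map_add]
        refine hwd _ _ ?_
        rw [map_add, hch, hch, hch]
        rfl
      map_smul' := fun c s => by
        rw [RingHom.id_apply, ← map_smul]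
        refine hwd _ _ ?_
        rw [map_smul, hch, hch]
        rfl }
  have hf₀ : ∀ s, ‖f₀ s‖ ≤ C * ‖s‖ := by
    intro s
    have h1 := h (ch s)
    have h2 : ((ch s : Alg M) : H →L[ℂ] H) ξ = s := hch s
    rw [h2] at h1
    exact h1
  obtain ⟨g, hg, hgn⟩ := exists_extension_norm_eq _ (f₀.mkContinuous C hf₀)
  have hgC : ‖g‖ ≤ C := hgn.trans_le (f₀.mkContinuous_norm_le hC hf₀)
  set ζ₀ : H := (InnerProductSpace.toDual ℂ H).symm g with hζ₀
  have := domL_complete (M := M) ξ
  refine ⟨(domL M ξ).starProjection ζ₀, ?_, ?_, ?_⟩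
  · rw [Submodule.starProjection_apply]
    exact Submodule.coe_mem _
  · intro x
    rw [Submodule.inner_starProjection_left_eq_right,
      Submodule.starProjection_eq_self_iff.2 (mem_domL ξ x), hζ₀,
      InnerProductSpace.toDual_symm_apply]
    have h1 := hg ⟨(x : H →L[ℂ] H) ξ, ⟨x, rfl⟩⟩
    rw [h1]
    exact hwd _ _ (hch ⟨(x : H →L[ℂ] H) ξ, ⟨x, rfl⟩⟩).symm
  · refine ((domL M ξ).norm_starProjection_apply_le ζ₀).trans ?_
    rw [hζ₀, LinearIsometryEquiv.norm_map]
    exact hgC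

open Classical in
/-- the representing vector of a functional (zero if there is none) -/
noncomputable def domZ (M : VonNeumannAlgebra H) (ξ : H) (ω : Alg M →L[ℂ] ℂ) : H :=
  if h : ∃ ζ ∈ domL M ξ, ∀ x : Alg M, ω x = ⟪ζ, (x : H →L[ℂ] H) ξ⟫_ℂ then h.choose else 0

theorem domZ_spec {ξ : H} {ω : Alg M →L[ℂ] ℂ}
    (h : ∃ ζ ∈ domL M ξ, ∀ x : Alg M, ω x = ⟪ζ, (x : H →L[ℂ] H) ξ⟫_ℂ) :
    domZ M ξ ω ∈ domL M ξ ∧ ∀ x : Alg M, ω x = ⟪domZ M ξ ω, (x : H →L[ℂ] H) ξ⟫_ℂ := by
  unfold domZ
  rw [dif_pos h]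
  exact h.choose_spec

theorem domZ_eq {ξ ζ : H} {ω : Alg M →L[ℂ] ℂ} (hζ : ζ ∈ domL M ξ)
    (h : ∀ x : Alg M, ω x = ⟪ζ, (x : H →L[ℂ] H) ξ⟫_ℂ) : domZ M ξ ω = ζ := by
  obtain ⟨h1, h2⟩ := domZ_spec ⟨ζ, hζ, h⟩
  exact dom_repr_unique h1 hζ fun x => by rw [← h2, h]

theorem domZ_convex {ξ : H} {a b : Alg M →L[ℂ] ℂ}
    (ha : ∃ ζ ∈ domL M ξ, ∀ x : Alg M, a x = ⟪ζ, (x : H →L[ℂ] H) ξ⟫_ℂ)
    (hb : ∃ ζ ∈ domL M ξ, ∀ x : Alg M, b x = ⟪ζ, (x : H →L[ℂ] H) ξ⟫_ℂ) (hξ : ξ ≠ 0) :
    ‖domZ M ξ ((1 / 2 : ℝ) • (a + b))‖ ^ 2 + 1 / (4 * ‖ξ‖ ^ 2) * ‖a - b‖ ^ 2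
      ≤ (1 / 2) * ‖domZ M ξ a‖ ^ 2 + (1 / 2) * ‖domZ M ξ b‖ ^ 2 := by
  obtain ⟨ha1, ha2⟩ := domZ_spec ha
  obtain ⟨hb1, hb2⟩ := domZ_spec hb
  set u := domZ M ξ a
  set v := domZ M ξ b
  have hmid : domZ M ξ ((1 / 2 : ℝ) • (a + b)) = ((1 / 2 : ℝ) : ℂ) • (u + v) := by
    refine domZ_eq (Submodule.smul_mem _ _ (Submodule.add_mem _ ha1 hb1)) fun x => ?_
    rw [inner_smul_left, inner_add_left, ← ha2, ← hb2, Complex.conj_ofReal]
    simp only [smul_apply, add_apply, Complex.real_smul]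
  have hdiff : ‖a - b‖ ≤ ‖u - v‖ * ‖ξ‖ := by
    refine ContinuousLinearMap.opNorm_le_bound _ (by (clear * - hξ; positivity)) fun x => ?_
    have h1 : (a - b) x = ⟪u - v, (x : H →L[ℂ] H) ξ⟫_ℂ := by
      rw [inner_sub_left, ← ha2, ← hb2]
      rfl
    rw [h1]
    refine (norm_inner_le_norm _ _).trans ?_
    calc ‖u - v‖ * ‖(x : H →L[ℂ] H) ξ‖ ≤ ‖u - v‖ * (‖x‖ * ‖ξ‖) := by
          gcongr
          exact (x : H →L[ℂ] H).le_opNorm ξ
      _ = _ := by ring
  have hξ0 : 0 < ‖ξ‖ := norm_pos_iff.2 hξ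
  have hdiff2 : 1 / (4 * ‖ξ‖ ^ 2) * ‖a - b‖ ^ 2 ≤ 1 / 4 * ‖u - v‖ ^ 2 := by
    have h1 : ‖a - b‖ ^ 2 ≤ (‖u - v‖ * ‖ξ‖) ^ 2 := by (clear * - hdiff; gcongr)
    calc 1 / (4 * ‖ξ‖ ^ 2) * ‖a - b‖ ^ 2 ≤ 1 / (4 * ‖ξ‖ ^ 2) * (‖u - v‖ * ‖ξ‖) ^ 2 := by (clear * - hξ h1; gcongr)
      _ = 1 / 4 * ‖u - v‖ ^ 2 := by
          (clear * - hξ; field_simp)
  have hpar := parallelogram_law_with_norm ℂ u v
  rw [hmid, norm_smul, Complex.norm_real, Real.norm_of_nonneg (by norm_num)]
  linarith only [hdiff2, hpar]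

/-! ### the conjugation action -/

/-- `x ↦ W x W*` -/
noncomputable def domAd (W : Alg M) : Alg M →L[ℂ] Alg M :=
  (ContinuousLinearMap.mul ℂ (Alg M) W).comp ((ContinuousLinearMap.mul ℂ (Alg M)).flip (star W))

theorem domAd_apply (W x : Alg M) : domAd W x = W * (x * star W) := rfl

theorem norm_domAd_le {W : Alg M} (hW : star W * W = 1) : ‖domAd W‖ ≤ 1 := by
  refine ContinuousLinearMap.opNorm_le_bound _ zero_le_one fun x => ?_
  have h1 := norm_le_one_of_star_mul_self M hW
  have h2 : ‖star W‖ ≤ 1 := by rw [norm_star_alg]; exact h1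
  rw [domAd_apply]
  calc ‖W * (x * star W)‖ ≤ ‖W‖ * (‖x‖ * ‖star W‖) :=
        (norm_mul_le _ _).trans (by gcongr; exact norm_mul_le _ _)
    _ ≤ 1 * (‖x‖ * 1) := by gcongr
    _ = 1 * ‖x‖ := by ring

/-- `ω ↦ ω (W · W*)` -/
noncomputable def domT (W : Alg M) : (Alg M →L[ℂ] ℂ) →L[ℝ] (Alg M →L[ℂ] ℂ) :=
  ((ContinuousLinearMap.compL ℂ (Alg M) (Alg M) ℂ).flip (domAd W)).restrictScalars ℝ

theorem domT_apply (W : Alg M) (ω : Alg M →L[ℂ] ℂ) (x : Alg M) :
    domT W ω x = ω (W * (x * star W)) := rfl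

theorem norm_domT_le {W : Alg M} (hW : star W * W = 1) (ω : Alg M →L[ℂ] ℂ) :
    ‖domT W ω‖ ≤ ‖ω‖ := by
  have h : domT W ω = ω.comp (domAd W) := rfl
  rw [h]
  calc ‖ω.comp (domAd W)‖ ≤ ‖ω‖ * ‖domAd W‖ := ContinuousLinearMap.opNorm_comp_le _ _
    _ ≤ ‖ω‖ * 1 := by gcongr; exact norm_domAd_le hW
    _ = ‖ω‖ := mul_one _

theorem norm_domT {W : Alg M} (hW : star W * W = 1) (hW' : W * star W = 1)
    (ω : Alg M →L[ℂ] ℂ) : ‖domT W ω‖ = ‖ω‖ := by
  refine le_antisymm (norm_domT_le hW ω) ?_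
  have h : ω = domT (star W) (domT W ω) := by
    ext x
    rw [domT_apply, domT_apply, star_star]
    congr 1
    calc x = (W * star W) * x * (W * star W) := by rw [hW', one_mul, mul_one]
      _ = W * (star W * (x * W) * star W) := by simp only [mul_assoc]
  conv_lhs => rw [h]
  exact norm_domT_le (by rw [star_star]; exact hW') _

/-- the group of unitaries of `M` commuting with `P` -/
def DomG (M : VonNeumannAlgebra H) (P : Alg M) : Type u :=
  {W : Alg M // star W * W = 1 ∧ W * star W = 1 ∧ W * P = P * W}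

/-- the invariant convex set -/
def domK (M : VonNeumannAlgebra H) (P : Alg M) (ξ₁ ξ₂ : H) : Set (Alg M →L[ℂ] ℂ) :=
  {ω | (∀ x : Alg M, 0 ≤ (ω (star x * x)).re) ∧ (∀ x : Alg M, (ω (star x * x)).im = 0) ∧
    (ω 1 = ((‖ξ₁‖ ^ 2 : ℝ) : ℂ)) ∧
    (∀ (W : DomG M P) (x y : Alg M), ‖ω (W.1 * (star y * x * star W.1))‖ ≤
      ‖(y : H →L[ℂ] H) ξ₂‖ * ‖(x : H →L[ℂ] H) ξ₂‖) ∧
    ∀ x : Alg M, ω (P * x * P) = ω x}

theorem dom_continuous_eval (x : Alg M) : Continuous fun ω : Alg M →L[ℂ] ℂ => ω x :=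
  (ContinuousLinearMap.apply ℂ ℂ x).continuous

theorem domK_closed (P : Alg M) (ξ₁ ξ₂ : H) : IsClosed (domK M P ξ₁ ξ₂) := by
  unfold domK
  simp only [Set.ofPred_and, Set.ofPred_forall]
  refine IsClosed.inter (isClosed_iInter fun x => ?_) (IsClosed.inter (isClosed_iInter fun x => ?_)
    (IsClosed.inter ?_ (IsClosed.inter (isClosed_iInter fun W => isClosed_iInter fun x =>
      isClosed_iInter fun y => ?_) (isClosed_iInter fun x => ?_))))
  · exact isClosed_le continuous_const (Complex.continuous_re.comp (dom_continuous_eval _))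
  · exact isClosed_eq (Complex.continuous_im.comp (dom_continuous_eval _)) continuous_const
  · exact isClosed_eq (dom_continuous_eval _) continuous_const
  · exact isClosed_le (dom_continuous_eval _).norm continuous_const
  · exact isClosed_eq (dom_continuous_eval _) (dom_continuous_eval _)

theorem domK_convex (P : Alg M) (ξ₁ ξ₂ : H) : Convex ℝ (domK M P ξ₁ ξ₂) := by
  intro a ha b hb s t hs ht hst
  obtain ⟨a1, a2, a3, a4, a5⟩ := ha
  obtain ⟨b1, b2, b3, b4, b5⟩ := hb
  have hap : ∀ x : Alg M, (s • a + t • b) x = (s : ℂ) * a x + (t : ℂ) * b x := by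
    intro x
    simp only [add_apply, smul_apply, Complex.real_smul]
  refine ⟨fun x => ?_, fun x => ?_, ?_, fun W x y => ?_, fun x => ?_⟩
  · rw [hap, Complex.add_re, Complex.re_ofReal_mul, Complex.re_ofReal_mul]
    exact add_nonneg (mul_nonneg hs (a1 x)) (mul_nonneg ht (b1 x))
  · rw [hap, Complex.add_im, Complex.im_ofReal_mul, Complex.im_ofReal_mul, a2, b2]
    simp
  · rw [hap, a3, b3, ← add_mul, ← Complex.ofReal_add, hst]
    simp
  · rw [hap]
    refine (norm_add_le _ _).trans ?_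
    rw [norm_mul, norm_mul, Complex.norm_real, Complex.norm_real, Real.norm_of_nonneg hs,
      Real.norm_of_nonneg ht]
    have h1 := mul_le_mul_of_nonneg_left (a4 W x y) hs
    have h2 := mul_le_mul_of_nonneg_left (b4 W x y) ht
    calc _ ≤ _ := add_le_add h1 h2
      _ = _ := by rw [← add_mul, hst, one_mul]
  · rw [hap, hap, a5, b5]

theorem domG_one_mem (P : Alg M) :
    star (1 : Alg M) * 1 = 1 ∧ (1 : Alg M) * star 1 = 1 ∧ (1 : Alg M) * P = P * 1 := by
  simp

theorem domG_mul {P : Alg M} (W V : DomG M P) :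
    star (W.1 * V.1) * (W.1 * V.1) = 1 ∧ (W.1 * V.1) * star (W.1 * V.1) = 1 ∧
      (W.1 * V.1) * P = P * (W.1 * V.1) := by
  obtain ⟨W, w1, w2, w3⟩ := W
  obtain ⟨V, v1, v2, v3⟩ := V
  simp only
  refine ⟨?_, ?_, ?_⟩
  · rw [star_mul]
    calc star V * star W * (W * V) = star V * (star W * W) * V := by simp only [mul_assoc]
      _ = 1 := by rw [w1, mul_one, v1]
  · rw [star_mul]
    calc W * V * (star V * star W) = W * (V * star V) * star W := by simp only [mul_assoc]
      _ = 1 := by rw [v2, mul_one, w2]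
  · calc W * V * P = W * (V * P) := mul_assoc _ _ _
      _ = (W * P) * V := by rw [v3, mul_assoc]
      _ = P * (W * V) := by rw [w3, mul_assoc]

theorem domG_comm_star {P : Alg M} (hPs : star P = P) (W : DomG M P) :
    star W.1 * P = P * star W.1 := by
  have h := congrArg star W.2.2.2
  rw [star_mul, star_mul, hPs] at h
  exact h.symm

theorem domK_invariant {P : Alg M} (hPs : star P = P) {ξ₁ ξ₂ : H}
    (W : DomG M P) {ω : Alg M →L[ℂ] ℂ} (hω : ω ∈ domK M P ξ₁ ξ₂) :
    domT W.1 ω ∈ domK M P ξ₁ ξ₂ := by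
  obtain ⟨h1, h2, h3, h4, h5⟩ := hω
  have hconj : ∀ x : Alg M, W.1 * (star x * x * star W.1) =
      star (x * star W.1) * (x * star W.1) := by
    intro x
    rw [star_mul, star_star]
    simp only [mul_assoc]
  refine ⟨fun x => ?_, fun x => ?_, ?_, fun V x y => ?_, fun x => ?_⟩
  · rw [domT_apply, hconj]
    exact h1 _
  · rw [domT_apply, hconj]
    exact h2 _
  · rw [domT_apply, one_mul, W.2.2.1, h3]
  · rw [domT_apply]
    have h6 := h4 ⟨W.1 * V.1, domG_mul W V⟩ x y
    simp only [star_mul] at h6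
    convert h6 using 3
    simp only [mul_assoc]
  · rw [domT_apply, domT_apply, ← h5 (W.1 * (x * star W.1))]
    congr 1
    calc W.1 * (P * x * P * star W.1) = (W.1 * P) * x * (P * star W.1) := by
          simp only [mul_assoc]
      _ = (P * W.1) * x * (star W.1 * P) := by rw [W.2.2.2, domG_comm_star hPs W]
      _ = P * (W.1 * (x * star W.1)) * P := by simp only [mul_assoc]

theorem dom_vna_isClosed (M : VonNeumannAlgebra H) :
    IsClosed ((M.toStarSubalgebra : Set (H →L[ℂ] H))) := by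
  have h := VonNeumannAlgebra.centralizer_centralizer M
  have h1 : (M.toStarSubalgebra : Set (H →L[ℂ] H)) = (M : Set (H →L[ℂ] H)) := rfl
  rw [h1, ← h]
  exact Set.isClosed_centralizer _

/-- the star subalgebra of the elements of `M` commuting with `p` -/
noncomputable def domN (M : VonNeumannAlgebra H) (p : H →L[ℂ] H) :
    StarSubalgebra ℂ (H →L[ℂ] H) :=
  M.toStarSubalgebra ⊓ StarSubalgebra.centralizer ℂ {p}

theorem domN_isClosed (p : H →L[ℂ] H) : IsClosed ((domN M p : StarSubalgebra ℂ (H →L[ℂ] H)) :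
    Set (H →L[ℂ] H)) := by
  have h : ((domN M p : StarSubalgebra ℂ (H →L[ℂ] H)) : Set (H →L[ℂ] H)) =
      (M.toStarSubalgebra : Set (H →L[ℂ] H)) ∩
        (StarSubalgebra.centralizer ℂ {p} : Set (H →L[ℂ] H)) := rfl
  rw [h, StarSubalgebra.coe_centralizer]
  exact (dom_vna_isClosed M).inter (Set.isClosed_centralizer _)

theorem dom_commutator {P : Alg M} (hPs : star P = P) {τ : Alg M →L[ℂ] ℂ}
    (hτ : ∀ W : DomG M P, domT W.1 τ = τ) {Y : Alg M} (hY : P * Y = Y * P) (x : Alg M) :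
    τ (Y * x) = τ (x * Y) := by
  have hcl : IsClosed ((domN M (P : H →L[ℂ] H) : StarSubalgebra ℂ (H →L[ℂ] H)) :
    Set (H →L[ℂ] H)) := domN_isClosed _
  have hYmem : (Y : H →L[ℂ] H) ∈ domN M (P : H →L[ℂ] H) := by
    refine ⟨Y.2, (StarSubalgebra.mem_centralizer_iff ℂ).2 ?_⟩
    rintro g rfl
    have h1 : (P : H →L[ℂ] H) * Y = Y * P := congrArg Subtype.val hY
    have h2 : star (P : H →L[ℂ] H) = P := congrArg Subtype.val hPs
    rw [h2]
    exact ⟨h1, h1⟩
  obtain ⟨u, c, huc, -⟩ := CStarAlgebra.exists_sum_four_unitary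
    (⟨(Y : H →L[ℂ] H), hYmem⟩ : domN M (P : H →L[ℂ] H))
  let V : Fin 4 → Alg M := fun i =>
    ⟨((u i : domN M (P : H →L[ℂ] H)) : H →L[ℂ] H), (u i : domN M (P : H →L[ℂ] H)).2.1⟩
  have hV1 : ∀ i, star (V i) * V i = 1 := fun i => Subtype.ext
    (congrArg (fun z : domN M (P : H →L[ℂ] H) => (z : H →L[ℂ] H))
      (Unitary.star_mul_self_of_mem (u i).2))
  have hV2 : ∀ i, V i * star (V i) = 1 := fun i => Subtype.ext
    (congrArg (fun z : domN M (P : H →L[ℂ] H) => (z : H →L[ℂ] H))
      (Unitary.mul_star_self_of_mem (u i).2))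
  have hV3 : ∀ i, V i * P = P * V i := fun i => Subtype.ext
    (((StarSubalgebra.mem_centralizer_iff ℂ).1 (u i : domN M (P : H →L[ℂ] H)).2.2 _ rfl).1).symm
  have hYV : Y = ∑ i, c i • V i := by
    apply Subtype.ext
    have h3 := congrArg (fun z : domN M (P : H →L[ℂ] H) => (z : H →L[ℂ] H)) huc
    refine Eq.trans h3 ?_
    simp [V]
  have hVx : ∀ i, τ (V i * x) = τ (x * V i) := by
    intro i
    have h := DFunLike.congr_fun (hτ ⟨V i, hV1 i, hV2 i, hV3 i⟩) (x * V i)
    rw [domT_apply] at h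
    simp only at h
    rw [← h]
    congr 1
    rw [mul_assoc x, hV2, mul_one]
  rw [hYV, Finset.sum_mul, Finset.mul_sum, map_sum, map_sum]
  refine Finset.sum_congr rfl fun i _ => ?_
  rw [smul_mul_assoc, mul_smul_comm, map_smul, map_smul, hVx]

/-- (T2)+(T3): a dominated orbit gives a trace on the corner -/
theorem exists_trace_of_dominated {p : H →L[ℂ] H} (hp : IsPr M p) {ξ₁ ξ₂ : H} (h1 : p ξ₁ = ξ₁)
    (h2 : p ξ₂ = ξ₂) (h0 : ξ₁ ≠ 0)
    (hdom : ∀ e f, IsPr M e → IsPr M f → Le e p → Le f p → Eqv M e f → ‖e ξ₁‖ ≤ ‖f ξ₂‖) :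
    ∃ η : H, η ≠ 0 ∧ p η = η ∧ ∀ x ∈ M, ∀ y ∈ M,
      ⟪η, (p * x * p * y * p) η⟫_ℂ = ⟪η, (p * y * p * x * p) η⟫_ℂ := by
  have hξ₂ : ξ₂ ≠ 0 := by
    have h := hdom p p hp hp hp.idem hp.idem ⟨p, hp.mem, by rw [hp.sa, hp.idem],
      by rw [hp.sa, hp.idem]⟩
    rw [h1, h2] at h
    intro h3
    rw [h3, norm_zero] at h
    exact h0 (norm_le_zero_iff.1 h)
  let P : Alg M := ⟨p, hp.mem⟩
  have hPs : star P = P := Subtype.ext hp.sa
  have hPi : P * P = P := Subtype.ext hp.idem
  have hone : ∀ W : Alg M, star W * W = 1 → star (W : H →L[ℂ] H) * W = 1 := fun W h =>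
    congrArg Subtype.val h
  -- the base point
  have hmem : vecFun M ξ₁ ξ₁ ∈ domK M P ξ₁ ξ₂ := by
    have hsq : ∀ x : Alg M, vecFun M ξ₁ ξ₁ (star x * x) =
        ((‖(x : H →L[ℂ] H) ξ₁‖ ^ 2 : ℝ) : ℂ) := by
      intro x
      have h3 : vecFun M ξ₁ ξ₁ (star x * x) = ⟪(x : H →L[ℂ] H) ξ₁, (x : H →L[ℂ] H) ξ₁⟫_ℂ :=
        ContinuousLinearMap.adjoint_inner_right (x : H →L[ℂ] H) ξ₁ _
      rw [h3, inner_self_eq_norm_sq_to_K]
      norm_cast
    refine ⟨fun x => ?_, fun x => ?_, ?_, fun W x y => ?_, fun x => ?_⟩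
    · rw [hsq, Complex.ofReal_re]
      (clear * -; positivity)
    · rw [hsq, Complex.ofReal_im]
    · have h3 := hsq 1
      rw [star_one, one_mul] at h3
      rw [h3]
      rfl
    · have h3 : vecFun M ξ₁ ξ₁ (W.1 * (star y * x * star W.1)) =
          ⟪(y : H →L[ℂ] H) (star (W.1 : H →L[ℂ] H) ξ₁),
            (x : H →L[ℂ] H) (star (W.1 : H →L[ℂ] H) ξ₁)⟫_ℂ := by
        have h4 : ((W.1 * (star y * x * star W.1) : Alg M) : H →L[ℂ] H) ξ₁ =
            star ((y : H →L[ℂ] H) * star (W.1 : H →L[ℂ] H))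
              ((x : H →L[ℂ] H) (star (W.1 : H →L[ℂ] H) ξ₁)) := by
          rw [star_mul, star_star]
          rfl
        rw [vecFun_apply, h4]
        exact ContinuousLinearMap.adjoint_inner_right _ _ _
      rw [h3]
      refine (norm_inner_le_norm _ _).trans ?_
      have hw1 : star (W.1 : H →L[ℂ] H) * W.1 = 1 := congrArg Subtype.val W.2.1
      have hw2 : (W.1 : H →L[ℂ] H) * star (W.1 : H →L[ℂ] H) = 1 := congrArg Subtype.val W.2.2.1
      have hwp : (W.1 : H →L[ℂ] H) * p = p * W.1 := congrArg Subtype.val W.2.2.2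
      exact mul_le_mul (norm_le_of_proj_le hp h1 h2 hdom W.1.2 hw1 hw2 hwp y.2)
        (norm_le_of_proj_le hp h1 h2 hdom W.1.2 hw1 hw2 hwp x.2) (norm_nonneg _) (norm_nonneg _)
    · have h3 : vecFun M ξ₁ ξ₁ (P * x * P) = ⟪p ξ₁, (x : H →L[ℂ] H) (p ξ₁)⟫_ℂ := by
        have h4 : ((P * x * P : Alg M) : H →L[ℂ] H) ξ₁ = star p ((x : H →L[ℂ] H) (p ξ₁)) := by
          rw [hp.sa]
          rfl
        rw [vecFun_apply, h4]
        exact ContinuousLinearMap.adjoint_inner_right _ _ _
      rw [h3, h1]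
      rfl
  have hrep : ∀ ω ∈ domK M P ξ₁ ξ₂, ∃ ζ ∈ domL M ξ₂,
      (∀ x : Alg M, ω x = ⟪ζ, (x : H →L[ℂ] H) ξ₂⟫_ℂ) ∧ ‖ζ‖ ≤ ‖ξ₂‖ := by
    intro ω hω
    refine dom_exists_repr ξ₂ ω (norm_nonneg _) fun x => ?_
    have h3 := hω.2.2.2.1 ⟨1, domG_one_mem P⟩ x 1
    simp only [star_one, one_mul, mul_one] at h3
    exact h3
  obtain ⟨τ, hτK, hτ⟩ := exists_fixed_point (fun W : DomG M P => domT W.1)
    (fun W a => norm_domT W.2.1 W.2.2.1 a) (domK M P ξ₁ ξ₂) (domK_convex P ξ₁ ξ₂) ⟨_, hmem⟩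
    (fun W a ha => domK_invariant hPs W ha)
    (fun W V => ⟨⟨V.1 * W.1, domG_mul V W⟩, fun a => by
      ext x
      simp only [domT_apply, star_mul, mul_assoc]⟩)
    ⟨⟨1, domG_one_mem P⟩, fun a => by
      ext x
      simp only [domT_apply, star_one, mul_one, one_mul]⟩
    (fun ω => ‖domZ M ξ₂ ω‖ ^ 2) (‖ξ₂‖ ^ 2) (1 / (4 * ‖ξ₂‖ ^ 2))
    (by have := norm_pos_iff.2 hξ₂
        positivity)
    (fun a _ => by (clear * -; positivity))
    (fun a ha => by
      obtain ⟨ζ, hζ, hζ2, hζ3⟩ := hrep a ha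
      rw [domZ_eq hζ hζ2]
      (clear * - hζ3; gcongr))
    (fun a ha b hb => by
      obtain ⟨ζ, hζ, hζ2, -⟩ := hrep a ha
      obtain ⟨ζ', hζ', hζ2', -⟩ := hrep b hb
      exact domZ_convex ⟨ζ, hζ, hζ2⟩ ⟨ζ', hζ', hζ2'⟩ hξ₂)
  rw [(domK_closed P ξ₁ ξ₂).closure_eq] at hτK
  obtain ⟨η, hη⟩ := exists_vec_of_dominated ξ₂ τ (fun x => ⟨hτK.1 x, hτK.2.1 x⟩) (fun x y => by
    have h3 := hτK.2.2.2.1 ⟨1, domG_one_mem P⟩ x y
    simp only [star_one, one_mul, mul_one] at h3
    exact h3)
  refine ⟨η, ?_, ?_, ?_⟩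
  · rintro rfl
    have h3 := hη 1
    rw [hτK.2.2.1] at h3
    have h4 : ‖ξ₁‖ ^ 2 = 0 := by
      have h5 : ((‖ξ₁‖ ^ 2 : ℝ) : ℂ) = 0 := by
        rw [h3]
        simp
      exact_mod_cast h5
    exact h0 (norm_eq_zero.1 (pow_eq_zero_iff (two_ne_zero)|>.1 h4))
  · -- `(1 - p) η = 0`
    have h3 : τ (1 - P) = 0 := by
      rw [← hτK.2.2.2.2 (1 - P)]
      have h4 : P * (1 - P) * P = 0 := by
        rw [mul_sub, mul_one, hPi, sub_self, zero_mul]
      rw [h4, map_zero]
    rw [hη] at h3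
    have h5 : ⟪η, ((1 - P : Alg M) : H →L[ℂ] H) η⟫_ℂ = ((‖η - p η‖ ^ 2 : ℝ) : ℂ) := by
      have h6 : ((1 - P : Alg M) : H →L[ℂ] H) η = star (1 - p) ((1 - p) η) := by
        rw [star_sub, star_one, hp.sa]
        have h7 : (1 - p) * (1 - p) = 1 - p := by
          rw [mul_sub, mul_one, sub_mul, one_mul, hp.idem, sub_self, sub_zero]
        exact (congrArg (fun T : H →L[ℂ] H => T η) h7).symm
      rw [h6]
      have h8 : ⟪η, star (1 - p) ((1 - p) η)⟫_ℂ = ⟪(1 - p) η, (1 - p) η⟫_ℂ :=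
        ContinuousLinearMap.adjoint_inner_right _ _ _
      rw [h8, inner_self_eq_norm_sq_to_K]
      norm_cast
    rw [h5] at h3
    have h9 : ‖η - p η‖ ^ 2 = 0 := by exact_mod_cast h3
    have h10 : η - p η = 0 := norm_eq_zero.1 (pow_eq_zero_iff (two_ne_zero)|>.1 h9)
    exact (sub_eq_zero.1 h10).symm
  · intro x hx y hy
    let X : Alg M := ⟨x, hx⟩
    let Y : Alg M := ⟨y, hy⟩
    have hc : P * (P * Y * P) = (P * Y * P) * P := by
      rw [mul_assoc (P * Y) P P, hPi, ← mul_assoc P (P * Y) P, ← mul_assoc P P Y, hPi]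
    have h3 := dom_commutator hPs hτ hc (P * X * P)
    have h4 : (P * Y * P) * (P * X * P) = P * Y * P * X * P := by
      calc (P * Y * P) * (P * X * P) = P * Y * (P * P) * X * P := by simp only [mul_assoc]
        _ = _ := by rw [hPi]
    have h5 : (P * X * P) * (P * Y * P) = P * X * P * Y * P := by
      calc (P * X * P) * (P * Y * P) = P * X * (P * P) * Y * P := by simp only [mul_assoc]
        _ = _ := by rw [hPi]
    rw [h4, h5, hη, hη] at h3
    exact h3.symm

end Vale.Agent.P082.VN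
end

section
attribute [local instance] Vale.Agent.P082.AlgFast.nr Vale.Agent.P082.AlgFast.na
  Vale.Agent.P082.AlgFast.sr Vale.Agent.P082.AlgFast.ng Vale.Agent.P082.AlgFast.sg
  Vale.Agent.P082.AlgFast.ns Vale.Agent.P082.AlgFast.ri Vale.Agent.P082.AlgFast.ag
  Vale.Agent.P082.AlgFast.am Vale.Agent.P082.AlgFast.mo Vale.Agent.P082.AlgFast.pm
  Vale.Agent.P082.AlgFast.us Vale.Agent.P082.AlgFast.ts Vale.Agent.P082.AlgFast.ets
  Vale.Agent.P082.AlgFast.eng Vale.Agent.P082.AlgFast.esg Vale.Agent.P082.AlgFast.ens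
  Vale.Agent.P082.AlgFast.eam Vale.Agent.P082.AlgFast.emo Vale.Agent.P082.AlgFast.nu
  Vale.Agent.P082.AlgFast.sag Vale.Agent.P082.AlgFast.agr Vale.Agent.P082.AlgFast.mon
  Vale.Agent.P082.AlgFast.srg

open scoped InnerProductSpace ComplexConjugate

namespace Vale.Agent.P082.VN

universe u

variable {H : Type u} [NormedAddCommGroup H] [InnerProductSpace ℂ H] [CompleteSpace H]
  {M : VonNeumannAlgebra H}

/-- if `v* v = e` is a projection then `v e = v` -/
lemma compare_mul_of_star_mul {v e : H →L[ℂ] H} (h : star v * v = e) (he : e * e = e) :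
    v * e = v := by
  have hsa : star e = e := by rw [← h, star_mul, star_star]
  have h0 : star (v - v * e) * (v - v * e) = 0 := by
    have h1 : star (v - v * e) * (v - v * e)
        = star v * v - star v * v * e - (e * (star v * v) - e * (star v * v) * e) := by
      rw [star_sub, star_mul, hsa]
      noncomm_ring
    rw [h1, h, he, he]
    simp
  rw [CStarRing.star_mul_self_eq_zero_iff] at h0
  exact (sub_eq_zero.mp h0).symm

lemma compare_mul_of_mul_star {v f : H →L[ℂ] H} (h : v * star v = f) (hf : f * f = f) :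
    f * v = v := by
  have h1 : star (star v) * star v = f := by rw [star_star]; exact h
  have h2 := compare_mul_of_star_mul h1 hf
  have h3 := congrArg star h2
  rw [star_mul, star_star] at h3
  have hsa : star f = f := by rw [← h, star_mul, star_star]
  rwa [hsa] at h3

lemma compare_isPr_mul_star {v e : H →L[ℂ] H} (hv : v ∈ M) (h : star v * v = e)
    (he : e * e = e) : IsPr M (v * star v) where
  mem := mul_mem hv (star_mem hv)
  idem := by
    rw [mul_assoc, ← mul_assoc (star v), h, ← mul_assoc, compare_mul_of_star_mul h he]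
  sa := by rw [star_mul, star_star]

lemma compare_eq_single {I : Type*} {v : I → H →L[ℂ] H} {w : H →L[ℂ] H} (h : IsSum v w) (j : I)
    (h0 : ∀ i, i ≠ j → v i = 0) : w = v j := by
  ext x
  refine (h x).unique ?_
  exact hasSum_single j (fun i hi => by rw [h0 i hi]; simp)

lemma Eqv.symm {e f : H →L[ℂ] H} (h : Eqv M e f) : Eqv M f e := by
  obtain ⟨v, hv, h1, h2⟩ := h
  exact ⟨star v, star_mem hv, by rwa [star_star], by rwa [star_star]⟩

lemma Eqv.trans {e f g : H →L[ℂ] H} (he : IsPr M e) (hf : IsPr M f) (hg : IsPr M g)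
    (h : Eqv M e f) (h' : Eqv M f g) : Eqv M e g := by
  obtain ⟨v, hv, h1, h2⟩ := h
  obtain ⟨w, hw, h3, h4⟩ := h'
  refine ⟨w * v, mul_mem hw hv, ?_, ?_⟩
  · rw [star_mul, mul_assoc, ← mul_assoc (star w), h3, compare_mul_of_mul_star h2 hf.idem, h1]
  · rw [star_mul, mul_assoc, ← mul_assoc v, h2, ← mul_assoc, compare_mul_of_star_mul h3 hf.idem,
      h4]

/-- `e ≾ f` iff `e ~ f' ≤ f` -/
lemma subEqv_iff {e f : H →L[ℂ] H} (he : IsPr M e) (hf : IsPr M f) :
    SubEqv M e f ↔ ∃ f', IsPr M f' ∧ Le f' f ∧ Eqv M e f' := by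
  constructor
  · rintro ⟨v, hv, h1, h2⟩
    refine ⟨v * star v, compare_isPr_mul_star hv h1 he.idem, ?_, v, hv, h1, rfl⟩
    unfold Le
    rw [← mul_assoc, h2]
  · rintro ⟨f', hf', hle, v, hv, h1, h2⟩
    refine ⟨v, hv, h1, ?_⟩
    have h3 := compare_mul_of_mul_star h2 hf'.idem
    unfold Le at hle
    calc f * v = f * (f' * v) := by rw [h3]
      _ = (f * f') * v := by rw [mul_assoc]
      _ = v := by rw [hle, h3]

lemma SubEqv.trans {e f g : H →L[ℂ] H} (he : IsPr M e) (hf : IsPr M f) (hg : IsPr M g)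
    (h : SubEqv M e f) (h' : SubEqv M f g) : SubEqv M e g := by
  obtain ⟨v, hv, h1, h2⟩ := h
  obtain ⟨w, hw, h3, h4⟩ := h'
  refine ⟨w * v, mul_mem hw hv, ?_, ?_⟩
  · rw [star_mul, mul_assoc, ← mul_assoc (star w), h3, h2, h1]
  · rw [← mul_assoc, h4]

/-- cutting an equivalence by a central projection -/
lemma Eqv.cut {e f z : H →L[ℂ] H} (hz : IsCPr M z) (h : Eqv M e f) :
    Eqv M (z * e) (z * f) := by
  obtain ⟨v, hv, h1, h2⟩ := h
  refine ⟨v * z, mul_mem hv hz.mem, ?_, ?_⟩
  · rw [star_mul, hz.sa, mul_assoc, ← mul_assoc (star v), h1, ← h1,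
      ← hz.comm _ (mul_mem (star_mem hv) hv), ← mul_assoc, hz.idem]
  · rw [star_mul, hz.sa, mul_assoc, ← mul_assoc z, hz.idem, hz.comm _ (star_mem hv), ← mul_assoc,
      h2, ← h2, ← hz.comm _ (mul_mem hv (star_mem hv))]

/-- the families of orthogonal partial isometries used in the comparability theorem -/
def CompareFam (M : VonNeumannAlgebra H) (e f : H →L[ℂ] H) : Set (Set (H →L[ℂ] H)) :=
  {V | (∀ v ∈ V, v ∈ M ∧ v ≠ 0 ∧ v * (star v * v) = v ∧ v * e = v ∧ f * v = v) ∧
    ∀ v ∈ V, ∀ w ∈ V, v ≠ w → star v * w = 0 ∧ v * star w = 0}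

/-- generalized comparability -/
theorem comparability {e f : H →L[ℂ] H} (he : IsPr M e) (hf : IsPr M f) :
    ∃ z, IsCPr M z ∧ SubEqv M ((1 - z) * e) ((1 - z) * f) ∧ SubEqv M (z * f) (z * e) := by
  obtain ⟨V, hV⟩ := zorn_subset (CompareFam M e f) (by
    intro c hc hchain
    refine ⟨⋃₀ c, ⟨?_, ?_⟩, fun s hs => Set.subset_sUnion_of_mem hs⟩
    · rintro v ⟨s, hs, hvs⟩
      exact (hc hs).1 v hvs
    · rintro v ⟨s, hs, hvs⟩ w ⟨t, ht, hwt⟩ hne
      rcases hchain.total hs ht with h | h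
      · exact (hc ht).2 v (h hvs) w hwt hne
      · exact (hc hs).2 v hvs w (h hwt) hne)
  have hVm := hV.prop
  obtain ⟨hV1, hV2⟩ := hVm
  obtain ⟨w, hw, hs, hss, hse, hsf⟩ := exists_sum_pi (fun v : V => (v : H →L[ℂ] H))
    (fun i => (hV1 i i.2).1) (fun i => (hV1 i i.2).2.2.1)
    (fun i j hij => (hV2 i i.2 j j.2 (fun h => hij (Subtype.ext h))).1)
    (fun i j hij => (hV2 i i.2 j j.2 (fun h => hij (Subtype.ext h))).2)
  -- basic identities
  have hwe : w * e = w := by
    have h1 := hs.mul_right e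
    refine h1.unique ?_
    have : (fun i : V => (i : H →L[ℂ] H) * e) = fun i : V => (i : H →L[ℂ] H) := by
      funext i
      exact (hV1 i i.2).2.2.2.1
    rw [this]
    exact hs
  have hfw : f * w = w := by
    have h1 := hs.mul_left f
    refine h1.unique ?_
    have : (fun i : V => f * (i : H →L[ℂ] H)) = fun i : V => (i : H →L[ℂ] H) := by
      funext i
      exact (hV1 i i.2).2.2.2.2
    rw [this]
    exact hs
  have hsw : ∀ u ∈ V, star w * u = star u * u := by
    intro u hu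
    exact compare_eq_single (hss.mul_right u) ⟨u, hu⟩
      (fun i hi => (hV2 i i.2 u hu (fun h => hi (Subtype.ext h))).1)
  have hws : ∀ u ∈ V, w * star u = u * star u := by
    intro u hu
    exact compare_eq_single (hs.mul_right (star u)) ⟨u, hu⟩
      (fun i hi => (hV2 i i.2 u hu (fun h => hi (Subtype.ext h))).2)
  have he0 : (star w * w) * (star w * w) = star w * w := by
    refine (hse.mul_left (star w * w)).unique ?_
    have : (fun i : V => (star w * w) * (star (i : H →L[ℂ] H) * (i : H →L[ℂ] H)))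
        = fun i : V => star (i : H →L[ℂ] H) * (i : H →L[ℂ] H) := by
      funext i
      calc (star w * w) * (star (i : H →L[ℂ] H) * (i : H →L[ℂ] H))
          = star w * (w * star (i : H →L[ℂ] H)) * (i : H →L[ℂ] H) := by noncomm_ring
        _ = (star w * i) * (star (i : H →L[ℂ] H) * (i : H →L[ℂ] H)) := by
            rw [hws i i.2]; noncomm_ring
        _ = star (i : H →L[ℂ] H) * (i * (star (i : H →L[ℂ] H) * (i : H →L[ℂ] H))) := by
            rw [hsw i i.2]; noncomm_ring
        _ = star (i : H →L[ℂ] H) * (i : H →L[ℂ] H) := by rw [(hV1 i i.2).2.2.1]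
    rw [this]
    exact hse
  have hwe0 : w * (star w * w) = w := compare_mul_of_star_mul rfl he0
  have hesw : e * star w = star w := by
    have := congrArg star hwe
    rwa [star_mul, he.sa] at this
  have hswf : star w * f = star w := by
    have := congrArg star hfw
    rwa [star_mul, hf.sa] at this
  have heM : star w * w ∈ M := mul_mem (star_mem hw) hw
  have hfM : w * star w ∈ M := mul_mem hw (star_mem hw)
  have he1 : IsPr M (e - star w * w) := by
    refine ⟨sub_mem he.mem heM, ?_, ?_⟩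
    · have a1 : e * (star w * w) = star w * w := by rw [← mul_assoc, hesw]
      have a2 : (star w * w) * e = star w * w := by rw [mul_assoc, hwe]
      rw [sub_mul, mul_sub, mul_sub, he.idem, a1, a2, he0]
      abel
    · rw [star_sub, he.sa, star_mul, star_star]
  have hf0 : (w * star w) * (w * star w) = w * star w := by
    calc (w * star w) * (w * star w) = w * (star w * w) * star w := by noncomm_ring
      _ = w * star w := by rw [hwe0]
  have hf1 : IsPr M (f - w * star w) := by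
    refine ⟨sub_mem hf.mem hfM, ?_, ?_⟩
    · have a1 : f * (w * star w) = w * star w := by rw [← mul_assoc, hfw]
      have a2 : (w * star w) * f = w * star w := by rw [mul_assoc, hswf]
      rw [sub_mul, mul_sub, mul_sub, hf.idem, a1, a2, hf0]
      abel
    · rw [star_sub, hf.sa, star_mul, star_star]
  -- members of `V` are killed by `e₁`, `f₁`
  have hf1u : ∀ u ∈ V, (f - w * star w) * u = 0 := by
    intro u hu
    have : w * star w * u = u := by
      calc w * star w * u = w * (star w * u) := by rw [mul_assoc]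
        _ = (w * star u) * u := by rw [hsw u hu, mul_assoc]
        _ = u * (star u * u) := by rw [hws u hu, mul_assoc]
        _ = u := (hV1 u hu).2.2.1
    rw [sub_mul, (hV1 u hu).2.2.2.2, this, sub_self]
  have hue1 : ∀ u ∈ V, u * (e - star w * w) = 0 := by
    intro u hu
    have b1 : u * star w = u * star u := by
      have := congrArg star (hws u hu)
      rwa [star_mul, star_star, star_mul, star_star] at this
    have b2 : star u * w = star u * u := by
      have := congrArg star (hsw u hu)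
      rwa [star_mul, star_star, star_mul, star_star] at this
    have : u * (star w * w) = u := by
      calc u * (star w * w) = (u * star w) * w := by rw [mul_assoc]
        _ = u * (star u * w) := by rw [b1, mul_assoc]
        _ = u := by rw [b2, (hV1 u hu).2.2.1]
    rw [mul_sub, (hV1 u hu).2.2.2.1, this, sub_self]
  have hkey : ∀ x ∈ M, (f - w * star w) * x * (e - star w * w) = 0 := by
    intro x hx
    by_contra hne
    obtain ⟨v, hv, hv0, hvv, hve, hfv⟩ := exists_pi_of_ne_zero he1 hf1 hx hne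
    have hve' : v * e = v := by
      have a3 : (e - star w * w) * e = e - star w * w := by
        rw [sub_mul, he.idem, mul_assoc, hwe]
      calc v * e = v * ((e - star w * w) * e) := by rw [← mul_assoc, hve]
        _ = v := by rw [a3, hve]
    have hfv' : f * v = v := by
      have a3 : f * (f - w * star w) = f - w * star w := by
        rw [mul_sub, hf.idem, ← mul_assoc, hfw]
      calc f * v = (f * (f - w * star w)) * v := by rw [mul_assoc, hfv]
        _ = v := by rw [a3, hfv]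
    have o1 : ∀ u ∈ V, star u * v = 0 := by
      intro u hu
      have c1 := congrArg star (hf1u u hu)
      rw [star_mul, hf1.sa, star_zero] at c1
      calc star u * v = (star u * (f - w * star w)) * v := by rw [mul_assoc, hfv]
        _ = 0 := by rw [c1, zero_mul]
    have o2 : ∀ u ∈ V, u * star v = 0 := by
      intro u hu
      have c1 := congrArg star hve
      rw [star_mul, he1.sa] at c1
      calc u * star v = (u * (e - star w * w)) * star v := by rw [mul_assoc, c1]
        _ = 0 := by rw [hue1 u hu, zero_mul]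
    have o3 : ∀ u ∈ V, star v * u = 0 := by
      intro u hu
      have := congrArg star (o1 u hu)
      rwa [star_mul, star_star, star_zero] at this
    have o4 : ∀ u ∈ V, v * star u = 0 := by
      intro u hu
      have := congrArg star (o2 u hu)
      rwa [star_mul, star_star, star_zero] at this
    have hnot : v ∉ V := by
      intro hvV
      exact hv0 (by rw [← hfv, hf1u v hvV])
    have hins : insert v V ∈ CompareFam M e f := by
      refine ⟨?_, ?_⟩
      · intro u hu
        rcases Set.mem_insert_iff.mp hu with rfl | hu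
        · exact ⟨hv, hv0, hvv, hve', hfv'⟩
        · exact hV1 u hu
      · intro u hu u' hu' hne'
        rcases Set.mem_insert_iff.mp hu with h | h
        · rcases Set.mem_insert_iff.mp hu' with h' | h'
          · exact absurd (h.trans h'.symm) hne'
          · rw [h]
            exact ⟨o3 u' h', o4 u' h'⟩
        · rcases Set.mem_insert_iff.mp hu' with h' | h'
          · rw [h']
            exact ⟨o1 u h, o2 u h⟩
          · exact hV2 u h u' h' hne'
    exact hnot (hV.le_of_ge hins (Set.subset_insert v V) (Set.mem_insert v V))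
  obtain ⟨z, hz, hze, hzf⟩ := exists_central_cover he1
  have hfz : (f - w * star w) * z = 0 := hzf _ hf1 hkey
  have hzf1 : z * (f - w * star w) = 0 := by rw [hz.comm _ hf1.mem, hfz]
  refine ⟨z, hz, ⟨w - z * w, sub_mem hw (mul_mem hz.mem hw), ?_, ?_⟩,
    ⟨z * star w, mul_mem hz.mem (star_mem hw), ?_, ?_⟩⟩
  · have d1 : (1 - z) * (e - star w * w) = 0 := by rw [sub_mul, one_mul, hze, sub_self]
    have d2 : (1 - z) * e = (1 - z) * (star w * w) := by
      rw [mul_sub] at d1
      exact sub_eq_zero.mp d1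
    have d3 : star w * z = z * star w := (hz.comm _ (star_mem hw)).symm
    rw [d2, star_sub, star_mul, hz.sa, d3]
    calc (star w - z * star w) * (w - z * w)
        = star w * w - star w * z * w - z * star w * w + z * (star w * z) * w := by noncomm_ring
      _ = star w * w - z * star w * w - z * star w * w + z * z * star w * w := by
          rw [d3]; noncomm_ring
      _ = (1 - z) * (star w * w) := by rw [hz.idem]; noncomm_ring
  · calc (1 - z) * f * (w - z * w)
        = f * w - f * z * w - z * (f * w) + z * (f * z) * w := by noncomm_ring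
      _ = w - z * w - z * w + z * z * w := by
          rw [← hz.comm _ hf.mem]
          have : z * f * w = z * w := by rw [mul_assoc, hfw]
          rw [this, hfw]
          have t2 : z * (z * f) * w = z * z * w := by
            rw [← mul_assoc z z f, mul_assoc, hfw]
          rw [t2]
      _ = w - z * w := by rw [hz.idem]; abel
  · have d2 : z * f = z * (w * star w) := by
      rw [mul_sub] at hzf1
      exact sub_eq_zero.mp hzf1
    rw [star_mul, star_star, hz.sa, d2]
    calc w * z * (z * star w) = w * (z * z) * star w := by noncomm_ring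
      _ = (w * z) * star w := by rw [hz.idem]
      _ = z * (w * star w) := by rw [← hz.comm _ hw, mul_assoc]
  · calc z * e * (z * star w) = z * (e * z) * star w := by noncomm_ring
      _ = z * z * (e * star w) := by rw [← hz.comm _ he.mem]; noncomm_ring
      _ = z * star w := by rw [hesw, hz.idem]

end Vale.Agent.P082.VN
end

section
attribute [local instance] Vale.Agent.P082.AlgFast.nr Vale.Agent.P082.AlgFast.na
  Vale.Agent.P082.AlgFast.sr Vale.Agent.P082.AlgFast.ng Vale.Agent.P082.AlgFast.sg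
  Vale.Agent.P082.AlgFast.ns Vale.Agent.P082.AlgFast.ri Vale.Agent.P082.AlgFast.ag
  Vale.Agent.P082.AlgFast.am Vale.Agent.P082.AlgFast.mo Vale.Agent.P082.AlgFast.pm
  Vale.Agent.P082.AlgFast.us Vale.Agent.P082.AlgFast.ts Vale.Agent.P082.AlgFast.ets
  Vale.Agent.P082.AlgFast.eng Vale.Agent.P082.AlgFast.esg Vale.Agent.P082.AlgFast.ens
  Vale.Agent.P082.AlgFast.eam Vale.Agent.P082.AlgFast.emo Vale.Agent.P082.AlgFast.nu
  Vale.Agent.P082.AlgFast.sag Vale.Agent.P082.AlgFast.agr Vale.Agent.P082.AlgFast.mon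
  Vale.Agent.P082.AlgFast.srg

open scoped InnerProductSpace ComplexConjugate

namespace Vale.Agent.P082.VN

universe u

variable {H : Type u} [NormedAddCommGroup H] [InnerProductSpace ℂ H] [CompleteSpace H]
  {M : VonNeumannAlgebra H}

lemma copies_ne_zero {e f : H →L[ℂ] H} (he0 : e ≠ 0) (h : Eqv M e f) : f ≠ 0 := by
  rintro rfl
  obtain ⟨v, -, h1, h2⟩ := h
  apply he0
  have h3 : v = 0 := by
    have h4 : star (star v) * star v = 0 := by rw [star_star]; exact h2
    have h5 : star v = 0 := CStarRing.star_mul_self_eq_zero_iff (star v) |>.mp h4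
    have h6 : star (star v) = 0 := by rw [h5, star_zero]
    rwa [star_star] at h6
  rw [← h1, h3, mul_zero]

/-- maximal orthogonal families of copies of `e` below `c` -/
theorem exists_max_copies {e c : H →L[ℂ] H} (he : IsPr M e) (hc : IsPr M c) (he0 : e ≠ 0)
    {I₀ : Type u} (f₀ : I₀ → H →L[ℂ] H) (h₀ : ∀ i, IsPr M (f₀ i) ∧ Le (f₀ i) c ∧ Eqv M e (f₀ i))
    (ho₀ : ∀ i j, i ≠ j → f₀ i * f₀ j = 0) :
    ∃ (I : Type u) (f : I → H →L[ℂ] H) (ι : I₀ → I), Function.Injective ι ∧
      (∀ i, f (ι i) = f₀ i) ∧ (∀ i, IsPr M (f i) ∧ Le (f i) c ∧ Eqv M e (f i)) ∧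
      (∀ i j, i ≠ j → f i * f j = 0) ∧
      ∀ s, IsSum f s → ¬ SubEqv M e (c - s) := by
  let S : Set (Set (H →L[ℂ] H)) :=
    {X | (∀ f ∈ X, IsPr M f ∧ Le f c ∧ Eqv M e f) ∧ ∀ f ∈ X, ∀ g ∈ X, f ≠ g → f * g = 0}
  have hS0 : Set.range f₀ ∈ S := by
    refine ⟨?_, ?_⟩
    · rintro _ ⟨i, rfl⟩
      exact h₀ i
    · rintro _ ⟨i, rfl⟩ _ ⟨j, rfl⟩ hne
      exact ho₀ i j (fun hij => hne (by rw [hij]))
  have hchain : ∀ C ⊆ S, IsChain (· ⊆ ·) C → C.Nonempty → ∃ ub ∈ S, ∀ X ∈ C, X ⊆ ub := by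
    intro C hCS hC _
    refine ⟨⋃₀ C, ⟨?_, ?_⟩, fun X hX => Set.subset_sUnion_of_mem hX⟩
    · rintro f ⟨X, hX, hf⟩
      exact (hCS hX).1 f hf
    · rintro f ⟨X, hX, hf⟩ g ⟨Y, hY, hg⟩ hne
      rcases hC.total hX hY with h | h
      · exact (hCS hY).2 f (h hf) g hg hne
      · exact (hCS hX).2 f hf g (h hg) hne
  obtain ⟨m, hm0, hm⟩ := zorn_subset_nonempty S hchain _ hS0
  refine ⟨m, fun i => i.1, fun i => ⟨f₀ i, hm0 ⟨i, rfl⟩⟩, ?_, fun _ => rfl,
    fun i => hm.prop.1 i.1 i.2, fun i j hij => hm.prop.2 i.1 i.2 j.1 j.2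
      (fun h => hij (Subtype.ext h)), ?_⟩
  · intro i j hij
    by_contra hne
    have h1 : f₀ i = f₀ j := congrArg Subtype.val hij
    have h2 : f₀ i * f₀ i = 0 := by
      have := ho₀ i j hne
      rwa [← h1] at this
    rw [(h₀ i).1.idem] at h2
    exact copies_ne_zero he0 (h₀ i).2.2 h2
  · intro s hs hsub
    have ho : ∀ i j : m, i ≠ j → i.1 * j.1 = 0 := fun i j hij =>
      hm.prop.2 i.1 i.2 j.1 j.2 (fun h => hij (Subtype.ext h))
    obtain ⟨s', hs'pr, hs'sum, hs'le⟩ :=
      exists_sum_proj (M := M) (fun i : m => i.1) (fun i => (hm.prop.1 i.1 i.2).1) ho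
    obtain rfl : s = s' := hs.unique hs'sum
    have hsc : c * s = s := hs.le_of (fun i : m => (hm.prop.1 i.1 i.2).2.1)
    have hcs : s * c = s := by
      have := congrArg star hsc
      rwa [star_mul, hs'pr.sa, hc.sa] at this
    have hd : IsPr M (c - s) := by
      refine ⟨?_, ?_, ?_⟩
      · exact sub_mem hc.mem hs'pr.mem
      · rw [mul_sub, sub_mul, sub_mul, hc.idem, hcs, hsc, hs'pr.idem]
        simp
      · rw [star_sub, hc.sa, hs'pr.sa]
    obtain ⟨f', hf', hle, heq⟩ := (subEqv_iff he hd).mp hsub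
    have hle' : (c - s) * f' = f' := hle
    have hfc : c * f' = f' := by
      calc c * f' = c * ((c - s) * f') := by rw [hle']
        _ = (c * c - c * s) * f' := by rw [← mul_assoc, mul_sub]
        _ = (c - s) * f' := by rw [hc.idem, hsc]
        _ = f' := hle'
    have hsf : s * f' = 0 := by
      calc s * f' = s * ((c - s) * f') := by rw [hle']
        _ = (s * c - s * s) * f' := by rw [← mul_assoc, mul_sub]
        _ = 0 := by rw [hcs, hs'pr.idem, sub_self, zero_mul]
    have hort : ∀ g ∈ m, g * f' = 0 := by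
      intro g hg
      have h1 : s * g = g := hs'le ⟨g, hg⟩
      have h2 : g * s = g := by
        have := congrArg star h1
        rwa [star_mul, hs'pr.sa, (hm.prop.1 g hg).1.sa] at this
      rw [← h2, mul_assoc, hsf, mul_zero]
    have hort' : ∀ g ∈ m, f' * g = 0 := by
      intro g hg
      have := congrArg star (hort g hg)
      rwa [star_mul, hf'.sa, (hm.prop.1 g hg).1.sa, star_zero] at this
    have hmem : insert f' m ∈ S := by
      refine ⟨?_, ?_⟩
      · rintro g (rfl | hg)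
        · exact ⟨hf', hfc, heq⟩
        · exact hm.prop.1 g hg
      · rintro g (rfl | hg) g' (rfl | hg') hne
        · exact absurd rfl hne
        · exact hort' g' hg'
        · exact hort g hg
        · exact hm.prop.2 g hg g' hg' hne
    have hin : f' ∈ m := hm.le_of_ge hmem (Set.subset_insert f' m) (Set.mem_insert f' m)
    have h0 := hort f' hin
    rw [hf'.idem] at h0
    exact copies_ne_zero he0 heq h0

end Vale.Agent.P082.VN
end

section

open scoped InnerProductSpace ComplexConjugate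

namespace Vale.Agent.P082.VN

universe u

variable {H : Type u} [NormedAddCommGroup H] [InnerProductSpace ℂ H] [CompleteSpace H]
  {M : VonNeumannAlgebra H}

lemma finite_mul_supp {v e : H →L[ℂ] H} (he : e * e = e) (hs : star e = e)
    (h : star v * v = e) : v * e = v := by
  have h1 : star (v - v * e) * (v - v * e) = 0 := by
    have : star (v - v * e) * (v - v * e) = star v * v - star v * v * e - e * (star v * v) +
        e * (star v * v) * e := by
      rw [star_sub, star_mul, hs]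
      noncomm_ring
    rw [this, h, he, he]
    abel
  have h2 : v - v * e = 0 := by
    rw [← CStarRing.star_mul_self_eq_zero_iff]
    exact h1
  exact (sub_eq_zero.1 h2).symm

lemma finite_ran_mul {v e : H →L[ℂ] H} (he : e * e = e) (hs : star e = e)
    (h : star v * v = e) : v * star v * v = v := by
  rw [mul_assoc, h, finite_mul_supp he hs h]

lemma finite_ran_isPr {v e : H →L[ℂ] H} (hv : v ∈ M) (he : e * e = e) (hs : star e = e)
    (h : star v * v = e) : IsPr M (v * star v) := by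
  refine ⟨mul_mem hv (star_mem hv), ?_, by rw [star_mul, star_star]⟩
  rw [← mul_assoc, finite_ran_mul he hs h]

lemma finite_star_mul_zero {v w p q : H →L[ℂ] H} (hp : p * v = v) (hq : q * w = w)
    (hs : star p = p) (hpq : p * q = 0) : star v * w = 0 := by
  have h1 : star v = star v * p := by
    have := congrArg star hp
    rw [star_mul, hs] at this
    exact this.symm
  rw [h1, ← hq]
  calc star v * p * (q * w) = star v * (p * q) * w := by noncomm_ring
    _ = 0 := by rw [hpq]; noncomm_ring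

lemma finite_mul_star_zero {v w p q : H →L[ℂ] H} (hp : v * p = v) (hq : w * q = w)
    (hs : star q = q) (hpq : p * q = 0) : v * star w = 0 := by
  have h1 : star w = q * star w := by
    have := congrArg star hq
    rw [star_mul, hs] at this
    exact this.symm
  rw [h1, ← hp]
  calc v * p * (q * star w) = v * (p * q) * star w := by noncomm_ring
    _ = 0 := by rw [hpq]; noncomm_ring

/-- in a finite projection, isometric copies exhaust -/
lemma FinPr.exhaust {g v u : H →L[ℂ] H} (hfin : FinPr M g) (hv : v ∈ M) (hu : u ∈ M)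
    (h1 : star v * v + star u * u = g) (h2 : star v * u = 0) (h3 : v * star u = 0)
    (h4 : g * v = v) (h5 : g * u = u) : v * star v + u * star u = g := by
  have h2' : star u * v = 0 := by
    have := congrArg star h2
    rwa [star_mul, star_star, star_zero] at this
  have h3' : u * star v = 0 := by
    have := congrArg star h3
    rwa [star_mul, star_star, star_zero] at this
  have h6 := hfin (v + u) (add_mem hv hu) (by
    rw [star_add, ← h1]
    calc (star v + star u) * (v + u) = star v * v + star v * u + star u * v + star u * u := by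
          noncomm_ring
      _ = _ := by rw [h2, h2', add_zero, add_zero]) (by rw [mul_add, h4, h5])
  rw [← h6, star_add]
  calc v * star v + u * star u = v * star v + v * star u + u * star v + u * star u := by
        rw [h3, h3', add_zero, add_zero]
    _ = _ := by noncomm_ring

/-- (S6a) subprojections of finite projections are finite -/
lemma FinPr.le {f g : H →L[ℂ] H} (hf : IsPr M f) (hg : IsPr M g) (h : Le f g)
    (hfin : FinPr M g) : FinPr M f := by
  intro v hv h1 h2
  have h : g * f = f := h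
  have hfg : f * g = f := by
    have := congrArg star h
    rwa [star_mul, hf.sa, hg.sa] at this
  have hs : star (g - f) = g - f := by rw [star_sub, hg.sa, hf.sa]
  have hgf : (g - f) * (g - f) = g - f := by
    rw [mul_sub, sub_mul, sub_mul, hg.idem, hf.idem, h, hfg]
    abel
  have hz : f * (g - f) = 0 := by rw [mul_sub, hfg, hf.idem, sub_self]
  have hv2 : v * f = v := finite_mul_supp hf.idem hf.sa h1
  have h3 := FinPr.exhaust hfin hv (u := g - f) (sub_mem hg.mem hf.mem)
    (by rw [h1, hs, hgf]; abel) (finite_star_mul_zero h2 hgf hf.sa hz)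
    (finite_mul_star_zero hv2 hgf hs hz) (by rw [← h2, ← mul_assoc, h])
    (by rw [mul_sub, hg.idem, h])
  rw [hs, hgf] at h3
  have := congrArg (fun x => x - (g - f)) h3
  simpa using this

lemma finite_cut_isPr {z g : H →L[ℂ] H} (hz : IsCPr M z) (hg : IsPr M g) : IsPr M (z * g) := by
  refine ⟨mul_mem hz.mem hg.mem, ?_, by rw [star_mul, hz.sa, hg.sa, hz.comm g hg.mem]⟩
  calc z * g * (z * g) = z * (g * z) * g := by noncomm_ring
    _ = z * (z * g) * g := by rw [hz.comm g hg.mem]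
    _ = z * z * (g * g) := by noncomm_ring
    _ = z * g := by rw [hz.idem, hg.idem]

lemma finite_cut_le {z g : H →L[ℂ] H} (hz : IsCPr M z) (hg : IsPr M g) : Le (z * g) g := by
  show g * (z * g) = z * g
  rw [← mul_assoc, ← hz.comm g hg.mem, mul_assoc, hg.idem]

lemma finite_one_sub {z : H →L[ℂ] H} (hz : IsCPr M z) : IsCPr M (1 - z) := by
  refine ⟨⟨sub_mem (one_mem _) hz.mem, ?_, by rw [star_sub, star_one, hz.sa]⟩, fun x hx => ?_⟩
  · rw [sub_mul, one_mul, mul_sub, mul_one, hz.idem, sub_self, sub_zero]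
  · rw [sub_mul, mul_sub, hz.comm x hx, one_mul, mul_one]

lemma finite_diff_isPr {e g : H →L[ℂ] H} (he : IsPr M e) (hg : IsPr M g) (h : Le e g) :
    IsPr M (g - e) := by
  have h : g * e = e := h
  have h' : e * g = e := by
    have := congrArg star h
    rwa [star_mul, he.sa, hg.sa] at this
  refine ⟨sub_mem hg.mem he.mem, ?_, by rw [star_sub, hg.sa, he.sa]⟩
  rw [mul_sub, sub_mul, sub_mul, hg.idem, he.idem, h, h']
  abel

lemma FinPr.compl_aux {e f g z v : H →L[ℂ] H} (he : IsPr M e) (hf : IsPr M f) (hg : IsPr M g)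
    (heg : Le e g) (hfg : Le f g) (hfin : FinPr M g) (h : Eqv M e f) (hz : IsCPr M z)
    (hv : v ∈ M) (hv1 : star v * v = z * (g - e)) (hv2 : (z * (g - f)) * v = v) :
    v * star v = z * (g - f) := by
  obtain ⟨u, hu, hu1, hu2⟩ := h
  have hge : g * e = e := heg
  have hgf : g * f = f := hfg
  have hue : u * e = u := finite_mul_supp he.idem he.sa hu1
  have hfu : f * u = u := by rw [← hu2, finite_ran_mul he.idem he.sa hu1]
  have hze := finite_cut_isPr hz he
  have hzf := finite_cut_isPr hz hf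
  have hzg := finite_cut_isPr hz hg
  have hzge := finite_cut_isPr hz (finite_diff_isPr he hg heg)
  have hzgf := finite_cut_isPr hz (finite_diff_isPr hf hg hfg)
  have hzc : ∀ a b : H →L[ℂ] H, a ∈ M → (z * a) * (z * b) = z * (a * b) := by
    intro a b ha
    calc (z * a) * (z * b) = z * (a * z) * b := by noncomm_ring
      _ = z * (z * a) * b := by rw [hz.comm a ha]
      _ = z * z * (a * b) := by noncomm_ring
      _ = z * (a * b) := by rw [hz.idem]
  have hfinz : FinPr M (z * g) := FinPr.le hzg hg (finite_cut_le hz hg) hfin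
  have hzu : star (z * u) * (z * u) = z * e := by
    rw [star_mul, hz.sa]
    calc star u * z * (z * u) = star u * (z * z) * u := by noncomm_ring
      _ = star u * z * u := by rw [hz.idem]
      _ = z * star u * u := by rw [hz.comm _ (star_mem hu)]
      _ = z * e := by rw [mul_assoc, hu1]
  have hzu' : (z * u) * star (z * u) = z * f := by
    rw [star_mul, hz.sa]
    calc z * u * (star u * z) = z * (u * star u) * z := by noncomm_ring
      _ = z * (f * z) := by rw [hu2, mul_assoc]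
      _ = z * (z * f) := by rw [hz.comm _ hf.mem]
      _ = z * f := by rw [← mul_assoc, hz.idem]
  have h1 := FinPr.exhaust hfinz hv (mul_mem hz.mem hu)
    (by rw [hv1, hzu, ← mul_add]; congr 1; abel)
    (finite_star_mul_zero (p := z * (g - f)) (q := z * f) hv2 (by rw [hzc _ _ hf.mem, hfu])
      hzgf.sa (by rw [hzc _ _ (sub_mem hg.mem hf.mem), sub_mul, hgf, hf.idem, sub_self, mul_zero]))
    (finite_mul_star_zero (p := z * (g - e)) (q := z * e)
      (finite_mul_supp hzge.idem hzge.sa hv1) (by rw [hzc _ _ hu, hue])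
      hze.sa (by rw [hzc _ _ (sub_mem hg.mem he.mem), sub_mul, hge, he.idem, sub_self, mul_zero]))
    (by
      rw [← hv2, ← mul_assoc, hzc _ _ hg.mem, mul_sub, hg.idem, hgf])
    (by rw [hzc _ _ hg.mem, show g * u = u from by rw [← hfu, ← mul_assoc, hgf]])
  rw [hzu'] at h1
  rw [mul_sub, ← h1]
  abel

/-- (S6b) complements of equivalent projections in a finite projection are equivalent -/
theorem FinPr.compl {e f g : H →L[ℂ] H} (he : IsPr M e) (hf : IsPr M f) (hg : IsPr M g)
    (heg : Le e g) (hfg : Le f g) (hfin : FinPr M g) (h : Eqv M e f) :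
    Eqv M (g - e) (g - f) := by
  obtain ⟨z, hz, ⟨v, hv, hv1, hv2⟩, ⟨v', hv', hv1', hv2'⟩⟩ :=
    comparability (finite_diff_isPr he hg heg) (finite_diff_isPr hf hg hfg)
  have hz' := finite_one_sub hz
  have k1 := FinPr.compl_aux he hf hg heg hfg hfin h hz' hv hv1 hv2
  have k2 := FinPr.compl_aux hf he hg hfg heg hfin h.symm hz hv' hv1' hv2'
  have e1 : (1 - z) * v = v := by
    rw [← hv2, ← mul_assoc, ← mul_assoc, hz'.idem]
  have e2 : z * v' = v' := by
    rw [← hv2', ← mul_assoc, ← mul_assoc, hz.idem]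
  have e3 : v * (1 - z) = v := by rw [← hz'.comm v hv, e1]
  have e4 : v' * z = v' := by rw [← hz.comm v' hv', e2]
  have hz0 : z * (1 - z) = 0 := by rw [mul_sub, hz.idem, mul_one, sub_self]
  have hz0' : (1 - z) * z = 0 := by rw [sub_mul, hz.idem, one_mul, sub_self]
  have e5 : v' * v = 0 := by
    rw [← e4, ← e1]
    calc v' * z * ((1 - z) * v) = v' * (z * (1 - z)) * v := by noncomm_ring
      _ = 0 := by rw [hz0]; noncomm_ring
  have e6 : v * v' = 0 := by
    rw [← e3, ← e2]
    calc v * (1 - z) * (z * v') = v * ((1 - z) * z) * v' := by noncomm_ring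
      _ = 0 := by rw [hz0']; noncomm_ring
  have e5' : star v * star v' = 0 := by rw [← star_mul, e5, star_zero]
  have e6' : star v' * star v = 0 := by rw [← star_mul, e6, star_zero]
  refine ⟨v + star v', add_mem hv (star_mem hv'), ?_, ?_⟩
  · rw [star_add, star_star]
    calc (star v + v') * (v + star v') =
          star v * v + star v * star v' + v' * v + v' * star v' := by noncomm_ring
      _ = g - e := by rw [hv1, k2, e5, e5', add_zero, add_zero]; noncomm_ring
  · rw [star_add, star_star]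
    calc (v + star v') * (star v + v') =
          v * star v + v * v' + star v' * star v + star v' * v' := by noncomm_ring
      _ = g - f := by rw [hv1', k1, e6, e6', add_zero, add_zero]; noncomm_ring

/-- (S6c) no infinite orthogonal family of copies of a nonzero projection -/
theorem FinPr.finite_copies {e g : H →L[ℂ] H} (he : IsPr M e) (he0 : e ≠ 0) (hg : IsPr M g)
    (hfin : FinPr M g) {I : Type*} (f : I → H →L[ℂ] H)
    (hf : ∀ i, IsPr M (f i) ∧ Le (f i) g ∧ Eqv M e (f i))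
    (ho : ∀ i j, i ≠ j → f i * f j = 0) : Finite I := by
  by_contra hI
  rw [not_finite_iff_infinite] at hI
  let φ : ℕ ↪ I := Infinite.natEmbedding I
  choose v hv hv1 hv2 using fun n : ℕ => (hf (φ n)).2.2
  have ho' : ∀ i j : ℕ, i ≠ j → f (φ i) * f (φ j) = 0 := fun i j hij =>
    ho _ _ fun h => hij (φ.injective h)
  have hve : ∀ n, v n * e = v n := fun n => finite_mul_supp he.idem he.sa (hv1 n)
  have hfv : ∀ n, f (φ n) * v n = v n := fun n => by
    rw [← hv2, finite_ran_mul he.idem he.sa (hv1 n)]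
  have hvf : ∀ n, star (v n) * f (φ n) = star (v n) := fun n => by
    have := congrArg star (hfv n)
    rwa [star_mul, (hf (φ n)).1.sa] at this
  have hw1 : ∀ n, star (v (n + 1) * star (v n)) * (v (n + 1) * star (v n)) = f (φ n) := by
    intro n
    rw [star_mul, star_star]
    calc v n * star (v (n + 1)) * (v (n + 1) * star (v n)) =
          v n * (star (v (n + 1)) * v (n + 1)) * star (v n) := by noncomm_ring
      _ = f (φ n) := by rw [hv1, hve, hv2]
  have hw2 : ∀ n, (v (n + 1) * star (v n)) * star (v (n + 1) * star (v n)) = f (φ (n + 1)) := by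
    intro n
    rw [star_mul, star_star]
    calc v (n + 1) * star (v n) * (v n * star (v (n + 1))) =
          v (n + 1) * (star (v n) * v n) * star (v (n + 1)) := by noncomm_ring
      _ = f (φ (n + 1)) := by rw [hv1, hve, hv2]
  have hfw : ∀ n, f (φ (n + 1)) * (v (n + 1) * star (v n)) = v (n + 1) * star (v n) := by
    intro n
    rw [← mul_assoc, hfv]
  have hwf : ∀ n, (v (n + 1) * star (v n)) * f (φ n) = v (n + 1) * star (v n) := by
    intro n
    rw [mul_assoc, hvf]
  obtain ⟨w, hw, hs, -, hs1, hs2⟩ := exists_sum_pi (M := M) (fun n => v (n + 1) * star (v n))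
    (fun n => mul_mem (hv _) (star_mem (hv _))) (fun n => by rw [hw1, hwf])
    (fun i j hij => finite_star_mul_zero (hfw i) (hfw j) (hf _).1.sa
      (ho' _ _ (by omega)))
    (fun i j hij => finite_mul_star_zero (hwf i) (hwf j) (hf _).1.sa (ho' _ _ hij))
  have hs1' : IsSum (fun n => f (φ n)) (star w * w) := by
    have : (fun n => f (φ n)) = fun n => star (v (n + 1) * star (v n)) * (v (n + 1) * star (v n)) :=
      funext fun n => (hw1 n).symm
    rw [this]
    exact hs1
  have hs2' : IsSum (fun n => f (φ (n + 1))) (w * star w) := by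
    have : (fun n => f (φ (n + 1))) =
        fun n => (v (n + 1) * star (v n)) * star (v (n + 1) * star (v n)) :=
      funext fun n => (hw2 n).symm
    rw [this]
    exact hs2
  obtain ⟨s, hsp, hss, hsl⟩ := exists_sum_proj (M := M) (fun n => f (φ n))
    (fun n => (hf _).1) ho'
  have hse : star w * w = s := hs1'.unique hss
  have hsg : Le s g := hss.le_of fun n => (hf _).2.1
  have hsfin : FinPr M s := FinPr.le hsp hg hsg hfin
  have hsw : s * w = w := by
    have h1 := hs.mul_left s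
    refine IsSum.unique (v := fun n => v (n + 1) * star (v n)) ?_ hs
    have h2 : (fun n => s * (v (n + 1) * star (v n))) = fun n => v (n + 1) * star (v n) := by
      funext n
      have h3 : s * f (φ (n + 1)) = f (φ (n + 1)) := hsl (n + 1)
      rw [← hfw, ← mul_assoc, h3]
    rw [h2] at h1
    exact h1
  have h4 := hsfin w hw hse hsw
  rw [h4] at hs2'
  have h5 : f (φ 0) * s = 0 := by
    have h6 := hs2'.mul_left (f (φ 0))
    have h7 : (fun n => f (φ 0) * f (φ (n + 1))) = fun _ => 0 := by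
      funext n
      exact ho' _ _ (by omega)
    rw [h7] at h6
    exact h6.unique fun x => by simp
  have h8 : s * f (φ 0) = f (φ 0) := hsl 0
  have h9 : f (φ 0) = 0 := by
    have := congrArg star h5
    rw [star_mul, (hf _).1.sa, hsp.sa, h8, star_zero] at this
    exact this
  have h10 : v 0 = 0 := by rw [← hfv, h9, zero_mul]
  apply he0
  rw [← hv1 0, h10, mul_zero]

/-- In a finite central projection `c`, and `0 ≠ e ≤ c`: a central piece of `c` is a finite sum of
copies of `e` and one subprojection of `e`. -/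
theorem FinPr.partition {e c : H →L[ℂ] H} (he : IsPr M e) (he0 : e ≠ 0) (hc : IsCPr M c)
    (hec : Le e c) (hfin : FinPr M c) :
    ∃ c', IsCPr M c' ∧ Le c' c ∧ c' * e ≠ 0 ∧ ∃ (n : ℕ) (w : Fin (n + 1) → H →L[ℂ] H)
      (w' : H →L[ℂ] H), (∀ i, w i ∈ M ∧ star (w i) * w i = c' * e) ∧ w' ∈ M ∧
      w' * (star w' * w') = w' ∧ (c' * e) * (star w' * w') = star w' * w' ∧
      ∑ i, w i * star (w i) + w' * star w' = c' := by
  have hce : c * e = e := hec
  obtain ⟨I, f, -, -, -, hf, ho, hmax⟩ := exists_max_copies he hc.toIsPr he0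
    (I₀ := PEmpty) (fun i => i.elim) (fun i => i.elim) (fun i => i.elim)
  have hIfin : Finite I := FinPr.finite_copies he he0 hc.toIsPr hfin f hf ho
  have : Fintype I := Fintype.ofFinite I
  obtain ⟨s, hsp, hss, hsl⟩ := exists_sum_proj f (fun i => (hf i).1) ho
  have hsum : s = ∑ i, f i := by
    refine hss.unique fun x => ?_
    have := hasSum_fintype (fun i => f i x)
    simpa using this
  have hsc : Le s c := hss.le_of fun i => (hf i).2.1
  have hd : IsPr M (c - s) := finite_diff_isPr hsp hc.toIsPr hsc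
  obtain ⟨z, hz, ⟨v, hv, hv1, hv2⟩, ⟨v', hv', hv1', hv2'⟩⟩ := comparability hd he
  have hz' := finite_one_sub hz
  have hzc : IsCPr M ((1 - z) * c) := by
    refine ⟨finite_cut_isPr hz' hc.toIsPr, fun x hx => ?_⟩
    rw [mul_assoc, hc.comm x hx, ← mul_assoc, hz'.comm x hx, mul_assoc]
  have hne : (1 - z) * c * e ≠ 0 := by
    intro h0
    rw [mul_assoc, hce, sub_mul, one_mul, sub_eq_zero] at h0
    refine hmax s hss ⟨v', hv', by rw [hv1', ← h0], ?_⟩
    have h1 : (c - s) * (z * (c - s)) = z * (c - s) := finite_cut_le hz hd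
    rw [← hv2', ← mul_assoc, h1]
  have hIne : Nonempty I := by
    by_contra hI
    rw [not_nonempty_iff] at hI
    refine hmax s hss ⟨e, he.mem, by rw [he.sa, he.idem], ?_⟩
    rw [hsum, Finset.univ_eq_empty, Finset.sum_empty, sub_zero, hce]
  obtain ⟨n, hn⟩ : ∃ n, Fintype.card I = n + 1 :=
    ⟨Fintype.card I - 1, by have := Fintype.card_pos (α := I); omega⟩
  let σ : Fin (n + 1) ≃ I := (finCongr hn.symm).trans (Fintype.equivFin I).symm
  choose u hu hu1 hu2 using fun i : I => (hf i).2.2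
  have hcs : c * s = s := hsc
  refine ⟨(1 - z) * c, hzc, ?_, hne, n, fun i => (1 - z) * c * u (σ i), star v, ?_,
    star_mem hv, ?_, ?_, ?_⟩
  · exact finite_cut_le hz' hc.toIsPr
  · intro i
    refine ⟨mul_mem hzc.mem (hu _), ?_⟩
    rw [star_mul, hzc.sa]
    calc star (u (σ i)) * ((1 - z) * c) * ((1 - z) * c * u (σ i)) =
          star (u (σ i)) * (((1 - z) * c) * ((1 - z) * c)) * u (σ i) := by noncomm_ring
      _ = star (u (σ i)) * ((1 - z) * c) * u (σ i) := by rw [hzc.idem]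
      _ = ((1 - z) * c) * star (u (σ i)) * u (σ i) := by rw [hzc.comm _ (star_mem (hu _))]
      _ = (1 - z) * c * e := by rw [mul_assoc, hu1]
  · have hzd := finite_cut_isPr hz' hd
    have h1 := finite_mul_supp hzd.idem hzd.sa hv1
    rw [star_star, ← mul_assoc, hv1]
    have := congrArg star h1
    rwa [star_mul, hzd.sa] at this
  · rw [star_star]
    have h1 : (1 - z) * c * e = (1 - z) * e := by rw [mul_assoc, hce]
    rw [h1, ← mul_assoc, hv2]
  · rw [star_star, hv1]
    have h1 : ∀ i : Fin (n + 1), (1 - z) * c * u (σ i) * star ((1 - z) * c * u (σ i)) =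
        (1 - z) * c * f (σ i) := by
      intro i
      rw [star_mul, hzc.sa]
      calc (1 - z) * c * u (σ i) * (star (u (σ i)) * ((1 - z) * c)) =
            ((1 - z) * c) * ((u (σ i) * star (u (σ i))) * ((1 - z) * c)) := by noncomm_ring
        _ = ((1 - z) * c) * (((1 - z) * c) * f (σ i)) := by
            rw [hu2, hzc.comm _ (hf _).1.mem]
        _ = (1 - z) * c * f (σ i) := by rw [← mul_assoc, hzc.idem]
    rw [Finset.sum_congr rfl fun i _ => h1 i, ← Finset.mul_sum, Equiv.sum_comp σ f, ← hsum,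
      mul_assoc, hcs, ← mul_add]
    congr 1
    abel

end Vale.Agent.P082.VN
end

section

open scoped InnerProductSpace ComplexConjugate

namespace Vale.Agent.P082.VN

universe u

variable {H : Type u} [NormedAddCommGroup H] [InnerProductSpace ℂ H] [CompleteSpace H]
  {M : VonNeumannAlgebra H}

lemma infinite_mul_eq {v p : H →L[ℂ] H} (hp : p * p = p) (hs : star p = p)
    (h : star v * v = p) : v * p = v := by
  have h1 : star (v - v * p) * (v - v * p) = 0 := by
    rw [star_sub, star_mul, hs]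
    calc (star v - p * star v) * (v - v * p)
        = star v * v - star v * v * p - p * (star v * v) + p * (star v * v) * p := by noncomm_ring
      _ = 0 := by rw [h, hp, hp]; noncomm_ring
  have h2 := (CStarRing.star_mul_self_eq_zero_iff _).1 h1
  exact (sub_eq_zero.1 h2).symm

lemma infinite_cpr_mul {c z : H →L[ℂ] H} (hc : IsCPr M c) (hz : IsCPr M z) : IsCPr M (z * c) where
  mem := mul_mem hz.mem hc.mem
  idem := by
    calc z * c * (z * c) = z * (c * z) * c := by noncomm_ring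
      _ = z * z * (c * c) := by rw [hc.comm z hz.mem]; noncomm_ring
      _ = z * c := by rw [hz.idem, hc.idem]
  sa := by rw [star_mul, hc.sa, hz.sa, hc.comm z hz.mem]
  comm := fun x hx => by
    rw [mul_assoc, hc.comm x hx, ← mul_assoc, hz.comm x hx, mul_assoc]

lemma infinite_cpr_one_sub {z : H →L[ℂ] H} (hz : IsCPr M z) : IsCPr M (1 - z) where
  mem := sub_mem (one_mem M) hz.mem
  idem := by
    calc (1 - z) * (1 - z) = 1 - z - z + z * z := by noncomm_ring
      _ = 1 - z := by rw [hz.idem]; noncomm_ring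
  sa := by rw [star_sub, star_one, hz.sa]
  comm := fun x hx => by rw [sub_mul, mul_sub, one_mul, mul_one, hz.comm x hx]

/-- cutting a projection by a central projection -/
lemma infinite_cut_pr {e z : H →L[ℂ] H} (hz : IsCPr M z) (he : IsPr M e) : IsPr M (z * e) where
  mem := mul_mem hz.mem he.mem
  idem := by
    calc z * e * (z * e) = z * (e * z) * e := by noncomm_ring
      _ = z * z * (e * e) := by rw [← hz.comm e he.mem]; noncomm_ring
      _ = z * e := by rw [hz.idem, he.idem]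
  sa := by rw [star_mul, he.sa, hz.sa, hz.comm e he.mem]

/-- difference of projections -/
lemma infinite_sub_pr {e f : H →L[ℂ] H} (he : IsPr M e) (hf : IsPr M f) (h : f * e = e) :
    IsPr M (f - e) where
  mem := sub_mem hf.mem he.mem
  idem := by
    have h' : e * f = e := by
      have := congrArg star h
      rwa [star_mul, he.sa, hf.sa] at this
    calc (f - e) * (f - e) = f * f - f * e - e * f + e * e := by noncomm_ring
      _ = f - e := by rw [hf.idem, he.idem, h, h']; noncomm_ring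
  sa := by rw [star_sub, he.sa, hf.sa]

/-- summing subequivalences -/
lemma infinite_subEqv_sum {K : Type*} {P Q : K → H →L[ℂ] H} {c s : H →L[ℂ] H}
    (hP : ∀ k, IsPr M (P k)) (hPo : ∀ i j, i ≠ j → P i * P j = 0) (hPs : IsSum P c)
    (hQ : ∀ k, IsPr M (Q k)) (hQo : ∀ i j, i ≠ j → Q i * Q j = 0) (hQs : ∀ k, Le (Q k) s)
    (h : ∀ k, SubEqv M (P k) (Q k)) : SubEqv M c s := by
  choose g hg h1 h2 using h
  have h3 : ∀ k, g k * P k = g k := fun k => infinite_mul_eq (hP k).idem (hP k).sa (h1 k)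
  have h4 : ∀ k, P k * star (g k) = star (g k) := by
    intro k
    have := congrArg star (h3 k)
    rwa [star_mul, (hP k).sa] at this
  have h5 : ∀ k, star (g k) * Q k = star (g k) := by
    intro k
    have := congrArg star (h2 k)
    rwa [star_mul, (hQ k).sa] at this
  obtain ⟨w, hw, w1, -, w3, -⟩ := exists_sum_pi g hg (fun i => by rw [h1, h3])
    (fun i j hij => by
      rw [← h5 i, ← h2 j]
      calc star (g i) * Q i * (Q j * g j) = star (g i) * (Q i * Q j) * g j := by noncomm_ring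
        _ = 0 := by rw [hQo i j hij]; simp)
    (fun i j hij => by
      rw [← h3 i, ← h4 j]
      calc g i * P i * (P j * star (g j)) = g i * (P i * P j) * star (g j) := by noncomm_ring
        _ = 0 := by rw [hPo i j hij]; simp)
  refine ⟨w, hw, ?_, ?_⟩
  · have : IsSum P (star w * w) := by
      have e : (fun i => star (g i) * g i) = P := funext h1
      rwa [e] at w3
    exact this.unique hPs
  · have h6 := w1.mul_left s
    have e : (fun i => s * g i) = g := by
      funext i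
      rw [← h2 i, ← mul_assoc, show s * Q i = Q i from hQs i]
    rw [e] at h6
    exact h6.unique w1

omit [CompleteSpace H] in
lemma infinite_isSum_option {I : Type*} {f : I → H →L[ℂ] H} {s : H →L[ℂ] H} (h : IsSum f s)
    (a : H →L[ℂ] H) : IsSum (fun k : Option I => k.elim a f) (a + s) := by
  intro x
  have h1 : HasSum (fun k : Option I => if k = none then a x else 0) (a x) :=
    hasSum_ite_eq none (a x)
  have h2 : HasSum (fun k : Option I => k.elim (0 : H) (fun i => f i x)) (s x) := by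
    have := (Function.Injective.hasSum_iff (Option.some_injective I)
      (f := fun k : Option I => k.elim (0 : H) (fun i => f i x)) (a := s x) ?_).1 (h x)
    · exact this
    · intro k hk
      cases k with
      | none => rfl
      | some i => exact absurd ⟨i, rfl⟩ hk
  have h3 := h1.add h2
  have e : (fun k : Option I => (if k = none then a x else 0) +
      k.elim (0 : H) (fun i => f i x)) = fun k => (k.elim a f : H →L[ℂ] H) x := by
    funext k
    cases k <;> simp
  rw [e] at h3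
  exact h3

lemma infinite_subEqv_of_eqv {e f : H →L[ℂ] H} (hf : IsPr M f) (h : Eqv M e f) :
    SubEqv M e f := by
  obtain ⟨v, hv, h1, h2⟩ := h
  refine ⟨v, hv, h1, ?_⟩
  have h3 : star (star v) * star v = f := by rw [star_star]; exact h2
  have := infinite_mul_eq hf.idem hf.sa h3
  have := congrArg star this
  rwa [star_mul, star_star, hf.sa] at this

/-- halving a central projection which is the sum of infinitely many copies of a projection and
a smaller projection -/
lemma infinite_halve {c e r : H →L[ℂ] H} (hc : IsCPr M c) (he : IsPr M e) (hr : IsPr M r)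
    {I : Type*} [Infinite I] {f : I → H →L[ℂ] H} (hf : ∀ i, IsPr M (f i))
    (hfe : ∀ i, Eqv M e (f i)) (ho : ∀ i j, i ≠ j → f i * f j = 0) (hrf : ∀ i, r * f i = 0)
    {s : H →L[ℂ] H} (hs : IsSum f s) (hrs : r + s = c) (hre : SubEqv M r e) :
    Halvable M c := by
  have hfr : ∀ i, f i * r = 0 := by
    intro i
    have := congrArg star (hrf i)
    rwa [star_mul, hr.sa, (hf i).sa, star_zero] at this
  -- two disjoint copies of `Option I` in `I`
  obtain ⟨φ⟩ : Nonempty ((Option I ⊕ Option I) ≃ I) := by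
    rw [← Cardinal.eq]
    simp only [Cardinal.mk_sum, Cardinal.mk_option, Cardinal.lift_id]
    have hI : Cardinal.aleph0 ≤ Cardinal.mk I := Cardinal.aleph0_le_mk I
    rw [Cardinal.add_one_of_aleph0_le hI, Cardinal.add_eq_self hI]
  -- the family
  let P : Option I → H →L[ℂ] H := fun k => k.elim r f
  have hP : ∀ k, IsPr M (P k) := by
    intro k; cases k with
    | none => exact hr
    | some i => exact hf i
  have hPo : ∀ i j, i ≠ j → P i * P j = 0 := by
    intro i j hij
    cases i with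
    | none => cases j with
      | none => exact absurd rfl hij
      | some j => exact hrf j
    | some i => cases j with
      | none => exact hfr i
      | some j => exact ho i j (fun h => hij (by rw [h]))
  have hPs : IsSum P c := by rw [← hrs]; exact infinite_isSum_option hs r
  have hsub : ∀ k i, SubEqv M (P k) (f i) := by
    intro k i
    cases k with
    | none => exact hre.trans hr he (hf i) (infinite_subEqv_of_eqv (hf i) (hfe i))
    | some j =>
      exact infinite_subEqv_of_eqv (hf i) ((hfe j).symm.trans (hf j) he (hf i) (hfe i))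
  -- the two halves
  have half : ∀ ψ : Option I → I, Function.Injective ψ → ∃ t, IsPr M t ∧
      IsSum (fun k => f (ψ k)) t ∧ SubEqv M c t := by
    intro ψ hψ
    obtain ⟨t, ht, h1, h2⟩ := exists_sum_proj (fun k => f (ψ k)) (fun k => hf _)
      (fun i j hij => ho _ _ (fun h => hij (hψ h)))
    exact ⟨t, ht, h1, infinite_subEqv_sum hP hPo hPs (fun k => hf (ψ k))
      (fun i j hij => ho _ _ (fun h => hij (hψ h))) h2 (fun k => hsub k _)⟩
  obtain ⟨t₁, ht1, hs1, hc1⟩ := half (fun k => φ (Sum.inl k))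
    (fun a b h => Sum.inl_injective (φ.injective h))
  obtain ⟨t₂, ht2, hs2, hc2⟩ := half (fun k => φ (Sum.inr k))
    (fun a b h => Sum.inr_injective (φ.injective h))
  have hfc : ∀ i, c * f i = f i := by
    intro i
    have h1 := hs.mul_right (f i)
    have h2 : IsSum (fun j => f j * f i) (f i) := by
      intro x
      have h3 := hasSum_single (f := fun j => (f j * f i) x) i (fun j hj => by
        show (f j * f i) x = 0
        rw [ho j i hj]; rfl)
      have h4 : (f i * f i) x = f i x := by rw [(hf i).idem]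
      rw [h4] at h3
      exact h3
    rw [← hrs, add_mul, hrf, zero_add]
    exact h1.unique h2
  have ht12 : t₁ * t₂ = 0 := by
    have h0 : ∀ k, f (φ (Sum.inl k)) * t₂ = 0 := by
      intro k
      have h1 := hs2.mul_left (f (φ (Sum.inl k)))
      have e : (fun i => f (φ (Sum.inl k)) * f (φ (Sum.inr i))) = fun _ => 0 := by
        funext i
        exact ho _ _ (fun h => by have := φ.injective h; cases this)
      rw [e] at h1
      exact h1.unique (fun x => by simp)
    have h1 := hs1.mul_right t₂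
    have e : (fun i => f (φ (Sum.inl i)) * t₂) = fun _ => 0 := funext h0
    rw [e] at h1
    exact h1.unique (fun x => by simp)
  have ht21 : t₂ * t₁ = 0 := by
    have := congrArg star ht12
    rwa [star_mul, ht1.sa, ht2.sa, star_zero] at this
  have hct : ∀ {t : H →L[ℂ] H} {ψ : Option I → I}, IsSum (fun k => f (ψ k)) t → c * t = t := by
    intro t ψ h
    have h1 := h.mul_left c
    have e : (fun k => c * f (ψ k)) = fun k => f (ψ k) := funext fun k => hfc _
    rw [e] at h1
    exact h1.unique h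
  have hct1 := hct hs1
  have hct2 := hct hs2
  have hd : IsPr M (c - t₁) := infinite_sub_pr ht1 hc.toIsPr hct1
  -- `c ~ t₁` and `c ~ c - t₁`
  have A1 : Eqv M c t₁ := schroeder_bernstein hc.toIsPr ht1 hc1
    ⟨t₁, ht1.mem, by rw [ht1.sa, ht1.idem], hct1⟩
  have A2 : Eqv M c (c - t₁) := by
    refine schroeder_bernstein hc.toIsPr hd ?_ ⟨c - t₁, hd.mem, by rw [hd.sa, hd.idem], ?_⟩
    · obtain ⟨w, hw, e1, e2⟩ := hc2
      refine ⟨w, hw, e1, ?_⟩
      rw [← e2, ← mul_assoc, sub_mul, hct2, ht12, sub_zero]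
    · rw [mul_sub, hc.idem, hct1]
  obtain ⟨v₁, m1, a1, b1⟩ := A1
  obtain ⟨v₂, m2, a2, b2⟩ := A2
  exact ⟨v₁, m1, v₂, m2, a1, a2, by rw [b1, b2]; abel⟩

/-- a central projection that is not finite has a nonzero halvable central part -/
theorem exists_halvable_of_not_finite {c : H →L[ℂ] H} (hc : IsCPr M c) (h : ¬ FinPr M c) :
    ∃ c', IsCPr M c' ∧ Le c' c ∧ c' ≠ 0 ∧ Halvable M c' := by
  unfold FinPr at h
  push Not at h
  obtain ⟨v, hv, h1, h2, h3⟩ := h
  have hvs : star v * c = star v := by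
    have := congrArg star h2
    rwa [star_mul, hc.sa] at this
  have hvc : v * c = v := infinite_mul_eq hc.idem hc.sa h1
  -- the complement of the range
  have hvv : IsPr M (v * star v) :=
    ⟨mul_mem hv (star_mem hv), by
      calc v * star v * (v * star v) = v * (star v * v) * star v := by noncomm_ring
        _ = v * star v := by rw [h1, hvc], by rw [star_mul, star_star]⟩
  obtain ⟨e, hedef⟩ : ∃ e, e = c - v * star v := ⟨_, rfl⟩
  have he : IsPr M e := by
    rw [hedef]
    exact infinite_sub_pr hvv hc.toIsPr (by rw [← mul_assoc, h2])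
  have he0 : e ≠ 0 := by
    rw [hedef]
    intro h
    exact h3 (sub_eq_zero.1 h).symm
  have hev : e * v = 0 := by
    rw [hedef, sub_mul, h2, mul_assoc, h1, hvc, sub_self]
  have hce : c * e = e := by
    rw [hedef, mul_sub, hc.idem, ← mul_assoc, h2]
  -- the copies of `e`
  let w : ℕ → H →L[ℂ] H := fun n => v ^ n * e
  have hw0 : w 0 = e := by simp [w]
  have hws : ∀ n, w (n + 1) = v * w n := fun n => by simp only [w, pow_succ', mul_assoc]
  have hwm : ∀ n, w n ∈ M := fun n => mul_mem (pow_mem hv n) he.mem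
  have hwc : ∀ n, c * w n = w n := by
    intro n
    cases n with
    | zero => rw [hw0, hce]
    | succ n => rw [hws, ← mul_assoc, h2]
  have hww : ∀ n, star (w n) * w n = e := by
    intro n
    induction n with
    | zero => rw [hw0, he.sa, he.idem]
    | succ n ih =>
      rw [hws, star_mul]
      calc star (w n) * star v * (v * w n) = star (w n) * ((star v * v) * w n) := by noncomm_ring
        _ = e := by rw [h1, hwc, ih]
  have hwo : ∀ m n, m < n → star (w m) * w n = 0 := by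
    intro m
    induction m with
    | zero =>
      intro n hn
      obtain ⟨n, rfl⟩ : ∃ k, n = k + 1 := ⟨n - 1, by omega⟩
      rw [hw0, hws, he.sa, ← mul_assoc, hev, zero_mul]
    | succ m ih =>
      intro n hn
      obtain ⟨n, rfl⟩ : ∃ k, n = k + 1 := ⟨n - 1, by omega⟩
      rw [hws, hws, star_mul]
      calc star (w m) * star v * (v * w n) = star (w m) * ((star v * v) * w n) := by noncomm_ring
        _ = 0 := by rw [h1, hwc, ih n (by omega)]
  have hwo' : ∀ m n, m ≠ n → star (w m) * w n = 0 := by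
    intro m n hmn
    rcases lt_or_gt_of_ne hmn with h | h
    · exact hwo m n h
    · have := congrArg star (hwo n m h)
      rwa [star_mul, star_star, star_zero] at this
  have hwe : ∀ n, w n * e = w n := fun n => infinite_mul_eq he.idem he.sa (hww n)
  obtain ⟨I, f, ι, hι, hfι, hf, ho, hmax⟩ := exists_max_copies he hc.toIsPr he0
    (I₀ := ULift.{u} ℕ) (fun n => w n.down * star (w n.down))
    (fun n => ⟨⟨mul_mem (hwm _) (star_mem (hwm _)), by
        calc w n.down * star (w n.down) * (w n.down * star (w n.down))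
            = w n.down * (star (w n.down) * w n.down) * star (w n.down) := by noncomm_ring
          _ = w n.down * star (w n.down) := by rw [hww, hwe],
        by rw [star_mul, star_star]⟩, by
        unfold Le
        rw [← mul_assoc, hwc], ⟨w n.down, hwm _, hww _, rfl⟩⟩)
    (fun i j hij => by
      have : i.down ≠ j.down := fun h => hij (ULift.ext _ _ h)
      calc w i.down * star (w i.down) * (w j.down * star (w j.down))
          = w i.down * (star (w i.down) * w j.down) * star (w j.down) := by noncomm_ring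
        _ = 0 := by rw [hwo' _ _ this]; simp)
  have : Infinite I := Infinite.of_injective ι hι
  obtain ⟨s, hs, hsum, hle⟩ := exists_sum_proj f (fun i => (hf i).1) ho
  have hcs : c * s = s := hsum.le_of (fun i => (hf i).2.1)
  have hr : IsPr M (c - s) := infinite_sub_pr hs hc.toIsPr hcs
  obtain ⟨z, hz, hz1, hz2⟩ := comparability hr he
  have hz' := infinite_cpr_one_sub hz
  have hc' : IsCPr M ((1 - z) * c) := infinite_cpr_mul hc hz'
  have hce' : (1 - z) * c * e = (1 - z) * e := by rw [mul_assoc, hce]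
  have hne : (1 - z) * e ≠ 0 := by
    intro h0
    have hze : z * e = e := by
      rw [sub_mul, one_mul, sub_eq_zero] at h0
      exact h0.symm
    apply hmax s hsum
    rw [hze] at hz2
    refine hz2.trans he (infinite_cut_pr hz hr) hr
      ⟨z * (c - s), (infinite_cut_pr hz hr).mem, ?_, ?_⟩
    · rw [(infinite_cut_pr hz hr).sa, (infinite_cut_pr hz hr).idem]
    · rw [← mul_assoc, ← hz.comm _ hr.mem, mul_assoc, hr.idem]
  refine ⟨(1 - z) * c, hc', ?_, ?_, ?_⟩
  · unfold Le
    rw [← mul_assoc, ← hz'.comm c hc.mem, mul_assoc, hc.idem]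
  · intro h0
    rw [h0, zero_mul] at hce'
    exact hne hce'.symm
  · refine infinite_halve (e := (1 - z) * e) (r := (1 - z) * (c - s))
      (f := fun i => (1 - z) * f i) (s := (1 - z) * s) hc' (infinite_cut_pr hz' he)
      (infinite_cut_pr hz' hr) (fun i => infinite_cut_pr hz' (hf i).1)
      (fun i => Eqv.cut hz' (hf i).2.2) ?_ ?_ (hsum.mul_left _) (by noncomm_ring) hz1
    · intro i j hij
      rw [hz'.comm _ (hf i).1.mem]
      calc f i * (1 - z) * ((1 - z) * f j) = f i * (((1 - z) * (1 - z)) * f j) := by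
            noncomm_ring
        _ = f i * (f j * (1 - z)) := by rw [hz'.idem, hz'.comm _ (hf j).1.mem]
        _ = 0 := by rw [← mul_assoc, ho i j hij, zero_mul]
    · intro i
      have hsf : s * f i = f i := hle i
      have hcf : c * f i = f i := (hf i).2.1
      rw [hz'.comm _ hr.mem]
      calc (c - s) * (1 - z) * ((1 - z) * f i) = (c - s) * (((1 - z) * (1 - z)) * f i) := by
            noncomm_ring
        _ = (c - s) * (f i * (1 - z)) := by rw [hz'.idem, hz'.comm _ (hf i).1.mem]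
        _ = 0 := by rw [← mul_assoc, sub_mul, hsf, hcf, sub_self, zero_mul]

/-- central sums of halvable projections are halvable -/
lemma infinite_sum_halvable {I : Type*} {z : I → H →L[ℂ] H} (hz : ∀ i, IsCPr M (z i))
    (hh : ∀ i, Halvable M (z i)) (ho : ∀ i j, i ≠ j → z i * z j = 0) {s : H →L[ℂ] H}
    (hs : IsSum z s) : Halvable M s := by
  choose v₁ h1 v₂ h2 e1 e2 e3 using hh
  have key : ∀ v : I → H →L[ℂ] H, (∀ i, v i ∈ M) → (∀ i, star (v i) * v i = z i) →
      ∃ w ∈ M, star w * w = s ∧ IsSum (fun i => v i * star (v i)) (w * star w) := by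
    intro v hv he
    have hvz : ∀ i, v i * z i = v i := fun i => infinite_mul_eq (hz i).idem (hz i).sa (he i)
    have hzv : ∀ i, z i * v i = v i := fun i => by rw [(hz i).comm _ (hv i), hvz i]
    have hsz : ∀ i, z i * star (v i) = star (v i) := by
      intro i
      have := congrArg star (hvz i)
      rwa [star_mul, (hz i).sa] at this
    have hzs : ∀ i, star (v i) * z i = star (v i) := by
      intro i
      have := congrArg star (hzv i)
      rwa [star_mul, (hz i).sa] at this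
    obtain ⟨w, hw, -, -, w3, w4⟩ := exists_sum_pi v hv (fun i => by rw [he, hvz])
      (fun i j hij => by
        rw [← hzs i, ← hzv j]
        calc star (v i) * z i * (z j * v j) = star (v i) * (z i * z j) * v j := by noncomm_ring
          _ = 0 := by rw [ho i j hij]; simp)
      (fun i j hij => by
        rw [← hvz i, ← hsz j]
        calc v i * z i * (z j * star (v j)) = v i * (z i * z j) * star (v j) := by noncomm_ring
          _ = 0 := by rw [ho i j hij]; simp)
    have e : (fun i => star (v i) * v i) = z := funext he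
    rw [e] at w3
    exact ⟨w, hw, w3.unique hs, w4⟩
  obtain ⟨w₁, m1, a1, b1⟩ := key v₁ h1 e1
  obtain ⟨w₂, m2, a2, b2⟩ := key v₂ h2 e2
  refine ⟨w₁, m1, w₂, m2, a1, a2, ?_⟩
  have h3 : IsSum z (w₁ * star w₁ + w₂ * star w₂) := by
    intro x
    have := (b1 x).add (b2 x)
    have e : (fun i => (v₁ i * star (v₁ i)) x + (v₂ i * star (v₂ i)) x) = fun i => z i x := by
      funext i
      rw [← e3 i]; rfl
    rw [e] at this
    exact this
  exact h3.unique hs

/-- (S8) decomposition in a halvable and a finite part -/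
theorem exists_inf_fin (M : VonNeumannAlgebra H) :
    ∃ z, IsCPr M z ∧ Halvable M z ∧ FinPr M (1 - z) := by
  obtain ⟨X, hX⟩ := zorn_subset {X : Set (H →L[ℂ] H) |
      (∀ z ∈ X, IsCPr M z ∧ Halvable M z ∧ z ≠ 0) ∧ ∀ z ∈ X, ∀ w ∈ X, z ≠ w → z * w = 0} (by
    intro C hC hchain
    refine ⟨⋃₀ C, ⟨?_, ?_⟩, fun s hs => Set.subset_sUnion_of_mem hs⟩
    · rintro z ⟨X, hX, hz⟩
      exact (hC hX).1 z hz
    · rintro z ⟨X, hX, hz⟩ w ⟨Y, hY, hw⟩ hzw
      rcases hchain.total hX hY with h | h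
      · exact (hC hY).2 z (h hz) w hw hzw
      · exact (hC hX).2 z hz w (h hw) hzw)
  have hX1 := hX.prop.1
  have hX2 := hX.prop.2
  obtain ⟨s, hs, hsum, hle⟩ := exists_sum_proj (fun z : X => (z : H →L[ℂ] H))
    (fun z => (hX1 z z.2).1.toIsPr)
    (fun z w hzw => hX2 z z.2 w w.2 (fun h => hzw (Subtype.ext h)))
  have hsc : IsCPr M s := by
    refine ⟨hs, fun x hx => ?_⟩
    have h1 := hsum.mul_right x
    have h2 := hsum.mul_left x
    have e : (fun z : X => (z : H →L[ℂ] H) * x) = fun z : X => x * (z : H →L[ℂ] H) :=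
      funext fun z => (hX1 z z.2).1.comm x hx
    rw [e] at h1
    exact h1.unique h2
  refine ⟨s, hsc, infinite_sum_halvable (fun z : X => (hX1 z z.2).1) (fun z => (hX1 z z.2).2.1)
    (fun z w hzw => hX2 z z.2 w w.2 (fun h => hzw (Subtype.ext h))) hsum, ?_⟩
  by_contra hfin
  obtain ⟨c, hc, hcs, hc0, hch⟩ := exists_halvable_of_not_finite (infinite_cpr_one_sub hsc) hfin
  have hcs' : s * c = 0 := by
    have : (1 - s) * c = c := hcs
    rw [sub_mul, one_mul] at this
    exact sub_eq_self.1 this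
  have hzc : ∀ z ∈ X, z * c = 0 := by
    intro z hz
    have h1 : s * z = z := hle ⟨z, hz⟩
    have h2 : z * s = z := by
      have := congrArg star h1
      rwa [star_mul, hs.sa, (hX1 z hz).1.sa] at this
    rw [← h2, mul_assoc, hcs', mul_zero]
  have hcz : ∀ z ∈ X, c * z = 0 := by
    intro z hz
    rw [hc.comm z (hX1 z hz).1.mem, hzc z hz]
  have hcX : c ∉ X := by
    intro h
    have := hzc c h
    rw [hc.idem] at this
    exact hc0 this
  have hins : insert c X ∈ {X : Set (H →L[ℂ] H) |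
      (∀ z ∈ X, IsCPr M z ∧ Halvable M z ∧ z ≠ 0) ∧
        ∀ z ∈ X, ∀ w ∈ X, z ≠ w → z * w = 0} := by
    refine ⟨?_, ?_⟩
    · intro z hz
      rcases Set.mem_insert_iff.1 hz with e | hz'
      · rw [e]; exact ⟨hc, hch, hc0⟩
      · exact hX1 z hz'
    · intro z hz w hw hzw
      rcases Set.mem_insert_iff.1 hz with e | hz'
      · rcases Set.mem_insert_iff.1 hw with e' | hw'
        · exact absurd (e.trans e'.symm) hzw
        · rw [e]; exact hcz w hw'
      · rcases Set.mem_insert_iff.1 hw with e' | hw'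
        · rw [e']; exact hzc z hz'
        · exact hX2 z hz' w hw' hzw
  exact hcX (hX.le_of_ge hins (Set.subset_insert c X) (Set.mem_insert c X))

lemma Halvable.cut {c z : H →L[ℂ] H} (hc : IsCPr M c) (hz : IsCPr M z) (h : Halvable M c) :
    Halvable M (z * c) := by
  obtain ⟨v₁, h1, v₂, h2, e1, e2, e3⟩ := h
  have key : ∀ v ∈ M, star v * v = c → star (z * v) * (z * v) = z * c := by
    intro v hv e
    rw [star_mul, hz.sa]
    calc star v * z * (z * v) = star v * (z * z * v) := by noncomm_ring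
      _ = star v * v * z := by rw [hz.idem, hz.comm v hv]; noncomm_ring
      _ = z * c := by rw [e, hc.comm z hz.mem]
  have key2 : ∀ v ∈ M, z * v * star (z * v) = z * (v * star v) := by
    intro v hv
    rw [star_mul, hz.sa]
    calc z * v * (star v * z) = z * (v * star v * z) := by noncomm_ring
      _ = z * (z * (v * star v)) := by rw [hz.comm (v * star v) (mul_mem hv (star_mem hv))]
      _ = z * z * (v * star v) := by noncomm_ring
      _ = z * (v * star v) := by rw [hz.idem]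
  refine ⟨z * v₁, mul_mem hz.mem h1, z * v₂, mul_mem hz.mem h2, key v₁ h1 e1, key v₂ h2 e2, ?_⟩
  rw [key2 v₁ h1, key2 v₂ h2, ← mul_add, e3]

end Vale.Agent.P082.VN
end

section

open scoped InnerProductSpace ComplexConjugate

namespace Vale.Agent.P082.VN

universe u

variable {H : Type u} [NormedAddCommGroup H] [InnerProductSpace ℂ H] [CompleteSpace H]
  {M : VonNeumannAlgebra H}

/-- the trace identity for a finite family of partial isometries that sums up to a central
projection -/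
lemma traceCorner_sum {N : ℕ} {c' p : H →L[ℂ] H} {η : H}
    (htr : ∀ x ∈ M, ∀ y ∈ M,
      ⟪η, (p * x * p * y * p) η⟫_ℂ = ⟪η, (p * y * p * x * p) η⟫_ℂ)
    (hc' : IsCPr M c') (hp : IsPr M p) (v : Fin N → H →L[ℂ] H) (hvM : ∀ i, v i ∈ M)
    (hvp : ∀ i, v i * p = v i) (hcv : ∀ i, c' * v i = v i)
    (hsum : ∑ i, v i * star (v i) = c') (x y : H →L[ℂ] H) (hx : x ∈ M) (hy : y ∈ M) :
    ∑ i, ⟪v i η, x (y (v i η))⟫_ℂ = ∑ i, ⟪v i η, y (x (v i η))⟫_ℂ := by
  have hpv : ∀ i, p * star (v i) = star (v i) := fun i => by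
    have := congrArg star (hvp i)
    rwa [star_mul, hp.sa] at this
  have key : ∀ a ∈ M, ∀ b ∈ M, ∀ i,
      ⟪v i η, a (b (v i η))⟫_ℂ = ∑ k, ⟪η, ((star (v i) * a * v k) * (star (v k) * b * v i)) η⟫_ℂ := by
    intro a ha b hb i
    have h1 : a * b * v i = ∑ k, a * v k * (star (v k) * b * v i) := by
      calc a * b * v i = a * (b * (c' * v i)) := by rw [hcv i, mul_assoc]
        _ = a * (c' * (b * v i)) := by
            rw [← mul_assoc b c' (v i), ← hc'.comm b hb, mul_assoc c' b]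
        _ = a * ((∑ k, v k * star (v k)) * (b * v i)) := by rw [hsum]
        _ = ∑ k, a * v k * (star (v k) * b * v i) := by
            rw [Finset.sum_mul, Finset.mul_sum]
            refine Finset.sum_congr rfl fun k _ => ?_
            simp only [mul_assoc]
    have h2 : ⟪v i η, a (b (v i η))⟫_ℂ = ⟪η, (star (v i) * (a * b * v i)) η⟫_ℂ := by
      have : (star (v i) * (a * b * v i)) η = (star (v i)) (a (b (v i η))) := rfl
      rw [this, ContinuousLinearMap.star_eq_adjoint, ContinuousLinearMap.adjoint_inner_right]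
    rw [h2, h1, Finset.mul_sum, sum_apply, inner_sum]
    refine Finset.sum_congr rfl fun k _ => ?_
    simp only [mul_assoc]
  have hM : ∀ a ∈ M, ∀ i k, star (v i) * a * v k ∈ M := fun a ha i k =>
    mul_mem (mul_mem (star_mem (hvM i)) ha) (hvM k)
  have hpp : ∀ a : H →L[ℂ] H, ∀ i k, p * (star (v i) * a * v k) = star (v i) * a * v k := by
    intro a i k
    rw [mul_assoc, ← mul_assoc p, hpv]
  have hpp' : ∀ a : H →L[ℂ] H, ∀ i k, (star (v i) * a * v k) * p = star (v i) * a * v k := by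
    intro a i k
    rw [mul_assoc, hvp]
  have hsw : ∀ i k, ⟪η, ((star (v i) * x * v k) * (star (v k) * y * v i)) η⟫_ℂ =
      ⟪η, ((star (v k) * y * v i) * (star (v i) * x * v k)) η⟫_ℂ := by
    intro i k
    have h := htr _ (hM x hx i k) _ (hM y hy k i)
    rwa [hpp, hpp', mul_assoc _ (star (v k) * y * v i) p, hpp', hpp, hpp',
      mul_assoc _ (star (v i) * x * v k) p, hpp'] at h
  calc ∑ i, ⟪v i η, x (y (v i η))⟫_ℂ
      = ∑ i, ∑ k, ⟪η, ((star (v i) * x * v k) * (star (v k) * y * v i)) η⟫_ℂ :=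
        Finset.sum_congr rfl fun i _ => key x hx y hy i
    _ = ∑ i, ∑ k, ⟪η, ((star (v k) * y * v i) * (star (v i) * x * v k)) η⟫_ℂ :=
        Finset.sum_congr rfl fun i _ => Finset.sum_congr rfl fun k _ => hsw i k
    _ = ∑ k, ∑ i, ⟪η, ((star (v k) * y * v i) * (star (v i) * x * v k)) η⟫_ℂ :=
        Finset.sum_comm
    _ = ∑ k, ⟪v k η, y (x (v k η))⟫_ℂ :=
        Finset.sum_congr rfl fun k _ => (key y hy x hx k).symm

/-- (T4) extension of a trace from a corner -/
theorem exists_trace_of_corner {c p : H →L[ℂ] H} (hc : IsCPr M c) (hfin : FinPr M c)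
    (hp : IsPr M p) (hpc : Le p c) {η : H} (hη : η ≠ 0) (hpη : p η = η)
    (htr : ∀ x ∈ M, ∀ y ∈ M,
      ⟪η, (p * x * p * y * p) η⟫_ℂ = ⟪η, (p * y * p * x * p) η⟫_ℂ) :
    ∃ ξ : ℕ → H, TrVec M ξ ∧ (∃ n, ξ n ≠ 0) ∧ ∀ n, c (ξ n) = ξ n := by
  obtain ⟨z, hz, hzη, hzmin⟩ := exists_central_vec (M := M) η
  have hzp : z * p = p * z := hz.comm p hp.mem
  have hp1 : IsPr M (z * p) := by
    refine ⟨mul_mem hz.mem hp.mem, ?_, ?_⟩
    · rw [mul_assoc, ← mul_assoc p z p, ← hzp, mul_assoc, hp.idem, ← mul_assoc, hz.idem]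
    · rw [star_mul, hp.sa, hz.sa, hzp]
  have hp1η : (z * p) η = η := by
    change z (p η) = η
    rw [hpη, hzη]
  have hp10 : z * p ≠ 0 := by
    intro h
    rw [h] at hp1η
    exact hη hp1η.symm
  have hp1c : Le (z * p) c := by
    change c * (z * p) = z * p
    rw [← mul_assoc, hc.comm z hz.mem, mul_assoc]
    have : c * p = p := hpc
    rw [this]
  obtain ⟨c', hc', hc'c, hne, n, w, w', hw, hw'M, hw'1, hw'2, hsum⟩ :=
    FinPr.partition hp1 hp10 hc hp1c hfin
  have hc'c : c * c' = c' := hc'c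
  -- the projection `q = c' z p`
  have hqp : c' * (z * p) * p = c' * (z * p) := by
    rw [mul_assoc, mul_assoc z p p, hp.idem]
  have hqc : c' * (z * p) * c' = c' * (z * p) := by
    rw [mul_assoc, ← hc'.comm _ hp1.mem, ← mul_assoc, hc'.idem]
  have hqsa : star (c' * (z * p)) = c' * (z * p) := by
    rw [star_mul, hp1.sa, hc'.sa, hc'.comm _ hp1.mem]
  have hqq : c' * (z * p) * (c' * (z * p)) = c' * (z * p) := by
    rw [← mul_assoc, hqc, mul_assoc, hp1.idem]
  have hc'η : c' η ≠ 0 := by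
    intro h
    refine hne ?_
    rw [← mul_assoc, hzmin c' hc' h, zero_mul]
  -- the family
  let v : Fin (n + 1 + 1) → H →L[ℂ] H := Fin.cons w' w
  have hv0 : v 0 = w' := rfl
  have hvs : ∀ i : Fin (n + 1), v i.succ = w i := fun i => rfl
  have hvM : ∀ i, v i ∈ M := by
    refine Fin.cases ?_ ?_
    · rw [hv0]; exact hw'M
    · intro i; rw [hvs]; exact (hw i).1
  have hvq : ∀ i, v i * (c' * (z * p)) = v i := by
    refine Fin.cases ?_ ?_
    · rw [hv0]
      have h1 : star w' * w' * (c' * (z * p)) = star w' * w' := by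
        have := congrArg star hw'2
        rwa [star_mul, hqsa, star_mul, star_star] at this
      calc w' * (c' * (z * p)) = w' * (star w' * w') * (c' * (z * p)) := by rw [hw'1]
        _ = w' * (star w' * w' * (c' * (z * p))) := by rw [mul_assoc]
        _ = w' := by rw [h1, hw'1]
    · intro i
      rw [hvs, ← sub_eq_zero]
      refine CStarRing.star_mul_self_eq_zero_iff _ |>.1 ?_
      have h2 := (hw i).2
      rw [star_sub, star_mul, hqsa]
      calc (c' * (z * p) * star (w i) - star (w i)) * (w i * (c' * (z * p)) - w i)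
          = c' * (z * p) * (star (w i) * w i) * (c' * (z * p))
            - c' * (z * p) * (star (w i) * w i)
            - (star (w i) * w i) * (c' * (z * p)) + star (w i) * w i := by noncomm_ring
        _ = 0 := by
            rw [h2, hqq, hqq]; abel
  have hvp : ∀ i, v i * p = v i := fun i => by
    calc v i * p = v i * (c' * (z * p)) * p := by rw [hvq i]
      _ = v i * (c' * (z * p) * p) := by rw [mul_assoc]
      _ = v i := by rw [hqp, hvq i]
  have hcv' : ∀ i, c' * v i = v i := fun i => by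
    calc c' * v i = v i * c' := hc'.comm _ (hvM i)
      _ = v i * (c' * (z * p)) * c' := by rw [hvq i]
      _ = v i * (c' * (z * p) * c') := by rw [mul_assoc]
      _ = v i := by rw [hqc, hvq i]
  have hcv : ∀ i, c * v i = v i := fun i => by
    calc c * v i = c * (c' * v i) := by rw [hcv' i]
      _ = c * c' * v i := by rw [mul_assoc]
      _ = v i := by rw [hc'c, hcv' i]
  have hvsum : ∑ i, v i * star (v i) = c' := by
    rw [Fin.sum_univ_succ, hv0, add_comm]
    simp only [hvs]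
    exact hsum
  let ξ : ℕ → H := fun k => if h : k < n + 1 + 1 then v ⟨k, h⟩ η else 0
  have hξ : ∀ i : Fin (n + 1 + 1), ξ (i : ℕ) = v i η := fun i => by
    simp only [ξ, i.2, dif_pos]
  have hξ0 : ∀ k, k ∉ Finset.range (n + 1 + 1) → ξ k = 0 := fun k hk => by
    have : ¬ k < n + 1 + 1 := fun h => hk (Finset.mem_range.2 h)
    simp only [ξ, this, dif_neg, not_false_eq_true]
  refine ⟨ξ, ⟨?_, ?_⟩, ⟨1, ?_⟩, ?_⟩
  · refine summable_of_ne_finset_zero (s := Finset.range (n + 1 + 1)) fun k hk => ?_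
    rw [hξ0 k hk, norm_zero]; norm_num
  · intro x hx y hy
    rw [tsum_eq_sum (s := Finset.range (n + 1 + 1)) fun k hk => by
        rw [hξ0 k hk, inner_zero_left],
      tsum_eq_sum (s := Finset.range (n + 1 + 1)) fun k hk => by
        rw [hξ0 k hk, inner_zero_left],
      Finset.sum_range, Finset.sum_range]
    simp only [hξ]
    exact traceCorner_sum htr hc' hp v hvM hvp hcv' hvsum x y hx hy
  · have h1 : ξ 1 = w 0 η := hξ (Fin.succ 0)
    rw [h1]
    intro h0
    refine hc'η ?_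
    have h2 := (hw 0).2
    have h3 : (c' * (z * p)) η = c' η := by
      change c' ((z * p) η) = c' η
      rw [hp1η]
    rw [← h3, ← h2]
    change star (w 0) (w 0 η) = 0
    rw [h0, map_zero]
  · intro k
    by_cases hk : k < n + 1 + 1
    · have h1 : ξ k = v ⟨k, hk⟩ η := hξ ⟨k, hk⟩
      rw [h1]
      exact congrArg (fun T : H →L[ℂ] H => T η) (hcv ⟨k, hk⟩)
    · rw [hξ0 k (fun h => hk (Finset.mem_range.1 h)), map_zero]

end Vale.Agent.P082.VN
end

section

open scoped InnerProductSpace ComplexConjugate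

namespace Vale.Agent.P082.VN

universe u

variable {H : Type u} [NormedAddCommGroup H] [InnerProductSpace ℂ H] [CompleteSpace H]
  {M : VonNeumannAlgebra H}

/-- `⟪ξ, p ξ⟫ = ‖p ξ‖²` for a projection -/
lemma traceEx_inner {p : H →L[ℂ] H} (hi : p * p = p) (hs : star p = p) (ξ : H) :
    ⟪ξ, p ξ⟫_ℂ = ((‖p ξ‖ ^ 2 : ℝ) : ℂ) := by
  have h1 : ⟪p ξ, p ξ⟫_ℂ = ⟪ξ, p ξ⟫_ℂ := by
    have h2 : p (p ξ) = p ξ := by
      show (p * p) ξ = p ξ
      rw [hi]
    have h3 : ⟪p ξ, p ξ⟫_ℂ = ⟪ξ, (star p) (p ξ)⟫_ℂ := by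
      rw [ContinuousLinearMap.star_eq_adjoint, ContinuousLinearMap.adjoint_inner_right]
    rw [h3, hs, h2]
  rw [← h1, inner_self_eq_norm_sq_to_K]
  norm_cast

lemma traceEx_le_comm {e f : H →L[ℂ] H} (he : star e = e) (hf : star f = f) (h : Le e f) :
    e * f = e := by
  have := congrArg star h
  rwa [star_mul, he, hf] at this

/-- the conditions on a family of partial isometries -/
structure TraceExV (M : VonNeumannAlgebra H) (g : H →L[ℂ] H) (ξ : H)
    (V : Set (H →L[ℂ] H)) : Prop where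
  mem : ∀ v ∈ V, v ∈ M
  pi : ∀ v ∈ V, v * (star v * v) = v
  right : ∀ v ∈ V, v * g = v
  left : ∀ v ∈ V, g * v = v
  lt : ∀ v ∈ V, ‖(v * star v) ξ‖ < ‖(star v * v) ξ‖
  orth : ∀ v ∈ V, ∀ v' ∈ V, v ≠ v' → star v * v' = 0 ∧ v * star v' = 0

lemma traceEx_pr {v : H →L[ℂ] H} (hv : v ∈ M) (h : v * (star v * v) = v) :
    IsPr M (star v * v) ∧ IsPr M (v * star v) := by
  refine ⟨⟨mul_mem (star_mem hv) hv, ?_, ?_⟩, ⟨mul_mem hv (star_mem hv), ?_, ?_⟩⟩
  · rw [mul_assoc, h]
  · rw [star_mul, star_star]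
  · calc v * star v * (v * star v) = v * (star v * v) * star v := by simp only [mul_assoc]
      _ = _ := by rw [h]
  · rw [star_mul, star_star]

/-- (T1) exhaustion -/
theorem exists_dominated_pair {g : H →L[ℂ] H} (hg : IsPr M g) (hg0 : g ≠ 0) (hfin : FinPr M g)
    (ξ : H) (hξ : ∀ x ∈ M, x ξ = 0 → x * g = 0) :
    ∃ (p : H →L[ℂ] H) (ξ₂ : H), IsPr M p ∧ p ≠ 0 ∧ Le p g ∧ p ξ₂ = ξ₂ ∧
      ∀ e f, IsPr M e → IsPr M f → Le e p → Le f p → Eqv M e f → ‖e ξ‖ ≤ ‖f ξ₂‖ := by
  by_contra hneg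
  push Not at hneg
  -- Zorn
  obtain ⟨V, hV⟩ := zorn_subset {V | TraceExV M g ξ V} (by
    intro c hc hchain
    refine ⟨⋃₀ c, ⟨?_, ?_, ?_, ?_, ?_, ?_⟩, fun s hs => Set.subset_sUnion_of_mem hs⟩
    · rintro v ⟨s, hs, hv⟩; exact (hc hs).mem v hv
    · rintro v ⟨s, hs, hv⟩; exact (hc hs).pi v hv
    · rintro v ⟨s, hs, hv⟩; exact (hc hs).right v hv
    · rintro v ⟨s, hs, hv⟩; exact (hc hs).left v hv
    · rintro v ⟨s, hs, hv⟩; exact (hc hs).lt v hv
    · rintro v ⟨s, hs, hv⟩ v' ⟨s', hs', hv'⟩ hne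
      rcases hchain.total hs hs' with h | h
      · exact (hc hs').orth v (h hv) v' hv' hne
      · exact (hc hs).orth v hv v' (h hv') hne)
  have hVp : TraceExV M g ξ V := hV.prop
  -- the sum
  obtain ⟨w, hwM, hsw, -, hse, hsf⟩ := exists_sum_pi (M := M) (fun v : V => (v : H →L[ℂ] H))
    (fun v => hVp.mem v v.2) (fun v => hVp.pi v v.2)
    (fun v v' hne => (hVp.orth v v.2 v' v'.2 fun h => hne (Subtype.ext h)).1)
    (fun v v' hne => (hVp.orth v v.2 v' v'.2 fun h => hne (Subtype.ext h)).2)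
  -- orthogonality of supports and ranges
  have hoe : ∀ v v' : V, v ≠ v' → (star (v : H →L[ℂ] H) * v) * (star (v' : H →L[ℂ] H) * v') = 0 := by
    intro v v' hne
    have h1 := (hVp.orth v v.2 v' v'.2 fun h => hne (Subtype.ext h)).2
    calc (star (v : H →L[ℂ] H) * v) * (star (v' : H →L[ℂ] H) * v')
        = star (v : H →L[ℂ] H) * ((v : H →L[ℂ] H) * star (v' : H →L[ℂ] H)) * v' := by
          simp only [mul_assoc]
      _ = 0 := by rw [h1, mul_zero, zero_mul]
  have hof : ∀ v v' : V, v ≠ v' → ((v : H →L[ℂ] H) * star (v : H →L[ℂ] H)) *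
      ((v' : H →L[ℂ] H) * star (v' : H →L[ℂ] H)) = 0 := by
    intro v v' hne
    have h1 := (hVp.orth v v.2 v' v'.2 fun h => hne (Subtype.ext h)).1
    calc ((v : H →L[ℂ] H) * star (v : H →L[ℂ] H)) * ((v' : H →L[ℂ] H) * star (v' : H →L[ℂ] H))
        = (v : H →L[ℂ] H) * (star (v : H →L[ℂ] H) * v') * star (v' : H →L[ℂ] H) := by
          simp only [mul_assoc]
      _ = 0 := by rw [h1, mul_zero, zero_mul]
  have hpr := fun v : V => traceEx_pr (M := M) (hVp.mem v v.2) (hVp.pi v v.2)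
  obtain ⟨e, he, hse', hee⟩ := exists_sum_proj (M := M)
    (fun v : V => star (v : H →L[ℂ] H) * v) (fun v => (hpr v).1) hoe
  obtain ⟨f, hf, hsf', hff⟩ := exists_sum_proj (M := M)
    (fun v : V => (v : H →L[ℂ] H) * star (v : H →L[ℂ] H)) (fun v => (hpr v).2) hof
  have ewe : star w * w = e := hse.unique hse'
  have ewf : w * star w = f := hsf.unique hsf'
  have heg : Le e g := hse'.le_of fun v => by
    have h1 : g * star (v : H →L[ℂ] H) = star (v : H →L[ℂ] H) := by
      have := congrArg star (hVp.right v v.2)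
      rwa [star_mul, hg.sa] at this
    show g * (star (v : H →L[ℂ] H) * v) = _
    rw [← mul_assoc, h1]
  have hfg : Le f g := hsf'.le_of fun v => by
    show g * ((v : H →L[ℂ] H) * star (v : H →L[ℂ] H)) = _
    rw [← mul_assoc, hVp.left v v.2]
  have hef : Eqv M e f := ⟨w, hwM, ewe, ewf⟩
  have heg' := traceEx_le_comm he.sa hg.sa heg
  have hfg' := traceEx_le_comm hf.sa hg.sa hfg
  by_cases hge : g - e = 0
  · -- `e = g`, contradiction with finiteness
    have hge' : e = g := (sub_eq_zero.1 hge).symm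
    have hgf : f = g := by
      have h1 := hfin w hwM (by rw [ewe, hge']) (by
        -- `g w = w`
        have h3 := hsw.mul_left g
        have h4 : (fun v : V => g * (v : H →L[ℂ] H)) = fun v : V => (v : H →L[ℂ] H) :=
          funext fun v => hVp.left v v.2
        rw [h4] at h3
        exact h3.unique hsw)
      rw [← ewf, h1]
    have hne : Nonempty V := by
      by_contra hem
      rw [not_nonempty_iff] at hem
      apply hg0
      rw [← hge']
      refine hse'.unique ?_
      intro x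
      show HasSum _ (0 : H)
      exact hasSum_empty
    obtain ⟨v0⟩ := hne
    have hS1 : HasSum (fun v : V => ‖(star (v : H →L[ℂ] H) * v) ξ‖ ^ 2) (‖g ξ‖ ^ 2) := by
      have h1 := (hse' ξ).mapL (innerSL ℂ ξ)
      have h2 : HasSum (fun v : V => ((‖(star (v : H →L[ℂ] H) * v) ξ‖ ^ 2 : ℝ) : ℂ))
          ((‖g ξ‖ ^ 2 : ℝ) : ℂ) := by
        rw [← traceEx_inner hg.idem hg.sa ξ, ← hge']
        refine h1.congr_fun fun v => ?_
        exact (traceEx_inner (hpr v).1.idem (hpr v).1.sa ξ).symm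
      exact_mod_cast h2
    have hS2 : HasSum (fun v : V => ‖((v : H →L[ℂ] H) * star (v : H →L[ℂ] H)) ξ‖ ^ 2)
        (‖g ξ‖ ^ 2) := by
      have h1 := (hsf' ξ).mapL (innerSL ℂ ξ)
      have h2 : HasSum (fun v : V => ((‖((v : H →L[ℂ] H) * star (v : H →L[ℂ] H)) ξ‖ ^ 2 : ℝ) : ℂ))
          ((‖g ξ‖ ^ 2 : ℝ) : ℂ) := by
        rw [← traceEx_inner hg.idem hg.sa ξ, ← hgf]
        refine h1.congr_fun fun v => ?_
        exact (traceEx_inner (hpr v).2.idem (hpr v).2.sa ξ).symm
      exact_mod_cast h2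
    have hlt : ∀ v : V, ‖((v : H →L[ℂ] H) * star (v : H →L[ℂ] H)) ξ‖ ^ 2 <
        ‖(star (v : H →L[ℂ] H) * v) ξ‖ ^ 2 := fun v =>
      pow_lt_pow_left₀ (hVp.lt v v.2) (norm_nonneg _) (by norm_num)
    exact absurd (hasSum_lt (fun v => (hlt v).le) (hlt v0) hS2 hS1) (lt_irrefl _)
  · -- extend the family
    obtain ⟨u, huM, hu1, hu2⟩ := FinPr.compl he hf hg heg hfg hfin hef
    have hge2 : IsPr M (g - e) := by
      refine ⟨sub_mem hg.mem he.mem, ?_, ?_⟩
      · rw [sub_mul, mul_sub, mul_sub, hg.idem, he.idem, heg, heg', sub_self, sub_zero]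
      · rw [star_sub, hg.sa, he.sa]
    have hle2 : Le (g - e) g := by
      show g * (g - e) = g - e
      rw [mul_sub, hg.idem, heg]
    -- `u (g - e) = u`
    have hu3 : u * (g - e) = u := by
      have h1 : star (u * (g - e) - u) * (u * (g - e) - u) = 0 := by
        rw [star_sub, star_mul, hge2.sa]
        have h2 : ((g - e) * star u - star u) * (u * (g - e) - u) =
            (g - e) * (star u * u) * (g - e) - (g - e) * (star u * u) -
              (star u * u) * (g - e) + star u * u := by noncomm_ring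
        rw [h2, hu1, hge2.idem, hge2.idem]
        abel
      exact sub_eq_zero.1 ((CStarRing.star_mul_self_eq_zero_iff _).1 h1)
    have hu4 : (g - e) * star u = star u := by
      have := congrArg star hu3
      rwa [star_mul, hge2.sa] at this
    obtain ⟨e', f', he', hf', hle', hlf', heq', hlt'⟩ := hneg (g - e) (star u ξ) hge2 hge hle2
      (by
        show ((g - e) * star u) ξ = star u ξ
        rw [hu4])
    obtain ⟨v1, hv1M, hv1a, hv1b⟩ := heq'
    have hle'' := traceEx_le_comm he'.sa hge2.sa hle'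
    have hlf'' := traceEx_le_comm hf'.sa hge2.sa hlf'
    set v' : H →L[ℂ] H := u * v1 with hv'
    -- `f' v1 = v1`
    have hfv1 : f' * v1 = v1 := by
      have h1 : (f' * v1 - v1) * star (f' * v1 - v1) = 0 := by
        rw [star_sub, star_mul, hf'.sa]
        have h2 : (f' * v1 - v1) * (star v1 * f' - star v1) =
            f' * (v1 * star v1) * f' - f' * (v1 * star v1) - (v1 * star v1) * f' +
              v1 * star v1 := by noncomm_ring
        rw [h2, hv1b, hf'.idem, hf'.idem]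
        abel
      exact sub_eq_zero.1 ((CStarRing.mul_star_self_eq_zero_iff _).1 h1)
    have hev1 : v1 * e' = v1 := by
      have h1 : star (v1 * e' - v1) * (v1 * e' - v1) = 0 := by
        rw [star_sub, star_mul, he'.sa]
        have h2 : (e' * star v1 - star v1) * (v1 * e' - v1) =
            e' * (star v1 * v1) * e' - e' * (star v1 * v1) - (star v1 * v1) * e' +
              star v1 * v1 := by noncomm_ring
        rw [h2, hv1a, he'.idem, he'.idem]
        abel
      exact sub_eq_zero.1 ((CStarRing.star_mul_self_eq_zero_iff _).1 h1)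
    have hv'a : star v' * v' = e' := by
      rw [hv', star_mul]
      calc star v1 * star u * (u * v1) = star v1 * (star u * u) * v1 := by
            simp only [mul_assoc]
        _ = star v1 * ((g - e) * (f' * v1)) := by rw [hu1, hfv1, mul_assoc]
        _ = star v1 * ((g - e) * f' * v1) := by rw [mul_assoc (g - e)]
        _ = star v1 * (f' * v1) := by rw [hlf']
        _ = e' := by rw [hfv1, hv1a]
    have hv'b : v' * star v' = u * f' * star u := by
      rw [hv', star_mul, ← hv1b]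
      simp only [mul_assoc]
    have hv'M : v' ∈ M := mul_mem huM hv1M
    have hv'pi : v' * (star v' * v') = v' := by
      rw [hv'a, hv', mul_assoc, hev1]
    -- supports
    have hsup : v' * (g - e) = v' := by
      have h1 : v' * e' = v' := by rw [hv', mul_assoc, hev1]
      calc v' * (g - e) = v' * e' * (g - e) := by rw [h1]
        _ = v' * (e' * (g - e)) := by rw [mul_assoc]
        _ = v' := by rw [hle'', h1]
    have hran : (g - f) * v' = v' := by
      calc (g - f) * v' = u * (star u * u) * v1 := by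
            rw [← hu2, hv']; simp only [mul_assoc]
        _ = u * (g - e) * v1 := by rw [hu1]
        _ = v' := by rw [hu3]
    have hge_g : (g - e) * g = g - e := by rw [sub_mul, hg.idem, heg']
    have hg_gf : g * (g - f) = g - f := by rw [mul_sub, hg.idem, hfg]
    have hright : v' * g = v' := by
      calc v' * g = v' * (g - e) * g := by rw [hsup]
        _ = v' * ((g - e) * g) := by rw [mul_assoc]
        _ = v' := by rw [hge_g, hsup]
    have hleft : g * v' = v' := by
      calc g * v' = g * ((g - f) * v') := by rw [hran]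
        _ = g * (g - f) * v' := by rw [mul_assoc]
        _ = v' := by rw [hg_gf, hran]
    have hlt2 : ‖(v' * star v') ξ‖ < ‖(star v' * v') ξ‖ := by
      rw [hv'a, hv'b]
      refine lt_of_le_of_lt ?_ hlt'
      -- `‖u (f' u* ξ)‖ ≤ ‖f' u* ξ‖`
      have h1 : ∀ y : H, ‖u y‖ ≤ ‖y‖ := by
        intro y
        have h2 : ‖u y‖ ^ 2 = ‖(g - e) y‖ ^ 2 := by
          have h3 : ⟪u y, u y⟫_ℂ = ⟪y, (g - e) y⟫_ℂ := by
            rw [← hu1, ContinuousLinearMap.star_eq_adjoint]
            show _ = ⟪y, (ContinuousLinearMap.adjoint u) (u y)⟫_ℂ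
            rw [ContinuousLinearMap.adjoint_inner_right]
          have h6 : ⟪u y, u y⟫_ℂ = ((‖u y‖ ^ 2 : ℝ) : ℂ) :=
            traceEx_inner (one_mul 1) (star_one _) (u y)
          rw [traceEx_inner hge2.idem hge2.sa, h6] at h3
          exact_mod_cast h3
        have h4 : ‖(g - e) y‖ ≤ ‖y‖ := by
          have h5 := traceEx_inner hge2.idem hge2.sa y
          have h6 : ‖⟪y, (g - e) y⟫_ℂ‖ ≤ ‖y‖ * ‖(g - e) y‖ := norm_inner_le_norm _ _
          rw [h5, Complex.norm_real, Real.norm_eq_abs, abs_of_nonneg (sq_nonneg _)] at h6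
          by_contra hcon
          push Not at hcon
          have h7 : 0 < ‖(g - e) y‖ := lt_of_le_of_lt (norm_nonneg _) hcon
          nlinarith only [h6, hcon, h7]
        have h5 : ‖u y‖ = ‖(g - e) y‖ := (sq_eq_sq₀ (norm_nonneg _) (norm_nonneg _)).1 h2
        rw [h5]; exact h4
      exact h1 _
    -- orthogonality to the family
    have horth : ∀ v ∈ V, (star v * v' = 0 ∧ v * star v' = 0) ∧
        (star v' * v = 0 ∧ v' * star v = 0) := by
      intro v hv
      have h1 : f * v = v := by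
        have h2 : f * (v * star v) = v * star v := hff ⟨v, hv⟩
        calc f * v = f * (v * star v) * v := by
              rw [mul_assoc, mul_assoc, hVp.pi v hv]
          _ = v := by rw [h2, mul_assoc, hVp.pi v hv]
      have h3 : v * e = v := by
        have h4 : e * (star v * v) = star v * v := hee ⟨v, hv⟩
        have h5 : (star v * v) * e = star v * v :=
          traceEx_le_comm (hpr ⟨v, hv⟩).1.sa he.sa h4
        calc v * e = v * (star v * v) * e := by rw [hVp.pi v hv]
          _ = v * ((star v * v) * e) := by rw [mul_assoc]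
          _ = v := by rw [h5, hVp.pi v hv]
      have h4 : star v * v' = 0 := by
        have h5 : star v * f = star v := by
          have := congrArg star h1
          rwa [star_mul, hf.sa] at this
        calc star v * v' = star v * f * ((g - f) * v') := by rw [h5, hran]
          _ = star v * (f * (g - f)) * v' := by simp only [mul_assoc]
          _ = 0 := by rw [mul_sub, hfg', hf.idem, sub_self, mul_zero, zero_mul]
      have h5 : v * star v' = 0 := by
        have h6 : (g - e) * star v' = star v' := by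
          have := congrArg star hsup
          rwa [star_mul, hge2.sa] at this
        calc v * star v' = v * e * ((g - e) * star v') := by rw [h3, h6]
          _ = v * (e * (g - e)) * star v' := by simp only [mul_assoc]
          _ = 0 := by rw [mul_sub, heg', he.idem, sub_self, mul_zero, zero_mul]
      refine ⟨⟨h4, h5⟩, ?_, ?_⟩
      · have := congrArg star h4
        rwa [star_mul, star_star, star_zero] at this
      · have := congrArg star h5
        rwa [star_mul, star_star, star_zero] at this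
    have hnew : TraceExV M g ξ (insert v' V) := by
      refine ⟨?_, ?_, ?_, ?_, ?_, ?_⟩
      · rintro v (rfl | hv)
        · exact hv'M
        · exact hVp.mem v hv
      · rintro v (rfl | hv)
        · exact hv'pi
        · exact hVp.pi v hv
      · rintro v (rfl | hv)
        · exact hright
        · exact hVp.right v hv
      · rintro v (rfl | hv)
        · exact hleft
        · exact hVp.left v hv
      · rintro v (rfl | hv)
        · exact hlt2
        · exact hVp.lt v hv
      · rintro v (rfl | hv) v2 (rfl | hv2) hne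
        · exact absurd rfl hne
        · exact (horth v2 hv2).2
        · exact (horth v hv).1
        · exact hVp.orth v hv v2 hv2 hne
    have hmem : v' ∈ V := hV.le_of_ge hnew (Set.subset_insert _ _) (Set.mem_insert _ _)
    have h0 := (horth v' hmem).1.1
    rw [h0] at hlt2
    have h9 : ‖(0 : H →L[ℂ] H) ξ‖ = 0 := by simp
    rw [h9] at hlt2
    exact absurd hlt2 (not_lt.2 (norm_nonneg _))

/-- Theorem T: a nonzero finite central projection carries a nonzero normal trace -/
theorem exists_trace_of_finite {c : H →L[ℂ] H} (hc : IsCPr M c) (hfin : FinPr M c)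
    (hc0 : c ≠ 0) :
    ∃ ξ : ℕ → H, TrVec M ξ ∧ (∃ n, ξ n ≠ 0) ∧ ∀ n, c (ξ n) = ξ n := by
  obtain ⟨x, hx⟩ : ∃ x, c x ≠ 0 := by
    by_contra hcon
    push Not at hcon
    exact hc0 (ContinuousLinearMap.ext hcon)
  set ξ := c x with hξ
  have hcξ : c ξ = ξ := by
    show (c * c) x = c x
    rw [hc.idem]
  obtain ⟨g, hg, hgξ, hgs⟩ := exists_support_vec (M := M) ξ
  have hgc : Le g c := by
    have h1 := hgs (1 - c) (sub_mem (one_mem M) hc.mem) (by
      show ξ - c ξ = 0
      rw [hcξ, sub_self])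
    rw [sub_mul, one_mul, sub_eq_zero] at h1
    exact h1.symm
  have hg0 : g ≠ 0 := by
    rintro rfl
    exact hx (hgξ.symm.trans (by simp))
  have hgfin : FinPr M g := FinPr.le hg hc.toIsPr hgc hfin
  obtain ⟨p, ξ₂, hp, hp0, hpg, hpξ₂, hdom⟩ := exists_dominated_pair hg hg0 hgfin ξ hgs
  have hpg' := traceEx_le_comm hp.sa hg.sa hpg
  have hpξ : p ξ ≠ 0 := by
    intro h
    have h1 := hgs p hp.mem h
    exact hp0 (by rw [← hpg', h1])
  obtain ⟨η, hη0, hpη, htr⟩ := exists_trace_of_dominated hp (ξ₁ := p ξ) (ξ₂ := ξ₂)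
    (by
      show (p * p) ξ = p ξ
      rw [hp.idem]) hpξ₂ hpξ (by
      intro e f he hf hle hlf heq
      have h1 : e (p ξ) = e ξ := by
        show (e * p) ξ = e ξ
        rw [traceEx_le_comm he.sa hp.sa hle]
      rw [h1]
      exact hdom e f he hf hle hlf heq)
  have hpc : Le p c := by
    show c * p = p
    calc c * p = c * (g * p) := by rw [hpg]
      _ = c * g * p := by rw [mul_assoc]
      _ = p := by rw [hgc, hpg]
  exact exists_trace_of_corner hc hfin hp hpc hη0 hpη htr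

/-- the main decomposition: `M` = finite part with separating traces + halvable part -/
theorem exists_decomposition (M : VonNeumannAlgebra H) :
    ∃ zf, IsCPr M zf ∧ Halvable M (1 - zf) ∧ FinPr M zf ∧
      (∀ ξ : ℕ → H, TrVec M ξ → ∀ n, zf (ξ n) = ξ n) ∧
      ∀ x ∈ M, (∀ ξ : ℕ → H, TrVec M ξ → ∀ n, x (ξ n) = 0) → x * zf = 0 := by
  obtain ⟨zf, hzf, hz1, hz2⟩ := exists_trace_proj M
  obtain ⟨z, hz, hhalv, hzfin⟩ := exists_inf_fin M
  have hc1 : ∀ {y : H →L[ℂ] H}, IsCPr M y → IsCPr M (1 - y) := by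
    intro y hy
    refine ⟨⟨sub_mem (one_mem M) hy.mem, ?_, ?_⟩, ?_⟩
    · have h1 : (1 - y) * (1 - y) = 1 - y - y + y * y := by noncomm_ring
      rw [h1, hy.idem]
      abel
    · rw [star_sub, star_one, hy.sa]
    · intro x hx
      rw [sub_mul, mul_sub, one_mul, mul_one, hy.comm x hx]
  have hzf' := hc1 hzf
  have hz' := hc1 hz
  have hcomm := hz'.comm _ hzf'.mem
  have hc : IsCPr M ((1 - z) * (1 - zf)) := by
    refine ⟨⟨mul_mem hz'.mem hzf'.mem, ?_, ?_⟩, ?_⟩
    · calc (1 - z) * (1 - zf) * ((1 - z) * (1 - zf))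
          = (1 - z) * ((1 - zf) * (1 - z)) * (1 - zf) := by simp only [mul_assoc]
        _ = ((1 - z) * (1 - z)) * ((1 - zf) * (1 - zf)) := by
            rw [← hcomm]; simp only [mul_assoc]
        _ = _ := by rw [hz'.idem, hzf'.idem]
    · rw [star_mul, hz'.sa, hzf'.sa, hcomm]
    · intro x hx
      rw [mul_assoc, hzf'.comm x hx, ← mul_assoc, hz'.comm x hx, mul_assoc]
  have hcle : Le ((1 - z) * (1 - zf)) (1 - z) := by
    show (1 - z) * ((1 - z) * (1 - zf)) = _
    rw [← mul_assoc, hz'.idem]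
  have hcfin : FinPr M ((1 - z) * (1 - zf)) := FinPr.le hc.toIsPr hz'.toIsPr hcle hzfin
  have hc0 : (1 - z) * (1 - zf) = 0 := by
    by_contra hne
    obtain ⟨ξ, hξ, ⟨n, hn⟩, hcξ⟩ := exists_trace_of_finite hc hcfin hne
    apply hn
    have h1 : (1 - zf) (ξ n) = 0 := by
      show ξ n - zf (ξ n) = 0
      rw [hz1 ξ hξ n, sub_self]
    rw [← hcξ n]
    show (1 - z) ((1 - zf) (ξ n)) = 0
    rw [h1, map_zero]
  have hhz : (1 - zf) * z = 1 - zf := by
    rw [sub_mul, one_mul, sub_eq_zero] at hc0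
    rw [hzf'.comm z hz.mem, ← hc0]
  refine ⟨zf, hzf, ?_, ?_, hz1, hz2⟩
  · rw [← hhz]
    exact Halvable.cut hz hzf' hhalv
  · -- finiteness
    intro v hvM hv1 hv2
    have hv3 : v * zf = v := by rw [← hzf.comm v hvM]; exact hv2
    have hpr := traceEx_pr hvM (by rw [hv1]; exact hv3)
    have hle : zf * (v * star v) = v * star v := by rw [← mul_assoc, hv2]
    have hle' := traceEx_le_comm hpr.2.sa hzf.sa hle
    set q := zf - v * star v with hq
    have hqi : q * q = q := by
      rw [hq, sub_mul, mul_sub, mul_sub, hzf.idem, hpr.2.idem, hle, hle', sub_self, sub_zero]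
    have hqs : star q = q := by rw [hq, star_sub, hzf.sa, hpr.2.sa]
    have hqM : q ∈ M := sub_mem hzf.mem hpr.2.mem
    have hq0 : ∀ ξ : ℕ → H, TrVec M ξ → ∀ n, q (ξ n) = 0 := by
      intro ξ hξ
      have hsum : ∀ y : H →L[ℂ] H, Summable fun n => ⟪ξ n, y (ξ n)⟫_ℂ := by
        intro y
        refine Summable.of_norm_bounded (hξ.1.mul_left ‖y‖) fun n => ?_
        refine (norm_inner_le_norm _ _).trans ?_
        calc ‖ξ n‖ * ‖y (ξ n)‖ ≤ ‖ξ n‖ * (‖y‖ * ‖ξ n‖) :=
              mul_le_mul_of_nonneg_left (y.le_opNorm _) (norm_nonneg _)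
          _ = ‖y‖ * ‖ξ n‖ ^ 2 := by ring
      have h1 : ∑' n, ⟪ξ n, q (ξ n)⟫_ℂ = 0 := by
        have h2 : ∀ n, ⟪ξ n, q (ξ n)⟫_ℂ =
            ⟪ξ n, (star v * v) (ξ n)⟫_ℂ - ⟪ξ n, (v * star v) (ξ n)⟫_ℂ := by
          intro n
          rw [← inner_sub_right, hv1]
          rfl
        simp_rw [h2]
        rw [(hsum _).tsum_sub (hsum _)]
        have h3 := hξ.2 (star v) (star_mem hvM) v hvM
        rw [sub_eq_zero]
        exact h3
      have h2 : ∀ n, ⟪ξ n, q (ξ n)⟫_ℂ = ((‖q (ξ n)‖ ^ 2 : ℝ) : ℂ) := fun n =>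
        traceEx_inner hqi hqs (ξ n)
      have h3 : Summable fun n => ‖q (ξ n)‖ ^ 2 := by
        have h4 := hsum q
        simp_rw [h2] at h4
        exact_mod_cast h4
      have h4 : ∑' n, ‖q (ξ n)‖ ^ 2 = 0 := by
        simp_rw [h2] at h1
        rw [← Complex.ofReal_tsum] at h1
        exact_mod_cast h1
      intro n
      have h5 := (hasSum_zero_iff_of_nonneg (fun n => sq_nonneg ‖q (ξ n)‖)).1
        (h4 ▸ h3.hasSum)
      have h6 := congrFun h5 n
      simpa using h6
    have h1 := hz2 q hqM hq0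
    have h2 : q * zf = q := by rw [hq, sub_mul, hzf.idem, hle']
    rw [h2] at h1
    rw [hq, sub_eq_zero] at h1
    exact h1.symm

end Vale.Agent.P082.VN
end

section

open scoped InnerProductSpace ComplexConjugate

namespace Vale.Agent.P082.VN

universe u

variable {H : Type u} [NormedAddCommGroup H] [InnerProductSpace ℂ H] [CompleteSpace H]
  {M : VonNeumannAlgebra H}

lemma types_norm_sq {p : H →L[ℂ] H} (hs : star p = p) (hp : p * p = p) (x : H) :
    ((‖p x‖ ^ 2 : ℝ) : ℂ) = ⟪x, p x⟫_ℂ := by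
  have h1 : ⟪x, p x⟫_ℂ = ⟪p x, p x⟫_ℂ := by
    conv_lhs => rw [← hp]
    exact (vnSum_inner_sa hs x (p x)).symm
  rw [h1, vnSum_norm_sq_coe]

/-- projections whose sum is a projection are pairwise orthogonal -/
lemma types_orth {ι : Type*} [Fintype ι] [DecidableEq ι] (p : ι → H →L[ℂ] H)
    (hs : ∀ i, star (p i) = p i) (hp : ∀ i, p i * p i = p i) {c : H →L[ℂ] H} (hc : c * c = c)
    (hcs : star c = c) (hsum : ∑ i, p i = c) {i j : ι} (hij : i ≠ j) : p i * p j = 0 := by
  ext η
  obtain ⟨ξ, hξ⟩ : ∃ ξ, ξ = p j η := ⟨_, rfl⟩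
  have h1 : p j ξ = ξ := by
    rw [hξ]
    exact DFunLike.congr_fun (hp j) η
  have h2 : ((∑ k, ‖p k ξ‖ ^ 2 : ℝ) : ℂ) = ((‖c ξ‖ ^ 2 : ℝ) : ℂ) := by
    rw [types_norm_sq hcs hc, ← hsum, sum_apply, inner_sum]
    push_cast
    refine Finset.sum_congr rfl fun k _ => ?_
    have := types_norm_sq (hs k) (hp k) ξ
    push_cast at this
    exact this
  have h3 : ∑ k, ‖p k ξ‖ ^ 2 = ‖c ξ‖ ^ 2 := by exact_mod_cast h2
  have h4 : ‖c ξ‖ ≤ ‖ξ‖ := by
    have h5 := vnSum_bessel (fun _ : Unit => c) (fun _ => hcs) (fun _ => hc)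
      (fun a b hab => absurd (Subsingleton.elim a b) hab) Finset.univ ξ
    simp only [Finset.univ_unique, Finset.sum_singleton] at h5
    exact le_of_sq_le_sq h5 (norm_nonneg _)
  have h6 : ‖p i ξ‖ ^ 2 + ‖p j ξ‖ ^ 2 ≤ ∑ k, ‖p k ξ‖ ^ 2 := by
    have h7 : ∑ k ∈ ({i, j} : Finset ι), ‖p k ξ‖ ^ 2 ≤ ∑ k, ‖p k ξ‖ ^ 2 :=
      Finset.sum_le_sum_of_subset_of_nonneg (Finset.subset_univ _) fun _ _ _ => by (clear * -; positivity)
    rwa [Finset.sum_pair hij] at h7
  rw [h1, h3] at h6
  have h8 : ‖c ξ‖ ^ 2 ≤ ‖ξ‖ ^ 2 := pow_le_pow_left₀ (norm_nonneg _) h4 2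
  have h9 : ‖p i ξ‖ ^ 2 ≤ 0 := by linarith only [h6, h8]
  have h10 : ‖p i ξ‖ = 0 := by
    have := sq_nonneg ‖p i ξ‖
    exact pow_eq_zero_iff two_ne_zero |>.1 (le_antisymm h9 this)
  show p i (p j η) = 0
  rw [← hξ]
  exact norm_eq_zero.1 h10

/-- equivalent abelian projections with sum `c` give matrix units -/
lemma types_homog {c E : H →L[ℂ] H} {m : ℕ} (u : Fin (m + 1) → H →L[ℂ] H) (hu : ∀ i, u i ∈ M)
    (hE : IsPr M E) (huE : ∀ i, star (u i) * u i = E) (hc : IsPr M c)
    (hsum : ∑ i, u i * star (u i) = c) (hab : AbPr M E) : Homog M c := by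
  have h1 : ∀ i, u i * E = u i := fun i => finite_mul_supp hE.idem hE.sa (huE i)
  have h2 : ∀ i, u i * star (u i) * u i = u i := fun i => finite_ran_mul hE.idem hE.sa (huE i)
  have h3 : ∀ i, IsPr M (u i * star (u i)) := fun i =>
    finite_ran_isPr (hu i) hE.idem hE.sa (huE i)
  have h4 : ∀ i j, i ≠ j → star (u i) * u j = 0 := by
    intro i j hij
    exact finite_star_mul_zero (h2 i) (h2 j) (h3 i).sa
      (types_orth (fun k => u k * star (u k)) (fun k => (h3 k).sa) (fun k => (h3 k).idem)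
        hc.idem hc.sa hsum hij)
  refine ⟨m, fun i j => u i * star (u j), fun i j => mul_mem (hu i) (star_mem (hu j)), ?_, ?_,
    fun i j => by rw [star_mul, star_star], hsum, ?_⟩
  · intro i j k
    calc u i * star (u j) * (u j * star (u k)) = u i * (star (u j) * u j) * star (u k) := by
          noncomm_ring
      _ = u i * star (u k) := by rw [huE, h1]
  · intro i j k l hjk
    calc u i * star (u j) * (u k * star (u l)) = u i * (star (u j) * u k) * star (u l) := by
          noncomm_ring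
      _ = 0 := by rw [h4 j k hjk]; noncomm_ring
  · intro x hx y hy
    obtain ⟨U, hU⟩ : ∃ U, U = u 0 := ⟨_, rfl⟩
    have hUM : U ∈ M := by rw [hU]; exact hu 0
    have hUE : star U * U = E := by rw [hU]; exact huE 0
    have hE1 : U * E = U := by rw [hU]; exact h1 0
    have hE2 : E * star U = star U := by
      have := congrArg star hE1
      rwa [star_mul, hE.sa] at this
    have key : ∀ x y : H →L[ℂ] H, (U * star U * x * (U * star U)) * (U * star U * y * (U * star U))
        = U * ((E * (star U * x * U) * E) * (E * (star U * y * U) * E)) * star U := by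
      intro x y
      have e1 : E * (star U * x * U) * E = star U * x * U := by
        calc E * (star U * x * U) * E = (E * star U) * x * (U * E) := by noncomm_ring
          _ = star U * x * U := by rw [hE2, hE1]
      have e2 : E * (star U * y * U) * E = star U * y * U := by
        calc E * (star U * y * U) * E = (E * star U) * y * (U * E) := by noncomm_ring
          _ = star U * y * U := by rw [hE2, hE1]
      rw [e1, e2]
      calc U * star U * x * (U * star U) * (U * star U * y * (U * star U))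
          = U * star U * x * U * (star U * U) * (star U * y) * (U * star U) := by noncomm_ring
        _ = U * star U * x * (U * E) * (star U * y) * (U * star U) := by
            rw [hUE]; noncomm_ring
        _ = U * (star U * x * U * (star U * y * U)) * star U := by rw [hE1]; noncomm_ring
    show (u 0 * star (u 0) * x * (u 0 * star (u 0))) * (u 0 * star (u 0) * y * (u 0 * star (u 0)))
      = (u 0 * star (u 0) * y * (u 0 * star (u 0))) * (u 0 * star (u 0) * x * (u 0 * star (u 0)))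
    rw [← hU, key x y, key y x,
      hab _ (mul_mem (mul_mem (star_mem hUM) hx) hUM) _ (mul_mem (mul_mem (star_mem hUM) hy) hUM)]

lemma types_cut_ab {z e : H →L[ℂ] H} (hz : IsCPr M z) (he : IsPr M e) (hab : AbPr M e) :
    AbPr M (z * e) := by
  have key : ∀ x ∈ M, ∀ y ∈ M, (z * e * x * (z * e)) * (z * e * y * (z * e)) =
      z * ((e * x * e) * (e * y * e)) := by
    have h1 : ∀ x ∈ M, z * e * x * (z * e) = z * (e * x * e) := by
      intro x hx
      calc z * e * x * (z * e) = z * ((e * x) * z) * e := by noncomm_ring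
        _ = z * (z * (e * x)) * e := by rw [hz.comm _ (mul_mem he.mem hx)]
        _ = z * z * (e * x * e) := by noncomm_ring
        _ = z * (e * x * e) := by rw [hz.idem]
    intro x hx y hy
    rw [h1 x hx, h1 y hy]
    have h2 : e * x * e ∈ M := mul_mem (mul_mem he.mem hx) he.mem
    calc z * (e * x * e) * (z * (e * y * e)) = z * ((e * x * e) * z) * (e * y * e) := by
          noncomm_ring
      _ = z * (z * (e * x * e)) * (e * y * e) := by rw [hz.comm _ h2]
      _ = z * z * ((e * x * e) * (e * y * e)) := by noncomm_ring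
      _ = z * ((e * x * e) * (e * y * e)) := by rw [hz.idem]
  intro x hx y hy
  rw [key x hx y hy, key y hy x hx, hab x hx y hy]

lemma types_cpr_mul {y z : H →L[ℂ] H} (hy : IsCPr M y) (hz : IsCPr M z) : IsCPr M (y * z) := by
  refine ⟨finite_cut_isPr hy hz.toIsPr, fun x hx => ?_⟩
  rw [mul_assoc, hz.comm x hx, ← mul_assoc, hy.comm x hx, mul_assoc]

/-- an abelian projection in a finite central projection gives a homogeneous central piece -/
theorem exists_homog {e c : H →L[ℂ] H} (hc : IsCPr M c) (hfin : FinPr M c) (he : IsPr M e)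
    (he0 : e ≠ 0) (hec : Le e c) (hab : AbPr M e) :
    ∃ c', IsCPr M c' ∧ Le c' c ∧ c' ≠ 0 ∧ Homog M c' := by
  obtain ⟨c', hc', hc'c, hc'e, n, w, w', hw, hw'M, hw'1, hw'2, hsum⟩ :=
    FinPr.partition he he0 hc hec hfin
  have hE : IsPr M (c' * e) := finite_cut_isPr hc' he
  have hEab : AbPr M (c' * e) := types_cut_ab hc' he hab
  obtain ⟨E, hEdef⟩ : ∃ E, E = c' * e := ⟨_, rfl⟩
  rw [← hEdef] at hE hEab hc'e hw'2
  have hw2 : ∀ i, star (w i) * w i = E := fun i => by rw [hEdef]; exact (hw i).2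
  obtain ⟨r, hr⟩ : ∃ r, r = star w' * w' := ⟨_, rfl⟩
  have hrP : IsPr M r := by
    refine ⟨?_, ?_, ?_⟩
    · rw [hr]; exact mul_mem (star_mem hw'M) hw'M
    · rw [hr, mul_assoc, hw'1]
    · rw [hr, star_mul, star_star]
  have hEr : E * r = r := by rw [hr]; exact hw'2
  have hrE : r * E = r := by
    have := congrArg star hEr
    rwa [star_mul, hrP.sa, hE.sa] at this
  have hw'r : w' * r = w' := by rw [hr]; exact hw'1
  obtain ⟨d, hd, hdr, hdmin⟩ := exists_central_cover hrP
  have hfP : IsPr M (E - r) := finite_diff_isPr hrP hE hEr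
  have hfd : (E - r) * d = 0 := by
    refine hdmin _ hfP fun x hx => ?_
    have h1 := hEab (E - r) hfP.mem x hx
    have h2 : E * (E - r) * E = E - r := by
      rw [mul_sub, hE.idem, hEr, sub_mul, hE.idem, hrE]
    rw [h2] at h1
    have h3 : (E - r) * E = E - r := by rw [sub_mul, hE.idem, hrE]
    calc (E - r) * x * r = (E - r) * E * x * (E * r) := by
          rw [hEr, h3]
      _ = (E - r) * (E * x * E) * r := by noncomm_ring
      _ = E * x * E * (E - r) * r := by rw [h1]
      _ = E * x * E * ((E - r) * r) := by noncomm_ring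
      _ = 0 := by rw [sub_mul, hEr, hrP.idem, sub_self, mul_zero]
  have hdE : d * E = r := by
    have h1 : (E - r) * d = E * d - r * d := sub_mul _ _ _
    rw [h1, sub_eq_zero] at hfd
    rw [hd.comm _ hE.mem, hfd, ← hd.comm _ hrP.mem, hdr]
  by_cases hcase : (1 - d) * E = 0
  · -- `E = r`
    have hEr' : E = r := by
      rw [sub_mul, one_mul, sub_eq_zero] at hcase
      rw [hcase, hdE]
    have hne : c' ≠ 0 := by
      rintro rfl
      exact hc'e (by rw [hEdef, zero_mul])
    refine ⟨c', hc', hc'c, hne, ?_⟩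
    refine types_homog (m := n + 1) (E := E) (Fin.cons w' w) ?_ hE ?_ hc'.toIsPr ?_ hEab
    · intro i
      refine Fin.cases ?_ (fun j => ?_) i
      · exact hw'M
      · exact (hw j).1
    · intro i
      refine Fin.cases ?_ (fun j => ?_) i
      · simp only [Fin.cons_zero]
        rw [← hr, hEr']
      · simp only [Fin.cons_succ]
        exact hw2 j
    · rw [Fin.sum_univ_succ]
      simp only [Fin.cons_zero, Fin.cons_succ]
      rw [← hsum, add_comm]
  · have hd' := finite_one_sub hd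
    have hcpr := types_cpr_mul hd' hc'
    have hdw' : (1 - d) * w' = 0 := by
      have h1 : d * w' = w' := by
        rw [hd.comm _ hw'M]
        calc w' * d = w' * r * d := by rw [hw'r]
          _ = w' * (r * d) := by rw [mul_assoc]
          _ = w' * (d * r) := by rw [hd.comm _ hrP.mem]
          _ = w' := by rw [hdr, hw'r]
      rw [sub_mul, one_mul, h1, sub_self]
    have hne : (1 - d) * c' ≠ 0 := by
      intro h0
      apply hcase
      rw [hEdef, ← mul_assoc, h0, zero_mul]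
    refine ⟨(1 - d) * c', hcpr, ?_, hne, ?_⟩
    · show c * ((1 - d) * c') = (1 - d) * c'
      have h1 : c * c' = c' := hc'c
      rw [← mul_assoc, hc.comm _ hd'.mem, mul_assoc, h1]
    · have hEE : IsPr M ((1 - d) * E) := finite_cut_isPr hd' hE
      refine types_homog (m := n) (E := (1 - d) * E) (fun i => (1 - d) * w i)
        (fun i => mul_mem hd'.mem (hw i).1) hEE ?_ hcpr.toIsPr ?_ (types_cut_ab hd' hE hEab)
      · intro i
        rw [star_mul, hd'.sa]
        calc star (w i) * (1 - d) * ((1 - d) * w i)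
            = star (w i) * ((1 - d) * (1 - d)) * w i := by noncomm_ring
          _ = star (w i) * (1 - d) * w i := by rw [hd'.idem]
          _ = (1 - d) * star (w i) * w i := by rw [hd'.comm _ (star_mem (hw i).1)]
          _ = (1 - d) * E := by rw [mul_assoc, hw2]
      · have h1 : ∀ i, (1 - d) * w i * star ((1 - d) * w i) = (1 - d) * (w i * star (w i)) := by
          intro i
          rw [star_mul, hd'.sa]
          have h2 : w i * star (w i) ∈ M := mul_mem (hw i).1 (star_mem (hw i).1)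
          calc (1 - d) * w i * (star (w i) * (1 - d))
              = (1 - d) * ((w i * star (w i)) * (1 - d)) := by noncomm_ring
            _ = (1 - d) * ((1 - d) * (w i * star (w i))) := by rw [hd'.comm _ h2]
            _ = ((1 - d) * (1 - d)) * (w i * star (w i)) := by noncomm_ring
            _ = (1 - d) * (w i * star (w i)) := by rw [hd'.idem]
        rw [Finset.sum_congr rfl fun i _ => h1 i, ← Finset.mul_sum]
        have h3 : ∑ i, w i * star (w i) = c' - w' * star w' := by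
          rw [← hsum]
          abel
        rw [h3, mul_sub, ← mul_assoc (1 - d) w', hdw', zero_mul, sub_zero]

/-- decomposition of a finite central projection into homogeneous parts and a part without
abelian projections -/
theorem exists_type_decomposition {z : H →L[ℂ] H} (hz : IsCPr M z) (hfin : FinPr M z) :
    ∃ (I : Type u) (c : I → H →L[ℂ] H) (s zc : H →L[ℂ] H), (∀ i, IsCPr M (c i)) ∧
      (∀ i, Homog M (c i)) ∧ (∀ i j, i ≠ j → c i * c j = 0) ∧ IsSum c s ∧ IsCPr M s ∧
      IsCPr M zc ∧ s * zc = 0 ∧ s + zc = z ∧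
      ∀ e, IsPr M e → Le e zc → AbPr M e → e = 0 := by
  let S : Set (Set (H →L[ℂ] H)) :=
    {X | (∀ f ∈ X, IsCPr M f ∧ Le f z ∧ Homog M f ∧ f ≠ 0) ∧
      ∀ f ∈ X, ∀ g ∈ X, f ≠ g → f * g = 0}
  obtain ⟨m, hm⟩ := zorn_subset S (by
    intro C hCS hC
    refine ⟨⋃₀ C, ⟨?_, ?_⟩, fun X hX => Set.subset_sUnion_of_mem hX⟩
    · rintro f ⟨X, hX, hf⟩
      exact (hCS hX).1 f hf
    · rintro f ⟨X, hX, hf⟩ g ⟨Y, hY, hg⟩ hne
      rcases hC.total hX hY with h | h
      · exact (hCS hY).2 f (h hf) g hg hne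
      · exact (hCS hX).2 f hf g (h hg) hne)
  have ho : ∀ i j : m, i ≠ j → i.1 * j.1 = 0 := fun i j hij =>
    hm.prop.2 i.1 i.2 j.1 j.2 (fun h => hij (Subtype.ext h))
  obtain ⟨s, hsP, hss, hsl⟩ :=
    exists_sum_proj (M := M) (fun i : m => i.1) (fun i => (hm.prop.1 i.1 i.2).1.toIsPr) ho
  have hsC : IsCPr M s := by
    refine ⟨hsP, fun x hx => ?_⟩
    have h1 := hss.mul_right x
    have h2 := hss.mul_left x
    have h3 : (fun i : m => i.1 * x) = fun i : m => x * i.1 := by
      funext i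
      exact (hm.prop.1 i.1 i.2).1.comm x hx
    rw [h3] at h1
    exact h1.unique h2
  have hsz : z * s = s := hss.le_of (fun i : m => (hm.prop.1 i.1 i.2).2.1)
  have hzs : s * z = s := by rw [hsC.comm z hz.mem, hsz]
  have hdP : IsPr M (z - s) := finite_diff_isPr hsP hz.toIsPr hsz
  have hdC : IsCPr M (z - s) := by
    refine ⟨hdP, fun x hx => ?_⟩
    rw [sub_mul, mul_sub, hz.comm x hx, hsC.comm x hx]
  refine ⟨m, fun i => i.1, s, z - s, fun i => (hm.prop.1 i.1 i.2).1,
    fun i => (hm.prop.1 i.1 i.2).2.2.1, ho, hss, hsC, hdC, ?_, by abel, ?_⟩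
  · rw [mul_sub, hzs, hsP.idem, sub_self]
  · intro e he hle hab
    by_contra he0
    have hzz : z * (z - s) = z - s := by rw [mul_sub, hz.idem, hsz]
    have hfin' : FinPr M (z - s) := FinPr.le hdP hz.toIsPr hzz hfin
    obtain ⟨c', hc', hc'z, hc'0, hhom⟩ := exists_homog hdC hfin' he he0 hle hab
    have hle' : (z - s) * c' = c' := hc'z
    have hzc' : z * c' = c' := by
      calc z * c' = z * ((z - s) * c') := by rw [hle']
        _ = (z * (z - s)) * c' := by rw [← mul_assoc]
        _ = c' := by rw [hzz, hle']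
    have hsc' : s * c' = 0 := by
      calc s * c' = s * ((z - s) * c') := by rw [hle']
        _ = (s * z - s * s) * c' := by rw [← mul_assoc, mul_sub]
        _ = 0 := by rw [hzs, hsP.idem, sub_self, zero_mul]
    have hort : ∀ g ∈ m, g * c' = 0 := by
      intro g hg
      have h1 : s * g = g := hsl ⟨g, hg⟩
      have h2 : g * s = g := by
        rw [← hsC.comm g (hm.prop.1 g hg).1.mem, h1]
      rw [← h2, mul_assoc, hsc', mul_zero]
    have hmem : insert c' m ∈ S := by
      refine ⟨?_, ?_⟩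
      · rintro g (rfl | hg)
        · exact ⟨hc', hzc', hhom, hc'0⟩
        · exact hm.prop.1 g hg
      · rintro g (rfl | hg) g' (rfl | hg') hne
        · exact absurd rfl hne
        · rw [hc'.comm g' (hm.prop.1 g' hg').1.mem]
          exact hort g' hg'
        · exact hort g hg
        · exact hm.prop.2 g hg g' hg' hne
    have hin : c' ∈ m := hm.le_of_ge hmem (Set.subset_insert c' m) (Set.mem_insert c' m)
    have h0 := hort c' hin
    rw [hc'.idem] at h0
    exact hc'0 h0

end Vale.Agent.P082.VN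
end
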