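import Mathlib.Algebra.BigOperators.Field
import Mathlib.Algebra.BigOperators.Fin
import Mathlib.Algebra.BigOperators.Option
import Mathlib.Algebra.Order.Chebyshev
import Mathlib.Algebra.Star.Subalgebra
import Mathlib.Analysis.CStarAlgebra.Basic
import Mathlib.Analysis.CStarAlgebra.ContinuousFunctionalCalculus.Basic
import Mathlib.Analysis.CStarAlgebra.ContinuousFunctionalCalculus.Commute
import Mathlib.Analysis.CStarAlgebra.ContinuousFunctionalCalculus.Instances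
import Mathlib.Analysis.CStarAlgebra.ContinuousFunctionalCalculus.Isometric
import Mathlib.Analysis.CStarAlgebra.ContinuousFunctionalCalculus.Order
import Mathlib.Analysis.CStarAlgebra.ContinuousFunctionalCalculus.Range
import Mathlib.Analysis.CStarAlgebra.ContinuousFunctionalCalculus.Unital
import Mathlib.Analysis.CStarAlgebra.ContinuousLinearMap
import Mathlib.Analysis.CStarAlgebra.Spectrum
import Mathlib.Analysis.CStarAlgebra.Unitary.Span
import Mathlib.Analysis.Complex.Basic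
import Mathlib.Analysis.Convex.Basic
import Mathlib.Analysis.Convex.Mul
import Mathlib.Analysis.InnerProductSpace.Adjoint
import Mathlib.Analysis.InnerProductSpace.Basic
import Mathlib.Analysis.InnerProductSpace.Continuous
import Mathlib.Analysis.InnerProductSpace.Dual
import Mathlib.Analysis.InnerProductSpace.LaxMilgram
import Mathlib.Analysis.InnerProductSpace.PiL2
import Mathlib.Analysis.InnerProductSpace.Positive
import Mathlib.Analysis.InnerProductSpace.Projection.Basic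
import Mathlib.Analysis.InnerProductSpace.StarOrder
import Mathlib.Analysis.InnerProductSpace.Subspace
import Mathlib.Analysis.InnerProductSpace.l2Space
import Mathlib.Analysis.Normed.Group.Basic
import Mathlib.Analysis.Normed.Group.InfiniteSum
import Mathlib.Analysis.Normed.Group.Tannery
import Mathlib.Analysis.Normed.Module.Basic
import Mathlib.Analysis.Normed.Module.Multilinear.Basic
import Mathlib.Analysis.Normed.Module.Multilinear.Curry
import Mathlib.Analysis.Normed.Operator.Extend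
import Mathlib.Analysis.Normed.Operator.Mul
import Mathlib.Analysis.Normed.Operator.NormedSpace
import Mathlib.Analysis.Normed.Ring.Units
import Mathlib.Analysis.PSeries
import Mathlib.Analysis.Seminorm
import Mathlib.Analysis.SpecialFunctions.Complex.Circle
import Mathlib.Analysis.SpecialFunctions.ContinuousFunctionalCalculus.PosPart.Basic
import Mathlib.Analysis.SpecialFunctions.ContinuousFunctionalCalculus.Rpow.Basic
import Mathlib.Analysis.SpecialFunctions.Exp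
import Mathlib.Analysis.SpecialFunctions.Pow.Real
import Mathlib.Analysis.SpecialFunctions.Sqrt
import Mathlib.Analysis.SpecialFunctions.Trigonometric.Basic
import Mathlib.Analysis.SpecificLimits.Basic
import Mathlib.Analysis.VonNeumannAlgebra.Basic
import Mathlib.Combinatorics.Hindman
import Mathlib.LinearAlgebra.Complex.Module
import Mathlib.LinearAlgebra.Matrix.NonsingularInverse
import Mathlib.LinearAlgebra.Matrix.Trace
import Mathlib.Order.Filter.AtTopBot.Finset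
import Mathlib.Order.Filter.Ultrafilter.Basic
import Mathlib.Order.Interval.Finset.Nat
import Mathlib.RingTheory.RootsOfUnity.Complex
import Mathlib.Tactic
import Mathlib.Topology.Algebra.InfiniteSum.Basic
import Mathlib.Topology.Algebra.Module.Basic
import Mathlib.Topology.Algebra.Semigroup
import Mathlib.Topology.Algebra.Star.Unitary
import Mathlib.Topology.Algebra.StarSubalgebra
import Mathlib.Topology.Compactness.Compact
import Mathlib.Topology.Instances.Complex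
import Mathlib.Topology.MetricSpace.ProperSpace
import Vale.Agent.P082.Bd8.B1
import Vale.Agent.P082.Classes
import Vale.Agent.P082.Defs

set_option linter.all false

namespace Vale.Agent.P082.Fast

theorem one_sub_sq {α : ℝ} (h0 : 0 ≤ α) (h1 : α ≤ 1 / 2) : 0 ≤ 1 - 2 * α ^ 2 := by nlinarith only [h0, h1]

theorem sq_le_one {α : ℝ} (h0 : 0 ≤ α) (h1 : α ≤ 1 / 2) : α ^ 2 ≤ 1 := by nlinarith only [h0, h1]

theorem sq_le_quarter {α : ℝ} (h0 : 0 ≤ α) (h1 : α ≤ 1 / 2) : α ^ 2 ≤ 1 / 4 := by nlinarith only [h0, h1]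

theorem mul_sq_le {N α : ℝ} (hN : 0 ≤ N) (h0 : 0 ≤ α) (h1 : α ≤ 1 / 2)
    (h2 : α * (2 * N + 2) ≤ 1) : 2 * N * α ^ 2 ≤ 1 := by nlinarith only [h0, h2]

end Vale.Agent.P082.Fast

section

open scoped Topology InnerProductSpace

namespace Vale.Agent.P082.KR

/-- average over a finite type -/
noncomputable def avg {ι M : Type*} [Fintype ι] [AddCommGroup M] [Module ℝ M] (F : ι → M) : M :=
  ((Fintype.card ι : ℝ)⁻¹) • ∑ i, F i

section avg

variable {ι M M' : Type*} [Fintype ι] [AddCommGroup M] [Module ℝ M] [AddCommGroup M'] [Module ℝ M']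

lemma avg_add (F G : ι → M) : avg (fun i => F i + G i) = avg F + avg G := by
  simp [avg, Finset.sum_add_distrib, smul_add]

lemma avg_sub (F G : ι → M) : avg (fun i => F i - G i) = avg F - avg G := by
  simp [avg, Finset.sum_sub_distrib, smul_sub]

lemma avg_smul (c : ℝ) (F : ι → M) : avg (fun i => c • F i) = c • avg F := by
  simp only [avg, ← Finset.smul_sum]
  rw [smul_comm]

lemma avg_mul_left (c : ℝ) (F : ι → ℝ) : avg (fun i => c * F i) = c * avg F := avg_smul c F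

lemma avg_const [Nonempty ι] (x : M) : avg (fun _ : ι => x) = x := by
  have h : (Fintype.card ι : ℝ) ≠ 0 := by exact_mod_cast Fintype.card_ne_zero
  simp only [avg, Finset.sum_const, Finset.card_univ]
  rw [← Nat.cast_smul_eq_nsmul ℝ, smul_smul, inv_mul_cancel₀ h, one_smul]

lemma avg_map (L : M →ₗ[ℝ] M') (F : ι → M) : L (avg F) = avg (fun i => L (F i)) := by
  simp [avg, map_sum]

lemma avg_mono {F G : ι → ℝ} (h : ∀ i, F i ≤ G i) : avg F ≤ avg G := by
  unfold avg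
  rw [smul_eq_mul, smul_eq_mul]
  exact mul_le_mul_of_nonneg_left (Finset.sum_le_sum (fun i _ => h i)) (by (clear * -; positivity))

lemma avg_nonneg {F : ι → ℝ} (h : ∀ i, 0 ≤ F i) : 0 ≤ avg F := by
  unfold avg
  rw [smul_eq_mul]
  exact mul_nonneg (by (clear * -; positivity)) (Finset.sum_nonneg (fun i _ => h i))

lemma norm_avg_le {M : Type*} [SeminormedAddCommGroup M] [NormedSpace ℝ M] (F : ι → M) :
    ‖avg F‖ ≤ avg (fun i => ‖F i‖) := by
  unfold avg
  rw [norm_smul, smul_eq_mul, norm_inv, Real.norm_natCast]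
  exact mul_le_mul_of_nonneg_left (norm_sum_le _ _) (by (clear * -; positivity))

lemma avg_equiv {ι' : Type*} [Fintype ι'] (e : ι ≃ ι') (F : ι' → M) :
    avg (fun i => F (e i)) = avg F := by
  unfold avg
  rw [Equiv.sum_comp e F, Fintype.card_congr e]

lemma avg_bij {σ : ι → ι} (h : Function.Bijective σ) (F : ι → M) :
    avg (fun i => F (σ i)) = avg F := avg_equiv (Equiv.ofBijective σ h) F

lemma avg_prod {κ : Type*} [Fintype κ] (F : ι × κ → M) :
    avg F = avg (fun i => avg (fun j => F (i, j))) := by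
  unfold avg
  rw [Fintype.sum_prod_type, Fintype.card_prod, Finset.smul_sum, Finset.smul_sum]
  refine Finset.sum_congr rfl (fun i _ => ?_)
  rw [smul_smul]
  congr 1
  push_cast
  rw [mul_inv]

lemma avg_comm {κ : Type*} [Fintype κ] (F : ι → κ → M) :
    avg (fun i => avg (fun j => F i j)) = avg (fun j => avg (fun i => F i j)) := by
  unfold avg
  simp only [← Finset.smul_sum]
  rw [Finset.sum_comm, smul_comm]

lemma avg_sum {κ : Type*} (s : Finset κ) (F : κ → ι → M) :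
    avg (fun i => ∑ k ∈ s, F k i) = ∑ k ∈ s, avg (F k) := by
  unfold avg
  rw [Finset.sum_comm, Finset.smul_sum]

/-- a single term is at most the number of terms times the average -/
lemma le_card_mul_avg {F : ι → ℝ} (h : ∀ i, 0 ≤ F i) (i : ι) :
    F i ≤ (Fintype.card ι : ℝ) * avg F := by
  have hc : (0 : ℝ) < Fintype.card ι := by
    have : Nonempty ι := ⟨i⟩
    exact_mod_cast Fintype.card_pos
  unfold avg
  rw [smul_eq_mul, ← mul_assoc, mul_inv_cancel₀ hc.ne', one_mul]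
  exact Finset.single_le_sum (fun j _ => h j) (Finset.mem_univ i)

lemma sq_avg_le [Nonempty ι] (F : ι → ℝ) : (avg F) ^ 2 ≤ avg (fun i => F i ^ 2) := by
  have hc : (0 : ℝ) < Fintype.card ι := by exact_mod_cast Fintype.card_pos
  have h := sq_sum_le_card_mul_sum_sq (s := (Finset.univ : Finset ι)) (f := F)
  unfold avg
  rw [smul_eq_mul, smul_eq_mul, mul_pow]
  rw [Finset.card_univ] at h
  calc ((Fintype.card ι : ℝ)⁻¹) ^ 2 * (∑ i, F i) ^ 2
      ≤ ((Fintype.card ι : ℝ)⁻¹) ^ 2 * ((Fintype.card ι : ℝ) * ∑ i, F i ^ 2) := by gcongr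
    _ = (Fintype.card ι : ℝ)⁻¹ * ∑ i, F i ^ 2 := by (clear * -; field_simp)

end avg

/-- average over the `n`-step random walk with steps `b` -/
noncomputable def wavg {G ι : Type*} [Group G] [Fintype ι] (b : ι → G) {M : Type*}
    [AddCommGroup M] [Module ℝ M] : ℕ → (G → M) → M
  | 0, F => F 1
  | n + 1, F => avg (fun i => wavg b n (fun u => F (u * b i)))

section wavg

variable {G ι : Type*} [Group G] [Fintype ι] (b : ι → G)
  {M M' : Type*} [AddCommGroup M] [Module ℝ M] [AddCommGroup M'] [Module ℝ M']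

@[simp] lemma wavg_zero (F : G → M) : wavg b 0 F = F 1 := rfl

lemma wavg_succ (n : ℕ) (F : G → M) :
    wavg b (n + 1) F = avg (fun i => wavg b n (fun u => F (u * b i))) := rfl

lemma wavg_one (F : G → M) : wavg b 1 F = avg (fun i => F (b i)) := by
  rw [wavg_succ]; simp

lemma wavg_add (n : ℕ) (F F' : G → M) :
    wavg b n (fun t => F t + F' t) = wavg b n F + wavg b n F' := by
  induction n generalizing F F' with
  | zero => rfl
  | succ n ih => simp only [wavg_succ, ih, avg_add]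

lemma wavg_sub (n : ℕ) (F F' : G → M) :
    wavg b n (fun t => F t - F' t) = wavg b n F - wavg b n F' := by
  induction n generalizing F F' with
  | zero => rfl
  | succ n ih => simp only [wavg_succ, ih, avg_sub]

lemma wavg_smul (n : ℕ) (c : ℝ) (F : G → M) :
    wavg b n (fun t => c • F t) = c • wavg b n F := by
  induction n generalizing F with
  | zero => rfl
  | succ n ih => simp only [wavg_succ, ih, avg_smul]

lemma wavg_mul_left (n : ℕ) (c : ℝ) (F : G → ℝ) :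
    wavg b n (fun t => c * F t) = c * wavg b n F := wavg_smul b n c F

lemma wavg_const [Nonempty ι] (n : ℕ) (x : M) : wavg b n (fun _ => x) = x := by
  induction n with
  | zero => rfl
  | succ n ih => simp only [wavg_succ, ih, avg_const]

lemma wavg_map (n : ℕ) (L : M →ₗ[ℝ] M') (F : G → M) :
    L (wavg b n F) = wavg b n (fun t => L (F t)) := by
  induction n generalizing F with
  | zero => rfl
  | succ n ih => simp only [wavg_succ, avg_map, ih]

/-- a version for maps that are only propositionally additive and real homogeneous -/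
lemma wavg_map' (n : ℕ) (L : M → M') (hadd : ∀ x y, L (x + y) = L x + L y)
    (hsmul : ∀ (c : ℝ) x, L (c • x) = c • L x) (F : G → M) :
    L (wavg b n F) = wavg b n (fun t => L (F t)) :=
  wavg_map b n { toFun := L, map_add' := hadd, map_smul' := hsmul } F

lemma avg_map' {κ : Type*} [Fintype κ] (L : M → M') (hadd : ∀ x y, L (x + y) = L x + L y)
    (hsmul : ∀ (c : ℝ) x, L (c • x) = c • L x) (F : κ → M) :
    L (avg F) = avg (fun t => L (F t)) :=
  avg_map { toFun := L, map_add' := hadd, map_smul' := hsmul : M →ₗ[ℝ] M' } F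

lemma wavg_mono (n : ℕ) {F F' : G → ℝ} (h : ∀ t, F t ≤ F' t) : wavg b n F ≤ wavg b n F' := by
  induction n generalizing F F' with
  | zero => exact h 1
  | succ n ih =>
    rw [wavg_succ, wavg_succ]
    exact avg_mono (fun i => ih (fun t => h _))

lemma wavg_nonneg (n : ℕ) {F : G → ℝ} (h : ∀ t, 0 ≤ F t) : 0 ≤ wavg b n F := by
  induction n generalizing F with
  | zero => exact h 1
  | succ n ih =>
    rw [wavg_succ]
    exact avg_nonneg (fun i => ih (fun t => h _))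

lemma norm_wavg_le {M : Type*} [SeminormedAddCommGroup M] [NormedSpace ℝ M] (n : ℕ) (F : G → M) :
    ‖wavg b n F‖ ≤ wavg b n (fun t => ‖F t‖) := by
  induction n generalizing F with
  | zero => exact le_rfl
  | succ n ih =>
    rw [wavg_succ, wavg_succ]
    exact (norm_avg_le _).trans (avg_mono (fun i => ih _))

lemma norm_wavg_le_of {M : Type*} [SeminormedAddCommGroup M] [NormedSpace ℝ M] [Nonempty ι]
    (n : ℕ) (F : G → M) (C : ℝ) (h : ∀ t, ‖F t‖ ≤ C) : ‖wavg b n F‖ ≤ C := by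
  refine (norm_wavg_le b n F).trans ?_
  refine (wavg_mono b n h).trans (le_of_eq (wavg_const b n C))

lemma wavg_sum {κ : Type*} (n : ℕ) (s : Finset κ) (F : κ → G → M) :
    wavg b n (fun t => ∑ k ∈ s, F k t) = ∑ k ∈ s, wavg b n (F k) := by
  induction n generalizing F with
  | zero => rfl
  | succ n ih => simp only [wavg_succ, ih, avg_sum]

lemma wavg_avg {κ : Type*} [Fintype κ] (n : ℕ) (F : κ → G → M) :
    wavg b n (fun t => avg (fun k => F k t)) = avg (fun k => wavg b n (F k)) := by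
  unfold avg
  rw [wavg_smul, wavg_sum]

lemma wavg_comp (n m : ℕ) (F : G → M) :
    wavg b (n + m) F = wavg b n (fun t => wavg b m (fun t' => F (t * t'))) := by
  induction m generalizing F with
  | zero => simp
  | succ m ih =>
    rw [← add_assoc, wavg_succ]
    simp only [wavg_succ]
    rw [wavg_avg]
    congr 1
    funext i
    rw [ih]
    simp only [mul_assoc]

lemma wavg_succ' (n : ℕ) (F : G → M) :
    wavg b (n + 1) F = avg (fun i => wavg b n (fun u => F (b i * u))) := by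
  rw [add_comm, wavg_comp, wavg_one]

lemma wavg_inv (hb : ∃ σ : ι → ι, Function.Bijective σ ∧ ∀ i, b (σ i) = (b i)⁻¹) (n : ℕ)
    (F : G → M) : wavg b n (fun t => F t⁻¹) = wavg b n F := by
  obtain ⟨σ, hσ, hb⟩ := hb
  induction n generalizing F with
  | zero => simp
  | succ n ih =>
    rw [wavg_succ, wavg_succ']
    rw [← avg_bij hσ (fun i => wavg b n (fun u => F (b i * u)))]
    congr 1
    funext i
    rw [hb]
    have := ih (fun u => F ((b i)⁻¹ * u))
    rw [← this]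
    simp only [mul_inv_rev]

lemma sq_wavg_le [Nonempty ι] (n : ℕ) (F : G → ℝ) :
    (wavg b n F) ^ 2 ≤ wavg b n (fun t => F t ^ 2) := by
  induction n generalizing F with
  | zero => exact le_rfl
  | succ n ih =>
    rw [wavg_succ, wavg_succ]
    exact (sq_avg_le _).trans (avg_mono (fun i => ih _))

/-- the law of `t b_i`, `t` an `n`-step walk, is dominated by the law of an `(n+1)`-step walk -/
lemma wavg_shift_le (n : ℕ) {F : G → ℝ} (h : ∀ t, 0 ≤ F t) (i : ι) :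
    wavg b n (fun t => F (t * b i)) ≤ (Fintype.card ι : ℝ) * wavg b (n + 1) F := by
  rw [wavg_succ]
  exact le_card_mul_avg (F := fun i => wavg b n (fun u => F (u * b i)))
    (fun i => wavg_nonneg b n (fun t => h _)) i

end wavg

end Vale.Agent.P082.KR
end

section

open scoped Topology InnerProductSpace ComplexConjugate

namespace Vale.Agent.P082.KR

open Vale.Agent.P082 Filter

section

variable {A : Type*} [NormedRing A] [StarRing A] [CStarRing A] [NormedAlgebra ℂ A] [StarModule ℂ A]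

omit [NormedAlgebra ℂ A] [StarModule ℂ A] in
lemma norm_one_le' : ‖(1 : A)‖ ≤ 1 := by
  have h := CStarRing.norm_star_mul_self (x := (1 : A))
  rw [star_one, mul_one] at h
  by_contra hc
  push Not at hc
  nlinarith only [h, hc]

omit [NormedAlgebra ℂ A] [StarModule ℂ A] in
lemma norm_unitary_le (u : unitary A) : ‖(u : A)‖ ≤ 1 := by
  have h := CStarRing.norm_star_mul_self (x := (u : A))
  rw [Unitary.star_mul_self_of_mem u.2] at h
  have h1 := norm_one_le' (A := A)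
  by_contra hc
  push Not at hc
  nlinarith

omit [CStarRing A] [NormedAlgebra ℂ A] [StarModule ℂ A] in
@[simp] lemma star_mul_self_u (u : unitary A) : star (u : A) * (u : A) = 1 :=
  Unitary.star_mul_self_of_mem u.2

omit [CStarRing A] [NormedAlgebra ℂ A] [StarModule ℂ A] in
@[simp] lemma mul_star_self_u (u : unitary A) : (u : A) * star (u : A) = 1 :=
  Unitary.mul_star_self_of_mem u.2

omit [CStarRing A] [NormedAlgebra ℂ A] [StarModule ℂ A] in
@[simp] lemma star_mul_cancel_u (u : unitary A) (x : A) : star (u : A) * ((u : A) * x) = x := by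
  rw [← mul_assoc, star_mul_self_u, one_mul]

omit [CStarRing A] [NormedAlgebra ℂ A] [StarModule ℂ A] in
@[simp] lemma mul_star_cancel_u (u : unitary A) (x : A) : (u : A) * (star (u : A) * x) = x := by
  rw [← mul_assoc, mul_star_self_u, one_mul]

omit [CStarRing A] [NormedAlgebra ℂ A] [StarModule ℂ A] in
@[simp] lemma coe_inv_u (u : unitary A) : ((u⁻¹ : unitary A) : A) = star (u : A) := rfl

variable {K : Type*} [NormedAddCommGroup K] [InnerProductSpace ℂ K] (R : TraceRep A K)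

omit [CStarRing A] [StarModule ℂ A] in
lemma inner_eq_tr (x y : A) : ⟪R.V x, R.V y⟫_ℂ = ⟪R.V 1, R.V (star x * y)⟫_ℂ := by
  rw [R.adj, star_star, mul_one]

omit [CStarRing A] [StarModule ℂ A] in
/-- left multiplication and its adjoint -/
lemma inner_mul_left' (a x y : A) : ⟪R.V (a * x), R.V y⟫_ℂ = ⟪R.V x, R.V (star a * y)⟫_ℂ := by
  rw [inner_eq_tr, inner_eq_tr R x, star_mul, mul_assoc]

omit [CStarRing A] [StarModule ℂ A] in
/-- right multiplication and its adjoint -/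
lemma inner_mul_right' (a x y : A) : ⟪R.V (x * a), R.V y⟫_ℂ = ⟪R.V x, R.V (y * star a)⟫_ℂ := by
  rw [inner_eq_tr, inner_eq_tr R x, star_mul, mul_assoc, R.tracial, mul_assoc]

omit [CStarRing A] [StarModule ℂ A] in
lemma norm_V_mul_u (x : A) (u : unitary A) : ‖R.V (x * u)‖ = ‖R.V x‖ := by
  have h : ((‖R.V (x * u)‖ ^ 2 : ℝ) : ℂ) = ((‖R.V x‖ ^ 2 : ℝ) : ℂ) := by
    rw [R.norm_sq, R.norm_sq, star_mul, mul_assoc, R.tracial, mul_assoc, mul_assoc,
      mul_star_self_u, mul_one]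
  have h2 : ‖R.V (x * u)‖ ^ 2 = ‖R.V x‖ ^ 2 := by exact_mod_cast h
  exact (sq_eq_sq₀ (norm_nonneg _) (norm_nonneg _)).mp h2

omit [StarModule ℂ A] in
lemma norm_V_u_mul (x : A) (u : unitary A) : ‖R.V (u * x)‖ = ‖R.V x‖ := by
  refine le_antisymm ?_ ?_
  · refine (R.norm_mul_le _ _).trans ?_
    have := norm_unitary_le u
    exact mul_le_of_le_one_left (norm_nonneg _) this
  · have h := R.norm_mul_le (star (u : A)) ((u : A) * x)
    rw [star_mul_cancel_u] at h
    refine h.trans (mul_le_of_le_one_left (norm_nonneg _) ?_)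
    exact norm_unitary_le (u⁻¹)

omit [CStarRing A] [StarModule ℂ A] in
lemma norm_V_star (x : A) : ‖R.V (star x)‖ = ‖R.V x‖ := by
  have h : ((‖R.V (star x)‖ ^ 2 : ℝ) : ℂ) = ((‖R.V x‖ ^ 2 : ℝ) : ℂ) := by
    rw [R.norm_sq, R.norm_sq, star_star, R.tracial]
  have h2 : ‖R.V (star x)‖ ^ 2 = ‖R.V x‖ ^ 2 := by exact_mod_cast h
  exact (sq_eq_sq₀ (norm_nonneg _) (norm_nonneg _)).mp h2

omit [CStarRing A] [StarModule ℂ A] in
lemma norm_V_le (x : A) : ‖R.V x‖ ≤ ‖x‖ * ‖R.V 1‖ := by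
  have := R.norm_mul_le x 1
  rwa [mul_one] at this

omit [StarModule ℂ A] in
lemma norm_V_mul_le' (x y : A) : ‖R.V (x * y)‖ ≤ ‖R.V x‖ * ‖y‖ := by
  rw [← norm_V_star R, star_mul]
  refine (R.norm_mul_le _ _).trans ?_
  rw [norm_V_star, norm_star, mul_comm]

/-- all products `b_i b_j⁻¹` -/
def dbl {G κ : Type*} [Group G] (c : κ → G) : κ × κ → G := fun p => c p.1 * (c p.2)⁻¹

lemma dbl_symm {G κ : Type*} [Group G] (c : κ → G) :
    ∃ σ : κ × κ → κ × κ, Function.Bijective σ ∧ ∀ p, dbl c (σ p) = (dbl c p)⁻¹ :=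
  ⟨Prod.swap, Prod.swap_bijective, fun p => by simp [dbl]⟩

/-- the closed algebra generated by the steps -/
noncomputable def clAlg {ι : Type*} (b : ι → unitary A) : StarSubalgebra ℂ A :=
  (StarAlgebra.adjoin ℂ (Set.range (fun i => (b i : A)))).topologicalClosure

lemma clAlg_closed {ι : Type*} (b : ι → unitary A) : IsClosed (clAlg b : Set A) :=
  StarSubalgebra.isClosed_topologicalClosure _

lemma step_mem {ι : Type*} (b : ι → unitary A) (i : ι) : (b i : A) ∈ clAlg b :=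
  StarSubalgebra.le_topologicalClosure _ (StarAlgebra.subset_adjoin ℂ _ ⟨i, rfl⟩)

/-- `S × Q`-indexed steps `s w_k` -/
def stepU {G S Q : Type*} [Group G] (s : S → G) (w : Q → G) : S × Q → G := fun p => s p.1 * w p.2

/-- average of the conjugates by the walk -/
noncomputable def cavg {ι : Type*} [Fintype ι] (b : ι → unitary A) (n : ℕ) (x : A) : A :=
  wavg b n (fun t => (t : A) * x * star (t : A))

/-- `Φ` is bounded linear and harmonic for the random walk with (symmetric) steps `b`. -/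
structure Harm {ι : Type*} [Fintype ι] (b : ι → unitary A) (Φ : A →L[ℂ] A) (C : ℝ) : Prop where
  symm : ∃ σ : ι → ι, Function.Bijective σ ∧ ∀ i, b (σ i) = (b i)⁻¹
  harm : ∀ x, avg (fun i => Φ (x * (b i : A)) * star (b i : A)) = Φ x
  bound : ∀ x, ‖Φ x‖ ≤ C * ‖x‖

/-- the energy `N_n(x)` -/
noncomputable def energy {ι : Type*} [Fintype ι] (R : TraceRep A K) (b : ι → unitary A)
    (Φ : A →L[ℂ] A) (n : ℕ) (x : A) : ℝ :=
  wavg b n (fun t => ‖R.V (Φ (x * (t : A)))‖ ^ 2)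

/-- `J : A → E` is the limit space of the walk. -/
structure LimSp {ι : Type*} [Fintype ι] (R : TraceRep A K) (b : ι → unitary A)
    (Φ : A →L[ℂ] A) {E : Type*} [SeminormedAddCommGroup E] [InnerProductSpace ℂ E]
    (J : A →ₗ[ℂ] E) (i0 : K →ₗ[ℂ] E) : Prop where
  i0_inner : ∀ w w' : K, ⟪i0 w, i0 w'⟫_ℂ = ⟪w, w'⟫_ℂ
  i0_J : ∀ (w : K) (x : A), ⟪i0 w, J x⟫_ℂ = ⟪w, R.V (Φ x)⟫_ℂ
  lim : ∀ x, Tendsto (fun n => energy R b Φ n x) atTop (𝓝 (‖J x‖ ^ 2))

/-- `ψ_c(x) = J x - V(c x)` -/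
noncomputable def psi {E : Type*} [SeminormedAddCommGroup E] [InnerProductSpace ℂ E]
    (R : TraceRep A K) (J : A →ₗ[ℂ] E) (i0 : K →ₗ[ℂ] E) (c : A) : A →ₗ[ℂ] E :=
  J - i0.comp (R.V.comp (LinearMap.mulLeft ℂ c))

omit [StarRing A] [CStarRing A] [StarModule ℂ A] in
lemma psi_apply {E : Type*} [SeminormedAddCommGroup E] [InnerProductSpace ℂ E] [StarRing A]
    (R : TraceRep A K) (J : A →ₗ[ℂ] E) (i0 : K →ₗ[ℂ] E) (c x : A) :
    psi R J i0 c x = J x - i0 (R.V (c * x)) := rfl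

/-- `ee` is the mean ergodic projection of the conjugation walk. -/
structure IsEE {ι : Type*} [Fintype ι] (R : TraceRep A K) (b : ι → unitary A)
    (ee : A →ₗ[ℂ] K) : Prop where
  lim : ∀ x, Tendsto (fun m => R.V (cavg b m x)) atTop (𝓝 (ee x))

/-- Weyl data: `w` are like Weyl unitaries of a matrix algebra, `h` the shift. -/
structure WeylData {Q : Type*} [Fintype Q] (w : Q → unitary A) (h : unitary A) (N : ℕ) :
    Prop where
  orth : ∀ k k'', k ≠ k'' →
    ∑ k', star (w k' : A) * ((w k'' : A) * star (w k : A)) * (w k' : A) = 0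
  pow : ∀ r, 1 ≤ r → r ≤ N → ∑ k, star (w k : A) * (h : A) ^ r * (w k : A) = 0

end

end Vale.Agent.P082.KR
end

section

open scoped Topology InnerProductSpace ComplexConjugate

namespace Vale.Agent.P082.KR

open Vale.Agent.P082 Filter

variable {A : Type*} [NormedRing A] [StarRing A] [CStarRing A] [NormedAlgebra ℂ A] [StarModule ℂ A]
  {K : Type*} [NormedAddCommGroup K] [InnerProductSpace ℂ K] {R : TraceRep A K}
  {ι : Type*} [Fintype ι] [Nonempty ι] {b : ι → unitary A} {Φ : A →L[ℂ] A} {C : ℝ}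

/-- iterated harmonicity -/
lemma Harm.iter (hΦ : Harm b Φ C) (n : ℕ) (x : A) :
    wavg b n (fun t => Φ (x * (t : A)) * star (t : A)) = Φ x := by
  induction n generalizing x with
  | zero => simp
  | succ n ih =>
    rw [wavg_succ']
    have h1 : ∀ i, wavg b n (fun u => Φ (x * ((b i * u : unitary A) : A)) *
        star ((b i * u : unitary A) : A)) = Φ (x * (b i : A)) * star (b i : A) := by
      intro i
      rw [← ih (x * (b i : A))]
      rw [wavg_map' b n (fun y => y * star (b i : A)) (fun x y => add_mul _ _ _)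
        (fun c x => smul_mul_assoc _ _ _)]
      congr 1
      funext u
      simp only [Submonoid.coe_mul, star_mul, mul_assoc]
    simp only [h1]
    exact hΦ.harm x

lemma energy_zero (x : A) : energy R b Φ 0 x = ‖R.V (Φ x)‖ ^ 2 := by
  simp [energy]

lemma energy_comp (n m : ℕ) (x : A) :
    energy R b Φ (n + m) x = wavg b n (fun t => energy R b Φ m (x * (t : A))) := by
  unfold energy
  rw [wavg_comp]
  simp only [Submonoid.coe_mul, mul_assoc]

lemma norm_sub_sq' {E : Type*} [SeminormedAddCommGroup E] [InnerProductSpace ℂ E] (x y : E) :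
    ‖x - y‖ ^ 2 = ‖x‖ ^ 2 - 2 * (⟪y, x⟫_ℂ).re + ‖y‖ ^ 2 := by
  rw [norm_sub_sq (𝕜 := ℂ), inner_re_symm]
  simp

lemma reL_wavg {E : Type*} [SeminormedAddCommGroup E] [InnerProductSpace ℂ E] (n : ℕ)
    (w : E) (F : unitary A → E) :
    wavg b n (fun t => (⟪w, F t⟫_ℂ).re) = (⟪w, wavg b n F⟫_ℂ).re := by
  rw [wavg_map' b n (fun y => (⟪w, y⟫_ℂ).re) (fun x y => by rw [inner_add_right, Complex.add_re])
    (fun c x => by
      rw [← algebraMap_smul ℂ c x, inner_smul_right]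
      simp)]

lemma V_wavg (n : ℕ) (F : unitary A → A) :
    R.V (wavg b n F) = wavg b n (fun t => R.V (F t)) := by
  rw [wavg_map' b n (fun y => R.V y) (fun x y => map_add _ _ _)
    (fun c x => by
      rw [← algebraMap_smul ℂ c x, map_smul, algebraMap_smul])]

/-- average of the squared distance to a fixed vector -/
lemma wavg_dist (hΦ : Harm b Φ C) (n : ℕ) (x y : A) :
    wavg b n (fun t => ‖R.V (Φ (x * (t : A)) * star (t : A) - y)‖ ^ 2)
      = energy R b Φ n x - 2 * (⟪R.V y, R.V (Φ x)⟫_ℂ).re + ‖R.V y‖ ^ 2 := by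
  have h1 : ∀ t : unitary A, ‖R.V (Φ (x * (t : A)) * star (t : A) - y)‖ ^ 2
      = ‖R.V (Φ (x * (t : A)))‖ ^ 2 - 2 * (⟪R.V y, R.V (Φ (x * (t : A)) * star (t : A))⟫_ℂ).re
        + ‖R.V y‖ ^ 2 := by
    intro t
    rw [map_sub, norm_sub_sq', ← coe_inv_u, norm_V_mul_u]
  simp only [h1]
  rw [wavg_add, wavg_sub, wavg_const, wavg_mul_left, reL_wavg, ← V_wavg, hΦ.iter]
  rfl

/-- orthogonality of martingale differences -/
lemma energy_diff (hΦ : Harm b Φ C) (n m : ℕ) (x : A) :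
    wavg b n (fun t => wavg b m (fun t' =>
      ‖R.V (Φ (x * (t : A) * (t' : A)) * star (t' : A) - Φ (x * (t : A)))‖ ^ 2))
      = energy R b Φ (n + m) x - energy R b Φ n x := by
  simp only [wavg_dist hΦ]
  rw [energy_comp, wavg_add, wavg_sub, wavg_mul_left]
  have h1 : (fun t : unitary A => (⟪R.V (Φ (x * (t : A))), R.V (Φ (x * (t : A)))⟫_ℂ).re)
      = fun t : unitary A => ‖R.V (Φ (x * (t : A)))‖ ^ 2 := by
    funext t
    rw [inner_self_eq_norm_sq_to_K]
    norm_cast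
  rw [h1]
  unfold energy
  ring

lemma energy_mono (hΦ : Harm b Φ C) (x : A) : Monotone (fun n => energy R b Φ n x) := by
  refine monotone_nat_of_le_succ (fun n => ?_)
  have h := energy_diff (R := R) hΦ n 1 x
  have h2 : 0 ≤ energy R b Φ (n + 1) x - energy R b Φ n x := by
    rw [← h]
    exact wavg_nonneg b n (fun t => wavg_nonneg b 1 (fun t' => by positivity))
  linarith only [h2]

lemma energy_le (hΦ : Harm b Φ C) (hC : 0 ≤ C) (n : ℕ) (x : A) :
    energy R b Φ n x ≤ (C * ‖x‖ * ‖R.V 1‖) ^ 2 := by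
  unfold energy
  refine (wavg_mono b n (F' := fun _ => (C * ‖x‖ * ‖R.V 1‖) ^ 2) (fun t => ?_)).trans
    (le_of_eq (wavg_const b n _))
  have h1 : ‖x * (t : A)‖ ≤ ‖x‖ := by
    refine (norm_mul_le _ _).trans ?_
    exact mul_le_of_le_one_right (norm_nonneg _) (norm_unitary_le t)
  have h2 : ‖Φ (x * (t : A))‖ ≤ C * ‖x‖ :=
    (hΦ.bound _).trans (mul_le_mul_of_nonneg_left h1 hC)
  have h3 : ‖R.V (Φ (x * (t : A)))‖ ≤ C * ‖x‖ * ‖R.V 1‖ :=
    (norm_V_le R _).trans (mul_le_mul_of_nonneg_right h2 (norm_nonneg _))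
  (clear * - h3; gcongr)

section tendsto

omit [Nonempty ι] in
lemma tendsto_avg {κ : Type*} {l : Filter κ} {F : κ → ι → ℝ} {G : ι → ℝ}
    (h : ∀ i, Tendsto (fun k => F k i) l (𝓝 (G i))) :
    Tendsto (fun k => avg (F k)) l (𝓝 (avg G)) := by
  unfold avg
  exact (tendsto_finsetSum _ (fun i _ => h i)).const_smul _

omit [Nonempty ι] in
lemma tendsto_wavg {G' : Type*} [Group G'] (b : ι → G') {κ : Type*} {l : Filter κ} (n : ℕ)
    {F : κ → G' → ℝ} {G : G' → ℝ} (h : ∀ t, Tendsto (fun k => F k t) l (𝓝 (G t))) :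
    Tendsto (fun k => wavg b n (F k)) l (𝓝 (wavg b n G)) := by
  induction n generalizing F G with
  | zero => exact h 1
  | succ n ih =>
    simp only [wavg_succ]
    exact tendsto_avg (fun i => ih (fun t => h _))

end tendsto

section LimSp

variable {E : Type*} [SeminormedAddCommGroup E] [InnerProductSpace ℂ E]
  {J : A →ₗ[ℂ] E} {i0 : K →ₗ[ℂ] E}

lemma LimSp.norm_i0 (hE : LimSp R b Φ J i0) (w : K) : ‖i0 w‖ = ‖w‖ := by
  have h := hE.i0_inner w w
  rw [inner_self_eq_norm_sq_to_K, inner_self_eq_norm_sq_to_K] at h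
  have h2 : ‖i0 w‖ ^ 2 = ‖w‖ ^ 2 := by exact_mod_cast h
  exact (sq_eq_sq₀ (norm_nonneg _) (norm_nonneg _)).mp h2

lemma LimSp.energy_le_J (hΦ : Harm b Φ C) (hE : LimSp R b Φ J i0) (n : ℕ) (x : A) :
    energy R b Φ n x ≤ ‖J x‖ ^ 2 :=
  (energy_mono hΦ x).ge_of_tendsto (hE.lim x) n

/-- stationarity of `‖J x‖²` -/
lemma LimSp.stat (hE : LimSp R b Φ J i0) (l : ℕ) (x : A) :
    wavg b l (fun t => ‖J (x * (t : A))‖ ^ 2) = ‖J x‖ ^ 2 := by
  have h1 : Tendsto (fun n => wavg b l (fun t : unitary A => energy R b Φ n (x * (t : A))))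
      atTop (𝓝 (wavg b l (fun t : unitary A => ‖J (x * (t : A))‖ ^ 2))) :=
    tendsto_wavg b l (fun t => hE.lim _)
  have h2 : Tendsto (fun n => energy R b Φ (l + n) x) atTop (𝓝 (‖J x‖ ^ 2)) := by
    have := (hE.lim x).comp (tendsto_add_atTop_nat l)
    refine this.congr (fun n => ?_)
    simp [add_comm]
  refine tendsto_nhds_unique (h1.congr (fun n => ?_)) h2
  exact (energy_comp l n x).symm

lemma LimSp.norm_J_le (hΦ : Harm b Φ C) (hC : 0 ≤ C) (hE : LimSp R b Φ J i0) (x : A) :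
    ‖J x‖ ≤ C * ‖R.V 1‖ * ‖x‖ := by
  have h : ‖J x‖ ^ 2 ≤ (C * ‖x‖ * ‖R.V 1‖) ^ 2 :=
    le_of_tendsto' (hE.lim x) (fun n => energy_le hΦ hC n x)
  have h2 : ‖J x‖ ≤ C * ‖x‖ * ‖R.V 1‖ := by
    refine (sq_le_sq₀ (norm_nonneg _) (by (clear * - hC; positivity))).mp h
  linarith only [h2]

/-- `‖J x - V Φ(x)‖² = ‖J x‖² - ‖V Φ(x)‖²` -/
lemma LimSp.norm_sub_sq (hE : LimSp R b Φ J i0) (x : A) :
    ‖J x - i0 (R.V (Φ x))‖ ^ 2 = ‖J x‖ ^ 2 - ‖R.V (Φ x)‖ ^ 2 := by
  have h : (⟪R.V (Φ x), R.V (Φ x)⟫_ℂ).re = ‖R.V (Φ x)‖ ^ 2 := by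
    rw [inner_self_eq_norm_sq_to_K]
    norm_cast
  rw [norm_sub_sq', hE.i0_J, hE.norm_i0, h]
  ring

lemma LimSp.J_tame (hE : LimSp R b Φ J i0) {K' : Type*} [NormedAddCommGroup K']
    [InnerProductSpace ℂ K'] (R' : TraceRep A K') {ε' C' : ℝ} (hε' : 0 ≤ ε') (hC' : 0 ≤ C')
    (ht : ∀ x, ‖R.V (Φ x)‖ ≤ ε' * ‖x‖ + C' * ‖R'.V x‖) (x : A) :
    ‖J x‖ ≤ ε' * ‖x‖ + C' * ‖R'.V x‖ := by
  have h : ‖J x‖ ^ 2 ≤ (ε' * ‖x‖ + C' * ‖R'.V x‖) ^ 2 := by
    refine le_of_tendsto' (hE.lim x) (fun n => ?_)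
    unfold energy
    refine (wavg_mono b n (F' := fun _ => (ε' * ‖x‖ + C' * ‖R'.V x‖) ^ 2) (fun t => ?_)).trans
      (le_of_eq (wavg_const b n _))
    have h1 : ‖x * (t : A)‖ ≤ ‖x‖ := by
      refine (norm_mul_le _ _).trans ?_
      exact mul_le_of_le_one_right (norm_nonneg _) (norm_unitary_le t)
    have h2 := ht (x * (t : A))
    rw [norm_V_mul_u] at h2
    have h3 : ε' * ‖x * (t : A)‖ ≤ ε' * ‖x‖ := mul_le_mul_of_nonneg_left h1 hε'
    have h4 : ‖R.V (Φ (x * (t : A)))‖ ≤ ε' * ‖x‖ + C' * ‖R'.V x‖ := by linarith only [h2, h3]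
    gcongr
  exact (sq_le_sq₀ (norm_nonneg _) (by (clear * - hε' hC'; positivity))).mp h

lemma LimSp.psi_bound (hΦ : Harm b Φ C) (hC : 0 ≤ C) (hE : LimSp R b Φ J i0) (c x : A) :
    ‖psi R J i0 c x‖ ≤ (C + ‖c‖) * ‖R.V 1‖ * ‖x‖ := by
  rw [psi_apply]
  refine (norm_sub_le _ _).trans ?_
  have h1 := hE.norm_J_le hΦ hC x
  have h2 : ‖i0 (R.V (c * x))‖ ≤ ‖c‖ * ‖x‖ * ‖R.V 1‖ := by
    rw [hE.norm_i0]
    refine (norm_V_le R _).trans ?_
    exact mul_le_mul_of_nonneg_right (norm_mul_le _ _) (norm_nonneg _)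
  calc _ ≤ C * ‖R.V 1‖ * ‖x‖ + ‖c‖ * ‖x‖ * ‖R.V 1‖ := add_le_add h1 h2
    _ = _ := by ring

/-- Pythagoras for `psi` -/
lemma LimSp.psi_sq (hE : LimSp R b Φ J i0) (c x : A) :
    ‖psi R J i0 c x‖ ^ 2 = ‖J x‖ ^ 2 - 2 * (⟪R.V (c * x), R.V (Φ x)⟫_ℂ).re
      + ‖R.V (c * x)‖ ^ 2 := by
  rw [psi_apply, norm_sub_sq', hE.i0_J, hE.norm_i0]

/-- Jensen -/
lemma LimSp.le_psi (hE : LimSp R b Φ J i0) (c x : A) :
    ‖R.V (Φ x - c * x)‖ ≤ ‖psi R J i0 c x‖ := by
  have h1 := hE.psi_sq c x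
  have h2 : ‖R.V (Φ x - c * x)‖ ^ 2 = ‖R.V (Φ x)‖ ^ 2
      - 2 * (⟪R.V (c * x), R.V (Φ x)⟫_ℂ).re + ‖R.V (c * x)‖ ^ 2 := by
    rw [map_sub, norm_sub_sq']
  have h3 := hE.norm_sub_sq x
  have h4 : 0 ≤ ‖J x - i0 (R.V (Φ x))‖ ^ 2 := by (clear * -; positivity)
  refine (sq_le_sq₀ (norm_nonneg _) (norm_nonneg _)).mp ?_
  linarith only [h1, h2, h3, h4]

/-- (E3) -/
lemma LimSp.wavg_le_psi (hΦ : Harm b Φ C) (hE : LimSp R b Φ J i0) (c x : A) (l : ℕ) :
    wavg b l (fun t => ‖R.V (Φ (x * (t : A)) * star (t : A) - c * x)‖ ^ 2)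
      ≤ ‖psi R J i0 c x‖ ^ 2 := by
  rw [wavg_dist hΦ, hE.psi_sq]
  have := hE.energy_le_J hΦ l x
  linarith only [this]

/-- at `c = Φ(p) p⁻¹` -/
lemma LimSp.psi_self (hE : LimSp R b Φ J i0) (p : unitary A) :
    ‖psi R J i0 (Φ (p : A) * star (p : A)) (p : A)‖ ^ 2
      = ‖J (p : A)‖ ^ 2 - ‖R.V (Φ (p : A))‖ ^ 2 := by
  rw [psi_apply, mul_assoc, star_mul_self_u, mul_one, hE.norm_sub_sq]

end LimSp

end Vale.Agent.P082.KR
end

section

open scoped Topology InnerProductSpace ComplexConjugate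

namespace Vale.Agent.P082.KR

open Vale.Agent.P082 Filter

variable {A : Type*} [NormedRing A] [StarRing A] [CStarRing A] [NormedAlgebra ℂ A] [StarModule ℂ A]
  {K : Type*} [NormedAddCommGroup K] [InnerProductSpace ℂ K] {R : TraceRep A K}

section general

variable {ι : Type*} [Fintype ι] [Nonempty ι] {b : ι → unitary A} {ee : A →ₗ[ℂ] K}

omit [CStarRing A] [StarModule ℂ A] [Nonempty ι] in
lemma V_wavg_mix (n : ℕ) (F : unitary A → A) : R.V (wavg b n F) = wavg b n (fun t => R.V (F t)) :=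
  wavg_map' b n R.V (fun _ _ => map_add _ _ _) (fun c x => R.V.map_smul_of_tower c x) F

omit [StarModule ℂ A] in
lemma norm_V_cavg_le (n : ℕ) (x : A) : ‖R.V (cavg b n x)‖ ≤ ‖R.V x‖ := by
  unfold cavg
  rw [V_wavg_mix]
  refine norm_wavg_le_of b n _ _ (fun t => ?_)
  have h : star (t : A) = ((t⁻¹ : unitary A) : A) := rfl
  rw [h, norm_V_mul_u, norm_V_u_mul]

omit [StarModule ℂ A] in
lemma norm_cavg_le (n : ℕ) (x : A) : ‖cavg b n x‖ ≤ ‖x‖ := by
  unfold cavg
  refine norm_wavg_le_of b n _ _ (fun t => ?_)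
  have h : star (t : A) = ((t⁻¹ : unitary A) : A) := rfl
  calc ‖(t : A) * x * star (t : A)‖ ≤ ‖(t : A) * x‖ * ‖star (t : A)‖ := norm_mul_le _ _
    _ ≤ ‖(t : A)‖ * ‖x‖ * ‖star (t : A)‖ := by gcongr; exact norm_mul_le _ _
    _ ≤ 1 * ‖x‖ * 1 := by
        gcongr
        · exact norm_unitary_le t
        · rw [h]; exact norm_unitary_le _
    _ = ‖x‖ := by ring

omit [StarModule ℂ A] in
lemma IsEE.norm_le (h : IsEE R b ee) (x : A) : ‖ee x‖ ≤ ‖R.V x‖ :=
  le_of_tendsto (h.lim x).norm (Eventually.of_forall (fun m => norm_V_cavg_le m x))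

omit [CStarRing A] [StarModule ℂ A] [Nonempty ι] in
lemma IsEE.lim_norm (h : IsEE R b ee) (x : A) :
    Tendsto (fun m => ‖R.V (cavg b m x)‖) atTop (𝓝 ‖ee x‖) :=
  (h.lim x).norm

omit [CStarRing A] [Nonempty ι] in
lemma cavg_star (n : ℕ) (x : A) : cavg b n (star x) = star (cavg b n x) := by
  unfold cavg
  rw [wavg_map' b n (fun y : A => star y) (fun x y => star_add _ _) (fun c x => ?_)]
  · congr 1
    funext t
    simp only [star_mul, star_star, mul_assoc]
  · rw [RCLike.real_smul_eq_coe_smul (K := ℂ), star_smul, RCLike.real_smul_eq_coe_smul (K := ℂ)]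
    simp

omit [CStarRing A] [Nonempty ι] in
lemma IsEE.norm_star (h : IsEE R b ee) (x : A) : ‖ee (star x)‖ = ‖ee x‖ := by
  refine tendsto_nhds_unique (h.lim_norm (star x)) ?_
  refine (h.lim_norm x).congr (fun m => ?_)
  rw [cavg_star, norm_V_star]

end general

section hilbert

/-- abstract mean ergodic lemma -/
lemma cauchy_pow {M : Type*} [AddCommGroup M] [Module ℂ M] (V : M →ₗ[ℂ] K) (T B B' : M →ₗ[ℂ] M)
    (hT : T = B.comp B') (hadj : ∀ x y, ⟪V (B x), V y⟫_ℂ = ⟪V x, V (B' y)⟫_ℂ)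
    (hB : ∀ x, ‖V (B x)‖ ≤ ‖V x‖) (hB' : ∀ x, ‖V (B' x)‖ ≤ ‖V x‖) (x : M) :
    CauchySeq (fun n : ℕ => V ((T ^ n) x)) ∧
      Tendsto (fun n : ℕ => RCLike.re ⟪V ((T ^ n) x), V ((T ^ n) x)⟫_ℂ
        - RCLike.re ⟪V (T ((T ^ n) x)), V ((T ^ n) x)⟫_ℂ) atTop (𝓝 0) ∧
      ∀ (n : ℕ) (y : M), ⟪V ((T ^ n) x), V y⟫_ℂ = ⟪V x, V ((T ^ n) y)⟫_ℂ := by
  have hadj' : ∀ x y, ⟪V (B' x), V y⟫_ℂ = ⟪V x, V (B y)⟫_ℂ := fun x y => by
    rw [← inner_conj_symm, ← hadj, inner_conj_symm]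
  have hself : ∀ x y, ⟪V (T x), V y⟫_ℂ = ⟪V x, V (T y)⟫_ℂ := fun x y => by
    rw [hT, LinearMap.comp_apply, LinearMap.comp_apply, hadj, hadj']
  have hpow : ∀ (n : ℕ) (x y : M), ⟪V ((T ^ n) x), V y⟫_ℂ = ⟪V x, V ((T ^ n) y)⟫_ℂ := by
    intro n
    induction n with
    | zero => intro x y; simp
    | succ n ih =>
      intro x y
      rw [pow_succ, Module.End.mul_apply, ih, hself, ← Module.End.mul_apply, ← pow_succ',
        ← pow_succ]
  set α : ℕ → ℝ := fun n => RCLike.re ⟪V ((T ^ n) x), V x⟫_ℂ with hα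
  have hαlm : ∀ l m : ℕ, RCLike.re ⟪V ((T ^ l) x), V ((T ^ m) x)⟫_ℂ = α (l + m) := by
    intro l m
    rw [hα]
    simp only
    rw [add_comm, pow_add, Module.End.mul_apply, hpow m]
  have hnorm : ∀ y : M, RCLike.re ⟪V y, V y⟫_ℂ = ‖V y‖ ^ 2 := fun y => by
    rw [inner_self_eq_norm_sq]
  have heven : ∀ k, α (k + k) = ‖V ((T ^ k) x)‖ ^ 2 := fun k => by
    rw [← hαlm, hnorm]
  have hodd : ∀ k, α (k + k + 1) = ‖V (B' ((T ^ k) x))‖ ^ 2 := fun k => by
    have h1 : k + k + 1 = (k + 1) + k := by ring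
    rw [h1, ← hαlm, pow_succ', Module.End.mul_apply, ← hnorm]
    congr 1
    nth_rewrite 1 [hT]
    rw [LinearMap.comp_apply, hadj]
  have heven' : ∀ k, α (k + 1 + (k + 1)) = ‖V (B (B' ((T ^ k) x)))‖ ^ 2 := fun k => by
    rw [heven, pow_succ' T k, Module.End.mul_apply]
    nth_rewrite 1 [hT]
    rw [LinearMap.comp_apply]
  have hanti : Antitone α := by
    refine antitone_nat_of_succ_le (fun n => ?_)
    obtain ⟨k, rfl | rfl⟩ := Nat.even_or_odd' n
    · have h1 : 2 * k = k + k := by ring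
      rw [h1, hodd, heven]
      gcongr
      exact hB' _
    · have h1 : 2 * k + 1 + 1 = k + 1 + (k + 1) := by ring
      have h2 : 2 * k + 1 = k + k + 1 := by ring
      rw [h1, heven', h2, hodd]
      gcongr
      exact hB _
  have hnonneg : ∀ n, 0 ≤ α n := by
    intro n
    obtain ⟨k, rfl | rfl⟩ := Nat.even_or_odd' n
    · have h1 : 2 * k = k + k := by ring
      rw [h1, heven]; (clear * -; positivity)
    · have h2 : 2 * k + 1 = k + k + 1 := by ring
      rw [h2, hodd]; positivity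
  have hbdd : BddBelow (Set.range α) := ⟨0, by rintro _ ⟨n, rfl⟩; exact hnonneg n⟩
  set L := ⨅ n, α n with hL
  have hlim : Tendsto α atTop (𝓝 L) := tendsto_atTop_ciInf hanti hbdd
  have hLle : ∀ n, L ≤ α n := fun n => ciInf_le hbdd n
  have hdist : ∀ l m : ℕ, ‖V ((T ^ l) x) - V ((T ^ m) x)‖ ^ 2
      = α (l + l) - 2 * α (l + m) + α (m + m) := by
    intro l m
    rw [@norm_sub_sq ℂ, hαlm, heven, heven]
  refine ⟨?_, ?_, fun n y => hpow n x y⟩
  · refine cauchySeq_of_le_tendsto_0 (fun N => Real.sqrt (2 * (α (N + N) - L))) ?_ ?_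
    · intro n m N hn hm
      rw [dist_eq_norm]
      refine Real.le_sqrt_of_sq_le ?_
      rw [hdist]
      have h1 := hanti (show N + N ≤ n + n by omega)
      have h2 := hanti (show N + N ≤ m + m by omega)
      have h3 := hLle (n + m)
      linarith only [h1, h2, h3]
    · have h1 : Tendsto (fun N : ℕ => N + N) atTop atTop :=
        tendsto_atTop_mono (fun n => Nat.le_add_left n n) tendsto_id
      have h2 := hlim.comp h1
      have h3 : Tendsto (fun N => 2 * (α (N + N) - L)) atTop (𝓝 (2 * (L - L))) :=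
        (h2.sub_const L).const_mul 2
      rw [sub_self, mul_zero] at h3
      have h4 := h3.sqrt
      rwa [Real.sqrt_zero] at h4
  · have h1 : Tendsto (fun N : ℕ => N + N) atTop atTop :=
      tendsto_atTop_mono (fun n => Nat.le_add_left n n) tendsto_id
    have h1' : Tendsto (fun N : ℕ => N + 1 + N) atTop atTop :=
      tendsto_atTop_mono (fun n => Nat.le_add_left n _) tendsto_id
    have h2 := (hlim.comp h1).sub (hlim.comp h1')
    rw [sub_self] at h2
    refine h2.congr (fun n => ?_)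
    simp only [Function.comp_apply]
    rw [← hαlm, ← hαlm, pow_succ', Module.End.mul_apply]

lemma inner_avg_left {ι : Type*} [Fintype ι] (F : ι → K) (y : K) :
    ⟪avg F, y⟫_ℂ = avg (fun i => ⟪F i, y⟫_ℂ) :=
  avg_map' (fun z : K => ⟪z, y⟫_ℂ) (fun _ _ => inner_add_left _ _ _)
    (fun r z => by
      rw [RCLike.real_smul_eq_coe_smul (K := ℂ), inner_smul_left,
        RCLike.real_smul_eq_coe_smul (K := ℂ)]
      simp) F

lemma inner_avg_right {ι : Type*} [Fintype ι] (F : ι → K) (y : K) :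
    ⟪y, avg F⟫_ℂ = avg (fun i => ⟪y, F i⟫_ℂ) :=
  avg_map' (fun z : K => ⟪y, z⟫_ℂ) (fun _ _ => inner_add_right _ _ _)
    (fun r z => by
      rw [RCLike.real_smul_eq_coe_smul (K := ℂ), inner_smul_right,
        RCLike.real_smul_eq_coe_smul (K := ℂ)]
      simp) F

end hilbert

section special

variable {κ : Type*} [Fintype κ] [Nonempty κ] {c : κ → unitary A} {ee : A →ₗ[ℂ] K}

/-- average of the conjugates by the walk, as a linear map -/
noncomputable def cavgL {ι : Type*} [Fintype ι] (b : ι → unitary A) (n : ℕ) : A →ₗ[ℂ] A where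
  toFun := cavg b n
  map_add' x y := by
    unfold cavg
    rw [← wavg_add]
    congr 1
    funext t
    rw [mul_add, add_mul]
  map_smul' r x := by
    unfold cavg
    simp only [RingHom.id_apply]
    rw [wavg_map' b n (fun y : A => r • y) (fun _ _ => smul_add _ _ _)
      (fun s x => smul_comm _ _ _)]
    congr 1
    funext t
    simp only [mul_smul_comm, smul_mul_assoc]

omit [CStarRing A] [StarModule ℂ A] in
lemma cavgL_apply {ι : Type*} [Fintype ι] (b : ι → unitary A) (n : ℕ) (x : A) :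
    cavgL b n x = cavg b n x := rfl

omit [CStarRing A] [StarModule ℂ A] in
lemma cavg_comp {ι : Type*} [Fintype ι] (b : ι → unitary A) (n m : ℕ) (x : A) :
    cavg b (n + m) x = cavg b n (cavg b m x) := by
  unfold cavg
  rw [wavg_comp]
  congr 1
  funext t
  rw [wavg_map' b m (fun y : A => (t : A) * y * star (t : A))
    (fun _ _ => by rw [mul_add, add_mul]) (fun s x => by
      simp only [mul_smul_comm, smul_mul_assoc])]
  congr 1
  funext t'
  simp only [Submonoid.coe_mul, star_mul, mul_assoc]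

omit [CStarRing A] in
lemma cavgL_pow {ι : Type*} [Fintype ι] (b : ι → unitary A) (n : ℕ) :
    (cavgL b 1) ^ n = cavgL b n := by
  induction n with
  | zero => ext x; simp [cavgL_apply, cavg]
  | succ n ih =>
    ext x
    rw [pow_succ, Module.End.mul_apply, ih, cavgL_apply, cavgL_apply, cavgL_apply, cavg_comp]

omit [CStarRing A] [Nonempty κ] in
lemma cavgL_dbl (c : κ → unitary A) :
    cavgL (dbl c) 1 = (cavgL c 1).comp (cavgL (fun k => (c k)⁻¹) 1) := by
  ext x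
  rw [LinearMap.comp_apply, cavgL_apply, cavgL_apply, cavgL_apply]
  unfold cavg
  rw [wavg_one, wavg_one, wavg_one, avg_prod]
  congr 1
  funext i
  rw [avg_map' (fun y : A => (c i : A) * y * star (c i : A))
    (fun _ _ => by rw [mul_add, add_mul]) (fun s x => by
      simp only [mul_smul_comm, smul_mul_assoc])]
  congr 1
  funext j
  simp only [dbl, Submonoid.coe_mul, star_mul, mul_assoc]

omit [CStarRing A] [Nonempty κ] in
lemma cavgL_adj (R : TraceRep A K) (c : κ → unitary A) (x y : A) :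
    ⟪R.V (cavgL c 1 x), R.V y⟫_ℂ = ⟪R.V x, R.V (cavgL (fun k => (c k)⁻¹) 1 y)⟫_ℂ := by
  rw [cavgL_apply, cavgL_apply]
  unfold cavg
  rw [V_wavg_mix, V_wavg_mix, wavg_one, wavg_one, inner_avg_left, inner_avg_right]
  congr 1
  funext k
  rw [coe_inv_u, star_star, inner_mul_right', inner_mul_left', star_star, mul_assoc]

omit [StarModule ℂ A] in
lemma norm_V_cavg_one (R : TraceRep A K) (c : κ → unitary A) (x : A) :
    ‖R.V (cavg c 1 x)‖ ≤ ‖R.V x‖ := norm_V_cavg_le 1 x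

/-- mean ergodic theorem -/
theorem exists_ee [CompleteSpace K] (R : TraceRep A K) (c : κ → unitary A) :
    ∃ ee : A →ₗ[ℂ] K, IsEE R (dbl c) ee := by
  have h : ∀ x, ∃ l : K, Tendsto (fun n : ℕ => R.V (cavg (dbl c) n x)) atTop (𝓝 l) := by
    intro x
    have h1 := (cauchy_pow R.V (cavgL (dbl c) 1) (cavgL c 1) (cavgL (fun k => (c k)⁻¹) 1)
      (cavgL_dbl c) (cavgL_adj R c) (norm_V_cavg_one R c) (norm_V_cavg_one R _) x).1
    obtain ⟨l, hl⟩ := cauchySeq_tendsto_of_complete h1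
    refine ⟨l, hl.congr (fun n => ?_)⟩
    rw [cavgL_pow, cavgL_apply]
  choose f hf using h
  exact ⟨linearMapOfTendsto (l := atTop) f (fun n : ℕ => R.V.comp (cavgL (dbl c) n))
    (tendsto_pi_nhds.mpr hf), ⟨fun x => hf x⟩⟩

omit [StarModule ℂ A] in
lemma conj_defect (R : TraceRep A K) {ι : Type*} [Fintype ι] [Nonempty ι] (b : ι → unitary A)
    (y : A) :
    avg (fun p => ‖R.V ((b p : A) * y * star (b p : A)) - R.V y‖ ^ 2)
      = 2 * (RCLike.re ⟪R.V y, R.V y⟫_ℂ - RCLike.re ⟪R.V (cavg b 1 y), R.V y⟫_ℂ) := by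
  have h1 : ∀ p, ‖R.V ((b p : A) * y * star (b p : A)) - R.V y‖ ^ 2
      = 2 * ‖R.V y‖ ^ 2
        - 2 * RCLike.re ⟪R.V ((b p : A) * y * star (b p : A)), R.V y⟫_ℂ := by
    intro p
    rw [@norm_sub_sq ℂ]
    have h : star (b p : A) = (((b p)⁻¹ : unitary A) : A) := rfl
    have h' : ‖R.V ((b p : A) * y * star (b p : A))‖ = ‖R.V y‖ := by
      rw [h, norm_V_mul_u, norm_V_u_mul]
    rw [h']
    ring
  have h2 : avg (fun p => RCLike.re ⟪R.V ((b p : A) * y * star (b p : A)), R.V y⟫_ℂ)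
      = RCLike.re ⟪R.V (cavg b 1 y), R.V y⟫_ℂ := by
    unfold cavg
    rw [V_wavg_mix, wavg_one, inner_avg_left]
    exact (avg_map' (fun z : ℂ => RCLike.re z) (fun _ _ => map_add _ _ _)
      (fun r z => by simp) _).symm
  have h3 : avg (fun p => 2 * ‖R.V y‖ ^ 2
        - 2 * RCLike.re ⟪R.V ((b p : A) * y * star (b p : A)), R.V y⟫_ℂ)
      = 2 * ‖R.V y‖ ^ 2 - 2 * RCLike.re ⟪R.V (cavg b 1 y), R.V y⟫_ℂ := by
    rw [avg_sub, avg_const, avg_mul_left, h2]
  simp only [h1]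
  rw [h3, inner_self_eq_norm_sq]
  ring

lemma conj_defect_tendsto (R : TraceRep A K) (c : κ → unitary A) (p : κ × κ) (w : A) :
    Tendsto (fun m => ‖R.V (((dbl c p : unitary A) : A) * (cavg (dbl c) m w) * star ((dbl c p : unitary A) : A))
      - R.V (cavg (dbl c) m w)‖) atTop (𝓝 0) := by
  have h1 := (cauchy_pow R.V (cavgL (dbl c) 1) (cavgL c 1) (cavgL (fun k => (c k)⁻¹) 1)
      (cavgL_dbl c) (cavgL_adj R c) (norm_V_cavg_one R c) (norm_V_cavg_one R _) w).2.1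
  simp only [cavgL_pow, cavgL_apply] at h1
  have h2 := (h1.const_mul 2).const_mul (Fintype.card (κ × κ) : ℝ)
  rw [mul_zero, mul_zero] at h2
  have h3 : Tendsto (fun m => ‖R.V (((dbl c p : unitary A) : A) * (cavg (dbl c) m w) * star ((dbl c p : unitary A) : A))
      - R.V (cavg (dbl c) m w)‖ ^ 2) atTop (𝓝 0) := by
    refine squeeze_zero (fun m => by positivity) (fun m => ?_) h2
    rw [← conj_defect]
    exact le_card_mul_avg (F := fun p : κ × κ =>
      ‖R.V (((dbl c p : unitary A) : A) * (cavg (dbl c) m w) * star ((dbl c p : unitary A) : A))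
        - R.V (cavg (dbl c) m w)‖ ^ 2) (fun p => by positivity) p
  have h4 := h3.sqrt
  rw [Real.sqrt_zero] at h4
  refine h4.congr (fun m => ?_)
  rw [Real.sqrt_sq (norm_nonneg _)]

/-- invariance under conjugation by a step -/
lemma IsEE.conj_step (h : IsEE R (dbl c) ee) (p : κ × κ) (x : A) :
    ee (((dbl c p : unitary A) : A) * x * star ((dbl c p : unitary A) : A)) = ee x := by
  obtain ⟨σ, -, hσ⟩ := dbl_symm c
  set z : A := ((dbl c p : unitary A) : A) * x * star ((dbl c p : unitary A) : A) - x with hz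
  have horth : ∀ w : A, ⟪ee z, R.V w⟫_ℂ = 0 := by
    intro w
    have h1 : Tendsto (fun m => ⟪R.V (cavg (dbl c) m z), R.V w⟫_ℂ) atTop (𝓝 ⟪ee z, R.V w⟫_ℂ) :=
      Filter.Tendsto.inner (h.lim z) tendsto_const_nhds
    refine tendsto_nhds_unique h1 ?_
    have h2 : ∀ m, ‖⟪R.V (cavg (dbl c) m z), R.V w⟫_ℂ‖ ≤ ‖R.V x‖ *
        ‖R.V (((dbl c (σ p) : unitary A) : A) * (cavg (dbl c) m w) * star ((dbl c (σ p) : unitary A) : A))
          - R.V (cavg (dbl c) m w)‖ := by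
      intro m
      have h3 := (cauchy_pow R.V (cavgL (dbl c) 1) (cavgL c 1) (cavgL (fun k => (c k)⁻¹) 1)
        (cavgL_dbl c) (cavgL_adj R c) (norm_V_cavg_one R c) (norm_V_cavg_one R _) z).2.2 m w
      simp only [cavgL_pow, cavgL_apply] at h3
      have h4 : ⟪R.V z, R.V (cavg (dbl c) m w)⟫_ℂ = ⟪R.V x,
          R.V (((dbl c (σ p) : unitary A) : A) * (cavg (dbl c) m w) * star ((dbl c (σ p) : unitary A) : A))
          - R.V (cavg (dbl c) m w)⟫_ℂ := by
        rw [hz, map_sub, inner_sub_left, inner_sub_right, inner_mul_right', inner_mul_left',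
          star_star, hσ, coe_inv_u, star_star, mul_assoc]
      rw [h3, h4]
      exact norm_inner_le_norm _ _
    have h5 := (conj_defect_tendsto R c (σ p) w).const_mul ‖R.V x‖
    rw [mul_zero] at h5
    exact squeeze_zero_norm h2 h5
  have h6 : Tendsto (fun m => ⟪ee z, R.V (cavg (dbl c) m z)⟫_ℂ) atTop (𝓝 ⟪ee z, ee z⟫_ℂ) :=
    Filter.Tendsto.inner tendsto_const_nhds (h.lim z)
  have h7 : ⟪ee z, ee z⟫_ℂ = 0 := by
    refine tendsto_nhds_unique h6 ?_
    simp only [horth]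
    exact tendsto_const_nhds
  have h8 : ee z = 0 := inner_self_eq_zero.mp h7
  rw [hz, map_sub, sub_eq_zero] at h8
  exact h8

/-- trace-like property -/
theorem IsEE.comm (h : IsEE R (dbl c) ee) {x : A} (hx : x ∈ clAlg (dbl c)) (y : A) :
    ee (x * y) = ee (y * x) := by
  have hcont : Continuous ee := by
    refine AddMonoidHomClass.continuous_of_bound ee ‖R.V 1‖ (fun z => ?_)
    exact (h.norm_le z).trans ((norm_V_le R z).trans (le_of_eq (mul_comm _ _)))
  have hadj : ∀ x ∈ StarAlgebra.adjoin ℂ (Set.range (fun i => ((dbl c i : unitary A) : A))),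
      ∀ y, ee (x * y) = ee (y * x) := by
    intro x hx
    induction hx using StarAlgebra.adjoin_induction with
    | mem x hx =>
      obtain ⟨p, rfl⟩ := hx
      intro y
      have h1 := h.conj_step p (y * ((dbl c p : unitary A) : A))
      rw [← h1]
      congr 1
      simp only [mul_assoc, mul_star_self_u, mul_one]
    | algebraMap r =>
      intro y
      rw [Algebra.commutes]
    | add x y hx hy h1 h2 =>
      intro z
      rw [add_mul, mul_add, map_add, map_add, h1, h2]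
    | mul x y hx hy h1 h2 =>
      intro z
      rw [mul_assoc, h1, mul_assoc, h2, mul_assoc]
    | star x hx h1 =>
      intro z
      have h2 : ee (star x * z - z * star x) = 0 := by
        rw [← norm_eq_zero, ← h.norm_star, norm_eq_zero, star_sub, star_mul, star_mul, star_star,
          map_sub, sub_eq_zero, h1]
      rw [map_sub, sub_eq_zero] at h2
      exact h2
  have hclosed : IsClosed {x : A | ee (x * y) = ee (y * x)} :=
    isClosed_eq (hcont.comp (continuous_id.mul continuous_const))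
      (hcont.comp (continuous_const.mul continuous_id))
  have hsub : closure (StarAlgebra.adjoin ℂ (Set.range (fun i => ((dbl c i : unitary A) : A))) : Set A)
      ⊆ {x : A | ee (x * y) = ee (y * x)} :=
    closure_minimal (fun x hx => hadj x hx y) hclosed
  refine hsub ?_
  have h3 : x ∈ ((StarAlgebra.adjoin ℂ (Set.range (fun i => ((dbl c i : unitary A) : A)))).topologicalClosure
      : Set A) := hx
  rwa [StarSubalgebra.topologicalClosure_coe] at h3

end special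

end Vale.Agent.P082.KR
end

section

open scoped Topology InnerProductSpace ComplexConjugate

namespace Vale.Agent.P082.KR

open Vale.Agent.P082 Filter

variable {A : Type*} [NormedRing A] [StarRing A] [CStarRing A] [NormedAlgebra ℂ A] [StarModule ℂ A]

/-- `θ_m t - conj θ_m t*`, `θ_m = I^m` -/
noncomputable def kk (m : Fin 4) (t : A) : A :=
  (Complex.I ^ (m : ℕ)) • t - (conj (Complex.I ^ (m : ℕ))) • star t

/-- Cayley transform of `α k` -/
noncomputable def cay (α : ℝ) (k : A) : A :=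
  (1 + ((α / 2 : ℝ) : ℂ) • k) * Ring.inverse (1 - ((α / 2 : ℝ) : ℂ) • k)

open Classical in
/-- the Cayley transform as a unitary -/
noncomputable def cayU (α : ℝ) (m : Fin 4) (t : unitary A) : unitary A :=
  if h : cay α (kk m (t : A)) ∈ unitary A then ⟨_, h⟩ else 1

omit [CStarRing A] in
lemma star_kk (m : Fin 4) (t : A) : star (kk m t) = - kk m t := by
  simp only [kk, star_sub, star_smul, star_star, neg_sub]
  congr 1
  simp only [starRingEnd_apply, star_star]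

lemma norm_kk_le (m : Fin 4) (t : unitary A) : ‖kk m (t : A)‖ ≤ 2 := by
  have h1 : ‖(t : A)‖ ≤ 1 := norm_unitary_le t
  have h2 : ‖star (t : A)‖ ≤ 1 := by rw [norm_star]; exact h1
  have h3 : ‖(Complex.I ^ (m : ℕ))‖ = 1 := by simp
  have h4 : ‖(conj (Complex.I ^ (m : ℕ)) : ℂ)‖ = 1 := by
    rw [RCLike.norm_conj, h3]
  calc ‖kk m (t : A)‖ ≤ ‖(Complex.I ^ (m : ℕ)) • (t : A)‖
        + ‖(conj (Complex.I ^ (m : ℕ))) • star (t : A)‖ := norm_sub_le _ _
    _ ≤ 1 + 1 := by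
        rw [norm_smul, norm_smul, h3, h4, one_mul, one_mul]
        exact add_le_add h1 h2
    _ = 2 := by norm_num

lemma norm_half_le {α : ℝ} (h0 : 0 ≤ α) {k : A} (hn : ‖k‖ ≤ 2) :
    ‖((α / 2 : ℝ) : ℂ) • k‖ ≤ α := by
  rw [norm_smul, Complex.norm_real, Real.norm_of_nonneg (by positivity)]
  linarith only [mul_le_mul_of_nonneg_left hn h0]

variable [CompleteSpace A]

lemma inv_facts {a : A} (ha : ‖a‖ < 1) :
    (1 - a) * Ring.inverse (1 - a) = 1 ∧ Ring.inverse (1 - a) * (1 - a) = 1 := by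
  have hu : IsUnit (1 - a) := ⟨Units.oneSub a ha, rfl⟩
  exact ⟨Ring.mul_inverse_cancel _ hu, Ring.inverse_mul_cancel _ hu⟩

lemma norm_inv_le {a : A} (ha : ‖a‖ ≤ 1 / 2) : ‖Ring.inverse (1 - a)‖ ≤ 2 := by
  have hf := (inv_facts (a := a) (by linarith only [ha])).1
  have h1 : Ring.inverse (1 - a) = 1 + a * Ring.inverse (1 - a) := by
    have : (1 - a) * Ring.inverse (1 - a) = Ring.inverse (1 - a) - a * Ring.inverse (1 - a) := by
      noncomm_ring
    rw [this] at hf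
    exact sub_eq_iff_eq_add.mp hf
  have h2 : ‖Ring.inverse (1 - a)‖ ≤ 1 + ‖a‖ * ‖Ring.inverse (1 - a)‖ := by
    calc ‖Ring.inverse (1 - a)‖ = ‖1 + a * Ring.inverse (1 - a)‖ := by rw [← h1]
      _ ≤ ‖(1 : A)‖ + ‖a * Ring.inverse (1 - a)‖ := norm_add_le _ _
      _ ≤ 1 + ‖a‖ * ‖Ring.inverse (1 - a)‖ := add_le_add norm_one_le' (norm_mul_le _ _)
  nlinarith only [ha, h2]

/-- algebraic identities -/
lemma alg_facts {a v v' : A} (h1 : (1 - a) * v = 1) (h2 : v * (1 - a) = 1)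
    (h3 : (1 + a) * v' = 1) (h4 : v' * (1 + a) = 1) :
    v' * (1 - a) * ((1 + a) * v) = 1 ∧ (1 + a) * v * (v' * (1 - a)) = 1 ∧
      (1 - a) * v' = v' * (1 - a) := by
  have hc : (1 - a) * (1 + a) = (1 + a) * (1 - a) := by noncomm_ring
  have hc' : (1 - a) * v' = v' * (1 - a) := by
    calc (1 - a) * v' = (v' * (1 + a)) * ((1 - a) * v') := by rw [h4, one_mul]
      _ = v' * ((1 + a) * (1 - a)) * v' := by noncomm_ring
      _ = v' * ((1 - a) * (1 + a)) * v' := by rw [hc]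
      _ = v' * (1 - a) * ((1 + a) * v') := by noncomm_ring
      _ = v' * (1 - a) := by rw [h3, mul_one]
  have hc'' : (1 + a) * v = v * (1 + a) := by
    calc (1 + a) * v = (v * (1 - a)) * ((1 + a) * v) := by rw [h2, one_mul]
      _ = v * ((1 - a) * (1 + a)) * v := by noncomm_ring
      _ = v * ((1 + a) * (1 - a)) * v := by rw [hc]
      _ = v * (1 + a) * ((1 - a) * v) := by noncomm_ring
      _ = v * (1 + a) := by rw [h1, mul_one]
  refine ⟨?_, ?_, hc'⟩
  · calc v' * (1 - a) * ((1 + a) * v) = v' * ((1 - a) * (1 + a)) * v := by noncomm_ring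
      _ = (v' * (1 + a)) * ((1 - a) * v) := by rw [hc]; noncomm_ring
      _ = 1 := by rw [h4, h1, one_mul]
  · calc (1 + a) * v * (v' * (1 - a)) = v * (1 + a) * (v' * (1 - a)) := by rw [hc'']
      _ = v * ((1 + a) * v') * (1 - a) := by noncomm_ring
      _ = 1 := by rw [h3, mul_one, h2]

omit [CStarRing A] [CompleteSpace A] in
lemma star_half (α : ℝ) {k : A} (hk : star k = -k) :
    star (((α / 2 : ℝ) : ℂ) • k) = - (((α / 2 : ℝ) : ℂ) • k) := by
  rw [star_smul, hk, smul_neg]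
  congr 2
  simp

/-- the inverse of `1 + a` is the adjoint of the inverse of `1 - a` -/
lemma star_inv_facts {a : A} (ha : ‖a‖ < 1) (hs : star a = -a) :
    (1 + a) * star (Ring.inverse (1 - a)) = 1 ∧ star (Ring.inverse (1 - a)) * (1 + a) = 1 := by
  obtain ⟨h1, h2⟩ := inv_facts ha
  constructor
  · have := congrArg star h2
    rwa [star_mul, star_sub, star_one, hs, sub_neg_eq_add] at this
  · have := congrArg star h1
    rwa [star_mul, star_sub, star_one, hs, sub_neg_eq_add] at this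

omit [CompleteSpace A] [CStarRing A] [StarModule ℂ A] [NormedAlgebra ℂ A] in
lemma star_prod {a v : A} (hs : star a = -a) : star ((1 + a) * v) = star v * (1 - a) := by
  rw [star_mul, star_add, star_one, hs, ← sub_eq_add_neg]

theorem cay_mem_unitary {α : ℝ} (h0 : 0 ≤ α) (h1 : α ≤ 1 / 2) {k : A} (hk : star k = -k)
    (hn : ‖k‖ ≤ 2) : cay α k ∈ unitary A := by
  have hle := norm_half_le h0 hn
  have ha : ‖((α / 2 : ℝ) : ℂ) • k‖ < 1 := by linarith only [h1, hle]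
  have hs := star_half α hk
  obtain ⟨f1, f2⟩ := inv_facts ha
  obtain ⟨f3, f4⟩ := star_inv_facts ha hs
  obtain ⟨g1, g2, -⟩ := alg_facts f1 f2 f3 f4
  rw [Unitary.mem_iff]
  unfold cay
  rw [star_prod hs]
  exact ⟨g1, g2⟩

theorem cay_neg {α : ℝ} (h0 : 0 ≤ α) (h1 : α ≤ 1 / 2) {k : A} (hk : star k = -k)
    (hn : ‖k‖ ≤ 2) : cay α (-k) = star (cay α k) := by
  have hle := norm_half_le h0 hn
  have ha : ‖((α / 2 : ℝ) : ℂ) • k‖ < 1 := by linarith only [h1, hle]
  have hs := star_half α hk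
  obtain ⟨f1, f2⟩ := inv_facts ha
  obtain ⟨f3, f4⟩ := star_inv_facts ha hs
  obtain ⟨-, -, g3⟩ := alg_facts f1 f2 f3 f4
  unfold cay
  rw [star_prod hs, smul_neg, sub_neg_eq_add, ← sub_eq_add_neg, ← g3]
  congr 1
  exact Ring.inverse_unit ⟨_, _, f3, f4⟩

theorem cay_expand {α : ℝ} (h0 : 0 ≤ α) (h1 : α ≤ 1 / 2) {k : A} (hn : ‖k‖ ≤ 2) :
    ‖cay α k - (1 + (α : ℂ) • k + ((α ^ 2 / 2 : ℝ) : ℂ) • k ^ 2)‖ ≤ 4 * α ^ 3 := by
  have hle := norm_half_le h0 hn
  have ha : ‖((α / 2 : ℝ) : ℂ) • k‖ < 1 := by linarith only [h1, hle]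
  obtain ⟨f1, -⟩ := inv_facts ha
  have hv := norm_inv_le (a := ((α / 2 : ℝ) : ℂ) • k) (by linarith only [h1, hle])
  have e1 : (α : ℂ) • k = 2 • (((α / 2 : ℝ) : ℂ) • k) := by
    rw [← Nat.cast_smul_eq_nsmul ℂ, smul_smul]
    congr 1
    push_cast; ring
  have e2 : ((α ^ 2 / 2 : ℝ) : ℂ) • k ^ 2 = 2 • ((((α / 2 : ℝ) : ℂ) • k) ^ 2) := by
    rw [smul_pow, ← Nat.cast_smul_eq_nsmul ℂ, smul_smul]
    congr 1
    push_cast; ring
  unfold cay
  rw [e1, e2]
  set a := ((α / 2 : ℝ) : ℂ) • k with hadef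
  set v := Ring.inverse (1 - a) with hvdef
  have hv1 : v = 1 + a * v := by
    have : (1 - a) * v = v - a * v := by noncomm_ring
    rw [this] at f1
    exact sub_eq_iff_eq_add.mp f1
  have hid : (1 + a) * v - (1 + 2 • a + 2 • a ^ 2) = 2 • (a ^ 3 * v) := by
    have k1 : a * v = a + a ^ 2 * v := by
      conv_lhs => rw [hv1]
      noncomm_ring
    have k2 : a ^ 2 * v = a ^ 2 + a ^ 3 * v := by
      conv_lhs => rw [hv1]
      noncomm_ring
    have k3 : (1 + a) * v = v + a * v := by noncomm_ring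
    rw [k3]
    have k4 : v = 1 + (a + (a ^ 2 + a ^ 3 * v)) := by
      rw [← k2, ← k1]; exact hv1
    have k5 : a * v = a + (a ^ 2 + a ^ 3 * v) := by rw [← k2]; exact k1
    calc v + a * v - (1 + 2 • a + 2 • a ^ 2)
        = (1 + (a + (a ^ 2 + a ^ 3 * v))) + (a + (a ^ 2 + a ^ 3 * v))
            - (1 + 2 • a + 2 • a ^ 2) := by rw [← k4, ← k5]
      _ = 2 • (a ^ 3 * v) := by abel
  rw [hid]
  have hnn : ‖a‖ ≤ α := hle
  have h3 : ‖a ^ 3‖ ≤ α ^ 3 := by
    have hp : ‖a ^ 3‖ ≤ ‖a‖ ^ 3 := norm_pow_le' a (by norm_num)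
    exact hp.trans (by gcongr)
  calc ‖2 • (a ^ 3 * v)‖ ≤ 2 * ‖a ^ 3 * v‖ := by
        rw [two_nsmul, two_mul]; exact norm_add_le _ _
    _ ≤ 2 * (‖a ^ 3‖ * ‖v‖) := by gcongr; exact norm_mul_le _ _
    _ ≤ 2 * (α ^ 3 * 2) := by gcongr
    _ = 4 * α ^ 3 := by ring

theorem cay_mem (S : StarSubalgebra ℂ A) (hS : IsClosed (S : Set A)) {α : ℝ} (h0 : 0 ≤ α)
    (h1 : α ≤ 1 / 2) {k : A} (hn : ‖k‖ ≤ 2) (hk : k ∈ S) : cay α k ∈ S := by
  have hle := norm_half_le h0 hn
  have ha : ‖((α / 2 : ℝ) : ℂ) • k‖ < 1 := by linarith only [h1, hle]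
  have hka : ((α / 2 : ℝ) : ℂ) • k ∈ S := S.smul_mem hk _
  have hsum := hasSum_geom_series_inverse _ ha
  have hv : Ring.inverse (1 - ((α / 2 : ℝ) : ℂ) • k) ∈ S := by
    refine hS.mem_of_tendsto hsum (Filter.Eventually.of_forall fun s => ?_)
    exact sum_mem fun i _ => pow_mem hka i
  exact mul_mem (add_mem (one_mem S) hka) hv

lemma coe_cayU {α : ℝ} (h0 : 0 ≤ α) (h1 : α ≤ 1 / 2) (m : Fin 4) (t : unitary A) :
    (cayU α m t : A) = cay α (kk m (t : A)) := by
  unfold cayU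
  rw [dif_pos (cay_mem_unitary h0 h1 (star_kk m _) (norm_kk_le m t))]

omit [CStarRing A] [StarModule ℂ A] [CompleteSpace A] in
lemma kk_add_two (m : Fin 4) (t : A) : kk (m + 2) t = - kk m t := by
  have h : (Complex.I ^ ((m + 2 : Fin 4) : ℕ)) = - (Complex.I ^ (m : ℕ)) := by
    fin_cases m
    · simp
    · show Complex.I ^ 3 = - Complex.I ^ 1
      rw [pow_succ, Complex.I_sq]; simp
    · show Complex.I ^ 0 = - Complex.I ^ 2
      rw [Complex.I_sq]; simp
    · show Complex.I ^ 1 = - Complex.I ^ 3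
      rw [pow_succ Complex.I 2, Complex.I_sq]; simp
  unfold kk
  rw [h, map_neg, neg_smul, neg_smul]
  abel

lemma cayU_inv {α : ℝ} (h0 : 0 ≤ α) (h1 : α ≤ 1 / 2) (m : Fin 4) (t : unitary A) :
    (cayU α m t)⁻¹ = cayU α (m + 2) t := by
  apply Subtype.ext
  rw [coe_inv_u, coe_cayU h0 h1, coe_cayU h0 h1, kk_add_two,
    cay_neg h0 h1 (star_kk m _) (norm_kk_le m t)]

lemma cayU_mem {ι : Type*} (b : ι → unitary A) {α : ℝ} (h0 : 0 ≤ α) (h1 : α ≤ 1 / 2)
    (m : Fin 4) (t : unitary A) (ht : (t : A) ∈ clAlg b) : (cayU α m t : A) ∈ clAlg b := by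
  rw [coe_cayU h0 h1]
  refine cay_mem (clAlg b) (clAlg_closed b) h0 h1 (norm_kk_le m t) ?_
  exact sub_mem ((clAlg b).smul_mem ht _) ((clAlg b).smul_mem (star_mem ht) _)

end Vale.Agent.P082.KR
end

section

open scoped Topology InnerProductSpace ComplexConjugate

namespace Vale.Agent.P082.KR

open Vale.Agent.P082 Filter

/-- ordered product of the conjugates `G_i r G_i⁻¹`, `i < n` -/
def pr {U : Type*} [Group U] (G : ℕ → U) (r : U) : ℕ → U
  | 0 => 1
  | n + 1 => pr G r n * (G n * r * (G n)⁻¹)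

/-- powers of a left perturbation -/
lemma pr_left {U : Type*} [Group U] (u a r : U) (n : ℕ) :
    (a * r * a⁻¹ * u) ^ n = pr (fun i => u ^ i * a) r n * u ^ n := by
  induction n with
  | zero => simp [pr]
  | succ n ih =>
    rw [pow_succ, ih, pr, pow_succ]
    group

/-- powers of a right perturbation -/
lemma pr_right {U : Type*} [Group U] (u a r : U) (n : ℕ) :
    (u * (a * r * a⁻¹)) ^ n = pr (fun i => u ^ (i + 1) * a) r n * u ^ n := by
  induction n with
  | zero => simp [pr]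
  | succ n ih =>
    rw [pow_succ, ih, pr, pow_succ]
    group

variable {A : Type*} [NormedRing A] [StarRing A] [CStarRing A] [NormedAlgebra ℂ A] [StarModule ℂ A]

/-- `∑_{i<n} G_i t G_i⁻¹` -/
noncomputable def sumT (G : ℕ → unitary A) (n : ℕ) (t : unitary A) : A :=
  ∑ i ∈ Finset.range n, (G i : A) * (t : A) * star (G i : A)

/-- `∑_{i<i'<n} G_i (t M t⁻¹ + t⁻¹ M t) G_{i'}⁻¹`, `M = G_i⁻¹ G_{i'}` -/
noncomputable def sumZ (G : ℕ → unitary A) (n : ℕ) (t : unitary A) : A :=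
  ∑ i' ∈ Finset.range n, ∑ i ∈ Finset.range i',
    (G i : A) * ((t : A) * (star (G i : A) * (G i' : A)) * star (t : A)
      + star (t : A) * (star (G i : A) * (G i' : A)) * (t : A)) * star (G i' : A)

section expand

/-- first order term -/
noncomputable def y1 (G : ℕ → unitary A) (k : A) (n : ℕ) : A :=
  ∑ i ∈ Finset.range n, (G i : A) * k * star (G i : A)

/-- second order term -/
noncomputable def y2 (G : ℕ → unitary A) (k : A) (n : ℕ) : A :=
  ∑ i' ∈ Finset.range n, (y1 G k i' * ((G i' : A) * k * star (G i' : A)) +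
    (1 / 2 : ℂ) • ((G i' : A) * k ^ 2 * star (G i' : A)))

omit [NormedAlgebra ℂ A] [StarModule ℂ A] in
lemma norm_conj_le (g : unitary A) (k : A) : ‖(g : A) * k * star (g : A)‖ ≤ ‖k‖ := by
  have h1 := norm_unitary_le g
  have h2 : ‖star (g : A)‖ ≤ 1 := by rw [norm_star]; exact h1
  calc ‖(g : A) * k * star (g : A)‖ ≤ ‖(g : A) * k‖ * ‖star (g : A)‖ := norm_mul_le _ _
    _ ≤ ‖(g : A)‖ * ‖k‖ * ‖star (g : A)‖ := by
        have := norm_mul_le (g : A) k
        gcongr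
    _ ≤ 1 * ‖k‖ * 1 := by gcongr
    _ = ‖k‖ := by ring

omit [NormedAlgebra ℂ A] [StarModule ℂ A] in
lemma norm_y1_le (G : ℕ → unitary A) {k : A} (hk : ‖k‖ ≤ 2) (n : ℕ) : ‖y1 G k n‖ ≤ 2 * n := by
  unfold y1
  refine (norm_sum_le _ _).trans ?_
  refine (Finset.sum_le_sum (fun i _ => (norm_conj_le (G i) k).trans hk)).trans ?_
  rw [Finset.sum_const, Finset.card_range, nsmul_eq_mul, mul_comm]

omit [StarRing A] [CStarRing A] [NormedAlgebra ℂ A] [StarModule ℂ A] in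
lemma norm_sq_le_four {k : A} (hk : ‖k‖ ≤ 2) : ‖k ^ 2‖ ≤ 4 := by
  rw [pow_two]
  refine (norm_mul_le _ _).trans ?_
  exact (mul_le_mul hk hk (norm_nonneg _) (by norm_num)).trans (by norm_num)

omit [StarModule ℂ A] in
lemma norm_y2_le (G : ℕ → unitary A) {k : A} (hk : ‖k‖ ≤ 2) (n : ℕ) :
    ‖y2 G k n‖ ≤ 4 * (n : ℝ) ^ 2 + 2 * n := by
  have hterm : ∀ i' ∈ Finset.range n, ‖y1 G k i' * ((G i' : A) * k * star (G i' : A)) +
      (1 / 2 : ℂ) • ((G i' : A) * k ^ 2 * star (G i' : A))‖ ≤ 4 * (n : ℝ) + 2 := by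
    intro i' hi'
    rw [Finset.mem_range] at hi'
    have hi'' : (i' : ℝ) ≤ n := by exact_mod_cast hi'.le
    refine (norm_add_le _ _).trans ?_
    have h1 : ‖y1 G k i' * ((G i' : A) * k * star (G i' : A))‖ ≤ 2 * n * 2 := by
      refine (norm_mul_le _ _).trans ?_
      have h2 := norm_y1_le G hk i'
      have h3 := (norm_conj_le (G i') k).trans hk
      have h4 : ‖y1 G k i'‖ ≤ 2 * n := by linarith only [hi'', h2]
      gcongr
    have h2 : ‖(1 / 2 : ℂ) • ((G i' : A) * k ^ 2 * star (G i' : A))‖ ≤ 2 := by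
      rw [norm_smul]
      have h3 := (norm_conj_le (G i') (k ^ 2)).trans (norm_sq_le_four hk)
      have h4 : ‖(1 / 2 : ℂ)‖ = 1 / 2 := by norm_num
      rw [h4]
      linarith only [h3]
    linarith
  unfold y2
  refine (norm_sum_le _ _).trans ((Finset.sum_le_sum hterm).trans (le_of_eq ?_))
  rw [Finset.sum_const, Finset.card_range, nsmul_eq_mul]
  ring

omit [StarModule ℂ A] in
lemma pr_expand (n : ℕ) : ∃ c : ℝ, 0 ≤ c ∧ ∀ (G : ℕ → unitary A) (r : unitary A) (k : A) (α : ℝ),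
    0 ≤ α → α ≤ 1 / 2 → ‖k‖ ≤ 2 →
    ‖(r : A) - (1 + (α : ℂ) • k + ((α ^ 2 / 2 : ℝ) : ℂ) • k ^ 2)‖ ≤ 4 * α ^ 3 →
    ‖((pr G r n : unitary A) : A) - (1 + (α : ℂ) • y1 G k n + ((α ^ 2 : ℝ) : ℂ) • y2 G k n)‖ ≤
      c * α ^ 3 := by
  induction n with
  | zero =>
    refine ⟨0, le_rfl, fun G r k α h0 h1 hk hr => ?_⟩
    simp [pr, y1, y2]
  | succ n ih =>
    obtain ⟨c, hc, ih⟩ := ih
    refine ⟨c + 4 * (1 + 2 * n + (4 * n ^ 2 + 2 * n)) + (4 * n + 2 * (4 * n ^ 2 + 2 * n)) +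
      2 * (4 * n ^ 2 + 2 * n), by (clear * - hc; positivity), fun G r k α h0 h1 hk hr => ?_⟩
    have ihn := ih G r k α h0 h1 hk hr
    set P : A := ((pr G r n : unitary A) : A) with hP
    set Y1 : A := y1 G k n with hY1
    set Y2 : A := y2 G k n with hY2
    set ρ : A := (G n : A) * (r : A) * star (G n : A) with hρ
    set κ : A := (G n : A) * k * star (G n : A) with hκ
    set κ2 : A := (G n : A) * k ^ 2 * star (G n : A) with hκ2
    have nY1 : ‖Y1‖ ≤ 2 * n := norm_y1_le G hk n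
    have nY2 : ‖Y2‖ ≤ 4 * (n : ℝ) ^ 2 + 2 * n := norm_y2_le G hk n
    have nκ : ‖κ‖ ≤ 2 := (norm_conj_le (G n) k).trans hk
    have nκ2 : ‖κ2‖ ≤ 4 := (norm_conj_le (G n) (k ^ 2)).trans (norm_sq_le_four hk)
    have nρ : ‖ρ‖ ≤ 1 := (norm_conj_le (G n) (r : A)).trans (norm_unitary_le r)
    have hα1 : α ≤ 1 := by linarith only [h1]
    have hα2 : α ^ 2 ≤ 1 := pow_le_one₀ h0 hα1
    -- the step
    have e1 : ((pr G r (n + 1) : unitary A) : A) = P * ρ := rfl
    have e2 : y1 G k (n + 1) = Y1 + κ := by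
      rw [y1, Finset.sum_range_succ]
      rfl
    have e3 : y2 G k (n + 1) = Y2 + (Y1 * κ + (1 / 2 : ℂ) • κ2) := by
      rw [y2, Finset.sum_range_succ]
      rfl
    have e4 : ρ - (1 + (α : ℂ) • κ + ((α ^ 2 / 2 : ℝ) : ℂ) • κ2) =
        (G n : A) * ((r : A) - (1 + (α : ℂ) • k + ((α ^ 2 / 2 : ℝ) : ℂ) • k ^ 2)) *
          star (G n : A) := by
      simp only [mul_sub, sub_mul, mul_add, add_mul, mul_smul_comm, smul_mul_assoc, mul_one,
        mul_star_self_u]
      rfl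
    have n4 : ‖ρ - (1 + (α : ℂ) • κ + ((α ^ 2 / 2 : ℝ) : ℂ) • κ2)‖ ≤ 4 * α ^ 3 := by
      rw [e4]
      exact (norm_conj_le _ _).trans hr
    have e5 : P * ρ - (1 + (α : ℂ) • (Y1 + κ) + ((α ^ 2 : ℝ) : ℂ) • (Y2 + (Y1 * κ + (1 / 2 : ℂ) • κ2)))
        = (P - (1 + (α : ℂ) • Y1 + ((α ^ 2 : ℝ) : ℂ) • Y2)) * ρ +
          (1 + (α : ℂ) • Y1 + ((α ^ 2 : ℝ) : ℂ) • Y2) *
            (ρ - (1 + (α : ℂ) • κ + ((α ^ 2 / 2 : ℝ) : ℂ) • κ2)) +
          (((α ^ 3 / 2 : ℝ) : ℂ) • (Y1 * κ2) + ((α ^ 3 : ℝ) : ℂ) • (Y2 * κ)) +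
          ((α ^ 4 / 2 : ℝ) : ℂ) • (Y2 * κ2) := by
      simp only [mul_sub, sub_mul, mul_add, add_mul, mul_smul_comm, smul_mul_assoc, mul_one,
        one_mul]
      push_cast
      module
    have hs : ∀ (a : ℝ) (z : A), 0 ≤ a → ‖(a : ℂ) • z‖ = a * ‖z‖ := by
      intro a z ha
      rw [norm_smul, Complex.norm_real, Real.norm_eq_abs, abs_of_nonneg ha]
    have n5 : ‖(P - (1 + (α : ℂ) • Y1 + ((α ^ 2 : ℝ) : ℂ) • Y2)) * ρ‖ ≤ c * α ^ 3 := by
      refine (norm_mul_le _ _).trans ?_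
      calc _ ≤ c * α ^ 3 * 1 := by (clear * - hc h0 ihn nρ; gcongr)
        _ = _ := mul_one _
    have nS : ‖1 + (α : ℂ) • Y1 + ((α ^ 2 : ℝ) : ℂ) • Y2‖ ≤ 1 + 2 * n + (4 * n ^ 2 + 2 * n) := by
      refine (norm_add_le _ _).trans (add_le_add ((norm_add_le _ _).trans (add_le_add norm_one_le' ?_)) ?_)
      · rw [hs _ _ h0]
        calc α * ‖Y1‖ ≤ 1 * (2 * n) := by (clear * - nY1 hα1; gcongr)
          _ = _ := one_mul _
      · rw [hs _ _ (by (clear * -; positivity))]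
        calc α ^ 2 * ‖Y2‖ ≤ 1 * (4 * n ^ 2 + 2 * n) := by (clear * - nY2 hα2; gcongr)
          _ = _ := one_mul _
    have n6 : ‖(1 + (α : ℂ) • Y1 + ((α ^ 2 : ℝ) : ℂ) • Y2) *
            (ρ - (1 + (α : ℂ) • κ + ((α ^ 2 / 2 : ℝ) : ℂ) • κ2))‖ ≤
          (1 + 2 * n + (4 * n ^ 2 + 2 * n)) * (4 * α ^ 3) := by
      refine (norm_mul_le _ _).trans ?_
      (clear * - n4 nS; gcongr)
    have n7 : ‖((α ^ 3 / 2 : ℝ) : ℂ) • (Y1 * κ2) + ((α ^ 3 : ℝ) : ℂ) • (Y2 * κ)‖ ≤
        (4 * n + 2 * (4 * n ^ 2 + 2 * n)) * α ^ 3 := by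
      refine (norm_add_le _ _).trans ?_
      rw [hs _ _ (by (clear * - h0; positivity)), hs _ _ (by (clear * - h0; positivity))]
      have h2 : ‖Y1 * κ2‖ ≤ 2 * n * 4 := (norm_mul_le _ _).trans (by (clear * - nY1 nκ2; gcongr))
      have h3 : ‖Y2 * κ‖ ≤ (4 * n ^ 2 + 2 * n) * 2 := (norm_mul_le _ _).trans (by (clear * - nY2 nκ; gcongr))
      have h4 : 0 ≤ α ^ 3 := by (clear * - h0; positivity)
      linarith only [mul_le_mul_of_nonneg_left h2 h4, mul_le_mul_of_nonneg_left h3 h4]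
    have n8 : ‖((α ^ 4 / 2 : ℝ) : ℂ) • (Y2 * κ2)‖ ≤ 2 * (4 * n ^ 2 + 2 * n) * α ^ 3 := by
      rw [hs _ _ (by (clear * -; positivity))]
      have h3 : ‖Y2 * κ2‖ ≤ (4 * n ^ 2 + 2 * n) * 4 := (norm_mul_le _ _).trans (by (clear * - nY2 nκ2; gcongr))
      have h4 : α ^ 4 ≤ α ^ 3 := pow_le_pow_of_le_one h0 hα1 (by norm_num)
      calc α ^ 4 / 2 * ‖Y2 * κ2‖ ≤ α ^ 3 / 2 * ((4 * n ^ 2 + 2 * n) * 4) := by (clear * - h0 h3 h4; gcongr)
        _ = _ := by ring
    rw [e1, e2, e3, e5]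
    refine (norm_add_le _ _).trans ((add_le_add ((norm_add_le _ _).trans
      (add_le_add ((norm_add_le _ _).trans (add_le_add n5 n6)) n7)) n8).trans (le_of_eq ?_))
    ring

lemma expand_sq {E : Type*} [SeminormedAddCommGroup E] [InnerProductSpace ℂ E] {a b c d : E}
    {α B c1 c2 c3 : ℝ} (hα0 : 0 ≤ α) (hα1 : α ≤ 1) (hB : 0 ≤ B) (h1 : 0 ≤ c1) (h2 : 0 ≤ c2)
    (_ : 0 ≤ c3) (ha : ‖a‖ ≤ B) (hb : ‖b‖ ≤ c1 * B) (hc : ‖c‖ ≤ c2 * B)
    (hd : ‖d‖ ≤ c3 * B * α ^ 3) :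
    ‖a + (α : ℂ) • b + ((α ^ 2 : ℝ) : ℂ) • c + d‖ ^ 2 ≤
      ‖a‖ ^ 2 + 2 * α * (⟪a, b⟫_ℂ).re + 2 * α ^ 2 * (⟪a, c⟫_ℂ).re + α ^ 2 * ‖b‖ ^ 2 +
      (2 * c1 * c2 + c2 ^ 2 + 2 * (1 + c1 + c2) * c3 + c3 ^ 2) * B ^ 2 * α ^ 3 := by
  have hα2 : α ^ 2 ≤ 1 := pow_le_one₀ hα0 hα1
  have hα3 : α ^ 3 ≤ 1 := pow_le_one₀ hα0 hα1
  have hs : ∀ (r : ℝ) (z : E), 0 ≤ r → ‖(r : ℂ) • z‖ = r * ‖z‖ := by
    intro r z hr
    rw [norm_smul, Complex.norm_real, Real.norm_eq_abs, abs_of_nonneg hr]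
  have hre : ∀ (r : ℝ) (y z : E), (⟪y, (r : ℂ) • z⟫_ℂ).re = r * (⟪y, z⟫_ℂ).re := by
    intro r y z
    rw [inner_smul_right, Complex.re_ofReal_mul]
  have hre' : ∀ (r : ℝ) (y z : E), (⟪(r : ℂ) • y, z⟫_ℂ).re = r * (⟪y, z⟫_ℂ).re := by
    intro r y z
    rw [inner_smul_left, Complex.conj_ofReal, Complex.re_ofReal_mul]
  have hcs : ∀ y z : E, (⟪y, z⟫_ℂ).re ≤ ‖y‖ * ‖z‖ := by
    intro y z
    exact (Complex.re_le_norm _).trans (norm_inner_le_norm y z)
  have hadd : ∀ y z : E, ‖y + z‖ ^ 2 = ‖y‖ ^ 2 + 2 * (⟪y, z⟫_ℂ).re + ‖z‖ ^ 2 := fun y z =>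
    norm_add_sq (𝕜 := ℂ) y z
  have hb' : ‖(α : ℂ) • b‖ ≤ c1 * B := by
    rw [hs _ _ hα0]
    calc α * ‖b‖ ≤ 1 * (c1 * B) := by (clear * - hα1 hb; gcongr)
      _ = _ := one_mul _
  have hc' : ‖((α ^ 2 : ℝ) : ℂ) • c‖ ≤ c2 * B := by
    rw [hs _ _ (by positivity)]
    calc α ^ 2 * ‖c‖ ≤ 1 * (c2 * B) := by (clear * - hc hα2; gcongr)
      _ = _ := one_mul _
  have hS : ‖a + (α : ℂ) • b + ((α ^ 2 : ℝ) : ℂ) • c‖ ≤ (1 + c1 + c2) * B := by
    refine (norm_add_le _ _).trans ((add_le_add ((norm_add_le _ _).trans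
      (add_le_add ha hb')) hc').trans (le_of_eq ?_))
    ring
  have e1 := hadd (a + (α : ℂ) • b + ((α ^ 2 : ℝ) : ℂ) • c) d
  have e2 := hadd (a + (α : ℂ) • b) (((α ^ 2 : ℝ) : ℂ) • c)
  have e3 := hadd a ((α : ℂ) • b)
  rw [hre, inner_add_left, Complex.add_re, hre', hs _ _ (by (clear * -; positivity))] at e2
  rw [hre, hs _ _ hα0] at e3
  have f1 : (⟪a + (α : ℂ) • b + ((α ^ 2 : ℝ) : ℂ) • c, d⟫_ℂ).re ≤
      (1 + c1 + c2) * B * (c3 * B * α ^ 3) := by
    refine (hcs _ _).trans ?_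
    (clear * - hB h1 h2 hd hS; gcongr)
  have f2 : ‖d‖ ^ 2 ≤ c3 ^ 2 * B ^ 2 * α ^ 3 := by
    calc ‖d‖ ^ 2 ≤ (c3 * B * α ^ 3) ^ 2 := by (clear * - hd; gcongr)
      _ = c3 ^ 2 * B ^ 2 * α ^ 3 * α ^ 3 := by ring
      _ ≤ c3 ^ 2 * B ^ 2 * α ^ 3 * 1 := by (clear * - hα0 hα3; gcongr)
      _ = _ := mul_one _
  have f3 : (⟪b, c⟫_ℂ).re ≤ c1 * B * (c2 * B) := by
    refine (hcs _ _).trans ?_
    (clear * - hB h1 hb hc; gcongr)
  have f4 : (α ^ 2 * ‖c‖) ^ 2 ≤ c2 ^ 2 * B ^ 2 * α ^ 3 := by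
    calc (α ^ 2 * ‖c‖) ^ 2 ≤ (α ^ 2 * (c2 * B)) ^ 2 := by (clear * - hc; gcongr)
      _ = c2 ^ 2 * B ^ 2 * α ^ 3 * α := by ring
      _ ≤ c2 ^ 2 * B ^ 2 * α ^ 3 * 1 := by (clear * - hα0 hα1; gcongr)
      _ = _ := mul_one _
  have f5 : α ^ 2 * (α * (⟪b, c⟫_ℂ).re) ≤ c1 * c2 * B ^ 2 * α ^ 3 := by
    calc α ^ 2 * (α * (⟪b, c⟫_ℂ).re) ≤ α ^ 2 * (α * (c1 * B * (c2 * B))) := by (clear * - hα0 f3; gcongr)
      _ = _ := by ring
  rw [e1, e2, e3]
  linarith only [f1, f2, f4, f5]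

end expand

section phases

lemma sum_I : ∑ m : Fin 4, (Complex.I ^ (m : ℕ)) = 0 := by
  simp only [Fin.sum_univ_four]
  simp [pow_succ]

lemma sum_conj_I : ∑ m : Fin 4, conj (Complex.I ^ (m : ℕ)) = 0 := by
  rw [← map_sum, sum_I, map_zero]

lemma sum_I_sq : ∑ m : Fin 4, (Complex.I ^ (m : ℕ)) ^ 2 = 0 := by
  simp only [Fin.sum_univ_four]
  simp [pow_succ]

lemma sum_conj_I_sq : ∑ m : Fin 4, (conj (Complex.I ^ (m : ℕ))) ^ 2 = 0 := by
  have h : ∀ m : Fin 4, (conj (Complex.I ^ (m : ℕ))) ^ 2 = conj ((Complex.I ^ (m : ℕ)) ^ 2) :=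
    fun m => by simp only [map_pow]
  simp_rw [h]
  rw [← map_sum, sum_I_sq, map_zero]

lemma I_mul_conj (m : Fin 4) : Complex.I ^ (m : ℕ) * conj (Complex.I ^ (m : ℕ)) = 1 := by
  rw [Complex.mul_conj, Complex.normSq_eq_norm_sq]
  simp

omit [CStarRing A] [StarModule ℂ A] in
lemma kMk (m : Fin 4) (t : unitary A) (M : A) :
    kk m (t : A) * M * kk m (t : A) =
      (Complex.I ^ (m : ℕ)) ^ 2 • ((t : A) * M * (t : A)) +
      (conj (Complex.I ^ (m : ℕ))) ^ 2 • (star (t : A) * M * star (t : A)) -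
      ((t : A) * M * star (t : A) + star (t : A) * M * (t : A)) := by
  have h := I_mul_conj m
  have h' : conj (Complex.I ^ (m : ℕ)) * Complex.I ^ (m : ℕ) = 1 := by rw [mul_comm]; exact h
  unfold kk
  simp only [sub_mul, mul_sub, smul_mul_assoc, mul_smul_comm, smul_sub, smul_smul]
  rw [h, h', one_smul, one_smul, pow_two, pow_two]
  abel

omit [CStarRing A] [StarModule ℂ A] in
lemma sum_kMk (t : unitary A) (M : A) :
    ∑ m : Fin 4, kk m (t : A) * M * kk m (t : A) =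
      (-4 : ℂ) • ((t : A) * M * star (t : A) + star (t : A) * M * (t : A)) := by
  simp_rw [kMk]
  rw [Finset.sum_sub_distrib, Finset.sum_add_distrib, ← Finset.sum_smul, ← Finset.sum_smul,
    sum_I_sq, sum_conj_I_sq, zero_smul, zero_smul, Finset.sum_const, Finset.card_univ,
    Fintype.card_fin, zero_add, zero_sub]
  module

omit [CStarRing A] [StarModule ℂ A] in
lemma y1_kk (G : ℕ → unitary A) (t : unitary A) (n : ℕ) (m : Fin 4) :
    y1 G (kk m (t : A)) n = (Complex.I ^ (m : ℕ)) • sumT G n t -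
      (conj (Complex.I ^ (m : ℕ))) • sumT G n t⁻¹ := by
  unfold y1 sumT kk
  rw [Finset.smul_sum, Finset.smul_sum, ← Finset.sum_sub_distrib]
  refine Finset.sum_congr rfl fun i _ => ?_
  simp only [mul_sub, sub_mul, mul_smul_comm, smul_mul_assoc, coe_inv_u]

omit [CStarRing A] [StarModule ℂ A] in
lemma sum_y1 (G : ℕ → unitary A) (t : unitary A) (n : ℕ) :
    ∑ m : Fin 4, y1 G (kk m (t : A)) n = 0 := by
  simp_rw [y1_kk]
  rw [Finset.sum_sub_distrib, ← Finset.sum_smul, ← Finset.sum_smul, sum_I, sum_conj_I, zero_smul,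
    zero_smul, sub_zero]

omit [CStarRing A] [StarModule ℂ A] in
lemma sum_y2 (G : ℕ → unitary A) (t : unitary A) (n : ℕ) :
    ∑ m : Fin 4, y2 G (kk m (t : A)) n = (-4 : ℂ) • ((n : ℂ) • (1 : A) + sumZ G n t) := by
  unfold y2 sumZ
  rw [Finset.sum_comm]
  have h1 : ∀ i' ∈ Finset.range n, ∑ m : Fin 4,
      (y1 G (kk m (t : A)) i' * ((G i' : A) * kk m (t : A) * star (G i' : A)) +
        (1 / 2 : ℂ) • ((G i' : A) * kk m (t : A) ^ 2 * star (G i' : A))) =
      (-4 : ℂ) • ((1 : A) + ∑ i ∈ Finset.range i',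
        (G i : A) * ((t : A) * (star (G i : A) * (G i' : A)) * star (t : A)
          + star (t : A) * (star (G i : A) * (G i' : A)) * (t : A)) * star (G i' : A)) := by
    intro i' _
    rw [Finset.sum_add_distrib]
    have h2 : ∑ m : Fin 4, (1 / 2 : ℂ) • ((G i' : A) * kk m (t : A) ^ 2 * star (G i' : A)) =
        (-4 : ℂ) • (1 : A) := by
      have h3 := sum_kMk t (1 : A)
      have h4 : ∀ m : Fin 4, kk m (t : A) * 1 * kk m (t : A) = kk m (t : A) ^ 2 := fun m => by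
        rw [mul_one, pow_two]
      simp_rw [h4, mul_one, mul_star_self_u, star_mul_self_u] at h3
      rw [← Finset.smul_sum, ← Finset.sum_mul, ← Finset.mul_sum, h3, mul_smul_comm,
        smul_mul_assoc, mul_add, add_mul, mul_one, mul_star_self_u]
      module
    have h5 : ∑ m : Fin 4, y1 G (kk m (t : A)) i' * ((G i' : A) * kk m (t : A) * star (G i' : A)) =
        (-4 : ℂ) • ∑ i ∈ Finset.range i',
        (G i : A) * ((t : A) * (star (G i : A) * (G i' : A)) * star (t : A)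
          + star (t : A) * (star (G i : A) * (G i' : A)) * (t : A)) * star (G i' : A) := by
      unfold y1
      simp_rw [Finset.sum_mul]
      rw [Finset.sum_comm, Finset.smul_sum]
      refine Finset.sum_congr rfl fun i _ => ?_
      have h6 := sum_kMk t (star (G i : A) * (G i' : A))
      have h7 : ∀ m : Fin 4, (G i : A) * kk m (t : A) * star (G i : A) *
          ((G i' : A) * kk m (t : A) * star (G i' : A)) =
          (G i : A) * (kk m (t : A) * (star (G i : A) * (G i' : A)) * kk m (t : A)) *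
            star (G i' : A) := fun m => by simp only [mul_assoc]
      simp_rw [h7]
      rw [← Finset.sum_mul, ← Finset.mul_sum, h6, mul_smul_comm, smul_mul_assoc]
    rw [h2, h5, smul_add, add_comm]
  rw [Finset.sum_congr rfl h1, ← Finset.smul_sum, Finset.sum_add_distrib, Finset.sum_const,
    Finset.card_range, ← Nat.cast_smul_eq_nsmul ℂ]

lemma sum_norm_phase {E : Type*} [SeminormedAddCommGroup E] [InnerProductSpace ℂ E] (u v : E) :
    ∑ m : Fin 4, ‖(Complex.I ^ (m : ℕ)) • u - (conj (Complex.I ^ (m : ℕ))) • v‖ ^ 2 =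
      4 * (‖u‖ ^ 2 + ‖v‖ ^ 2) := by
  have h1 : ∀ m : Fin 4, ‖(Complex.I ^ (m : ℕ)) • u - (conj (Complex.I ^ (m : ℕ))) • v‖ ^ 2 =
      ‖u‖ ^ 2 + ‖v‖ ^ 2 - 2 * ((conj (Complex.I ^ (m : ℕ))) ^ 2 * ⟪u, v⟫_ℂ).re := by
    intro m
    have h2 : ‖(Complex.I ^ (m : ℕ)) • u - (conj (Complex.I ^ (m : ℕ))) • v‖ ^ 2 =
      ‖(Complex.I ^ (m : ℕ)) • u‖ ^ 2 - 2 * (⟪(Complex.I ^ (m : ℕ)) • u,
        (conj (Complex.I ^ (m : ℕ))) • v⟫_ℂ).re + ‖(conj (Complex.I ^ (m : ℕ))) • v‖ ^ 2 :=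
      norm_sub_sq (𝕜 := ℂ) _ _
    rw [h2, norm_smul, norm_smul, inner_smul_left, inner_smul_right]
    have h3 : ‖Complex.I ^ (m : ℕ)‖ = 1 := by simp
    have h4 : ‖conj (Complex.I ^ (m : ℕ))‖ = 1 := by rw [RCLike.norm_conj]; exact h3
    rw [h3, h4, one_mul, one_mul, ← mul_assoc, ← pow_two]
    ring
  simp_rw [h1]
  rw [Finset.sum_sub_distrib, ← Finset.mul_sum, ← Complex.re_sum, ← Finset.sum_mul, sum_conj_I_sq,
    zero_mul, Complex.zero_re, mul_zero, sub_zero, Finset.sum_const, Finset.card_univ,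
    Fintype.card_fin, nsmul_eq_mul]
  norm_num

end phases

variable [CompleteSpace A]

/-- Lemma 3: second order expansion, averaged over the four phases -/
theorem euler_aux (n : ℕ) : ∃ Kn : ℝ, 0 ≤ Kn ∧
    ∀ (E : Type*) [SeminormedAddCommGroup E] [InnerProductSpace ℂ E] (ψ : A →ₗ[ℂ] E) (B : ℝ)
      (_ : ∀ z, ‖ψ z‖ ≤ B * ‖z‖) (G : ℕ → unitary A) (t x : unitary A) (α : ℝ)
      (_ : 0 ≤ α) (_ : α ≤ 1 / 2),
      avg (fun m : Fin 4 => ‖ψ ((pr G (cayU α m t) n * x : unitary A) : A)‖ ^ 2)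
        ≤ (1 - 2 * n * α ^ 2) * ‖ψ (x : A)‖ ^ 2
          + α ^ 2 * (‖ψ (sumT G n t * (x : A))‖ ^ 2 + ‖ψ (sumT G n t⁻¹ * (x : A))‖ ^ 2)
          - 2 * α ^ 2 * (⟪ψ (x : A), ψ (sumZ G n t * (x : A))⟫_ℂ).re
          + Kn * B ^ 2 * α ^ 3 := by
  obtain ⟨c3, hc3, hexp⟩ := pr_expand (A := A) n
  set c1 : ℝ := 2 * n with hc1
  set c2 : ℝ := 4 * (n : ℝ) ^ 2 + 2 * n with hc2
  refine ⟨2 * c1 * c2 + c2 ^ 2 + 2 * (1 + c1 + c2) * c3 + c3 ^ 2, by (clear * - n hc3; positivity), ?_⟩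
  intro E _ _ ψ B₀ hψ₀ G t x α h0 h1
  set B : ℝ := |B₀| with hB
  have hB0 : 0 ≤ B := abs_nonneg _
  have hψ : ∀ z, ‖ψ z‖ ≤ B * ‖z‖ := fun z =>
    (hψ₀ z).trans (mul_le_mul_of_nonneg_right (le_abs_self _) (norm_nonneg _))
  have hBB : B₀ ^ 2 = B ^ 2 := (sq_abs B₀).symm
  rw [hBB]
  have hx : ‖(x : A)‖ ≤ 1 := norm_unitary_le x
  have hψx : ∀ (z : A) (c : ℝ), ‖z‖ ≤ c → ‖ψ (z * (x : A))‖ ≤ c * B := by
    intro z c hz
    have hc : 0 ≤ c := (norm_nonneg z).trans hz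
    calc ‖ψ (z * (x : A))‖ ≤ B * ‖z * (x : A)‖ := hψ _
      _ ≤ B * (‖z‖ * ‖(x : A)‖) := by
          have := norm_mul_le z (x : A)
          (clear * - B₀ this; gcongr)
      _ ≤ B * (c * 1) := by (clear * - B₀ hx hz hc; gcongr)
      _ = c * B := by ring
  have key : ∀ m : Fin 4, ‖ψ ((pr G (cayU α m t) n * x : unitary A) : A)‖ ^ 2 ≤
      ‖ψ (x : A)‖ ^ 2 + 2 * α * (⟪ψ (x : A), ψ (y1 G (kk m (t : A)) n * (x : A))⟫_ℂ).re +
        2 * α ^ 2 * (⟪ψ (x : A), ψ (y2 G (kk m (t : A)) n * (x : A))⟫_ℂ).re +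
        α ^ 2 * ‖ψ (y1 G (kk m (t : A)) n * (x : A))‖ ^ 2 +
        (2 * c1 * c2 + c2 ^ 2 + 2 * (1 + c1 + c2) * c3 + c3 ^ 2) * B ^ 2 * α ^ 3 := by
    intro m
    have hk := norm_kk_le m t
    have hr : ‖(cayU α m t : A) - (1 + (α : ℂ) • kk m (t : A) +
        ((α ^ 2 / 2 : ℝ) : ℂ) • kk m (t : A) ^ 2)‖ ≤ 4 * α ^ 3 := by
      rw [coe_cayU h0 h1]
      exact cay_expand h0 h1 hk
    have hP := hexp G (cayU α m t) (kk m (t : A)) α h0 h1 hk hr
    have e1 : ψ ((pr G (cayU α m t) n * x : unitary A) : A) =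
        ψ (x : A) + (α : ℂ) • ψ (y1 G (kk m (t : A)) n * (x : A)) +
          ((α ^ 2 : ℝ) : ℂ) • ψ (y2 G (kk m (t : A)) n * (x : A)) +
          ψ ((((pr G (cayU α m t) n : unitary A) : A) - (1 + (α : ℂ) • y1 G (kk m (t : A)) n +
            ((α ^ 2 : ℝ) : ℂ) • y2 G (kk m (t : A)) n)) * (x : A)) := by
      rw [← map_smul, ← map_smul, ← map_add, ← map_add, ← map_add]
      congr 1
      have e2 : ((pr G (cayU α m t) n * x : unitary A) : A) =
        ((pr G (cayU α m t) n : unitary A) : A) * (x : A) := rfl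
      rw [e2]
      simp only [sub_mul, add_mul, one_mul, smul_mul_assoc]
      abel
    rw [e1]
    refine expand_sq h0 (by linarith only [h1]) hB0 (by (clear * - n; positivity)) (by (clear * - n; positivity)) hc3 ?_ ?_ ?_ ?_
    · calc ‖ψ (x : A)‖ ≤ B * ‖(x : A)‖ := hψ _
        _ ≤ B * 1 := by (clear * - B₀ hx; gcongr)
        _ = B := mul_one _
    · exact hψx _ _ (norm_y1_le G hk n)
    · exact hψx _ _ (norm_y2_le G hk n)
    · refine (hψx _ _ hP).trans (le_of_eq ?_)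
      ring
  have hsum1 : ∑ m : Fin 4, (⟪ψ (x : A), ψ (y1 G (kk m (t : A)) n * (x : A))⟫_ℂ).re = 0 := by
    rw [← Complex.re_sum, ← inner_sum, ← map_sum, ← Finset.sum_mul, sum_y1, zero_mul, map_zero,
      inner_zero_right, Complex.zero_re]
  have hsum2 : ∑ m : Fin 4, (⟪ψ (x : A), ψ (y2 G (kk m (t : A)) n * (x : A))⟫_ℂ).re =
      -4 * (n * ‖ψ (x : A)‖ ^ 2 + (⟪ψ (x : A), ψ (sumZ G n t * (x : A))⟫_ℂ).re) := by
    rw [← Complex.re_sum, ← inner_sum, ← map_sum, ← Finset.sum_mul, sum_y2, smul_mul_assoc,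
      add_mul, smul_mul_assoc, one_mul, map_smul, map_add, map_smul, inner_smul_right,
      inner_add_right, inner_smul_right]
    have e2 : (⟪ψ (x : A), ψ (x : A)⟫_ℂ) = ((‖ψ (x : A)‖ ^ 2 : ℝ) : ℂ) := by
      rw [inner_self_eq_norm_sq_to_K]
      push_cast
      rfl
    have e3 : (-4 : ℂ) = ((-4 : ℝ) : ℂ) := by push_cast; rfl
    have e4 : (n : ℂ) = ((n : ℝ) : ℂ) := by push_cast; rfl
    rw [e2, e3, e4, Complex.re_ofReal_mul, Complex.add_re, Complex.re_ofReal_mul, Complex.ofReal_re]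
  have hsum3 : ∑ m : Fin 4, ‖ψ (y1 G (kk m (t : A)) n * (x : A))‖ ^ 2 =
      4 * (‖ψ (sumT G n t * (x : A))‖ ^ 2 + ‖ψ (sumT G n t⁻¹ * (x : A))‖ ^ 2) := by
    rw [← sum_norm_phase]
    refine Finset.sum_congr rfl fun m _ => ?_
    rw [y1_kk, sub_mul, smul_mul_assoc, smul_mul_assoc, map_sub, map_smul, map_smul]
  refine (avg_mono key).trans ?_
  unfold avg
  rw [Finset.sum_add_distrib, Finset.sum_add_distrib, Finset.sum_add_distrib,
    Finset.sum_add_distrib, ← Finset.mul_sum, ← Finset.mul_sum, ← Finset.mul_sum, hsum1, hsum2,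
    hsum3, Finset.sum_const, Finset.sum_const, Finset.card_univ, Fintype.card_fin, nsmul_eq_mul,
    nsmul_eq_mul, smul_eq_mul]
  push_cast
  apply le_of_eq
  ring


universe u

/-- the second order estimate with constant `Kn` -/
def EulerBd (A : Type u) [NormedRing A] [StarRing A] [NormedAlgebra ℂ A] (n : ℕ) (Kn : ℝ) :
    Prop :=
  ∀ (E : Type u) [SeminormedAddCommGroup E] [InnerProductSpace ℂ E] (ψ : A →ₗ[ℂ] E) (B : ℝ)
      (_ : ∀ z, ‖ψ z‖ ≤ B * ‖z‖) (G : ℕ → unitary A) (t x : unitary A) (α : ℝ)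
      (_ : 0 ≤ α) (_ : α ≤ 1 / 2),
      avg (fun m : Fin 4 => ‖ψ ((pr G (cayU α m t) n * x : unitary A) : A)‖ ^ 2)
        ≤ (1 - 2 * n * α ^ 2) * ‖ψ (x : A)‖ ^ 2
          + α ^ 2 * (‖ψ (sumT G n t * (x : A))‖ ^ 2 + ‖ψ (sumT G n t⁻¹ * (x : A))‖ ^ 2)
          - 2 * α ^ 2 * (⟪ψ (x : A), ψ (sumZ G n t * (x : A))⟫_ℂ).re
          + Kn * B ^ 2 * α ^ 3

/-- Lemma 3: second order expansion, averaged over the four phases -/
theorem euler (A : Type u) [NormedRing A] [StarRing A] [CStarRing A] [NormedAlgebra ℂ A]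
    [StarModule ℂ A] [CompleteSpace A] (n : ℕ) : ∃ Kn : ℝ, 0 ≤ Kn ∧ EulerBd A n Kn := by
  obtain ⟨Kn, h0, h⟩ := euler_aux (A := A) n
  exact ⟨Kn, h0, fun E _ _ ψ B hψ G t x α h1 h2 => h E ψ B hψ G t x α h1 h2⟩

section

variable {A : Type u} [NormedRing A] [StarRing A] [CStarRing A] [NormedAlgebra ℂ A]
  [StarModule ℂ A] {ι : Type*} [Fintype ι] {b : ι → unitary A}

omit [CStarRing A] [StarModule ℂ A] in
/-- pull constants out of a walk average -/
lemma wavg_mul_mul (l : ℕ) (g g' : A) (F : unitary A → A) :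
    wavg b l (fun t => g * F t * g') = g * wavg b l F * g' := by
  refine (wavg_map' b l (fun y : A => g * y * g') (fun x y => ?_) (fun c y => ?_) F).symm
  · rw [mul_add, add_mul]
  · rw [mul_smul_comm, smul_mul_assoc]

omit [CStarRing A] [StarModule ℂ A] in
lemma wavg_conj_symm (hb : ∃ σ : ι → ι, Function.Bijective σ ∧ ∀ i, b (σ i) = (b i)⁻¹)
    (l : ℕ) (M : A) :
    wavg b l (fun t => (t : A) * M * star (t : A) + star (t : A) * M * (t : A))
      = (2 : ℝ) • cavg b l M := by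
  have h1 : wavg b l (fun t => star (t : A) * M * (t : A)) = cavg b l M := by
    have h := wavg_inv b hb l (fun t => (t : A) * M * star (t : A))
    simp only [coe_inv_u, star_star] at h
    exact h
  rw [wavg_add, h1, two_smul]
  rfl

omit [CStarRing A] [StarModule ℂ A] in
lemma wavg_sumZ (hb : ∃ σ : ι → ι, Function.Bijective σ ∧ ∀ i, b (σ i) = (b i)⁻¹)
    (l n : ℕ) (G : ℕ → unitary A) :
    wavg b l (fun t => sumZ G n t) = ∑ i' ∈ Finset.range n, ∑ i ∈ Finset.range i',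
      (G i : A) * ((2 : ℝ) • cavg b l (star (G i : A) * (G i' : A))) * star (G i' : A) := by
  unfold sumZ
  rw [wavg_sum]
  refine Finset.sum_congr rfl fun i' _ => ?_
  rw [wavg_sum]
  refine Finset.sum_congr rfl fun i _ => ?_
  rw [wavg_mul_mul, wavg_conj_symm hb]

end

/-- Lemma 3 averaged over the walk, estimate (*) -/
theorem euler_walk {A : Type u} [NormedRing A] [StarRing A] [CStarRing A] [NormedAlgebra ℂ A]
    [StarModule ℂ A] {n : ℕ} {Kn : ℝ} (hK : EulerBd A n Kn)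
    {ι : Type*} [Fintype ι] [Nonempty ι] {b : ι → unitary A}
    (hb : ∃ σ : ι → ι, Function.Bijective σ ∧ ∀ i, b (σ i) = (b i)⁻¹)
    {E : Type u} [SeminormedAddCommGroup E] [InnerProductSpace ℂ E] (ψ : A →ₗ[ℂ] E) {B : ℝ}
    (hψ : ∀ z, ‖ψ z‖ ≤ B * ‖z‖) (G : ℕ → unitary A) (x : unitary A) {α : ℝ}
    (h0 : 0 ≤ α) (h1 : α ≤ 1 / 2) (l : ℕ) :
    wavg b l (fun t => avg (fun m : Fin 4 => ‖ψ ((pr G (cayU α m t) n * x : unitary A) : A)‖ ^ 2))
      ≤ (1 - 2 * n * α ^ 2) * ‖ψ (x : A)‖ ^ 2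
        + 2 * α ^ 2 * wavg b l (fun t => ‖ψ (sumT G n t * (x : A))‖ ^ 2)
        + 4 * α ^ 2 * ‖ψ (x : A)‖ * ∑ i' ∈ Finset.range n, ∑ i ∈ Finset.range i',
            ‖ψ ((G i : A) * cavg b l (star (G i : A) * (G i' : A)) * (star (G i' : A) * x))‖
        + Kn * B ^ 2 * α ^ 3 := by
  have hpt := fun t : unitary A => hK E ψ B hψ G t x α h0 h1
  refine (wavg_mono b l hpt).trans ?_
  -- split the average
  have e1 : wavg b l (fun t => (1 - 2 * n * α ^ 2) * ‖ψ (x : A)‖ ^ 2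
          + α ^ 2 * (‖ψ (sumT G n t * (x : A))‖ ^ 2 + ‖ψ (sumT G n t⁻¹ * (x : A))‖ ^ 2)
          - 2 * α ^ 2 * (⟪ψ (x : A), ψ (sumZ G n t * (x : A))⟫_ℂ).re
          + Kn * B ^ 2 * α ^ 3)
      = (1 - 2 * n * α ^ 2) * ‖ψ (x : A)‖ ^ 2
        + 2 * α ^ 2 * wavg b l (fun t => ‖ψ (sumT G n t * (x : A))‖ ^ 2)
        - 2 * α ^ 2 * wavg b l (fun t => (⟪ψ (x : A), ψ (sumZ G n t * (x : A))⟫_ℂ).re)
        + Kn * B ^ 2 * α ^ 3 := by
    rw [wavg_add, wavg_const]
    congr 1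
    rw [wavg_sub, wavg_mul_left]
    congr 1
    rw [wavg_add, wavg_const]
    congr 1
    rw [wavg_mul_left, wavg_add]
    have h2 := wavg_inv b hb l (fun t => ‖ψ (sumT G n t * (x : A))‖ ^ 2)
    rw [h2]
    ring
  rw [e1]
  have e2 : wavg b l (fun t => (⟪ψ (x : A), ψ (sumZ G n t * (x : A))⟫_ℂ).re)
      = (⟪ψ (x : A), ψ (wavg b l (fun t => sumZ G n t) * (x : A))⟫_ℂ).re := by
    refine (wavg_map' b l (fun y : A => (⟪ψ (x : A), ψ (y * (x : A))⟫_ℂ).re) (fun y z => ?_)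
      (fun c y => ?_) (fun t => sumZ G n t)).symm
    · rw [add_mul, map_add, inner_add_right, Complex.add_re]
    · have h3 : (c • y) * (x : A) = (c : ℂ) • (y * (x : A)) := by
        rw [smul_mul_assoc]
        exact (Complex.coe_smul c _).symm
      rw [h3, map_smul, inner_smul_right, Complex.re_ofReal_mul, smul_eq_mul]
  rw [e2, wavg_sumZ hb]
  set T : A := ∑ i' ∈ Finset.range n, ∑ i ∈ Finset.range i',
      (G i : A) * ((2 : ℝ) • cavg b l (star (G i : A) * (G i' : A))) * star (G i' : A) with hT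
  have e3 : ‖ψ (T * (x : A))‖ ≤ ∑ i' ∈ Finset.range n, ∑ i ∈ Finset.range i',
      2 * ‖ψ ((G i : A) * cavg b l (star (G i : A) * (G i' : A)) * (star (G i' : A) * x))‖ := by
    rw [hT, Finset.sum_mul, map_sum]
    refine (norm_sum_le _ _).trans (Finset.sum_le_sum fun i' _ => ?_)
    rw [Finset.sum_mul, map_sum]
    refine (norm_sum_le _ _).trans (Finset.sum_le_sum fun i _ => ?_)
    have h4 : (G i : A) * ((2 : ℝ) • cavg b l (star (G i : A) * (G i' : A))) * star (G i' : A)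
        * (x : A) = (2 : ℂ) • ((G i : A) * cavg b l (star (G i : A) * (G i' : A))
          * (star (G i' : A) * x)) := by
      have h5 : (2 : ℝ) • cavg b l (star (G i : A) * (G i' : A))
          = (2 : ℂ) • cavg b l (star (G i : A) * (G i' : A)) := by
        rw [two_smul, two_smul]
      rw [h5, mul_smul_comm, smul_mul_assoc, smul_mul_assoc]
      simp only [mul_assoc]
    rw [h4, map_smul, norm_smul]
    simp
  have e4 : -(⟪ψ (x : A), ψ (T * (x : A))⟫_ℂ).re ≤ ‖ψ (x : A)‖ * ‖ψ (T * (x : A))‖ := by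
    have h6 := Complex.abs_re_le_norm (⟪ψ (x : A), ψ (T * (x : A))⟫_ℂ)
    have h7 := norm_inner_le_norm (𝕜 := ℂ) (ψ (x : A)) (ψ (T * (x : A)))
    have h8 := neg_abs_le (⟪ψ (x : A), ψ (T * (x : A))⟫_ℂ).re
    linarith only [h6, h7, h8]
  have e5 : ∑ i' ∈ Finset.range n, ∑ i ∈ Finset.range i',
      2 * ‖ψ ((G i : A) * cavg b l (star (G i : A) * (G i' : A)) * (star (G i' : A) * x))‖
      = 2 * ∑ i' ∈ Finset.range n, ∑ i ∈ Finset.range i',
      ‖ψ ((G i : A) * cavg b l (star (G i : A) * (G i' : A)) * (star (G i' : A) * x))‖ := by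
    simp only [Finset.mul_sum]
  rw [e5] at e3
  have e6 : ‖ψ (x : A)‖ * ‖ψ (T * (x : A))‖ ≤ ‖ψ (x : A)‖ *
      (2 * ∑ i' ∈ Finset.range n, ∑ i ∈ Finset.range i',
      ‖ψ ((G i : A) * cavg b l (star (G i : A) * (G i' : A)) * (star (G i' : A) * x))‖) :=
    mul_le_mul_of_nonneg_left e3 (norm_nonneg _)
  have e7 : 2 * α ^ 2 * (-(⟪ψ (x : A), ψ (T * (x : A))⟫_ℂ).re) ≤ 2 * α ^ 2 * (‖ψ (x : A)‖ *
      (2 * ∑ i' ∈ Finset.range n, ∑ i ∈ Finset.range i',
      ‖ψ ((G i : A) * cavg b l (star (G i : A) * (G i' : A)) * (star (G i' : A) * x))‖)) :=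
    mul_le_mul_of_nonneg_left (e4.trans e6) (by (clear * -; positivity))
  linarith only [e7]

end Vale.Agent.P082.KR
end

section

namespace Vale.Agent.P082.KR

/-- positive unital linear functionals on all real functions -/
structure Ex (X : Type*) where
  toFun : (X → ℝ) → ℝ
  add : ∀ F G, toFun (fun x => F x + G x) = toFun F + toFun G
  smul : ∀ (c : ℝ) F, toFun (fun x => c * F x) = c * toFun F
  mono : ∀ F G, (∀ x, F x ≤ G x) → toFun F ≤ toFun G
  one : toFun (fun _ => 1) = 1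

namespace Ex

variable {X : Type*}

/-- evaluation at a point -/
def dirac (x : X) : Ex X where
  toFun F := F x
  add _ _ := rfl
  smul _ _ := rfl
  mono _ _ h := h x
  one := rfl

/-- composition with a kernel -/
def bind (μ : Ex X) (k : X → Ex X) : Ex X where
  toFun F := μ.toFun fun x => (k x).toFun F
  add F G := by
    rw [← μ.add]
    congr 1
    funext x
    exact (k x).add F G
  smul c F := by
    rw [← μ.smul]
    congr 1
    funext x
    exact (k x).smul c F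
  mono F G h := μ.mono _ _ fun x => (k x).mono F G h
  one := by
    have h : (fun x => (k x).toFun fun _ => 1) = fun _ => (1 : ℝ) := funext fun x => (k x).one
    rw [h]
    exact μ.one

theorem const (μ : Ex X) (c : ℝ) : μ.toFun (fun _ => c) = c := by
  have h := μ.smul c (fun _ => 1)
  rw [μ.one, mul_one] at h
  simpa using h

theorem sum (μ : Ex X) {ι : Type*} (s : Finset ι) (F : ι → X → ℝ) :
    μ.toFun (fun x => ∑ i ∈ s, F i x) = ∑ i ∈ s, μ.toFun (F i) := by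
  classical
  induction s using Finset.induction_on with
  | empty => simpa using μ.const 0
  | insert a s ha ih =>
    rw [Finset.sum_insert ha, ← ih, ← μ.add]
    congr 1
    funext x
    rw [Finset.sum_insert ha]

theorem lin (μ : Ex X) (a b c d : ℝ) (G S T : X → ℝ) :
    μ.toFun (fun x => a * G x + b * S x + c * T x + d) =
      a * μ.toFun G + b * μ.toFun S + c * μ.toFun T + d := by
  rw [μ.add (fun x => a * G x + b * S x + c * T x) (fun _ => d),
    μ.add (fun x => a * G x + b * S x) (fun x => c * T x),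
    μ.add (fun x => a * G x) (fun x => b * S x), μ.smul, μ.smul, μ.smul, μ.const]

end Ex

/-- growth of a sequence with `s (n+1) ≤ (1 + b) s n + g` -/
theorem growth_bound {s : ℕ → ℝ} {b g : ℝ} (hb : 0 ≤ b) (hg : 0 ≤ g) (h0 : s 0 = 0)
    (hs : ∀ n, s (n + 1) ≤ (1 + b) * s n + g) (n : ℕ) :
    s n ≤ n * g * Real.exp (b * n) := by
  induction n with
  | zero => simp [h0]
  | succ n ih =>
    have h1 : 1 + b ≤ Real.exp b := by
      have := Real.add_one_le_exp b
      linarith only [this]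
    have h2 : 1 ≤ Real.exp (b * (n + 1 : ℕ)) := Real.one_le_exp (by positivity)
    have h3 : Real.exp (b * (n + 1 : ℕ)) = Real.exp b * Real.exp (b * n) := by
      rw [← Real.exp_add]
      congr 1
      push_cast
      ring
    have h4 : 0 ≤ (n : ℝ) * g * Real.exp (b * n) := by positivity
    calc s (n + 1) ≤ (1 + b) * s n + g := hs n
      _ ≤ (1 + b) * (n * g * Real.exp (b * n)) + g := by
          have := mul_le_mul_of_nonneg_left ih (by linarith only [b, hb] : 0 ≤ 1 + b)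
          linarith
      _ ≤ Real.exp b * (n * g * Real.exp (b * n)) + g * Real.exp (b * (n + 1 : ℕ)) := by
          have h5 := mul_le_mul_of_nonneg_right h1 h4
          have h6 : g ≤ g * Real.exp (b * (n + 1 : ℕ)) := le_mul_of_one_le_right hg h2
          linarith only [h5, h6]
      _ = ((n + 1 : ℕ) : ℝ) * g * Real.exp (b * (n + 1 : ℕ)) := by
          rw [h3]
          push_cast
          ring

theorem sqrt_le_add {m η : ℝ} (hm : 0 ≤ m) (hη : 0 < η) :
    Real.sqrt m ≤ η + (4 * η)⁻¹ * m := by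
  have h1 : Real.sqrt m ^ 2 = m := Real.sq_sqrt hm
  have h2 : 0 ≤ (Real.sqrt m - 2 * η) ^ 2 := sq_nonneg _
  have h3 : 0 < 4 * η := by linarith only [hη]
  have h4 : η + (4 * η)⁻¹ * m = (4 * η ^ 2 + m) / (4 * η) := by
    field_simp
  rw [h4, le_div_iff₀ h3]
  linarith only [h1, h2]

universe u

/-- one step of the process for a bounded family -/
theorem step_bound {X : Type u} (μ : Ex X) (κ : X → Ex X) (G : X → ℝ) (H : ℕ → X → ℝ)
    (s : Finset ℕ) (T : X → ℝ) {a c W d b t z k C : ℝ} (ha : 0 ≤ a) (hc : 0 ≤ c) (hz : 0 ≤ z)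
    (hC : 0 ≤ C)
    (h : ∀ x, (κ x).toFun G ≤ a * G x + c * (W + ∑ i ∈ s, H i x) + z * (k + C * T x) + d)
    (hG : μ.toFun G ≤ b) (hH : ∀ i ∈ s, μ.toFun (H i) ≤ b) (hT : μ.toFun T ≤ t) :
    (μ.bind κ).toFun G ≤ a * b + c * (W + s.card * b) + z * (k + C * t) + d := by
  have h1 : (μ.bind κ).toFun G ≤ μ.toFun (fun x => a * G x + c * (∑ i ∈ s, H i x) +
      (z * C) * T x + (c * W + z * k + d)) := by
    refine μ.mono _ _ fun x => (h x).trans (le_of_eq ?_)
    ring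
  rw [μ.lin, μ.sum] at h1
  have h2 : ∑ i ∈ s, μ.toFun (H i) ≤ s.card * b := by
    have := Finset.sum_le_sum hH
    rwa [Finset.sum_const, nsmul_eq_mul] at this
  have h3 := mul_le_mul_of_nonneg_left hG ha
  have h4 := mul_le_mul_of_nonneg_left h2 hc
  have h5 := mul_le_mul_of_nonneg_left hT (mul_nonneg hz hC)
  calc (μ.bind κ).toFun G ≤ _ := h1
    _ ≤ a * b + c * (s.card * b) + z * C * t + (c * W + z * k + d) := by linarith only [h3, h4, h5]
    _ = _ := by ring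

/-- the running assumptions of the process with all constants fixed -/
theorem process_aux {X : Type u} (N L : ℕ) (K B₀ ε' C'' K' α η η' q W₁ W₂ S : ℝ) (hK : 0 ≤ K)
    (hB : 0 ≤ B₀) (hC : 0 ≤ C'') (hK' : 0 ≤ K') (hα : 0 < α) (hα1 : α ≤ 1 / 2)
    (hNα : 2 * N * α ^ 2 ≤ 1) (hη : 0 < η) (hη' : 0 < η') (hε' : 0 ≤ ε')
    (x0 : X) (F Ft : ℕ → Bool → X → ℝ) (mm : ℕ → X → ℝ)
    (hW₁ : 0 ≤ W₁) (hW₂ : 0 ≤ W₂) (hq : 0 ≤ q)
    (hF : ∀ j y x, 0 ≤ F j y x ∧ F j y x ≤ B₀) (hFt : ∀ j y x, 0 ≤ Ft j y x ∧ Ft j y x ≤ B₀)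
    (hmm : ∀ k x, 0 ≤ mm k x) (hmm0 : ∀ k ∈ Finset.Icc 1 N, mm k x0 = 0)
    (κl κr : X → Ex X)
    (hl : ∀ x, (∀ j ∈ Finset.Icc 1 N, ∀ y, (κl x).toFun (F j y) ≤ (1 - 2 * j * α ^ 2) * F j y x
          + 2 * α ^ 2 * (W₁ + ∑ i ∈ Finset.Ico 1 j, F i false x)
          + α ^ 2 * (K * ε' + C'' * ∑ r ∈ Finset.Icc 1 N, Real.sqrt (mm r x))
          + K * α ^ 3 + η) ∧
        (∀ k ∈ Finset.Icc 1 N, (κl x).toFun (mm k) ≤ mm k x
          + α ^ 2 * (K' * q + K * ∑ r ∈ Finset.Icc 1 N, mm r x) + K' * α ^ 3 + η))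
    (hr : ∀ x, (∀ j ∈ Finset.Icc 1 N, ∀ y, (κr x).toFun (F j y) ≤ (1 - 2 * j * α ^ 2) * F j y x
          + 2 * α ^ 2 * (∑ i ∈ Finset.Icc 1 j, F i true x)
          + α ^ 2 * (K * ε' + C'' * ∑ r ∈ Finset.Icc 1 N, Real.sqrt (mm r x))
          + K * α ^ 3 + η) ∧
        (∀ j ∈ Finset.Icc 1 N, ∀ y, (κr x).toFun (Ft j y) ≤ (1 - 2 * j * α ^ 2) * Ft j y x
          + 2 * α ^ 2 * (W₂ + ∑ i ∈ Finset.Ico 1 j, Ft i true x)
          + α ^ 2 * (K * ε' + C'' * ∑ r ∈ Finset.Icc 1 N, Real.sqrt (mm r x))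
          + K * α ^ 3 + η) ∧
        (∀ k ∈ Finset.Icc 1 N, (κr x).toFun (mm k) ≤ mm k x
          + α ^ 2 * (K' * q + K * ∑ r ∈ Finset.Icc 1 N, mm r x) + K' * α ^ 3 + η))
    (hS : ∀ n : ℕ, n ≤ 2 * L → n * (N * (α ^ 2 * (K' * q) + K' * α ^ 3 + η)) *
      Real.exp (N * (K * α ^ 2) * n) ≤ S) :
    ∃ μ : Ex X, ∀ j ∈ Finset.Icc 1 N,
      μ.toFun (F j true) ≤ (1 - 2 * α ^ 2) ^ L * B₀ + W₁ +
        (K * ε' + C'' * (N * η' + (4 * η')⁻¹ * S) + K * α + η / α ^ 2) / 2 +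
        L * (α ^ 2 * (K * ε' + C'' * (N * η' + (4 * η')⁻¹ * S) + K * α + η / α ^ 2)) ∧
      μ.toFun (Ft j true) ≤ (1 - 2 * α ^ 2) ^ L * B₀ + W₂ +
        (K * ε' + C'' * (N * η' + (4 * η')⁻¹ * S) + K * α + η / α ^ 2) / 2 := by
  obtain ⟨E, hE⟩ : ∃ E : ℝ, E = K * ε' + C'' * (N * η' + (4 * η')⁻¹ * S) + K * α +
    η / α ^ 2 := ⟨_, rfl⟩
  rw [← hE]
  have hS0 : 0 ≤ S := by
    have := hS 0 (by lia)
    simpa using this
  have hE0 : 0 ≤ E := by
    rw [hE]
    (clear * - hK hC hα hη hη' hε' hS0; positivity)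
  have hαE : α ^ 2 * E = α ^ 2 * (K * ε' + C'' * (N * η' + (4 * η')⁻¹ * S)) +
      (K * α ^ 3 + η) := by
    rw [hE]
    field_simp
    ring
  obtain ⟨μ, hμ0, hμs⟩ : ∃ μ : ℕ → Ex X, μ 0 = Ex.dirac x0 ∧
      ∀ n, μ (n + 1) = (μ n).bind (if n < L then κl else κr) :=
    ⟨fun n => Nat.rec (Ex.dirac x0) (fun n μn => μn.bind (if n < L then κl else κr)) n,
      rfl, fun n => rfl⟩
  -- moments
  obtain ⟨d, hd⟩ : ∃ d : ℝ, d = α ^ 2 * (K' * q) + K' * α ^ 3 + η := ⟨_, rfl⟩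
  have hd0 : 0 ≤ d := by rw [hd]; (clear * - hK' hα hη hq; positivity)
  obtain ⟨s, hs⟩ : ∃ s : ℕ → ℝ, ∀ n, s n = ∑ k ∈ Finset.Icc 1 N, (μ n).toFun (mm k) :=
    ⟨_, fun n => rfl⟩
  have hs0 : s 0 = 0 := by
    rw [hs, hμ0]
    exact Finset.sum_eq_zero hmm0
  have hκm : ∀ n x, ∀ k ∈ Finset.Icc 1 N,
      ((if n < L then κl else κr) x).toFun (mm k) ≤ mm k x
          + α ^ 2 * (K' * q + K * ∑ r ∈ Finset.Icc 1 N, mm r x) + K' * α ^ 3 + η := by
    intro n x k hk
    split_ifs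
    · exact (hl x).2 k hk
    · exact (hr x).2.2 k hk
  have hsm : ∀ n, ∀ k ∈ Finset.Icc 1 N, (μ (n + 1)).toFun (mm k) ≤
      (μ n).toFun (mm k) + K * α ^ 2 * s n + d := by
    intro n k hk
    rw [hμs n]
    have h1 : ((μ n).bind (if n < L then κl else κr)).toFun (mm k) ≤
        (μ n).toFun (fun x => 1 * mm k x + (K * α ^ 2) * (∑ r ∈ Finset.Icc 1 N, mm r x) +
          0 * mm k x + d) := by
      refine (μ n).mono _ _ fun x => (hκm n x k hk).trans (le_of_eq ?_)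
      rw [hd]
      ring
    rw [(μ n).lin, (μ n).sum, ← hs n] at h1
    linarith only [h1]
  have hstep : ∀ n, s (n + 1) ≤ (1 + N * (K * α ^ 2)) * s n + N * d := by
    intro n
    rw [hs (n + 1)]
    have h1 := Finset.sum_le_sum (hsm n)
    rw [Finset.sum_add_distrib, Finset.sum_add_distrib, Finset.sum_const, Finset.sum_const,
      Nat.card_Icc, Nat.add_sub_cancel, nsmul_eq_mul, nsmul_eq_mul, ← hs n] at h1
    linarith only [h1]
  have hsn : ∀ n, n ≤ 2 * L → s n ≤ S := by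
    intro n hn
    have h1 := growth_bound (by (clear * - hK hα; positivity)) (by (clear * - hd0; positivity)) hs0 hstep n
    rw [hd] at h1
    exact h1.trans (hS n hn)
  have hsqrt : ∀ n, n ≤ 2 * L →
      (μ n).toFun (fun x => ∑ r ∈ Finset.Icc 1 N, Real.sqrt (mm r x)) ≤
        N * η' + (4 * η')⁻¹ * S := by
    intro n hn
    have h1 : (μ n).toFun (fun x => ∑ r ∈ Finset.Icc 1 N, Real.sqrt (mm r x)) ≤
        (μ n).toFun (fun x => (4 * η')⁻¹ * (∑ r ∈ Finset.Icc 1 N, mm r x) +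
          0 * mm 0 x + 0 * mm 0 x + N * η') := by
      refine (μ n).mono _ _ fun x => ?_
      have h2 := Finset.sum_le_sum fun (r : ℕ) (_ : r ∈ Finset.Icc 1 N) =>
        sqrt_le_add (hmm r x) hη'
      rw [Finset.sum_add_distrib, Finset.sum_const, Nat.card_Icc, Nat.add_sub_cancel,
        nsmul_eq_mul, ← Finset.mul_sum] at h2
      linarith only [h2]
    rw [(μ n).lin, (μ n).sum (Finset.Icc 1 N) mm, ← hs n] at h1
    have h3 := mul_le_mul_of_nonneg_left (hsn n hn) (by positivity : 0 ≤ (4 * η')⁻¹)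
    linarith only [h1, h3]
  -- coefficients
  have hcoef : ∀ j ∈ Finset.Icc 1 N, 0 ≤ 1 - 2 * (j : ℝ) * α ^ 2 := by
    intro j hj
    have h1 : (j : ℝ) ≤ N := by exact_mod_cast (Finset.mem_Icc.mp hj).2
    have h2 : 2 * (j : ℝ) * α ^ 2 ≤ 2 * N * α ^ 2 := by
      apply mul_le_mul_of_nonneg_right _ (by positivity)
      linarith only [h1]
    linarith only [hNα, h2]
  have hα2 : 0 ≤ 2 * α ^ 2 := by positivity
  have hα21 : 0 ≤ 1 - 2 * α ^ 2 := Fast.one_sub_sq hα.le hα1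
  have hcard1 : ∀ j ∈ Finset.Icc 1 N, ((Finset.Ico 1 j).card : ℝ) = j - 1 := by
    intro j hj
    rw [Nat.card_Ico, Nat.cast_sub (Finset.mem_Icc.mp hj).1]
    simp
  have hcard2 : ∀ j : ℕ, ((Finset.Icc 1 j).card : ℝ) = j := by
    intro j
    rw [Nat.card_Icc, Nat.add_sub_cancel]
  -- left phase
  have hleft : ∀ n, n ≤ L → ∀ j ∈ Finset.Icc 1 N, ∀ y,
      (μ n).toFun (F j y) ≤ (1 - 2 * α ^ 2) ^ n * B₀ + W₁ + E / 2 := by
    intro n
    induction n with
    | zero =>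
      intro _ j hj y
      rw [hμ0]
      have h1 : (Ex.dirac x0).toFun (F j y) ≤ B₀ := (hF j y x0).2
      rw [pow_zero, one_mul]
      linarith only [hW₁, hE0, h1]
    | succ n ih =>
      intro hn j hj y
      have hb := ih (by lia)
      have hnL : n < L := by lia
      rw [hμs n, if_pos hnL]
      have hbnn : 0 ≤ (1 - 2 * α ^ 2) ^ n * B₀ + W₁ + E / 2 := by (clear * - hB hW₁ hE0 hα21; positivity)
      have h1 := step_bound (μ n) κl (F j y) (fun i => F i false) (Finset.Ico 1 j)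
        (fun x => ∑ r ∈ Finset.Icc 1 N, Real.sqrt (mm r x)) (hcoef j hj) hα2
        (by positivity : 0 ≤ α ^ 2) hC
        (fun x => ((hl x).1 j hj y).trans (le_of_eq (by ring)))
        (hb j hj y) (fun i hi => hb i (by
          rw [Finset.mem_Ico] at hi
          rw [Finset.mem_Icc] at hj ⊢
          lia) false) (hsqrt n (by lia)) (d := K * α ^ 3 + η) (W := W₁) (k := K * ε')
      rw [hcard1 j hj] at h1
      refine h1.trans (le_of_eq ?_)
      have h2 : α ^ 2 * (K * ε' + C'' * (N * η' + (4 * η')⁻¹ * S)) + (K * α ^ 3 + η) =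
        α ^ 2 * E := hαE.symm
      rw [add_assoc, h2]
      ring
  obtain ⟨b, hb⟩ : ∃ b : ℝ, b = (1 - 2 * α ^ 2) ^ L * B₀ + W₁ + E / 2 := ⟨_, rfl⟩
  have hb0 : 0 ≤ b := by rw [hb]; (clear * - hB hW₁ hE0 hα21; positivity)
  -- right phase
  have hrightF : ∀ m, m ≤ L → ∀ j ∈ Finset.Icc 1 N, ∀ y,
      (μ (L + m)).toFun (F j y) ≤ b + m * (α ^ 2 * E) := by
    intro m
    induction m with
    | zero =>
      intro _ j hj y
      have h1 := hleft L le_rfl j hj y
      rw [← hb] at h1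
      simpa using h1
    | succ m ih =>
      intro hm j hj y
      have hbm := ih (by lia)
      have hnL : ¬ (L + m < L) := by lia
      rw [← add_assoc, hμs (L + m), if_neg hnL]
      have h1 := step_bound (μ (L + m)) κr (F j y) (fun i => F i true) (Finset.Icc 1 j)
        (fun x => ∑ r ∈ Finset.Icc 1 N, Real.sqrt (mm r x)) (hcoef j hj) hα2
        (by positivity : 0 ≤ α ^ 2) hC
        (fun x => ((hr x).1 j hj y).trans (le_of_eq (by ring)))
        (hbm j hj y) (fun i hi => hbm i (by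
          rw [Finset.mem_Icc] at hi hj ⊢
          lia) true) (hsqrt (L + m) (by lia)) (d := K * α ^ 3 + η) (W := 0) (k := K * ε')
      rw [hcard2 j] at h1
      refine h1.trans (le_of_eq ?_)
      have h2 : α ^ 2 * (K * ε' + C'' * (N * η' + (4 * η')⁻¹ * S)) + (K * α ^ 3 + η) =
        α ^ 2 * E := hαE.symm
      rw [add_assoc, h2]
      push_cast
      ring
  have hrightFt : ∀ m, m ≤ L → ∀ j ∈ Finset.Icc 1 N, ∀ y,
      (μ (L + m)).toFun (Ft j y) ≤ (1 - 2 * α ^ 2) ^ m * B₀ + W₂ + E / 2 := by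
    intro m
    induction m with
    | zero =>
      intro _ j hj y
      have h1 := (μ (L + 0)).mono (Ft j y) (fun _ => B₀) fun x => (hFt j y x).2
      rw [(μ (L + 0)).const] at h1
      rw [pow_zero, one_mul]
      linarith only [hW₂, hE0, h1]
    | succ m ih =>
      intro hm j hj y
      have hbm := ih (by lia)
      have hnL : ¬ (L + m < L) := by lia
      rw [← add_assoc, hμs (L + m), if_neg hnL]
      have h1 := step_bound (μ (L + m)) κr (Ft j y) (fun i => Ft i true) (Finset.Ico 1 j)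
        (fun x => ∑ r ∈ Finset.Icc 1 N, Real.sqrt (mm r x)) (hcoef j hj) hα2
        (by positivity : 0 ≤ α ^ 2) hC
        (fun x => ((hr x).2.1 j hj y).trans (le_of_eq (by ring)))
        (hbm j hj y) (fun i hi => hbm i (by
          rw [Finset.mem_Ico] at hi
          rw [Finset.mem_Icc] at hj ⊢
          lia) true) (hsqrt (L + m) (by lia)) (d := K * α ^ 3 + η) (W := W₂) (k := K * ε')
      rw [hcard1 j hj] at h1
      refine h1.trans (le_of_eq ?_)
      have h2 : α ^ 2 * (K * ε' + C'' * (N * η' + (4 * η')⁻¹ * S)) + (K * α ^ 3 + η) =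
        α ^ 2 * E := hαE.symm
      rw [add_assoc, h2]
      ring
  refine ⟨μ (L + L), fun j hj => ⟨?_, hrightFt L le_rfl j hj true⟩⟩
  have h1 := hrightF L le_rfl j hj true
  rwa [hb] at h1

/-- bound for the accumulated moments -/
theorem process_moment (N L n : ℕ) (K K' α η q l₁ τ : ℝ) (hK : 0 ≤ K) (hK' : 0 ≤ K')
    (hα0 : 0 < α) (hq : 0 ≤ q) (hqq : q ≤ τ) (hατ : α ≤ τ) (hη : η = α ^ 2 * τ) (hl₁0 : 0 < l₁)
    (hτ0 : 0 < τ) (hL2 : α ^ 2 * L ≤ l₁) (hn : n ≤ 2 * L) :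
    n * (N * (α ^ 2 * (K' * q) + K' * α ^ 3 + η)) * Real.exp (N * (K * α ^ 2) * n) ≤
      2 * l₁ * N * Real.exp (2 * N * K * l₁) * ((2 * K' + 1) * τ) := by
  have hα2 : 0 < α ^ 2 := by positivity
  have hn' : (n : ℝ) ≤ 2 * L := by exact_mod_cast hn
  have h1 : (n : ℝ) * α ^ 2 ≤ 2 * l₁ := by
    have := mul_le_mul_of_nonneg_right hn' hα2.le
    linarith only [hL2, this]
  have h2 : N * (K * α ^ 2) * n ≤ 2 * N * K * l₁ := by
    have h3 : (0 : ℝ) ≤ N * K := by positivity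
    have := mul_le_mul_of_nonneg_left h1 h3
    linarith only [this]
  have h4 : Real.exp (N * (K * α ^ 2) * n) ≤ Real.exp (2 * N * K * l₁) :=
    Real.exp_le_exp.mpr h2
  have h5 : (n : ℝ) * (N * (α ^ 2 * (K' * q) + K' * α ^ 3 + η)) ≤
      2 * l₁ * N * ((2 * K' + 1) * τ) := by
    have h6 : (n : ℝ) * (N * (α ^ 2 * (K' * q) + K' * α ^ 3 + η)) =
        (n * α ^ 2) * (N * (K' * q + K' * α + τ)) := by
      rw [hη]
      ring
    rw [h6]
    have h7 : K' * q + K' * α + τ ≤ (2 * K' + 1) * τ := by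
      have h8 := mul_le_mul_of_nonneg_left hqq hK'
      have h9 := mul_le_mul_of_nonneg_left hατ hK'
      linarith only [h8, h9]
    have h10 : (N : ℝ) * (K' * q + K' * α + τ) ≤ N * ((2 * K' + 1) * τ) :=
      mul_le_mul_of_nonneg_left h7 (Nat.cast_nonneg N)
    calc (n * α ^ 2) * (N * (K' * q + K' * α + τ)) ≤ (2 * l₁) * (N * (K' * q + K' * α + τ)) :=
          mul_le_mul_of_nonneg_right h1 (by (clear * - hK' hα0 hq hτ0; positivity))
      _ ≤ (2 * l₁) * (N * ((2 * K' + 1) * τ)) :=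
          mul_le_mul_of_nonneg_left h10 (by positivity)
      _ = _ := by ring
  calc n * (N * (α ^ 2 * (K' * q) + K' * α ^ 3 + η)) * Real.exp (N * (K * α ^ 2) * n)
      ≤ (2 * l₁ * N * ((2 * K' + 1) * τ)) * Real.exp (2 * N * K * l₁) :=
        mul_le_mul h5 h4 (Real.exp_pos _).le (by (clear * - hK' hl₁0 hτ0; positivity))
    _ = _ := by ring

/-- the error estimate -/
theorem process_error (P K ε' C'' N η' A K' α τ δ M : ℝ) (hP0 : 0 ≤ P) (hK : 0 ≤ K)
    (hατ : α ≤ τ) (hM : M = P * (C'' * ((4 * η')⁻¹ * (A * (2 * K' + 1))) + K + 1))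
    (h1 : P * (K * ε') ≤ δ / 8) (h2 : P * (C'' * (N * η')) ≤ δ / 16) (h3 : M * τ ≤ δ / 32) :
    P * (K * ε' + C'' * (N * η' + (4 * η')⁻¹ * (A * ((2 * K' + 1) * τ))) + K * α + τ) ≤
      δ / 8 + δ / 16 + δ / 32 := by
  have h4 : P * (K * α) ≤ P * (K * τ) :=
    mul_le_mul_of_nonneg_left (mul_le_mul_of_nonneg_left hατ hK) hP0
  have h5 : P * (K * ε' + C'' * (N * η' + (4 * η')⁻¹ * (A * ((2 * K' + 1) * τ))) + K * α + τ) =
      P * (K * ε') + P * (C'' * (N * η')) +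
      P * (C'' * ((4 * η')⁻¹ * (A * (2 * K' + 1)))) * τ + P * (K * α) + P * τ := by ring
  have h6 : M * τ =
      P * (C'' * ((4 * η')⁻¹ * (A * (2 * K' + 1)))) * τ + P * (K * τ) + P * τ := by
    rw [hM]
    ring
  rw [h5]
  linarith only [h1, h2, h3, h4, h6]

theorem one_sub_pow_le (α lam : ℝ) (L : ℕ) (hα0 : 0 < α) (hαh : α ≤ 1 / 2)
    (hL1 : lam ≤ α ^ 2 * L) : (1 - 2 * α ^ 2) ^ L ≤ Real.exp (-(2 * lam)) := by
  have h1 : 1 - 2 * α ^ 2 ≤ Real.exp (-(2 * α ^ 2)) := by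
    have := Real.add_one_le_exp (-(2 * α ^ 2))
    linarith only [this]
  have h2 : 0 ≤ 1 - 2 * α ^ 2 := Fast.one_sub_sq hα0.le hαh
  calc (1 - 2 * α ^ 2) ^ L ≤ (Real.exp (-(2 * α ^ 2))) ^ L := pow_le_pow_left₀ h2 h1 L
    _ = Real.exp (-(2 * (α ^ 2 * L))) := by
        rw [← Real.exp_nat_mul]
        congr 1
        ring
    _ ≤ Real.exp (-(2 * lam)) := by
        apply Real.exp_le_exp.mpr
        linarith only [hL1]

theorem exists_time (N : ℕ) (B₀ δ : ℝ) (hB : 0 ≤ B₀) (hδ : 0 < δ) :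
    ∃ lam : ℝ, 0 ≤ lam ∧ 2 * N * (Real.exp (-(2 * lam)) * B₀) ≤ δ / 4 := by
  obtain ⟨lam, hlam⟩ : ∃ lam : ℝ, lam = 4 * N * B₀ / δ := ⟨_, rfl⟩
  have hlam0 : 0 ≤ lam := by rw [hlam]; positivity
  refine ⟨lam, hlam0, ?_⟩
  have h1 : 1 + 2 * lam ≤ Real.exp (2 * lam) := by
    have := Real.add_one_le_exp (2 * lam)
    linarith only [this]
  have h3 : 2 * N * B₀ ≤ δ / 4 * Real.exp (2 * lam) := by
    have h4 : δ / 4 * (1 + 2 * lam) ≤ δ / 4 * Real.exp (2 * lam) :=
      mul_le_mul_of_nonneg_left h1 (by linarith only [hδ])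
    have h5 : δ / 4 * (1 + 2 * lam) = δ / 4 + 2 * N * B₀ := by
      rw [hlam]
      field_simp
    linarith only [hδ, h4, h5]
  rw [Real.exp_neg]
  have h6 : 0 < Real.exp (2 * lam) := Real.exp_pos _
  calc 2 * N * ((Real.exp (2 * lam))⁻¹ * B₀) = (2 * N * B₀) / Real.exp (2 * lam) := by
        (clear * -; field_simp)
    _ ≤ δ / 4 := by rwa [div_le_iff₀ h6]

/-- the final estimate -/
theorem process_end {X : Type u} (N L : ℕ) (μ : Ex X) (F Ft : ℕ → Bool → X → ℝ)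
    (W₁ W₂ B₀ δ α lam l₁ E : ℝ) (hB : 0 ≤ B₀) (hδ : 0 < δ)
    (hlam1 : 2 * N * (Real.exp (-(2 * lam)) * B₀) ≤ δ / 4) (hE0 : 0 ≤ E)
    (hPE : N * (1 + l₁) * E ≤ δ / 8 + δ / 16 + δ / 32) (hL2 : α ^ 2 * L ≤ l₁)
    (hexp : (1 - 2 * α ^ 2) ^ L ≤ Real.exp (-(2 * lam)))
    (hμ : ∀ j ∈ Finset.Icc 1 N,
      μ.toFun (F j true) ≤ (1 - 2 * α ^ 2) ^ L * B₀ + W₁ + E / 2 + L * (α ^ 2 * E) ∧
      μ.toFun (Ft j true) ≤ (1 - 2 * α ^ 2) ^ L * B₀ + W₂ + E / 2) :
    ∃ x, ∑ j ∈ Finset.Icc 1 N, (F j true x + Ft j true x) ≤ N * (W₁ + W₂) + δ := by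
  by_contra hcon
  push Not at hcon
  have h1 := μ.mono (fun _ => N * (W₁ + W₂) + δ)
    (fun x => ∑ j ∈ Finset.Icc 1 N, (F j true x + Ft j true x)) fun x => (hcon x).le
  rw [μ.const, μ.sum (Finset.Icc 1 N) (fun j x => F j true x + Ft j true x)] at h1
  have h2 : ∀ j ∈ Finset.Icc 1 N, μ.toFun (fun x => F j true x + Ft j true x) ≤
      W₁ + W₂ + (2 * (Real.exp (-(2 * lam)) * B₀) + (1 + l₁) * E) := by
    intro j hj
    rw [μ.add]
    obtain ⟨h3, h4⟩ := hμ j hj
    have h5 : (1 - 2 * α ^ 2) ^ L * B₀ ≤ Real.exp (-(2 * lam)) * B₀ :=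
      mul_le_mul_of_nonneg_right hexp hB
    have h6 : L * (α ^ 2 * E) ≤ l₁ * E := by
      have := mul_le_mul_of_nonneg_right hL2 hE0
      linarith only [this]
    linarith only [h3, h4, h5, h6]
  have h3 := Finset.sum_le_sum h2
  rw [Finset.sum_const, Nat.card_Icc, Nat.add_sub_cancel, nsmul_eq_mul] at h3
  have h4 : (N : ℝ) * (W₁ + W₂ + (2 * (Real.exp (-(2 * lam)) * B₀) + (1 + l₁) * E)) =
      N * (W₁ + W₂) + 2 * N * (Real.exp (-(2 * lam)) * B₀) + N * (1 + l₁) * E := by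
    ring
  rw [h4] at h3
  linarith only [hδ, hlam1, hPE, h1, h3]

/-- The abstract process lemma (section 5).  `false` stands for `p`, `true` for `q`. -/
theorem process (N : ℕ) (K B₀ δ : ℝ) (hK : 0 ≤ K) (hB : 0 ≤ B₀) (hδ : 0 < δ) :
    ∃ ε' : ℝ, 0 < ε' ∧ ∀ C'' : ℝ, 0 ≤ C'' → ∀ K' : ℝ, 0 ≤ K' →
    ∃ α : ℝ, 0 < α ∧ α ≤ 1 / 2 ∧ ∃ q₁ : ℝ, 0 < q₁ ∧
    ∀ (X : Type u) (x0 : X) (F Ft : ℕ → Bool → X → ℝ) (mm : ℕ → X → ℝ) (W₁ W₂ q : ℝ),
      0 ≤ W₁ → 0 ≤ W₂ → 0 ≤ q → q ≤ q₁ →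
      (∀ j y x, 0 ≤ F j y x ∧ F j y x ≤ B₀) → (∀ j y x, 0 ≤ Ft j y x ∧ Ft j y x ≤ B₀) →
      (∀ k x, 0 ≤ mm k x) → (∀ k ∈ Finset.Icc 1 N, mm k x0 = 0) →
      -- left steps
      (∀ η : ℝ, 0 < η → ∀ x, ∃ κ : Ex X,
        (∀ j ∈ Finset.Icc 1 N, ∀ y, κ.toFun (F j y) ≤ (1 - 2 * j * α ^ 2) * F j y x
          + 2 * α ^ 2 * (W₁ + ∑ i ∈ Finset.Ico 1 j, F i false x)
          + α ^ 2 * (K * ε' + C'' * ∑ r ∈ Finset.Icc 1 N, Real.sqrt (mm r x))
          + K * α ^ 3 + η) ∧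
        (∀ k ∈ Finset.Icc 1 N, κ.toFun (mm k) ≤ mm k x
          + α ^ 2 * (K' * q + K * ∑ r ∈ Finset.Icc 1 N, mm r x) + K' * α ^ 3 + η)) →
      -- right steps
      (∀ η : ℝ, 0 < η → ∀ x, ∃ κ : Ex X,
        (∀ j ∈ Finset.Icc 1 N, ∀ y, κ.toFun (F j y) ≤ (1 - 2 * j * α ^ 2) * F j y x
          + 2 * α ^ 2 * (∑ i ∈ Finset.Icc 1 j, F i true x)
          + α ^ 2 * (K * ε' + C'' * ∑ r ∈ Finset.Icc 1 N, Real.sqrt (mm r x))
          + K * α ^ 3 + η) ∧
        (∀ j ∈ Finset.Icc 1 N, ∀ y, κ.toFun (Ft j y) ≤ (1 - 2 * j * α ^ 2) * Ft j y x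
          + 2 * α ^ 2 * (W₂ + ∑ i ∈ Finset.Ico 1 j, Ft i true x)
          + α ^ 2 * (K * ε' + C'' * ∑ r ∈ Finset.Icc 1 N, Real.sqrt (mm r x))
          + K * α ^ 3 + η) ∧
        (∀ k ∈ Finset.Icc 1 N, κ.toFun (mm k) ≤ mm k x
          + α ^ 2 * (K' * q + K * ∑ r ∈ Finset.Icc 1 N, mm r x) + K' * α ^ 3 + η)) →
      ∃ x, ∑ j ∈ Finset.Icc 1 N, (F j true x + Ft j true x) ≤ N * (W₁ + W₂) + δ := by
  obtain ⟨lam, hlam0, hlam1⟩ := exists_time N B₀ δ hB hδ
  obtain ⟨l₁, hl₁⟩ : ∃ l₁ : ℝ, l₁ = lam + 1 := ⟨_, rfl⟩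
  have hl₁0 : 0 < l₁ := by linarith only [hlam0, hl₁]
  obtain ⟨P, hP⟩ : ∃ P : ℝ, P = N * (1 + l₁) := ⟨_, rfl⟩
  have hP0 : 0 ≤ P := by rw [hP]; positivity
  have hPK : 0 < P * K + 1 := by positivity
  refine ⟨δ / (8 * (P * K + 1)), by positivity, fun C'' hC K' hK' => ?_⟩
  obtain ⟨ε', hε'⟩ : ∃ ε' : ℝ, ε' = δ / (8 * (P * K + 1)) := ⟨_, rfl⟩
  rw [← hε']
  have hε'0 : 0 < ε' := by rw [hε']; positivity
  have hε'1 : P * (K * ε') ≤ δ / 8 := by
    rw [hε']
    rw [← mul_assoc, mul_div_assoc', div_le_div_iff₀ (by positivity) (by norm_num)]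
    linarith only [hδ]
  obtain ⟨η', hη'⟩ : ∃ η' : ℝ, η' = δ / (16 * (P * (C'' * N) + 1)) := ⟨_, rfl⟩
  have hη'0 : 0 < η' := by rw [hη']; (clear * - hδ hP0 hC; positivity)
  have hη'1 : P * (C'' * (N * η')) ≤ δ / 16 := by
    have h1 : P * (C'' * (N * η')) = (P * (C'' * N)) * δ / (16 * (P * (C'' * N) + 1)) := by
      rw [hη']
      ring
    have h2 : 0 ≤ P * (C'' * N) := by (clear * - hP0 hC; positivity)
    rw [h1, div_le_div_iff₀ (by (clear * - hP0 hC; positivity)) (by norm_num)]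
    linarith only [hδ]
  obtain ⟨A, hA⟩ : ∃ A : ℝ, A = 2 * l₁ * N * Real.exp (2 * N * K * l₁) := ⟨_, rfl⟩
  have hA0 : 0 ≤ A := by rw [hA]; (clear * - hl₁0; positivity)
  obtain ⟨M, hM⟩ : ∃ M : ℝ, M = P * (C'' * ((4 * η')⁻¹ * (A * (2 * K' + 1))) + K + 1) :=
    ⟨_, rfl⟩
  have hM0 : 0 ≤ M := by rw [hM]; (clear * - hK hP0 hC hK' hη'0 hA0; positivity)
  obtain ⟨τ, hτ⟩ : ∃ τ : ℝ, τ = δ / (32 * (M + 1)) := ⟨_, rfl⟩
  have hτ0 : 0 < τ := by rw [hτ]; positivity
  have hτ1 : M * τ ≤ δ / 32 := by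
    rw [hτ, mul_div_assoc', div_le_div_iff₀ (by positivity) (by norm_num)]
    linarith only [hδ]
  obtain ⟨α, hα⟩ : ∃ α : ℝ, α = min (1 / 2) (min τ (1 / (2 * N + 2))) := ⟨_, rfl⟩
  have hα0 : 0 < α := by
    rw [hα]
    exact lt_min (by norm_num) (lt_min hτ0 (by (clear * -; positivity)))
  have hαh : α ≤ 1 / 2 := by rw [hα]; exact min_le_left _ _
  have hατ : α ≤ τ := by rw [hα]; exact (min_le_right _ _).trans (min_le_left _ _)
  have hαN : α ≤ 1 / (2 * N + 2) := by rw [hα]; exact (min_le_right _ _).trans (min_le_right _ _)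
  have hNα : 2 * N * α ^ 2 ≤ 1 := by
    have h1 : α * (2 * N + 2) ≤ 1 := by rwa [le_div_iff₀ (by (clear * -; positivity))] at hαN
    exact Fast.mul_sq_le (Nat.cast_nonneg N) hα0.le hαh h1
  refine ⟨α, hα0, hαh, τ, hτ0, ?_⟩
  intro X x0 F Ft mm W₁ W₂ q hW₁ hW₂ hq hqq hF hFt hmm hmm0 hl hr
  obtain ⟨η, hη⟩ : ∃ η : ℝ, η = α ^ 2 * τ := ⟨_, rfl⟩
  have hη0 : 0 < η := by rw [hη]; (clear * - hτ0 hα0; positivity)
  choose κl hκl using hl η hη0
  choose κr hκr using hr η hη0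
  obtain ⟨L, hL⟩ : ∃ L : ℕ, L = ⌈lam / α ^ 2⌉₊ := ⟨_, rfl⟩
  have hα2 : 0 < α ^ 2 := by positivity
  have hL1 : lam ≤ α ^ 2 * L := by
    have h1 : lam / α ^ 2 ≤ L := by rw [hL]; exact Nat.le_ceil _
    rw [div_le_iff₀ hα2] at h1
    linarith only [h1]
  have hL2 : α ^ 2 * L ≤ l₁ := by
    have h1 : (L : ℝ) < lam / α ^ 2 + 1 := by
      rw [hL]
      exact Nat.ceil_lt_add_one (by (clear * - hlam0 hα0; positivity))
    have h2 : α ^ 2 * L ≤ α ^ 2 * (lam / α ^ 2 + 1) := mul_le_mul_of_nonneg_left h1.le hα2.le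
    have h3 : α ^ 2 * (lam / α ^ 2 + 1) = lam + α ^ 2 := by
      (clear * - hlam0 hα0; field_simp)
    have h4 : α ^ 2 ≤ 1 := Fast.sq_le_one hα0.le hαh
    rw [hl₁]
    linarith only [h2, h3, h4]
  obtain ⟨S, hS⟩ : ∃ S : ℝ, S = A * ((2 * K' + 1) * τ) := ⟨_, rfl⟩
  have hηα : η / α ^ 2 = τ := by
    rw [hη]
    (clear * - hτ0 hα0; field_simp)
  have hSb : ∀ n : ℕ, n ≤ 2 * L → n * (N * (α ^ 2 * (K' * q) + K' * α ^ 3 + η)) *
      Real.exp (N * (K * α ^ 2) * n) ≤ S := by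
    intro n hn
    rw [hS, hA]
    exact process_moment N L n K K' α η q l₁ τ hK hK' hα0 hq hqq hατ hη hl₁0 hτ0 hL2 hn
  obtain ⟨μ, hμ⟩ := process_aux N L K B₀ ε' C'' K' α η η' q W₁ W₂ S hK hB hC hK' hα0 hαh hNα hη0
    hη'0 hε'0.le x0 F Ft mm hW₁ hW₂ hq hF hFt hmm hmm0 κl κr hκl hκr hSb
  rw [hηα] at hμ
  have hPE := process_error P K ε' C'' N η' A K' α τ δ M hP0 hK hατ hM hε'1 hη'1 hτ1
  rw [← hS, hP] at hPE
  refine process_end N L μ F Ft W₁ W₂ B₀ δ α lam l₁ _ hB hδ hlam1 ?_ hPE hL2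
    (one_sub_pow_le α lam L hα0 hαh hL1) hμ
  rw [hS]
  (clear * - hK hC hK' hε'0 hη'0 hA0 hτ0 hα0; positivity)

end Vale.Agent.P082.KR
end

section

open scoped ComplexConjugate

namespace Vale.Agent.P082.KR

/-! ### the bounded sine sum -/

theorem abs_sin_nat_mul_le (x : ℝ) (m : ℕ) : |Real.sin (m * x)| ≤ m * |Real.sin x| := by
  induction m with
  | zero => simp
  | succ m ih =>
    have h : ((m + 1 : ℕ) : ℝ) * x = m * x + x := by push_cast; ring
    rw [h, Real.sin_add]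
    calc |Real.sin (m * x) * Real.cos x + Real.cos (m * x) * Real.sin x|
        ≤ |Real.sin (m * x)| * |Real.cos x| + |Real.cos (m * x)| * |Real.sin x| := by
          rw [← abs_mul, ← abs_mul]; exact abs_add_le _ _
      _ ≤ (m * |Real.sin x|) * 1 + 1 * |Real.sin x| := by
          gcongr
          · exact Real.abs_cos_le_one _
          · exact Real.abs_cos_le_one _
      _ = ((m + 1 : ℕ) : ℝ) * |Real.sin x| := by push_cast; ring

theorem abs_sin_le_two (x : ℝ) : |Real.sin x| ≤ 2 * |Real.sin (x / 2)| := by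
  have h := abs_sin_nat_mul_le (x / 2) 2
  have h2 : ((2 : ℕ) : ℝ) * (x / 2) = x := by push_cast; ring
  rw [h2] at h
  exact_mod_cast h

/-- Abel summation. -/
theorem abel_bound (a b : ℕ → ℝ) (ha : Antitone a) (h0 : ∀ n, 0 ≤ a n) (B : ℝ)
    (hB : ∀ n, |∑ k ∈ Finset.range n, b k| ≤ B) (n : ℕ) :
    |∑ k ∈ Finset.range n, a k * b k| ≤ a 0 * B := by
  have hid : ∀ n, ∑ k ∈ Finset.range n, a k * b k = a n * (∑ k ∈ Finset.range n, b k) +
      ∑ k ∈ Finset.range n, (a k - a (k + 1)) * (∑ i ∈ Finset.range (k + 1), b i) := by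
    intro n
    induction n with
    | zero => simp
    | succ n ih =>
      rw [Finset.sum_range_succ, ih, Finset.sum_range_succ (fun k => (a k - a (k + 1)) * _),
        Finset.sum_range_succ b n]
      ring
  have htel : ∀ n, a n + ∑ k ∈ Finset.range n, (a k - a (k + 1)) = a 0 := by
    intro n
    induction n with
    | zero => simp
    | succ n ih =>
      rw [Finset.sum_range_succ]
      linarith only [ih]
  rw [hid]
  calc |a n * (∑ k ∈ Finset.range n, b k) +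
        ∑ k ∈ Finset.range n, (a k - a (k + 1)) * (∑ i ∈ Finset.range (k + 1), b i)|
      ≤ |a n * (∑ k ∈ Finset.range n, b k)| +
        ∑ k ∈ Finset.range n, |(a k - a (k + 1)) * (∑ i ∈ Finset.range (k + 1), b i)| := by
        refine (abs_add_le _ _).trans ?_
        gcongr
        exact Finset.abs_sum_le_sum_abs _ _
    _ ≤ a n * B + ∑ k ∈ Finset.range n, (a k - a (k + 1)) * B := by
        refine add_le_add ?_ (Finset.sum_le_sum fun k _ => ?_)
        · rw [abs_mul, abs_of_nonneg (h0 n)]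
          exact mul_le_mul_of_nonneg_left (hB n) (h0 n)
        · have hk : 0 ≤ a k - a (k + 1) := sub_nonneg.2 (ha (Nat.le_succ k))
          rw [abs_mul, abs_of_nonneg hk]
          exact mul_le_mul_of_nonneg_left (hB (k + 1)) hk
    _ = (a n + ∑ k ∈ Finset.range n, (a k - a (k + 1))) * B := by
        rw [add_mul, Finset.sum_mul]
    _ = a 0 * B := by rw [htel]

theorem sum_sin_tail (x : ℝ) (hs : Real.sin (x / 2) ≠ 0) (K n : ℕ) :
    |∑ k ∈ Finset.range n, Real.sin (((K + k + 1 : ℕ) : ℝ) * x)| ≤ 1 / |Real.sin (x / 2)| := by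
  have hid : ∀ n, 2 * Real.sin (x / 2) * ∑ k ∈ Finset.range n,
      Real.sin (((K + k + 1 : ℕ) : ℝ) * x) =
      Real.cos ((K + 1 / 2 : ℝ) * x) - Real.cos ((K + n + 1 / 2 : ℝ) * x) := by
    intro n
    induction n with
    | zero => simp
    | succ n ih =>
      rw [Finset.sum_range_succ, mul_add, ih]
      have h1 : 2 * Real.sin (x / 2) * Real.sin (((K + n + 1 : ℕ) : ℝ) * x) =
          Real.cos (((K + n + 1 : ℕ) : ℝ) * x - x / 2) -
            Real.cos (((K + n + 1 : ℕ) : ℝ) * x + x / 2) := by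
        rw [Real.cos_sub, Real.cos_add]; ring
      rw [h1]
      have h2 : ((K + n + 1 : ℕ) : ℝ) * x - x / 2 = (K + n + 1 / 2 : ℝ) * x := by
        push_cast; ring
      have h3 : ((K + n + 1 : ℕ) : ℝ) * x + x / 2 = (K + (n + 1 : ℕ) + 1 / 2 : ℝ) * x := by
        push_cast; ring
      rw [h2, h3]
      ring
  have hpos : 0 < |Real.sin (x / 2)| := abs_pos.2 hs
  rw [le_div_iff₀ hpos]
  have h := congrArg abs (hid n)
  rw [abs_mul, abs_mul, abs_two] at h
  have h4 : |Real.cos ((K + 1 / 2 : ℝ) * x) - Real.cos ((K + n + 1 / 2 : ℝ) * x)| ≤ 2 := by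
    have := Real.abs_cos_le_one ((K + 1 / 2 : ℝ) * x)
    have := Real.abs_cos_le_one ((K + n + 1 / 2 : ℝ) * x)
    refine (abs_sub _ _).trans ?_
    linarith
  linarith only [h, h4]

/-- the sine sum is bounded by `3`. -/
theorem sum_sin_bound (x : ℝ) (N : ℕ) :
    |∑ k ∈ Finset.range N, Real.sin (((k + 1 : ℕ) : ℝ) * x) / ((k + 1 : ℕ) : ℝ)| ≤ 3 := by
  by_cases hs : Real.sin (x / 2) = 0
  · have h1 : Real.sin x = 0 := by
      have := abs_sin_le_two x
      rw [hs, abs_zero, mul_zero] at this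
      exact abs_nonpos_iff.1 this
    have h2 : ∀ k ∈ Finset.range N,
        Real.sin (((k + 1 : ℕ) : ℝ) * x) / ((k + 1 : ℕ) : ℝ) = 0 := by
      intro k _
      have h3 := abs_sin_nat_mul_le x (k + 1)
      rw [h1, abs_zero, mul_zero] at h3
      rw [abs_nonpos_iff.1 h3, zero_div]
    rw [Finset.sum_eq_zero h2]
    simp
  · have hpos : 0 < |Real.sin (x / 2)| := abs_pos.2 hs
    set K := ⌊1 / |Real.sin (x / 2)|⌋₊ with hK
    have hK1 : (K : ℝ) ≤ 1 / |Real.sin (x / 2)| := Nat.floor_le (by positivity)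
    have hK2 : 1 / |Real.sin (x / 2)| < (K : ℝ) + 1 := Nat.lt_floor_add_one _
    have hhead : ∀ L : ℕ, L ≤ K →
        |∑ k ∈ Finset.range L, Real.sin (((k + 1 : ℕ) : ℝ) * x) / ((k + 1 : ℕ) : ℝ)| ≤ 2 := by
      intro L hL
      calc |∑ k ∈ Finset.range L, Real.sin (((k + 1 : ℕ) : ℝ) * x) / ((k + 1 : ℕ) : ℝ)|
          ≤ ∑ k ∈ Finset.range L,
            |Real.sin (((k + 1 : ℕ) : ℝ) * x) / ((k + 1 : ℕ) : ℝ)| :=
            Finset.abs_sum_le_sum_abs _ _
        _ ≤ ∑ _k ∈ Finset.range L, 2 * |Real.sin (x / 2)| := by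
            refine Finset.sum_le_sum fun k _ => ?_
            have hk : (0 : ℝ) < ((k + 1 : ℕ) : ℝ) := by (clear * -; positivity)
            rw [abs_div, abs_of_pos hk, div_le_iff₀ hk]
            refine (abs_sin_nat_mul_le x (k + 1)).trans ?_
            have := abs_sin_le_two x
            linarith only [mul_le_mul_of_nonneg_left this hk.le]
        _ = L * (2 * |Real.sin (x / 2)|) := by simp
        _ ≤ K * (2 * |Real.sin (x / 2)|) := by gcongr
        _ ≤ 1 / |Real.sin (x / 2)| * (2 * |Real.sin (x / 2)|) := by gcongr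
        _ = 2 := by field_simp
    by_cases hN : N ≤ K
    · exact (hhead N hN).trans (by norm_num)
    · push Not at hN
      obtain ⟨n, rfl⟩ := Nat.exists_eq_add_of_lt hN
      have hsplit : ∑ k ∈ Finset.range (K + n + 1),
          Real.sin (((k + 1 : ℕ) : ℝ) * x) / ((k + 1 : ℕ) : ℝ) =
          ∑ k ∈ Finset.range K, Real.sin (((k + 1 : ℕ) : ℝ) * x) / ((k + 1 : ℕ) : ℝ) +
          ∑ k ∈ Finset.range (n + 1),
            (1 / ((K + k + 1 : ℕ) : ℝ)) * Real.sin (((K + k + 1 : ℕ) : ℝ) * x) := by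
        rw [add_assoc, Finset.sum_range_add]
        congr 1
        refine Finset.sum_congr rfl fun k _ => ?_
        rw [div_eq_mul_one_div, mul_comm]
      rw [hsplit]
      have htail := abel_bound (fun k => 1 / ((K + k + 1 : ℕ) : ℝ))
        (fun k => Real.sin (((K + k + 1 : ℕ) : ℝ) * x))
        (by
          intro i j hij
          have hi : (0 : ℝ) < ((K + i + 1 : ℕ) : ℝ) := by (clear * -; positivity)
          apply one_div_le_one_div_of_le hi
          exact_mod_cast (by omega : K + i + 1 ≤ K + j + 1))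
        (fun n => by (clear * -; positivity)) (1 / |Real.sin (x / 2)|) (sum_sin_tail x hs K) (n + 1)
      have h1 : (1 / ((K + 0 + 1 : ℕ) : ℝ)) * (1 / |Real.sin (x / 2)|) ≤ 1 := by
        have hp : (0 : ℝ) < (K : ℝ) + 1 := by (clear * -; positivity)
        have h2 : ((K + 0 + 1 : ℕ) : ℝ) = (K : ℝ) + 1 := by push_cast; ring
        rw [h2, one_div_mul_eq_div, div_le_one hp]
        exact hK2.le
      refine (abs_add_le _ _).trans ?_
      have h3 := hhead K le_rfl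
      linarith only [htail, h1, h3]

/-- the function `f(z) = ∑ (z^m - conj z^m)/m` is bounded by `6` on the unit circle. -/
theorem norm_f_le (z : ℂ) (hz : ‖z‖ = 1) (N : ℕ) :
    ‖∑ k ∈ Finset.range N, (((k + 1 : ℕ) : ℂ)⁻¹) * (z ^ (k + 1) - conj z ^ (k + 1))‖ ≤ 6 := by
  set x := Complex.arg z with hx
  have hz1 : z = Complex.exp (x * Complex.I) := by
    have := Complex.norm_mul_exp_arg_mul_I z
    rw [hz, Complex.ofReal_one, one_mul] at this
    exact this.symm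
  have h1 : ∀ k ∈ Finset.range N,
      (((k + 1 : ℕ) : ℂ)⁻¹) * (z ^ (k + 1) - conj z ^ (k + 1)) =
      (2 * Complex.I) * ((Real.sin (((k + 1 : ℕ) : ℝ) * x) / ((k + 1 : ℕ) : ℝ) : ℝ) : ℂ) := by
    intro k _
    have h2 : conj z = Complex.exp (-(x * Complex.I)) := by
      rw [hz1, ← Complex.exp_conj]
      simp
    have h3 : z ^ (k + 1) = Complex.exp ((((k + 1 : ℕ) : ℝ) * x : ℝ) * Complex.I) := by
      rw [hz1, ← Complex.exp_nat_mul]
      congr 1
      push_cast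
      ring
    have h4 : conj z ^ (k + 1) = Complex.exp (-((((k + 1 : ℕ) : ℝ) * x : ℝ) * Complex.I)) := by
      rw [h2, ← Complex.exp_nat_mul]
      congr 1
      push_cast
      ring
    rw [h3, h4]
    have h5 : Complex.exp ((((k + 1 : ℕ) : ℝ) * x : ℝ) * Complex.I) -
        Complex.exp (-((((k + 1 : ℕ) : ℝ) * x : ℝ) * Complex.I)) =
        2 * Complex.I * (Real.sin (((k + 1 : ℕ) : ℝ) * x) : ℂ) := by
      rw [Complex.ofReal_sin, Complex.sin]
      have hI : Complex.I * Complex.I = -1 := Complex.I_mul_I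
      rw [neg_mul]
      linear_combination (Complex.exp ((((k + 1 : ℕ) : ℝ) * x : ℝ) * Complex.I) -
        Complex.exp (-((((k + 1 : ℕ) : ℝ) * x : ℝ) * Complex.I))) * hI
    rw [h5]
    push_cast
    ring
  rw [Finset.sum_congr rfl h1, ← Finset.mul_sum, ← Complex.ofReal_sum, norm_mul, norm_mul,
    Complex.norm_real, Complex.norm_I, Real.norm_eq_abs]
  have := sum_sin_bound x N
  simp only [Complex.norm_ofNat, mul_one]
  linarith

end Vale.Agent.P082.KR
end

section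

open scoped InnerProductSpace ComplexConjugate

namespace Vale.Agent.P082.KR

open Vale.Agent.P082

/-! ### Parseval for finite averages over roots of unity -/

/-- the root of unity `exp(2πi j/L)` -/
noncomputable def rt (L : ℕ) (j : Fin L) : ℂ := Complex.exp (2 * Real.pi * Complex.I / L) ^ (j : ℕ)

lemma norm_rt (L : ℕ) (j : Fin L) : ‖rt L j‖ = 1 := by
  have hL : L ≠ 0 := by
    rintro rfl
    exact j.elim0
  have h := (Complex.isPrimitiveRoot_exp L hL).pow_eq_one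
  have h1 : ‖Complex.exp (2 * Real.pi * Complex.I / L)‖ ^ L = 1 := by
    rw [← norm_pow, h, norm_one]
  have h2 : ‖Complex.exp (2 * Real.pi * Complex.I / L)‖ = 1 :=
    (pow_eq_one_iff_of_nonneg (norm_nonneg _) hL).1 h1
  rw [rt, norm_pow, h2, one_pow]

lemma sum_rt (L : ℕ) (a b : ℕ) (ha : a < L) (hb : b < L) :
    ∑ j : Fin L, conj (rt L j ^ a) * rt L j ^ b = if a = b then (L : ℂ) else 0 := by
  have hL : L ≠ 0 := by omega
  set ω := Complex.exp (2 * Real.pi * Complex.I / L) with hω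
  have hp : IsPrimitiveRoot ω L := Complex.isPrimitiveRoot_exp L hL
  have hn : ‖ω‖ = 1 := by
    have h1 : ‖ω‖ ^ L = 1 := by rw [← norm_pow, hp.pow_eq_one, norm_one]
    exact (pow_eq_one_iff_of_nonneg (norm_nonneg _) hL).1 h1
  have hc : conj ω * ω = 1 := by
    rw [mul_comm, Complex.mul_conj, Complex.normSq_eq_norm_sq, hn]
    simp
  have h1 : ∀ j : Fin L, conj (rt L j ^ a) * rt L j ^ b = (conj ω ^ a * ω ^ b) ^ (j : ℕ) := by
    intro j
    rw [rt, ← hω, map_pow, map_pow]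
    ring
  rw [Finset.sum_congr rfl fun j _ => h1 j, Fin.sum_univ_eq_sum_range (fun j => (conj ω ^ a * ω ^ b) ^ j) L]
  by_cases hab : a = b
  · subst hab
    rw [if_pos rfl, ← mul_pow, hc, one_pow]
    simp
  · rw [if_neg hab]
    have hη : conj ω ^ a * ω ^ b ≠ 1 := by
      intro h
      apply hab
      apply hp.pow_inj ha hb
      have h2 := congrArg (fun t => ω ^ a * t) h
      simp only [mul_one] at h2
      rw [← mul_assoc, ← mul_pow, mul_comm ω, hc, one_pow, one_mul] at h2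
      exact h2.symm
    rw [geom_sum_eq hη]
    have h3 : (conj ω ^ a * ω ^ b) ^ L = 1 := by
      have h4 : ω ^ L = 1 := hp.pow_eq_one
      have h5 : conj ω ^ L = 1 := by rw [← map_pow, h4, map_one]
      calc (conj ω ^ a * ω ^ b) ^ L = (conj ω ^ L) ^ a * (ω ^ L) ^ b := by ring
        _ = 1 := by rw [h4, h5, one_pow, one_pow, one_mul]
    rw [h3, sub_self, zero_div]

section

variable {K : Type*} [NormedAddCommGroup K] [InnerProductSpace ℂ K]

lemma parseval (L : ℕ) (hL : L ≠ 0) (x : ℕ → K) :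
    avg (fun j : Fin L => ‖∑ a ∈ Finset.range L, rt L j ^ a • x a‖ ^ 2) =
      ∑ a ∈ Finset.range L, ‖x a‖ ^ 2 := by
  have h1 : (((avg (fun j : Fin L => ‖∑ a ∈ Finset.range L, rt L j ^ a • x a‖ ^ 2) : ℝ)) : ℂ) =
      ((∑ a ∈ Finset.range L, ‖x a‖ ^ 2 : ℝ) : ℂ) := by
    unfold avg
    rw [smul_eq_mul, Fintype.card_fin, Complex.ofReal_mul, Complex.ofReal_sum]
    have h2 : ∀ j : Fin L, ((‖∑ a ∈ Finset.range L, rt L j ^ a • x a‖ ^ 2 : ℝ) : ℂ) =
        ∑ a ∈ Finset.range L, ∑ b ∈ Finset.range L,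
          (conj (rt L j ^ a) * rt L j ^ b) * ⟪x a, x b⟫_ℂ := by
      intro j
      have h3 := inner_self_eq_norm_sq_to_K (𝕜 := ℂ) (∑ a ∈ Finset.range L, rt L j ^ a • x a)
      have h4 : ((‖∑ a ∈ Finset.range L, rt L j ^ a • x a‖ ^ 2 : ℝ) : ℂ) =
          ⟪∑ a ∈ Finset.range L, rt L j ^ a • x a, ∑ a ∈ Finset.range L, rt L j ^ a • x a⟫_ℂ := by
        rw [h3]
        push_cast
        rfl
      rw [h4, sum_inner]
      refine Finset.sum_congr rfl fun a _ => ?_
      rw [inner_sum]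
      refine Finset.sum_congr rfl fun b _ => ?_
      rw [inner_smul_left, inner_smul_right]
      ring
    rw [Finset.sum_congr rfl fun j _ => h2 j, Finset.sum_comm]
    have h5 : ∀ a ∈ Finset.range L, ∑ j : Fin L, ∑ b ∈ Finset.range L,
        (conj (rt L j ^ a) * rt L j ^ b) * ⟪x a, x b⟫_ℂ = (L : ℂ) * ((‖x a‖ ^ 2 : ℝ) : ℂ) := by
      intro a ha
      rw [Finset.sum_comm]
      have h6 : ∀ b ∈ Finset.range L, ∑ j : Fin L,
          (conj (rt L j ^ a) * rt L j ^ b) * ⟪x a, x b⟫_ℂ =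
          if a = b then (L : ℂ) * ⟪x a, x b⟫_ℂ else 0 := by
        intro b hb
        rw [← Finset.sum_mul, sum_rt L a b (Finset.mem_range.1 ha) (Finset.mem_range.1 hb)]
        split_ifs
        · rfl
        · rw [zero_mul]
      rw [Finset.sum_congr rfl h6, Finset.sum_ite_eq, if_pos ha, inner_self_eq_norm_sq_to_K]
      push_cast
      rfl
    rw [Finset.sum_congr rfl h5, ← Finset.mul_sum, ← mul_assoc]
    have hL' : (L : ℂ) ≠ 0 := by exact_mod_cast hL
    push_cast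
    rw [inv_mul_cancel₀ hL', one_mul]
  exact_mod_cast h1

end

/-! ### the functional calculus bound -/

section

variable {A : Type*} [NormedRing A] [StarRing A] [CStarRing A] [CompleteSpace A]
  [NormedAlgebra ℂ A] [StarModule ℂ A]

lemma norm_fop_le (w : unitary A) (N : ℕ) :
    ‖∑ k ∈ Finset.range N, (((k + 1 : ℕ) : ℂ)⁻¹) •
      ((w : A) ^ (k + 1) - star (w : A) ^ (k + 1))‖ ≤ 6 := by
  let _ : CStarAlgebra A := {}
  have hw : IsStarNormal (w : A) := ⟨by
    rw [Commute, SemiconjBy, star_mul_self_u, mul_star_self_u]⟩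
  have h1 : ∑ k ∈ Finset.range N, (((k + 1 : ℕ) : ℂ)⁻¹) •
      ((w : A) ^ (k + 1) - star (w : A) ^ (k + 1)) =
      cfc (fun z : ℂ => ∑ k ∈ Finset.range N, (((k + 1 : ℕ) : ℂ)⁻¹) *
        (z ^ (k + 1) - conj z ^ (k + 1))) (w : A) := by
    have h2 : (fun z : ℂ => ∑ k ∈ Finset.range N, (((k + 1 : ℕ) : ℂ)⁻¹) *
        (z ^ (k + 1) - conj z ^ (k + 1))) = ∑ k ∈ Finset.range N,
          (fun z : ℂ => (((k + 1 : ℕ) : ℂ)⁻¹) • (z ^ (k + 1) - conj z ^ (k + 1))) := by
      funext z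
      simp
    have hcont : Continuous (fun z : ℂ => conj z) := Complex.continuous_conj
    have hc1 : ∀ k : ℕ, Continuous (fun z : ℂ => z ^ (k + 1)) := fun k => continuous_pow _
    have hc2 : ∀ k : ℕ, Continuous (fun z : ℂ => conj z ^ (k + 1)) := fun k => hcont.pow _
    have hc3 : ∀ k : ℕ, Continuous (fun z : ℂ => (((k + 1 : ℕ) : ℂ)⁻¹) •
        (z ^ (k + 1) - conj z ^ (k + 1))) := fun k => by
      fun_prop
    rw [h2, cfc_sum (fun (k : ℕ) (z : ℂ) => (((k + 1 : ℕ) : ℂ)⁻¹) •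
      (z ^ (k + 1) - conj z ^ (k + 1))) (w : A) (Finset.range N)
      (fun k _ => (hc3 k).continuousOn)]
    refine Finset.sum_congr rfl fun k _ => ?_
    rw [cfc_smul (((k + 1 : ℕ) : ℂ)⁻¹) (fun z : ℂ => z ^ (k + 1) - conj z ^ (k + 1)) (w : A)
      ((hc1 k).sub (hc2 k)).continuousOn,
      cfc_sub (fun z : ℂ => z ^ (k + 1)) (fun z : ℂ => conj z ^ (k + 1)) (w : A)
      (hc1 k).continuousOn (hc2 k).continuousOn, cfc_pow_id (w : A) (k + 1),
      cfc_pow (fun z : ℂ => conj z) (k + 1) (w : A) hcont.continuousOn]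
    have h3 : cfc (fun z : ℂ => conj z) (w : A) = star (w : A) := cfc_star_id (w : A)
    rw [h3]
  rw [h1]
  refine norm_cfc_le (by norm_num) fun z hz => ?_
  exact norm_f_le z (spectrum.norm_eq_one_of_unitary w.2 hz) N

end

/-! ### the inequality -/

section

variable {A : Type*} [NormedRing A] [StarRing A] [NormedAlgebra ℂ A] [StarModule ℂ A]

lemma smul_mem_unitary {z : ℂ} (hz : ‖z‖ = 1) (u : unitary A) : z • (u : A) ∈ unitary A := by
  have h1 : conj z * z = 1 := by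
    rw [mul_comm, Complex.mul_conj, Complex.normSq_eq_norm_sq, hz]
    simp
  have h2 : z * conj z = 1 := by rw [mul_comm]; exact h1
  rw [Unitary.mem_iff]
  constructor
  · rw [star_smul, smul_mul_smul_comm, star_mul_self_u, Complex.star_def, h1, one_smul]
  · rw [star_smul, smul_mul_smul_comm, mul_star_self_u, Complex.star_def, h2, one_smul]

omit [NormedAlgebra ℂ A] [StarModule ℂ A] in
lemma star_pow_mul_pow (w : unitary A) (m r : ℕ) :
    star (w : A) ^ m * (w : A) ^ (m + r) = (w : A) ^ r := by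
  induction m with
  | zero => simp
  | succ m ih =>
    have h : (w : A) ^ (m + 1 + r) = (w : A) * (w : A) ^ (m + r) := by
      rw [← pow_succ']; congr 1; omega
    rw [pow_succ, h, mul_assoc, star_mul_cancel_u, ih]

lemma shift_sum {M : Type*} [AddCommMonoid M] (N k : ℕ) (hk : k < N) (g : ℕ → M) :
    ∑ i ∈ Finset.range (2 * N), g (N + i - (k + 1)) =
      ∑ a ∈ Finset.range (3 * N), if N ≤ a + k + 1 ∧ a + k + 1 < 3 * N then g a else 0 := by
  rw [← Finset.sum_filter]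
  refine Finset.sum_nbij' (fun i => N + i - (k + 1)) (fun a => a + k + 1 - N) ?_ ?_ ?_ ?_ ?_
  · intro i hi
    simp only [Finset.mem_range, Finset.mem_filter] at hi ⊢
    omega
  · intro a ha
    simp only [Finset.mem_range, Finset.mem_filter] at ha ⊢
    omega
  · intro i hi
    simp only [Finset.mem_range] at hi ⊢
    omega
  · intro a ha
    simp only [Finset.mem_range, Finset.mem_filter] at ha ⊢
    omega
  · intro i _
    rfl

/-- coefficient of the product of the two kernels -/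
noncomputable def coefR (N a : ℕ) : ℝ :=
  ∑ k ∈ Finset.range N, if N ≤ a + k + 1 ∧ a + k + 1 < 3 * N then ((k + 1 : ℕ) : ℝ)⁻¹ else 0

lemma coefR_mid (N a : ℕ) (h1 : N ≤ a) (h2 : a < 2 * N) :
    coefR N a = ∑ k ∈ Finset.range N, ((k + 1 : ℕ) : ℝ)⁻¹ := by
  unfold coefR
  refine Finset.sum_congr rfl fun k hk => ?_
  have := Finset.mem_range.1 hk
  rw [if_pos (by omega)]

variable {K : Type*} [NormedAddCommGroup K] [InnerProductSpace ℂ K] (R : TraceRep A K)

lemma T0_eq (d : A) (u : unitary A) {z : ℂ} (hz : ‖z‖ = 1) (N : ℕ) :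
    R.V (d * (∑ k ∈ Finset.range N, (((k + 1 : ℕ) : ℂ)⁻¹) • star (z • (u : A)) ^ (k + 1)) *
      ∑ i ∈ Finset.range (2 * N), (z • (u : A)) ^ (N + i)) =
    ∑ a ∈ Finset.range (3 * N), z ^ a • (((coefR N a : ℝ) : ℂ) • R.V (d * (u : A) ^ a)) := by
  have h1 : d * (∑ k ∈ Finset.range N, (((k + 1 : ℕ) : ℂ)⁻¹) • star (z • (u : A)) ^ (k + 1)) *
      ∑ i ∈ Finset.range (2 * N), (z • (u : A)) ^ (N + i) =
      ∑ k ∈ Finset.range N, ∑ i ∈ Finset.range (2 * N),
        (((k + 1 : ℕ) : ℂ)⁻¹) • (z ^ (N + i - (k + 1)) • (d * (u : A) ^ (N + i - (k + 1)))) := by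
    rw [Finset.mul_sum (Finset.range N) _ d, Finset.sum_mul]
    refine Finset.sum_congr rfl fun k hk => ?_
    have hk' := Finset.mem_range.1 hk
    rw [Finset.mul_sum]
    refine Finset.sum_congr rfl fun i _ => ?_
    have h2 := star_pow_mul_pow ⟨z • (u : A), smul_mem_unitary hz u⟩ (k + 1) (N + i - (k + 1))
    have h3 : k + 1 + (N + i - (k + 1)) = N + i := by omega
    rw [h3] at h2
    simp only at h2
    rw [mul_smul_comm, smul_mul_assoc, mul_assoc, h2, smul_pow, mul_smul_comm]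
  rw [h1, map_sum]
  have h4 : ∀ k ∈ Finset.range N, R.V (∑ i ∈ Finset.range (2 * N),
        (((k + 1 : ℕ) : ℂ)⁻¹) • (z ^ (N + i - (k + 1)) • (d * (u : A) ^ (N + i - (k + 1))))) =
      ∑ a ∈ Finset.range (3 * N), z ^ a •
        ((((if N ≤ a + k + 1 ∧ a + k + 1 < 3 * N then ((k + 1 : ℕ) : ℝ)⁻¹ else 0 : ℝ)) : ℂ) •
          R.V (d * (u : A) ^ a)) := by
    intro k hk
    have hk' := Finset.mem_range.1 hk
    rw [map_sum]
    simp only [map_smul]
    rw [shift_sum N k hk' (fun e => (((k + 1 : ℕ) : ℂ)⁻¹) • (z ^ e • R.V (d * (u : A) ^ e)))]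
    refine Finset.sum_congr rfl fun a _ => ?_
    split_ifs with h
    · rw [smul_comm]
      push_cast
      rfl
    · simp
  rw [Finset.sum_congr rfl h4, Finset.sum_comm]
  refine Finset.sum_congr rfl fun a _ => ?_
  rw [← Finset.smul_sum, ← Finset.sum_smul]
  congr 2
  unfold coefR
  push_cast
  rfl

end

section

variable {A : Type*} [NormedRing A] [StarRing A] [CStarRing A] [NormedAlgebra ℂ A]
  [StarModule ℂ A] {K : Type*} [NormedAddCommGroup K] [InnerProductSpace ℂ K] (R : TraceRep A K)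

omit [CStarRing A] [StarModule ℂ A] in
lemma norm_V_mul_pow (d : A) (u : unitary A) (a : ℕ) : ‖R.V (d * (u : A) ^ a)‖ = ‖R.V d‖ := by
  have h : ((u ^ a : unitary A) : A) = (u : A) ^ a := by simp
  rw [← h, norm_V_mul_u]

omit [CStarRing A] in
lemma avg_T0_ge (d : A) (u : unitary A) (N : ℕ) (hN : 1 ≤ N) :
    (N : ℝ) * (∑ k ∈ Finset.range N, ((k + 1 : ℕ) : ℝ)⁻¹) ^ 2 * ‖R.V d‖ ^ 2 ≤
    avg (fun j : Fin (3 * N) => ‖R.V (d * (∑ k ∈ Finset.range N, (((k + 1 : ℕ) : ℂ)⁻¹) •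
      star (rt (3 * N) j • (u : A)) ^ (k + 1)) *
      ∑ i ∈ Finset.range (2 * N), (rt (3 * N) j • (u : A)) ^ (N + i))‖ ^ 2) := by
  have h1 : ∀ j : Fin (3 * N), ‖R.V (d * (∑ k ∈ Finset.range N, (((k + 1 : ℕ) : ℂ)⁻¹) •
      star (rt (3 * N) j • (u : A)) ^ (k + 1)) *
      ∑ i ∈ Finset.range (2 * N), (rt (3 * N) j • (u : A)) ^ (N + i))‖ ^ 2 =
      ‖∑ a ∈ Finset.range (3 * N), rt (3 * N) j ^ a •
        (((coefR N a : ℝ) : ℂ) • R.V (d * (u : A) ^ a))‖ ^ 2 := by
    intro j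
    rw [T0_eq R d u (norm_rt _ j) N]
  rw [funext h1, parseval (3 * N) (by omega)]
  have h2 : ∀ a ∈ Finset.range (3 * N), ‖((coefR N a : ℝ) : ℂ) • R.V (d * (u : A) ^ a)‖ ^ 2 =
      coefR N a ^ 2 * ‖R.V d‖ ^ 2 := by
    intro a _
    rw [norm_smul, norm_V_mul_pow, Complex.norm_real, mul_pow, Real.norm_eq_abs, sq_abs]
  rw [Finset.sum_congr rfl h2]
  calc (N : ℝ) * (∑ k ∈ Finset.range N, ((k + 1 : ℕ) : ℝ)⁻¹) ^ 2 * ‖R.V d‖ ^ 2
      = ∑ a ∈ Finset.Ico N (2 * N), coefR N a ^ 2 * ‖R.V d‖ ^ 2 := by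
        have h3 : ∀ a ∈ Finset.Ico N (2 * N), coefR N a ^ 2 * ‖R.V d‖ ^ 2 =
            (∑ k ∈ Finset.range N, ((k + 1 : ℕ) : ℝ)⁻¹) ^ 2 * ‖R.V d‖ ^ 2 := by
          intro a ha
          rw [Finset.mem_Ico] at ha
          rw [coefR_mid N a ha.1 ha.2]
        rw [Finset.sum_congr rfl h3, Finset.sum_const, Nat.card_Ico, nsmul_eq_mul]
        have h4 : 2 * N - N = N := by omega
        rw [h4]
        ring
    _ ≤ ∑ a ∈ Finset.range (3 * N), coefR N a ^ 2 * ‖R.V d‖ ^ 2 := by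
        refine Finset.sum_le_sum_of_subset_of_nonneg ?_ fun a _ _ => by (clear * -; positivity)
        intro a ha
        rw [Finset.mem_Ico] at ha
        rw [Finset.mem_range]
        omega

omit [CStarRing A] [StarModule ℂ A] in
lemma avg_VS (u : unitary A) (N : ℕ) (hN : 1 ≤ N) :
    avg (fun j : Fin (3 * N) =>
      ‖R.V (∑ i ∈ Finset.range (2 * N), (rt (3 * N) j • (u : A)) ^ (N + i))‖ ^ 2) =
      2 * N * ‖R.V 1‖ ^ 2 := by
  have h0 : 3 * N = N + 2 * N := by ring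
  have h1 : ∀ j : Fin (3 * N),
      ‖R.V (∑ i ∈ Finset.range (2 * N), (rt (3 * N) j • (u : A)) ^ (N + i))‖ ^ 2 =
      ‖∑ a ∈ Finset.range (3 * N), rt (3 * N) j ^ a •
        (if N ≤ a then R.V (1 * (u : A) ^ a) else 0)‖ ^ 2 := by
    intro j
    have h2 : R.V (∑ i ∈ Finset.range (2 * N), (rt (3 * N) j • (u : A)) ^ (N + i)) =
        ∑ a ∈ Finset.range (3 * N), rt (3 * N) j ^ a •
        (if N ≤ a then R.V (1 * (u : A) ^ a) else 0) := by
      rw [show Finset.range (3 * N) = Finset.range (N + 2 * N) by rw [← h0],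
        Finset.sum_range_add]
      have h3 : ∑ a ∈ Finset.range N, rt (3 * N) j ^ a •
          (if N ≤ a then R.V (1 * (u : A) ^ a) else 0) = 0 := by
        refine Finset.sum_eq_zero fun a ha => ?_
        rw [if_neg (by have := Finset.mem_range.1 ha; omega), smul_zero]
      rw [h3, zero_add, map_sum]
      refine Finset.sum_congr rfl fun i _ => ?_
      rw [if_pos (by omega), smul_pow, map_smul, one_mul]
    rw [h2]
  rw [funext h1, parseval (3 * N) (by omega)]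
  rw [show Finset.range (3 * N) = Finset.range (N + 2 * N) by rw [← h0], Finset.sum_range_add]
  have h3 : ∑ a ∈ Finset.range N, ‖(if N ≤ a then R.V (1 * (u : A) ^ a) else 0)‖ ^ 2 = 0 := by
    refine Finset.sum_eq_zero fun a ha => ?_
    rw [if_neg (by have := Finset.mem_range.1 ha; omega), norm_zero]
    norm_num
  rw [h3, zero_add]
  have h4 : ∀ i ∈ Finset.range (2 * N),
      ‖(if N ≤ N + i then R.V (1 * (u : A) ^ (N + i)) else 0)‖ ^ 2 = ‖R.V 1‖ ^ 2 := by
    intro i _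
    rw [if_pos (by omega), norm_V_mul_pow]
  rw [Finset.sum_congr rfl h4]
  simp

end

section

variable {A : Type*} [NormedRing A] [StarRing A] [CStarRing A] [CompleteSpace A]
  [NormedAlgebra ℂ A] [StarModule ℂ A]
  {K : Type*} [NormedAddCommGroup K] [InnerProductSpace ℂ K] (R : TraceRep A K)

omit [CStarRing A] [CompleteSpace A] in
/-- the operator identity behind the inequality. -/
lemma riesz_identity (Φ : A →L[ℂ] A) (cp cq : A) (u q : unitary A) (z : ℂ) (N : ℕ) :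
    Φ ((∑ k ∈ Finset.range N, (((k + 1 : ℕ) : ℂ)⁻¹) •
      ((z • (u : A)) ^ (k + 1) - star (z • (u : A)) ^ (k + 1))) * (q : A)) * star (q : A) =
    cp * (∑ k ∈ Finset.range N, (((k + 1 : ℕ) : ℂ)⁻¹) •
      ((z • (u : A)) ^ (k + 1) - star (z • (u : A)) ^ (k + 1))) +
    (cp - cq) * (∑ k ∈ Finset.range N, (((k + 1 : ℕ) : ℂ)⁻¹) • star (z • (u : A)) ^ (k + 1)) +
    (∑ k ∈ Finset.range N, (((k + 1 : ℕ) : ℂ)⁻¹) •
      (z ^ (k + 1) • ((Φ ((u : A) ^ (k + 1) * (q : A)) - cp * ((u : A) ^ (k + 1) * (q : A))) *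
          star (q : A)) -
       conj z ^ (k + 1) • ((Φ (star (u : A) ^ (k + 1) * (q : A)) -
          cq * (star (u : A) ^ (k + 1) * (q : A))) * star (q : A)))) := by
  rw [Finset.sum_mul, map_sum, Finset.sum_mul, Finset.mul_sum, Finset.mul_sum,
    ← Finset.sum_add_distrib, ← Finset.sum_add_distrib]
  refine Finset.sum_congr rfl fun k _ => ?_
  have h1 : star (z • (u : A)) ^ (k + 1) = conj z ^ (k + 1) • star (u : A) ^ (k + 1) := by
    rw [star_smul, smul_pow]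
    rfl
  rw [h1, smul_pow]
  simp only [smul_mul_assoc, sub_mul, map_smul, map_sub, mul_smul_comm, mul_sub, smul_sub,
    mul_assoc, mul_star_self_u, mul_one]
  abel

/-- The Riesz projection inequality (section 6). -/
theorem riesz_core (Φ : A →L[ℂ] A) {C : ℝ} (hC : 0 ≤ C) (hΦ : ∀ x, ‖Φ x‖ ≤ C * ‖x‖) (cp cq : A)
    (hcp : ‖cp‖ ≤ C) (u q : unitary A) (N : ℕ) (hN : 1 ≤ N) :
    (∑ m ∈ Finset.range N, 1 / ((m : ℝ) + 1)) ^ 2 * ‖R.V (cp - cq)‖ ^ 2 ≤
      576 * C ^ 2 * ‖R.V 1‖ ^ 2 + 16 * (N : ℝ) ^ 2 * ∑ m ∈ Finset.range N,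
        (‖R.V (Φ ((u : A) ^ (m + 1) * q) - cp * ((u : A) ^ (m + 1) * q))‖ ^ 2 +
         ‖R.V (Φ (star (u : A) ^ (m + 1) * q) - cq * (star (u : A) ^ (m + 1) * q))‖ ^ 2) := by
  set a : ℕ → ℝ := fun m => ‖R.V (Φ ((u : A) ^ (m + 1) * q) - cp * ((u : A) ^ (m + 1) * q))‖ with ha
  set b : ℕ → ℝ := fun m =>
    ‖R.V (Φ (star (u : A) ^ (m + 1) * q) - cq * (star (u : A) ^ (m + 1) * q))‖ with hb
  have ha0 : ∀ m, 0 ≤ a m := fun m => norm_nonneg _
  have hb0 : ∀ m, 0 ≤ b m := fun m => norm_nonneg _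
  set D : ℝ := ∑ m ∈ Finset.range N, (a m + b m) with hD
  have hD0 : 0 ≤ D := Finset.sum_nonneg fun m _ => add_nonneg (ha0 m) (hb0 m)
  have hNr : (0 : ℝ) < N := by exact_mod_cast hN
  have hDsq : D ^ 2 ≤ N * ∑ m ∈ Finset.range N, 2 * (a m ^ 2 + b m ^ 2) := by
    have h1 := sq_sum_le_card_mul_sum_sq (s := Finset.range N) (f := fun m => a m + b m)
    rw [Finset.card_range] at h1
    refine h1.trans ?_
    gcongr with m _
    linarith only [sq_nonneg (a m - b m)]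
  -- pointwise bound
  have hpt : ∀ z : ℂ, ‖z‖ = 1 →
      ‖R.V ((cp - cq) * (∑ k ∈ Finset.range N, (((k + 1 : ℕ) : ℂ)⁻¹) •
        star (z • (u : A)) ^ (k + 1)) *
        ∑ i ∈ Finset.range (2 * N), (z • (u : A)) ^ (N + i))‖ ^ 2 ≤
      (288 * C ^ 2) * ‖R.V (∑ i ∈ Finset.range (2 * N), (z • (u : A)) ^ (N + i))‖ ^ 2 +
        8 * N ^ 2 * D ^ 2 := by
    intro z hz
    set w : unitary A := ⟨z • (u : A), smul_mem_unitary hz u⟩ with hw
    set S : A := ∑ i ∈ Finset.range (2 * N), (z • (u : A)) ^ (N + i) with hS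
    set F : A := ∑ k ∈ Finset.range N, (((k + 1 : ℕ) : ℂ)⁻¹) •
      ((z • (u : A)) ^ (k + 1) - star (z • (u : A)) ^ (k + 1)) with hF
    set fm : A := ∑ k ∈ Finset.range N, (((k + 1 : ℕ) : ℂ)⁻¹) •
        star (z • (u : A)) ^ (k + 1) with hfm
    set Er : A := ∑ k ∈ Finset.range N, (((k + 1 : ℕ) : ℂ)⁻¹) •
      (z ^ (k + 1) • ((Φ ((u : A) ^ (k + 1) * (q : A)) - cp * ((u : A) ^ (k + 1) * (q : A))) *
          star (q : A)) -
       conj z ^ (k + 1) • ((Φ (star (u : A) ^ (k + 1) * (q : A)) -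
          cq * (star (u : A) ^ (k + 1) * (q : A))) * star (q : A))) with hEr
    have hid := riesz_identity Φ cp cq u q z N
    rw [← hF, ← hfm, ← hEr] at hid
    have hFn : ‖F‖ ≤ 6 := norm_fop_le w N
    have hSn : ‖S‖ ≤ 2 * N := by
      refine (norm_sum_le _ _).trans ?_
      calc ∑ i ∈ Finset.range (2 * N), ‖(z • (u : A)) ^ (N + i)‖
          ≤ ∑ _i ∈ Finset.range (2 * N), (1 : ℝ) := by
            refine Finset.sum_le_sum fun i _ => ?_
            have h2 : (z • (u : A)) ^ (N + i) = ((w ^ (N + i) : unitary A) : A) := by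
              rw [SubmonoidClass.coe_pow]
            rw [h2]
            exact norm_unitary_le _
        _ = 2 * N := by simp
    have hErn : ‖R.V Er‖ ≤ D := by
      rw [hEr, map_sum]
      refine (norm_sum_le _ _).trans ?_
      refine Finset.sum_le_sum fun k _ => ?_
      rw [map_smul, norm_smul, map_sub, map_smul, map_smul]
      have h3 : ‖(((k + 1 : ℕ) : ℂ)⁻¹)‖ ≤ 1 := by
        rw [norm_inv, Complex.norm_natCast]
        apply inv_le_one_of_one_le₀
        exact_mod_cast Nat.succ_le_succ (Nat.zero_le k)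
      have h4 : ‖z ^ (k + 1)‖ = 1 := by rw [norm_pow, hz, one_pow]
      have h5 : ‖conj z ^ (k + 1)‖ = 1 := by
        rw [norm_pow, RCLike.norm_conj, hz, one_pow]
      have h6 : ‖R.V ((Φ ((u : A) ^ (k + 1) * (q : A)) - cp * ((u : A) ^ (k + 1) * (q : A))) *
          star (q : A))‖ = a k := norm_V_mul_u R _ (q⁻¹)
      have h7 : ‖R.V ((Φ (star (u : A) ^ (k + 1) * (q : A)) -
          cq * (star (u : A) ^ (k + 1) * (q : A))) * star (q : A))‖ = b k :=
        norm_V_mul_u R _ (q⁻¹)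
      have h8 := norm_sub_le (z ^ (k + 1) • R.V ((Φ ((u : A) ^ (k + 1) * (q : A)) -
          cp * ((u : A) ^ (k + 1) * (q : A))) * star (q : A)))
        (conj z ^ (k + 1) • R.V ((Φ (star (u : A) ^ (k + 1) * (q : A)) -
          cq * (star (u : A) ^ (k + 1) * (q : A))) * star (q : A)))
      rw [norm_smul, norm_smul, h4, h5, one_mul, one_mul, h6, h7] at h8
      refine (mul_le_mul h3 h8 (norm_nonneg _) zero_le_one).trans (le_of_eq (one_mul _))
    have hT : (cp - cq) * fm * S = (Φ (F * (q : A)) * star (q : A)) * S - (cp * F) * S - Er * S := by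
      rw [hid]
      noncomm_ring
    have hT' : ‖R.V ((cp - cq) * fm * S)‖ ≤ 12 * C * ‖R.V S‖ + 2 * N * D := by
      rw [hT, map_sub, map_sub]
      have e1 : ‖R.V ((Φ (F * (q : A)) * star (q : A)) * S)‖ ≤ 6 * C * ‖R.V S‖ := by
        refine (R.norm_mul_le _ _).trans ?_
        have e2 : ‖Φ (F * (q : A)) * star (q : A)‖ ≤ 6 * C := by
          refine (norm_mul_le _ _).trans ?_
          have e3 : ‖star (q : A)‖ ≤ 1 := norm_unitary_le (q⁻¹)
          have e4 : ‖F * (q : A)‖ ≤ 6 := by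
            refine (norm_mul_le _ _).trans ?_
            have := norm_unitary_le q
            calc ‖F‖ * ‖(q : A)‖ ≤ 6 * 1 := by (clear * - hFn this; gcongr)
              _ = 6 := by norm_num
          have e5 : ‖Φ (F * (q : A))‖ ≤ C * 6 := (hΦ _).trans (by (clear * - hC e4; gcongr))
          calc ‖Φ (F * (q : A))‖ * ‖star (q : A)‖ ≤ (C * 6) * 1 := by (clear * - hC e3 e5; gcongr)
            _ = 6 * C := by ring
        (clear * - e2; gcongr)
      have e6 : ‖R.V ((cp * F) * S)‖ ≤ 6 * C * ‖R.V S‖ := by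
        refine (R.norm_mul_le _ _).trans ?_
        have e7 : ‖cp * F‖ ≤ 6 * C := by
          refine (norm_mul_le _ _).trans ?_
          calc ‖cp‖ * ‖F‖ ≤ C * 6 := by (clear * - hC hcp hFn; gcongr)
            _ = 6 * C := by ring
        (clear * - e7; gcongr)
      have e8 : ‖R.V (Er * S)‖ ≤ 2 * N * D := by
        refine (norm_V_mul_le' R _ _).trans ?_
        calc ‖R.V Er‖ * ‖S‖ ≤ D * (2 * N) := by (clear * - Φ cp cq u q a b hSn hErn; gcongr)
          _ = 2 * N * D := by ring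
      have e9 := norm_sub_le (R.V ((Φ (F * (q : A)) * star (q : A)) * S) - R.V ((cp * F) * S))
        (R.V (Er * S))
      have e10 := norm_sub_le (R.V ((Φ (F * (q : A)) * star (q : A)) * S)) (R.V ((cp * F) * S))
      linarith only [e1, e6, e8, e9, e10]
    have hnn : 0 ≤ ‖R.V ((cp - cq) * fm * S)‖ := norm_nonneg _
    calc ‖R.V ((cp - cq) * fm * S)‖ ^ 2 ≤ (12 * C * ‖R.V S‖ + 2 * N * D) ^ 2 :=
          pow_le_pow_left₀ hnn hT' 2
      _ ≤ 2 * ((12 * C * ‖R.V S‖) ^ 2 + (2 * N * D) ^ 2) := by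
          linarith only [sq_nonneg (12 * C * ‖R.V S‖ - 2 * N * D)]
      _ = (288 * C ^ 2) * ‖R.V S‖ ^ 2 + 8 * N ^ 2 * D ^ 2 := by ring
  have h1 := avg_T0_ge R (cp - cq) u N hN
  have hne : Nonempty (Fin (3 * N)) := ⟨⟨0, by omega⟩⟩
  have h2 := avg_mono (fun j : Fin (3 * N) => hpt (rt (3 * N) j) (norm_rt _ j))
  rw [avg_add, avg_mul_left, avg_VS R u N hN, avg_const] at h2
  have h3 : (∑ m ∈ Finset.range N, 1 / ((m : ℝ) + 1)) =
      ∑ k ∈ Finset.range N, ((k + 1 : ℕ) : ℝ)⁻¹ := by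
    refine Finset.sum_congr rfl fun k _ => ?_
    push_cast
    rw [one_div]
  rw [h3]
  set H : ℝ := ∑ k ∈ Finset.range N, ((k + 1 : ℕ) : ℝ)⁻¹ with hH
  have h4 : (N : ℝ) * (H ^ 2 * ‖R.V (cp - cq)‖ ^ 2) ≤
      (N : ℝ) * (576 * C ^ 2 * ‖R.V 1‖ ^ 2 + 8 * N * D ^ 2) := by
    have := h1.trans h2
    linarith only [h2, h1]
  have h5 : H ^ 2 * ‖R.V (cp - cq)‖ ^ 2 ≤ 576 * C ^ 2 * ‖R.V 1‖ ^ 2 + 8 * N * D ^ 2 :=
    le_of_mul_le_mul_left h4 hNr
  have h6 : 8 * (N : ℝ) * D ^ 2 ≤ 16 * (N : ℝ) ^ 2 * ∑ m ∈ Finset.range N, (a m ^ 2 + b m ^ 2) := by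
    calc 8 * (N : ℝ) * D ^ 2 ≤ 8 * (N : ℝ) * (N * ∑ m ∈ Finset.range N, 2 * (a m ^ 2 + b m ^ 2)) := by
          gcongr
      _ = 16 * (N : ℝ) ^ 2 * ∑ m ∈ Finset.range N, (a m ^ 2 + b m ^ 2) := by
          rw [← Finset.mul_sum]; ring
  linarith only [h5, h6]

end

end Vale.Agent.P082.KR
end

section

open scoped Topology InnerProductSpace ComplexConjugate

namespace Vale.Agent.P082.KR

open Vale.Agent.P082 Filter

universe u

section LimAux

variable {G ι : Type*} [Group G] [Fintype ι] [Nonempty ι] (b : ι → G)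

/-- ultralimit of the averages over the walk -/
noncomputable def limNu (F : G → ℂ) : ℂ := ulim (hyperfilter ℕ) (fun n => wavg b n F)

lemma tendsto_limNu {F : G → ℂ} (hF : Bdd F) :
    Tendsto (fun n => wavg b n F) (hyperfilter ℕ : Filter ℕ) (𝓝 (limNu b F)) := by
  obtain ⟨C, hC⟩ := hF
  exact tendsto_ulim _ ⟨C, fun n => norm_wavg_le_of b n F C hC⟩

omit [Nonempty ι] in
lemma limNu_eq {F : G → ℂ} {c : ℂ}
    (h : Tendsto (fun n => wavg b n F) (hyperfilter ℕ : Filter ℕ) (𝓝 c)) : limNu b F = c :=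
  ulim_eq _ h

lemma limNu_add {F F' : G → ℂ} (hF : Bdd F) (hF' : Bdd F') :
    limNu b (fun t => F t + F' t) = limNu b F + limNu b F' := by
  apply limNu_eq
  refine ((tendsto_limNu b hF).add (tendsto_limNu b hF')).congr (fun n => ?_)
  exact (wavg_add b n F F').symm

lemma limNu_mul (c : ℂ) {F : G → ℂ} (hF : Bdd F) :
    limNu b (fun t => c * F t) = c * limNu b F := by
  apply limNu_eq
  refine ((tendsto_limNu b hF).const_mul c).congr (fun n => ?_)
  exact wavg_map' b n (fun z : ℂ => c * z) (fun x y => mul_add c x y)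
    (fun r x => by rw [mul_smul_comm]) F

lemma limNu_conj {F : G → ℂ} (hF : Bdd F) :
    limNu b (fun t => conj (F t)) = conj (limNu b F) := by
  apply limNu_eq
  refine ((Complex.continuous_conj.tendsto _).comp (tendsto_limNu b hF)).congr (fun n => ?_)
  exact wavg_map' b n (fun z : ℂ => conj z) (fun x y => map_add _ x y)
    (fun r x => by simp) F

lemma tendsto_limNu_re {F : G → ℂ} (hF : Bdd F) :
    Tendsto (fun n => wavg b n (fun t => (F t).re)) (hyperfilter ℕ : Filter ℕ)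
      (𝓝 (limNu b F).re) := by
  refine ((Complex.continuous_re.tendsto _).comp (tendsto_limNu b hF)).congr (fun n => ?_)
  exact wavg_map' b n (fun z : ℂ => z.re) (fun x y => Complex.add_re x y)
    (fun r x => by simp) F

lemma limNu_re_nonneg {F : G → ℂ} (hF : Bdd F) (h : ∀ t, 0 ≤ (F t).re) :
    0 ≤ (limNu b F).re :=
  ge_of_tendsto (tendsto_limNu_re b hF) (Eventually.of_forall fun n => wavg_nonneg b n h)

lemma limNu_const (c : ℂ) : limNu b (fun _ => c) = c := by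
  apply limNu_eq
  simp only [wavg_const]
  exact tendsto_const_nhds

end LimAux

/-- bounded functions with values in `K` -/
def bddFun (G K : Type*) [NormedAddCommGroup K] [InnerProductSpace ℂ K] :
    Submodule ℂ (G → K) where
  carrier := {f | ∃ C : ℝ, ∀ t, ‖f t‖ ≤ C}
  add_mem' := by
    rintro f g ⟨C, hC⟩ ⟨D, hD⟩
    exact ⟨C + D, fun t => (norm_add_le _ _).trans (add_le_add (hC t) (hD t))⟩
  zero_mem' := ⟨0, fun t => by simp⟩
  smul_mem' := by
    rintro c f ⟨C, hC⟩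
    exact ⟨‖c‖ * C, fun t => by
      rw [Pi.smul_apply, norm_smul]; exact mul_le_mul_of_nonneg_left (hC t) (norm_nonneg _)⟩

lemma bddFun_inner {G K : Type*} [NormedAddCommGroup K] [InnerProductSpace ℂ K]
    (f g : bddFun G K) : Bdd (fun t => ⟪f.1 t, g.1 t⟫_ℂ) := by
  obtain ⟨C, hC⟩ := f.2
  obtain ⟨D, hD⟩ := g.2
  exact ⟨C * D, fun t => (norm_inner_le_norm _ _).trans
    (mul_le_mul (hC t) (hD t) (norm_nonneg _) ((norm_nonneg _).trans (hC t)))⟩

/-- the limit inner product -/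
noncomputable abbrev limCore {G ι : Type*} [Group G] [Fintype ι] [Nonempty ι] (b : ι → G)
    (K : Type*) [NormedAddCommGroup K] [InnerProductSpace ℂ K] :
    PreInnerProductSpace.Core ℂ (bddFun G K) where
  inner f g := limNu b (fun t => ⟪f.1 t, g.1 t⟫_ℂ)
  conj_inner_symm f g := by
    rw [← limNu_conj b (bddFun_inner g f)]
    congr 1
    funext t
    exact inner_conj_symm _ _
  re_inner_nonneg f := by
    refine limNu_re_nonneg b (bddFun_inner f f) (fun t => ?_)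
    exact inner_self_nonneg (𝕜 := ℂ) (x := f.1 t)
  add_left f g h := by
    rw [← limNu_add b (bddFun_inner f h) (bddFun_inner g h)]
    congr 1
    funext t
    exact inner_add_left _ _ _
  smul_left f g c := by
    rw [← limNu_mul b _ (bddFun_inner f g)]
    congr 1
    funext t
    exact inner_smul_left _ _ _

/-- The limit space exists. -/
theorem exists_limSp {A K : Type u} [NormedRing A] [StarRing A] [CStarRing A] [NormedAlgebra ℂ A]
    [StarModule ℂ A] [NormedAddCommGroup K] [InnerProductSpace ℂ K] (R : TraceRep A K)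
    {ι : Type*} [Fintype ι] [Nonempty ι] {b : ι → unitary A} {Φ : A →L[ℂ] A} {C : ℝ}
    (hΦ : Harm b Φ C) :
    ∃ (E : Type u) (_ : SeminormedAddCommGroup E) (_ : InnerProductSpace ℂ E)
      (J : A →ₗ[ℂ] E) (i0 : K →ₗ[ℂ] E), LimSp R b Φ J i0 := by
  have hΦ' : Harm b Φ |C| := ⟨hΦ.symm, hΦ.harm, fun x => (hΦ.bound x).trans
    (mul_le_mul_of_nonneg_right (le_abs_self C) (norm_nonneg x))⟩
  have hnorm : ∀ (x : A) (t : unitary A),
      ‖R.V (Φ (x * (t : A)) * star (t : A))‖ = ‖R.V (Φ (x * (t : A)))‖ := fun x t =>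
    norm_V_mul_u R _ (t⁻¹)
  have hbd : ∀ (x : A) (t : unitary A),
      ‖R.V (Φ (x * (t : A)) * star (t : A))‖ ≤ |C| * ‖x‖ * ‖R.V 1‖ := by
    intro x t
    rw [hnorm]
    refine (norm_V_le R _).trans (mul_le_mul_of_nonneg_right ?_ (norm_nonneg _))
    refine (hΦ'.bound _).trans (mul_le_mul_of_nonneg_left ?_ (abs_nonneg C))
    exact (norm_mul_le _ _).trans (mul_le_of_le_one_right (norm_nonneg _) (norm_unitary_le t))
  let J0 : A →ₗ[ℂ] bddFun (unitary A) K :=
    { toFun := fun x => ⟨fun t => R.V (Φ (x * (t : A)) * star (t : A)), _, hbd x⟩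
      map_add' := fun x y => by
        apply Subtype.ext
        funext t
        change R.V (Φ ((x + y) * (t : A)) * star (t : A)) =
          R.V (Φ (x * (t : A)) * star (t : A)) + R.V (Φ (y * (t : A)) * star (t : A))
        rw [add_mul, map_add, add_mul, map_add]
      map_smul' := fun c x => by
        apply Subtype.ext
        funext t
        change R.V (Φ ((c • x) * (t : A)) * star (t : A)) =
          c • R.V (Φ (x * (t : A)) * star (t : A))
        rw [smul_mul_assoc, map_smul, smul_mul_assoc, map_smul] }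
  let i00 : K →ₗ[ℂ] bddFun (unitary A) K :=
    { toFun := fun w => ⟨fun _ => w, ‖w‖, fun _ => le_rfl⟩
      map_add' := fun _ _ => rfl
      map_smul' := fun _ _ => rfl }
  have hlim : ∀ x, Tendsto (fun n => energy R b Φ n x) atTop
      (𝓝 (limNu b (fun t => ⟪(J0 x).1 t, (J0 x).1 t⟫_ℂ)).re) := by
    intro x
    have h1 := tendsto_limNu_re b (bddFun_inner (J0 x) (J0 x))
    have h2 : ∀ n, wavg b n (fun t => (⟪(J0 x).1 t, (J0 x).1 t⟫_ℂ).re) = energy R b Φ n x := by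
      intro n
      unfold energy
      congr 1
      funext t
      have h3 : (⟪(J0 x).1 t, (J0 x).1 t⟫_ℂ).re = ‖(J0 x).1 t‖ ^ 2 :=
        (norm_sq_eq_re_inner (𝕜 := ℂ) _).symm
      rw [h3, ← hnorm x t]
      rfl
    simp only [h2] at h1
    have hb : BddAbove (Set.range (fun n => energy R b Φ n x)) :=
      ⟨_, by rintro _ ⟨n, rfl⟩; exact energy_le hΦ' (abs_nonneg C) n x⟩
    have h4 := tendsto_atTop_ciSup (energy_mono hΦ x) hb
    have h5 := h4.mono_left Nat.hyperfilter_le_atTop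
    rw [tendsto_nhds_unique h1 h5]
    exact h4
  let i1 : SeminormedAddCommGroup (bddFun (unitary A) K) :=
    InnerProductSpace.Core.toSeminormedAddCommGroup (c := limCore b K)
  let i2 : InnerProductSpace ℂ (bddFun (unitary A) K) := InnerProductSpace.ofCore (limCore b K)
  refine ⟨bddFun (unitary A) K, i1, i2, J0, i00, ?_⟩
  refine LimSp.mk ?_ ?_ ?_
  · intro w w'
    exact limNu_const b (⟪w, w'⟫_ℂ)
  · intro w x
    refine limNu_eq b ?_
    refine Tendsto.congr (fun n => ?_) tendsto_const_nhds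
    have h := wavg_map' b n (fun a : A => ⟪w, R.V a⟫_ℂ)
      (fun x y => by rw [map_add, inner_add_right])
      (fun r x => by
        rw [← Complex.coe_smul, map_smul, inner_smul_right]
        simp) (fun t => Φ (x * (t : A)) * star (t : A))
    rw [hΦ.iter n x] at h
    exact h
  · intro x
    have h := hlim x
    rw [← Real.sq_sqrt (limNu_re_nonneg b (bddFun_inner (J0 x) (J0 x))
      (fun t => inner_self_nonneg (𝕜 := ℂ) (x := (J0 x).1 t)))] at h
    exact h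

end Vale.Agent.P082.KR
end

section

namespace Vale.Agent.P082.CB

/-- (C2) Minimal left ideals in a compact right topological semigroup: there is `a` such that
every `b * a` can be multiplied back to `a`. (Zorn on closed nonempty `L` with `x * L ⊆ L`;
for `a ∈ L` minimal, `X * (b * a)` is a closed left ideal contained in `L`.) -/
theorem exists_minimal_left {X : Type*} [Nonempty X] [Semigroup X] [TopologicalSpace X]
    [CompactSpace X] [T2Space X] (h : ∀ r : X, Continuous (· * r)) :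
    ∃ a : X, ∀ b : X, ∃ c : X, c * (b * a) = a := by
  let S : Set (Set X) := {L | IsClosed L ∧ L.Nonempty ∧ ∀ x : X, ∀ l ∈ L, x * l ∈ L}
  obtain ⟨L, hL⟩ : ∃ L, Minimal (· ∈ S) L := by
    refine zorn_superset S fun c hcs hc => ?_
    refine ⟨⋂₀ c, ⟨isClosed_sInter fun t ht => (hcs ht).1, ?_, ?_⟩,
      fun s hs => Set.sInter_subset_of_mem hs⟩
    · obtain rfl | hcnemp := c.eq_empty_or_nonempty
      · rw [Set.sInter_empty]
        exact Set.univ_nonempty
      have : Nonempty c := hcnemp.coe_sort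
      rw [Set.sInter_eq_iInter]
      exact IsCompact.nonempty_iInter_of_directed_nonempty_isCompact_isClosed
        (fun i : c => (i : Set X)) (DirectedOn.directed_val (IsChain.directedOn hc.symm))
        (fun i => (hcs i.prop).2.1) (fun i => (hcs i.prop).1.isCompact)
        (fun i => (hcs i.prop).1)
    · intro x l hl
      rw [Set.mem_sInter] at hl ⊢
      exact fun t ht => (hcs ht).2.2 x l (hl t ht)
  obtain ⟨hLc, ⟨a, ha⟩, hLi⟩ := hL.1
  refine ⟨a, fun b => ?_⟩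
  have hK : (fun x : X => x * (b * a)) '' Set.univ ∈ S := by
    refine ⟨(isCompact_univ.image (h (b * a))).isClosed, ?_, ?_⟩
    · exact Set.univ_nonempty.image _
    · rintro x _ ⟨y, -, rfl⟩
      exact ⟨x * y, trivial, mul_assoc _ _ _⟩
  have hKL : (fun x : X => x * (b * a)) '' Set.univ ⊆ L := by
    rintro _ ⟨y, -, rfl⟩
    exact hLi y _ (hLi b a ha)
  have := hL.2 hK hKL ha
  obtain ⟨c, -, hc⟩ := this
  exact ⟨c, hc⟩

attribute [local instance] Ultrafilter.mul Ultrafilter.semigroup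

/-- the same for the ultrafilters on a semigroup -/
theorem exists_minimal_ultrafilter (S : Type*) [Semigroup S] [Nonempty S] :
    ∃ a : Ultrafilter S, ∀ b : Ultrafilter S, ∃ c : Ultrafilter S, c * (b * a) = a :=
  exists_minimal_left Ultrafilter.continuous_mul_left

end Vale.Agent.P082.CB
end

section
attribute [local instance] Vale.Agent.P082.AlgFast.nr Vale.Agent.P082.AlgFast.na
  Vale.Agent.P082.AlgFast.sr Vale.Agent.P082.AlgFast.ng Vale.Agent.P082.AlgFast.sg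
  Vale.Agent.P082.AlgFast.ns Vale.Agent.P082.AlgFast.ri Vale.Agent.P082.AlgFast.ag
  Vale.Agent.P082.AlgFast.am Vale.Agent.P082.AlgFast.mo Vale.Agent.P082.AlgFast.pm
  Vale.Agent.P082.AlgFast.us Vale.Agent.P082.AlgFast.ts Vale.Agent.P082.AlgFast.ets
  Vale.Agent.P082.AlgFast.eng Vale.Agent.P082.AlgFast.esg Vale.Agent.P082.AlgFast.ens
  Vale.Agent.P082.AlgFast.eam Vale.Agent.P082.AlgFast.emo Vale.Agent.P082.AlgFast.nu
  Vale.Agent.P082.AlgFast.sag Vale.Agent.P082.AlgFast.agr Vale.Agent.P082.AlgFast.mon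
  Vale.Agent.P082.AlgFast.srg

open scoped InnerProductSpace ComplexConjugate

namespace Vale.Agent.P082

universe u

variable {H : Type u} [NormedAddCommGroup H] [InnerProductSpace ℂ H] [CompleteSpace H]

lemma summable_vec {Xi : ℕ → H} (hs : Summable fun n => ‖Xi n‖ ^ 2) (x : H →L[ℂ] H) :
    Summable fun n => ‖x (Xi n)‖ ^ 2 := by
  refine Summable.of_nonneg_of_le (fun n => by positivity) (fun n => ?_) (hs.mul_left (‖x‖ ^ 2))
  rw [← mul_pow]
  gcongr
  exact x.le_opNorm _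

lemma memlp_vec {Xi : ℕ → H} (hs : Summable fun n => ‖Xi n‖ ^ 2) (x : H →L[ℂ] H) :
    Memℓp (fun n => x (Xi n)) 2 := by
  apply memℓp_gen
  simpa using summable_vec hs x

/-- the vector of a square summable family -/
noncomputable def vecV (P : VonNeumannAlgebra H) {Xi : ℕ → H} (hs : Summable fun n => ‖Xi n‖ ^ 2) :
    Alg P →ₗ[ℂ] lp (fun _ : ℕ => H) 2 where
  toFun x := ⟨fun n => (x : H →L[ℂ] H) (Xi n), memlp_vec hs _⟩
  map_add' x y := by ext n; rfl
  map_smul' c x := by ext n; rfl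

lemma vecV_inner (P : VonNeumannAlgebra H) {Xi : ℕ → H} (hs : Summable fun n => ‖Xi n‖ ^ 2)
    (x y : Alg P) : ⟪vecV P hs x, vecV P hs y⟫_ℂ
      = ∑' n, ⟪(x : H →L[ℂ] H) (Xi n), (y : H →L[ℂ] H) (Xi n)⟫_ℂ :=
  lp.inner_eq_tsum _ _

lemma vecV_norm_sq (P : VonNeumannAlgebra H) {Xi : ℕ → H} (hs : Summable fun n => ‖Xi n‖ ^ 2)
    (x : Alg P) : ‖vecV P hs x‖ ^ 2 = ∑' n, ‖(x : H →L[ℂ] H) (Xi n)‖ ^ 2 := by
  have h := lp.norm_rpow_eq_tsum (p := 2) (by norm_num) (vecV P hs x)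
  simp only [ENNReal.toReal_ofNat, Real.rpow_ofNat] at h
  exact h

lemma vecV_norm_mul_le (P : VonNeumannAlgebra H) {Xi : ℕ → H} (hs : Summable fun n => ‖Xi n‖ ^ 2)
    (x y : Alg P) : ‖vecV P hs (x * y)‖ ≤ ‖x‖ * ‖vecV P hs y‖ := by
  have h : ‖vecV P hs (x * y)‖ ^ 2 ≤ (‖x‖ * ‖vecV P hs y‖) ^ 2 := by
    rw [mul_pow, vecV_norm_sq, vecV_norm_sq, ← tsum_mul_left]
    refine Summable.tsum_le_tsum (fun n => ?_) (summable_vec hs _)
      ((summable_vec hs _).mul_left _)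
    rw [← mul_pow]
    gcongr
    exact (x : H →L[ℂ] H).le_opNorm _
  exact le_of_sq_le_sq h (by (clear * -; positivity))

/-- the tracial representation given by a tracial square summable family -/
noncomputable def trRep (P : VonNeumannAlgebra H) {Xi : ℕ → H} (hs : Summable fun n => ‖Xi n‖ ^ 2)
    (htr : ∀ x ∈ P, ∀ y ∈ P,
      ∑' n, ⟪Xi n, x (y (Xi n))⟫_ℂ = ∑' n, ⟪Xi n, y (x (Xi n))⟫_ℂ) :
    TraceRep (Alg P) (lp (fun _ : ℕ => H) 2) where
  V := vecV P hs
  norm_mul_le := vecV_norm_mul_le P hs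
  adj x y z := by
    rw [vecV_inner, vecV_inner]
    refine tsum_congr (fun n => ?_)
    exact (ContinuousLinearMap.adjoint_inner_left (z : H →L[ℂ] H) _ _).symm
  tracial x y := by
    rw [vecV_inner, vecV_inner]
    exact htr _ x.2 _ y.2

lemma tr_mean (P : VonNeumannAlgebra H) {Xi : ℕ → H} (hs : Summable fun n => ‖Xi n‖ ^ 2)
    {X : Type*} (m : Mean X) (F : X → Alg P) (C : ℝ) (hF : ∀ t, ‖F t‖ ≤ C) (T : Alg P)
    (hT : ∀ β α, ⟪β, (T : H →L[ℂ] H) α⟫_ℂ = m (fun t => ⟪β, (F t : H →L[ℂ] H) α⟫_ℂ))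
    (y : Alg P) :
    ⟪vecV P hs 1, vecV P hs (T * y)⟫_ℂ = m (fun t => ⟪vecV P hs 1, vecV P hs (F t * y)⟫_ℂ) := by
  have h1 : ∀ z : Alg P, ⟪vecV P hs 1, vecV P hs (z * y)⟫_ℂ
      = ∑' n, ⟪Xi n, (z : H →L[ℂ] H) ((y : H →L[ℂ] H) (Xi n))⟫_ℂ := fun z => vecV_inner P hs _ _
  simp only [h1, hT]
  refine (Mean.tsum m (b := fun n => C * ‖y‖ * ‖Xi n‖ ^ 2) (hs.mul_left _)
    (fun n t => ?_)).symm
  refine (norm_inner_apply_le _ _ _).trans ?_
  have h2 : ‖(F t : H →L[ℂ] H)‖ ≤ C := hF t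
  have h3 : ‖(y : H →L[ℂ] H) (Xi n)‖ ≤ ‖y‖ * ‖Xi n‖ := (y : H →L[ℂ] H).le_opNorm _
  calc ‖(F t : H →L[ℂ] H)‖ * ‖Xi n‖ * ‖(y : H →L[ℂ] H) (Xi n)‖
      ≤ C * ‖Xi n‖ * (‖y‖ * ‖Xi n‖) := by
        have hC : 0 ≤ C := (norm_nonneg _).trans h2
        gcongr
    _ = C * ‖y‖ * ‖Xi n‖ ^ 2 := by ring

lemma eq_of_tr_eq (P : VonNeumannAlgebra H) {J : Type*} {Xi : J → ℕ → H}
    (hs : ∀ j, Summable fun n => ‖Xi j n‖ ^ 2)
    (hsep : ∀ x ∈ P, (∀ j n, x (Xi j n) = 0) → x = 0)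
    {S T : Alg P}
    (h : ∀ j y, ⟪vecV P (hs j) 1, vecV P (hs j) (S * y)⟫_ℂ
      = ⟪vecV P (hs j) 1, vecV P (hs j) (T * y)⟫_ℂ) : S = T := by
  set D := S - T with hD
  have h1 : ∀ j, vecV P (hs j) (star D) = 0 := by
    intro j
    have h2 : ⟪vecV P (hs j) 1, vecV P (hs j) (D * star D)⟫_ℂ = 0 := by
      rw [hD, sub_mul, map_sub, inner_sub_right, h, sub_self]
    have h3 : ⟪vecV P (hs j) (star D), vecV P (hs j) (star D)⟫_ℂ = 0 := by
      rw [← h2, vecV_inner, vecV_inner]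
      refine tsum_congr (fun n => ?_)
      exact ContinuousLinearMap.adjoint_inner_left (D : H →L[ℂ] H) _ _
    exact inner_self_eq_zero.mp h3
  have h4 : ((star D : Alg P) : H →L[ℂ] H) = 0 := by
    refine hsep _ (star D).2 (fun j n => ?_)
    have := congrArg (fun v : lp (fun _ : ℕ => H) 2 => v n) (h1 j)
    exact this
  have h5 : star D = 0 := Subtype.ext h4
  have h6 : D = 0 := by simpa using congrArg star h5
  exact sub_eq_zero.mp h6

end Vale.Agent.P082
end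

section
attribute [local instance] Vale.Agent.P082.AlgFast.nr Vale.Agent.P082.AlgFast.na
  Vale.Agent.P082.AlgFast.sr Vale.Agent.P082.AlgFast.ng Vale.Agent.P082.AlgFast.sg
  Vale.Agent.P082.AlgFast.ns Vale.Agent.P082.AlgFast.ri Vale.Agent.P082.AlgFast.ag
  Vale.Agent.P082.AlgFast.am Vale.Agent.P082.AlgFast.mo Vale.Agent.P082.AlgFast.pm
  Vale.Agent.P082.AlgFast.us Vale.Agent.P082.AlgFast.ts Vale.Agent.P082.AlgFast.ets
  Vale.Agent.P082.AlgFast.eng Vale.Agent.P082.AlgFast.esg Vale.Agent.P082.AlgFast.ens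
  Vale.Agent.P082.AlgFast.eam Vale.Agent.P082.AlgFast.emo Vale.Agent.P082.AlgFast.nu
  Vale.Agent.P082.AlgFast.sag Vale.Agent.P082.AlgFast.agr Vale.Agent.P082.AlgFast.mon
  Vale.Agent.P082.AlgFast.srg

open scoped InnerProductSpace ComplexConjugate Topology

namespace Vale.Agent.P082

universe u

variable {H : Type u} [NormedAddCommGroup H] [InnerProductSpace ℂ H] [CompleteSpace H]

lemma matUnits_of_hom (P M : VonNeumannAlgebra H) (hMP : ∀ x ∈ M, x ∈ P) {n : ℕ}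
    (ρ : Matrix (Fin n) (Fin n) ℂ →⋆ₐ[ℂ] M.toStarSubalgebra) :
    ∃ e : Fin n → Fin n → Alg P, MatUnits (Alg P) n e ∧
      ∀ a b, ((e a b : Alg P) : H →L[ℂ] H) ∈ M := by
  let e : Fin n → Fin n → Alg P := fun a b =>
    ⟨((ρ (Matrix.single a b 1) : M.toStarSubalgebra) : H →L[ℂ] H),
      hMP _ (ρ (Matrix.single a b 1)).2⟩
  refine ⟨e, ⟨fun a b c => ?_, fun a b c d hbc => ?_, fun a b => ?_, ?_⟩, fun a b =>
    (ρ (Matrix.single a b 1)).2⟩
  · apply Subtype.ext
    have h : ρ (Matrix.single a b 1) * ρ (Matrix.single b c 1) = ρ (Matrix.single a c 1) := by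
      rw [← map_mul, Matrix.single_mul_single_same, mul_one]
    exact congrArg (fun z : M.toStarSubalgebra => (z : H →L[ℂ] H)) h
  · apply Subtype.ext
    have h : ρ (Matrix.single a b 1) * ρ (Matrix.single c d 1) = 0 := by
      rw [← map_mul, Matrix.single_mul_single_of_ne _ _ _ _ hbc, map_zero]
    exact congrArg (fun z : M.toStarSubalgebra => (z : H →L[ℂ] H)) h
  · apply Subtype.ext
    have h : star (ρ (Matrix.single a b 1)) = ρ (Matrix.single b a 1) := by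
      rw [← map_star]
      congr 1
      ext i j
      simp [Matrix.single_apply, and_comm]
    exact congrArg (fun z : M.toStarSubalgebra => (z : H →L[ℂ] H)) h
  · apply Subtype.ext
    have h : ∑ a, ρ (Matrix.single a a 1) = 1 := by
      rw [← map_sum, ← map_one ρ]
      congr 1
      ext i j
      rw [Matrix.sum_apply, Matrix.one_apply]
      simp only [Matrix.single_apply]
      by_cases hij : i = j
      · subst hij
        rw [Finset.sum_eq_single i]
        · simp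
        · intro b _ hb
          rw [if_neg (fun h => hb h.1)]
        · intro h; exact absurd (Finset.mem_univ _) h
      · rw [if_neg hij]
        refine Finset.sum_eq_zero (fun a _ => ?_)
        rw [if_neg (fun h => hij (h.1.symm.trans h.2))]
    have h2 := congrArg (fun z : M.toStarSubalgebra => (z : H →L[ℂ] H)) h
    simp only [AddSubmonoidClass.coe_finsetSum] at h2 ⊢
    exact h2

lemma largeUnits_of_contains (P M : VonNeumannAlgebra H) (hMP : ∀ x ∈ M, x ∈ P)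
    (hM : ContainsLargeMatrices M) : LargeUnits P (M : Set (H →L[ℂ] H)) := by
  intro k
  obtain ⟨n, hn, hn0, ⟨ρ⟩⟩ := hM k
  obtain ⟨e, he, heM⟩ := matUnits_of_hom P M hMP ρ
  exact ⟨n, hn, ⟨hn0.ne'⟩, e, he, heM⟩

end Vale.Agent.P082
end

section
attribute [local instance] Vale.Agent.P082.AlgFast.nr Vale.Agent.P082.AlgFast.na
  Vale.Agent.P082.AlgFast.sr Vale.Agent.P082.AlgFast.ng Vale.Agent.P082.AlgFast.sg
  Vale.Agent.P082.AlgFast.ns Vale.Agent.P082.AlgFast.ri Vale.Agent.P082.AlgFast.ag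
  Vale.Agent.P082.AlgFast.am Vale.Agent.P082.AlgFast.mo Vale.Agent.P082.AlgFast.pm
  Vale.Agent.P082.AlgFast.us Vale.Agent.P082.AlgFast.ts Vale.Agent.P082.AlgFast.ets
  Vale.Agent.P082.AlgFast.eng Vale.Agent.P082.AlgFast.esg Vale.Agent.P082.AlgFast.ens
  Vale.Agent.P082.AlgFast.eam Vale.Agent.P082.AlgFast.emo Vale.Agent.P082.AlgFast.nu
  Vale.Agent.P082.AlgFast.sag Vale.Agent.P082.AlgFast.agr Vale.Agent.P082.AlgFast.mon
  Vale.Agent.P082.AlgFast.srg

open scoped InnerProductSpace ComplexConjugate Topology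

namespace Vale.Agent.P082.CB

open Vale.Agent.P082 Vale.Agent.P082.VN

universe u

variable {H : Type u} [NormedAddCommGroup H] [InnerProductSpace ℂ H] [CompleteSpace H]
  {M : VonNeumannAlgebra H}

/-- a projection does not increase the quadratic form -/
theorem projA_form_le {e : H →L[ℂ] H} (he : IsPr M e) (ζ : H) :
    (⟪ζ, e ζ⟫_ℂ).re ≤ ‖ζ‖ ^ 2 := by
  have h1 : ‖⟪ζ, e ζ⟫_ℂ‖ ≤ ‖ζ‖ * ‖e ζ‖ := norm_inner_le_norm _ _
  have h2 : ‖e ζ‖ ≤ 1 * ‖ζ‖ :=
    (e.le_opNorm ζ).trans (mul_le_mul_of_nonneg_right (spectral_norm_le_one he) (norm_nonneg _))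
  have h3 := (abs_le.1 (Complex.abs_re_le_norm ⟪ζ, e ζ⟫_ℂ)).2
  nlinarith only [h1, h2, h3, norm_nonneg ζ]

/-- (C8) a nonzero element is bounded below on a nonzero projection of `M` -/
theorem exists_lower_proj {x e : H →L[ℂ] H} (hx : x ∈ M) (he : IsPr M e) (hxe : x * e = x)
    (h0 : x ≠ 0) :
    ∃ e₁, IsPr M e₁ ∧ Le e₁ e ∧ e₁ ≠ 0 ∧ ∃ δ : ℝ, 0 < δ ∧
      ∀ ζ : H, e₁ ζ = ζ → δ * ‖ζ‖ ^ 2 ≤ ‖x ζ‖ ^ 2 := by
  have hx0 : 0 < ‖x‖ := norm_pos_iff.2 h0
  obtain ⟨δ, hδ⟩ : ∃ δ : ℝ, δ = ‖x‖ ^ 2 / 2 := ⟨_, rfl⟩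
  have hδ0 : 0 < δ := by rw [hδ]; positivity
  have hex : e * star x = star x := by
    have := congrArg star hxe
    rwa [star_mul, he.sa] at this
  obtain ⟨b, hb⟩ : ∃ b, b = star x * x - (δ : ℂ) • e := ⟨_, rfl⟩
  have hbM : b ∈ M := by
    rw [hb]
    exact sub_mem (mul_mem (star_mem hx) hx) (spectral_smul_mem he.mem _)
  have hbsa : star b = b := by
    rw [hb, star_sub, star_mul, star_star, star_smul, he.sa]
    congr 2
    exact Complex.conj_ofReal δ
  have heb : e * b = b := by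
    rw [hb, mul_sub, ← mul_assoc, hex, mul_smul_comm, he.idem]
  have hform : ∀ ζ : H, (⟪ζ, b ζ⟫_ℂ).re = ‖x ζ‖ ^ 2 - δ * (⟪ζ, e ζ⟫_ℂ).re := by
    intro ζ
    have h1 : ⟪ζ, (star x * x) ζ⟫_ℂ = ((‖x ζ‖ ^ 2 : ℝ) : ℂ) := by
      rw [ContinuousLinearMap.mul_apply, ContinuousLinearMap.star_eq_adjoint,
        ContinuousLinearMap.adjoint_inner_right, inner_self_eq_norm_sq_to_K]
      push_cast
      rfl
    rw [hb, ContinuousLinearMap.sub_apply, ContinuousLinearMap.smul_apply, inner_sub_right,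
      inner_smul_right, h1, Complex.sub_re, Complex.ofReal_re, Complex.re_ofReal_mul]
  obtain ⟨p, hp, -, hp1, hp2, hp3⟩ := exists_spectral_proj hbM hbsa
  have hpe : Le p e := hp3 e he heb
  refine ⟨p, hp, hpe, ?_, δ, hδ0, ?_⟩
  · intro hp0
    have h1 : ∀ ζ : H, ‖x ζ‖ ^ 2 ≤ δ * ‖ζ‖ ^ 2 := by
      intro ζ
      have h2 := hp2 ζ
      rw [hp0, sub_zero, mul_one, hform] at h2
      have h3 := projA_form_le he ζ
      have h4 := mul_le_mul_of_nonneg_left h3 hδ0.le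
      linarith only [h2, h4]
    have h2 : ‖x‖ ≤ Real.sqrt δ := by
      refine x.opNorm_le_bound (Real.sqrt_nonneg _) (fun ζ => ?_)
      have h3 : ‖x ζ‖ ^ 2 ≤ (Real.sqrt δ * ‖ζ‖) ^ 2 := by
        rw [mul_pow, Real.sq_sqrt hδ0.le]
        exact h1 ζ
      exact (pow_le_pow_iff_left₀ (norm_nonneg _) (by (clear * - hδ0; positivity)) (by norm_num)).1 h3
    have h3 : ‖x‖ ^ 2 ≤ δ := by
      have := pow_le_pow_left₀ hx0.le h2 2
      rwa [Real.sq_sqrt hδ0.le] at this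
    rw [hδ] at h3
    have : 0 < ‖x‖ ^ 2 := by positivity
    linarith only [hδ, hδ0, h3]
  · intro ζ hζ
    have h1 := hp1 ζ
    rw [ContinuousLinearMap.mul_apply, hζ, hform] at h1
    have h2 : e ζ = ζ := by
      have h3 : e (p ζ) = p ζ := by
        have := congrArg (fun T : H →L[ℂ] H => T ζ) hpe
        simpa [ContinuousLinearMap.mul_apply] using this
      rwa [hζ] at h3
    have h4 : (⟪ζ, e ζ⟫_ℂ).re = ‖ζ‖ ^ 2 := by
      rw [h2, inner_self_eq_norm_sq_to_K]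
      norm_cast
    rw [h4] at h1
    linarith only [h1]

/-- a bounded linear map on `M` that vanishes on projections vanishes -/
theorem projA_eq_zero {E : Type*} [NormedAddCommGroup E] [NormedSpace ℂ E] (D : Alg M →L[ℂ] E)
    (h : ∀ p : Alg M, IsPr M (p : H →L[ℂ] H) → D p = 0) (b : Alg M) : D b = 0 := by
  have h1 : IsPr M (1 : H →L[ℂ] H) := ⟨one_mem M.toStarSubalgebra, mul_one _, star_one _⟩
  have hD1 : D 1 = 0 := h 1 h1
  -- positive contractions
  have step1 : ∀ c : Alg M, star (c : H →L[ℂ] H) = c → (∀ ξ, 0 ≤ (⟪ξ, (c : H →L[ℂ] H) ξ⟫_ℂ).re) →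
      ‖c‖ ≤ 1 → D c = 0 := by
    intro c hc hpos hle
    rw [← norm_le_zero_iff]
    have h2 : ∀ n : ℕ, ‖D c‖ ≤ ‖D‖ * (1 / 2 : ℝ) ^ n := by
      intro n
      obtain ⟨p, hp, hpn⟩ := exists_proj_approx (g := 1) h1 c.2 hc (one_mul _) hpos hle n
      obtain ⟨S, hS⟩ : ∃ S : Alg M, S = ∑ k ∈ Finset.range n,
        (((1 / 2 : ℝ) ^ (k + 1) : ℝ) : ℂ) • (⟨p k, (hp k).1.mem⟩ : Alg M) := ⟨_, rfl⟩
      have hDS : D S = 0 := by
        rw [hS, map_sum]
        refine Finset.sum_eq_zero fun k _ => ?_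
        rw [map_smul, h _ (hp k).1, smul_zero]
      have hSc : (S : H →L[ℂ] H) = ∑ k ∈ Finset.range n,
          (((1 / 2 : ℝ) ^ (k + 1) : ℝ) : ℂ) • p k := by
        rw [hS]
        simp
      have hcS : ‖c - S‖ ≤ (1 / 2) ^ n := by
        rw [← hSc] at hpn
        exact hpn
      have h3 : D c = D (c - S) := by rw [map_sub, hDS, sub_zero]
      rw [h3]
      exact (D.le_opNorm _).trans (mul_le_mul_of_nonneg_left hcS (norm_nonneg _))
    have h3 : Filter.Tendsto (fun n : ℕ => ‖D‖ * (1 / 2 : ℝ) ^ n) Filter.atTop (𝓝 0) := by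
      have h3 := tendsto_pow_atTop_nhds_zero_of_lt_one (r := (1 / 2 : ℝ)) (by norm_num)
        (by norm_num)
      simpa using h3.const_mul ‖D‖
    exact ge_of_tendsto' h3 h2
  -- selfadjoint elements
  have step2 : ∀ s : Alg M, star (s : H →L[ℂ] H) = s → D s = 0 := by
    intro s hs
    obtain ⟨t, ht⟩ : ∃ t : ℝ, t = (2 * ‖s‖ + 1)⁻¹ := ⟨_, rfl⟩
    have ht0 : 0 < t := by rw [ht]; (clear * -; positivity)
    obtain ⟨c, hc⟩ : ∃ c : Alg M, c = (t : ℂ) • (s + (‖s‖ : ℂ) • 1) := ⟨_, rfl⟩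
    have hcc : (c : H →L[ℂ] H) = (t : ℂ) • ((s : H →L[ℂ] H) + (‖s‖ : ℂ) • 1) := by
      rw [hc]
      simp
    have hDc : D c = 0 := by
      refine step1 c ?_ ?_ ?_
      · rw [hcc, star_smul, star_add, star_smul, hs, star_one]
        congr 2
        · exact Complex.conj_ofReal t
        · congr 1
          exact Complex.conj_ofReal _
      · intro ξ
        rw [hcc, ContinuousLinearMap.smul_apply, ContinuousLinearMap.add_apply,
          ContinuousLinearMap.smul_apply, inner_smul_right, inner_add_right, inner_smul_right,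
          Complex.re_ofReal_mul, Complex.add_re, Complex.re_ofReal_mul]
        have h2 : (⟪ξ, (1 : H →L[ℂ] H) ξ⟫_ℂ).re = ‖ξ‖ ^ 2 := by
          rw [ContinuousLinearMap.one_apply, inner_self_eq_norm_sq_to_K]
          norm_cast
        have h3 : ‖⟪ξ, (s : H →L[ℂ] H) ξ⟫_ℂ‖ ≤ ‖ξ‖ * (‖s‖ * ‖ξ‖) :=
          (norm_inner_le_norm _ _).trans
            (mul_le_mul_of_nonneg_left ((s : H →L[ℂ] H).le_opNorm _) (norm_nonneg _))
        have h4 := (abs_le.1 (Complex.abs_re_le_norm ⟪ξ, (s : H →L[ℂ] H) ξ⟫_ℂ)).1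
        rw [h2]
        refine mul_nonneg ht0.le ?_
        linarith only [h3, h4]
      · rw [hc, norm_smul, Complex.norm_real, Real.norm_eq_abs, abs_of_pos ht0]
        have h2 : ‖s + (‖s‖ : ℂ) • (1 : Alg M)‖ ≤ 2 * ‖s‖ + 1 := by
          refine (norm_add_le _ _).trans ?_
          rw [norm_smul]
          have h3 : ‖((‖s‖ : ℝ) : ℂ)‖ = ‖s‖ := by simp
          have h4 : ‖(1 : Alg M)‖ ≤ 1 := by
            have := spectral_norm_le_one h1
            exact this
          rw [h3]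
          nlinarith only [h4, norm_nonneg s]
        calc t * ‖s + (‖s‖ : ℂ) • (1 : Alg M)‖ ≤ t * (2 * ‖s‖ + 1) :=
              mul_le_mul_of_nonneg_left h2 ht0.le
          _ = 1 := by rw [ht, inv_mul_cancel₀ (by positivity)]
    rw [hc, map_smul, map_add, map_smul, hD1, smul_zero, add_zero] at hDc
    have ht' : (t : ℂ) ≠ 0 := by exact_mod_cast ht0.ne'
    exact (smul_eq_zero_iff_right ht').1 hDc
  -- all elements
  have h3 : D (b + star b) = 0 := by
    refine step2 _ ?_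
    have : star (b + star b) = b + star b := by
      rw [star_add, star_star, add_comm]
    exact congrArg (fun T : Alg M => (T : H →L[ℂ] H)) this
  have h4 : D (Complex.I • (b - star b)) = 0 := by
    refine step2 _ ?_
    have : star (Complex.I • (b - star b)) = Complex.I • (b - star b) := by
      rw [star_smul, star_sub, star_star]
      have : star Complex.I = -Complex.I := Complex.conj_I
      rw [this, neg_smul, ← smul_neg, neg_sub]
    exact congrArg (fun T : Alg M => (T : H →L[ℂ] H)) this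
  rw [map_smul, smul_eq_zero_iff_right Complex.I_ne_zero] at h4
  have h5 : (2 : ℂ) • D b = 0 := by
    rw [two_smul, ← map_add]
    have : b + b = (b + star b) + (b - star b) := by abel
    rw [this, map_add, h3, h4, add_zero]
  exact (smul_eq_zero_iff_right (two_ne_zero' ℂ)).1 h5

/-- (C9') a bounded map on `M` that is right modular for the projections of `M` is right modular -/
theorem modular_of_proj (ψ : Alg M →L[ℂ] Alg M)
    (h : ∀ (p : Alg M), IsPr M (p : H →L[ℂ] H) → ∀ y, ψ (y * p) = ψ y * p) (y b : Alg M) :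
    ψ (y * b) = ψ y * b := by
  have h1 := projA_eq_zero (M := M)
    (ψ.comp (ContinuousLinearMap.mul ℂ (Alg M) y) - ContinuousLinearMap.mul ℂ (Alg M) (ψ y))
    (fun p hp => by
      rw [ContinuousLinearMap.sub_apply, ContinuousLinearMap.comp_apply,
        ContinuousLinearMap.mul_apply', ContinuousLinearMap.mul_apply', h p hp, sub_self]) b
  rw [ContinuousLinearMap.sub_apply, ContinuousLinearMap.comp_apply,
    ContinuousLinearMap.mul_apply', ContinuousLinearMap.mul_apply', sub_eq_zero] at h1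
  exact h1

end Vale.Agent.P082.CB
end

section
attribute [local instance] Vale.Agent.P082.AlgFast.nr Vale.Agent.P082.AlgFast.na
  Vale.Agent.P082.AlgFast.sr Vale.Agent.P082.AlgFast.ng Vale.Agent.P082.AlgFast.sg
  Vale.Agent.P082.AlgFast.ns Vale.Agent.P082.AlgFast.ri Vale.Agent.P082.AlgFast.ag
  Vale.Agent.P082.AlgFast.am Vale.Agent.P082.AlgFast.mo Vale.Agent.P082.AlgFast.pm
  Vale.Agent.P082.AlgFast.us Vale.Agent.P082.AlgFast.ts Vale.Agent.P082.AlgFast.ets
  Vale.Agent.P082.AlgFast.eng Vale.Agent.P082.AlgFast.esg Vale.Agent.P082.AlgFast.ens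
  Vale.Agent.P082.AlgFast.eam Vale.Agent.P082.AlgFast.emo Vale.Agent.P082.AlgFast.nu
  Vale.Agent.P082.AlgFast.sag Vale.Agent.P082.AlgFast.agr Vale.Agent.P082.AlgFast.mon
  Vale.Agent.P082.AlgFast.srg

open scoped InnerProductSpace ComplexConjugate Topology

namespace Vale.Agent.P082.CB

open Vale.Agent.P082

universe u

variable {H : Type u} [NormedAddCommGroup H] [InnerProductSpace ℂ H] [CompleteSpace H]

/-- weak convergence along an ultrafilter -/
def LimitWT {M : VonNeumannAlgebra H} {I : Type*} (U : Ultrafilter I) (y : I → Alg M)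
    (z : Alg M) : Prop :=
  ∀ β α : H, Filter.Tendsto (fun i => ⟪β, ((y i : Alg M) : H →L[ℂ] H) α⟫_ℂ) U
    (𝓝 ⟪β, (z : H →L[ℂ] H) α⟫_ℂ)

section

variable {M : VonNeumannAlgebra H} {I : Type*} {U : Ultrafilter I}

theorem limit_inner_bd {C : ℝ} {y : Alg M} (hy : ‖y‖ ≤ C) (β α : H) :
    ‖⟪β, (y : H →L[ℂ] H) α⟫_ℂ‖ ≤ C * ‖β‖ * ‖α‖ := by
  refine (norm_inner_le_norm _ _).trans ?_
  have h1 : ‖(y : H →L[ℂ] H) α‖ ≤ C * ‖α‖ :=
    ((y : H →L[ℂ] H).le_opNorm α).trans (mul_le_mul_of_nonneg_right hy (norm_nonneg _))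
  calc ‖β‖ * ‖(y : H →L[ℂ] H) α‖ ≤ ‖β‖ * (C * ‖α‖) :=
        mul_le_mul_of_nonneg_left h1 (norm_nonneg _)
    _ = C * ‖β‖ * ‖α‖ := by ring

theorem limit_unique {y : I → Alg M} {z z' : Alg M} (h : LimitWT U y z) (h' : LimitWT U y z') :
    z = z' := by
  refine alg_ext M (fun β α => ?_)
  exact tendsto_nhds_unique (h β α) (h' β α)

theorem limit_exists (U : Ultrafilter I) {C : ℝ} {y : I → Alg M} (hy : ∀ i, ‖y i‖ ≤ C) :
    ∃ z : Alg M, ‖z‖ ≤ C ∧ LimitWT U y z := by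
  have hb : ∀ β α : H, Bdd (fun i => ⟪β, (y i : H →L[ℂ] H) α⟫_ℂ) := fun β α =>
    ⟨C * ‖β‖ * ‖α‖, fun i => limit_inner_bd (hy i) β α⟩
  have ht := fun β α : H => tendsto_ulim U (hb β α)
  have hbd : ∀ β α : H, ‖ulim U (fun i => ⟪β, (y i : H →L[ℂ] H) α⟫_ℂ)‖ ≤ C * ‖β‖ * ‖α‖ :=
    fun β α => le_of_tendsto (ht β α).norm
      (Filter.Eventually.of_forall fun i => limit_inner_bd (hy i) β α)
  have hne : Nonempty I := by
    by_contra hemp
    rw [not_nonempty_iff] at hemp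
    exact U.neBot.ne (Filter.filter_eq_bot_of_isEmpty _)
  obtain ⟨i0⟩ := hne
  have hC : 0 ≤ C := (norm_nonneg _).trans (hy i0)
  obtain ⟨T, hT⟩ := exists_oper M C (fun β α => ulim U (fun i => ⟪β, (y i : H →L[ℂ] H) α⟫_ℂ))
    (fun β β' α => by
      apply ulim_eq
      refine Filter.Tendsto.congr (fun i => ?_) ((ht β α).add (ht β' α))
      rw [inner_add_left])
    (fun c β α => by
      apply ulim_eq
      refine Filter.Tendsto.congr (fun i => ?_) ((ht β α).const_mul (conj c))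
      rw [inner_smul_left])
    (fun β α α' => by
      apply ulim_eq
      refine Filter.Tendsto.congr (fun i => ?_) ((ht β α).add (ht β α'))
      rw [map_add, inner_add_right])
    (fun c β α => by
      apply ulim_eq
      refine Filter.Tendsto.congr (fun i => ?_) ((ht β α).const_mul c)
      rw [map_smul, inner_smul_right])
    hbd
    (fun S hS β α => by
      apply ulim_eq
      refine Filter.Tendsto.congr (fun i => ?_) (ht (ContinuousLinearMap.adjoint S β) α)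
      rw [ContinuousLinearMap.adjoint_inner_left]
      have h1 : (S * (y i : H →L[ℂ] H)) α = ((y i : H →L[ℂ] H) * S) α := by
        rw [hS _ (y i).2]
      exact congrArg (fun v => ⟪β, v⟫_ℂ) h1)
  have hlim : LimitWT U y T := by
    intro β α
    rw [hT]
    exact ht β α
  refine ⟨T, ?_, hlim⟩
  change ‖(T : H →L[ℂ] H)‖ ≤ C
  refine ContinuousLinearMap.opNorm_le_bound _ hC (fun α => ?_)
  by_cases h0 : ‖(T : H →L[ℂ] H) α‖ = 0
  · rw [h0]; positivity
  · have h0' : 0 < ‖(T : H →L[ℂ] H) α‖ := lt_of_le_of_ne (norm_nonneg _) (Ne.symm h0)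
    have h1 := hbd ((T : H →L[ℂ] H) α) α
    rw [← hT, inner_self_eq_norm_sq_to_K] at h1
    have h2 : ‖((‖(T : H →L[ℂ] H) α‖ : ℂ)) ^ 2‖ = ‖(T : H →L[ℂ] H) α‖ * ‖(T : H →L[ℂ] H) α‖ := by
      simp [sq]
    have h3 : ‖(T : H →L[ℂ] H) α‖ * ‖(T : H →L[ℂ] H) α‖ ≤
        (C * ‖α‖) * ‖(T : H →L[ℂ] H) α‖ := by
      rw [← h2]
      refine h1.trans (le_of_eq ?_)
      ring
    exact le_of_mul_le_mul_right h3 h0'

theorem LimitWT.add {y y' : I → Alg M} {z z' : Alg M} (h : LimitWT U y z)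
    (h' : LimitWT U y' z') : LimitWT U (fun i => y i + y' i) (z + z') := by
  intro β α
  refine (((h β α).add (h' β α)).congr fun i => ?_).trans (le_of_eq ?_)
  · simp [inner_add_right]
  · simp [inner_add_right]

theorem LimitWT.smul {y : I → Alg M} {z : Alg M} (c : ℂ) (h : LimitWT U y z) :
    LimitWT U (fun i => c • y i) (c • z) := by
  intro β α
  refine (((h β α).const_mul c).congr fun i => ?_).trans (le_of_eq ?_)
  · simp [inner_smul_right]
  · simp [inner_smul_right]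

theorem LimitWT.const (z : Alg M) : LimitWT U (fun _ => z) z := fun _ _ => tendsto_const_nhds

theorem LimitWT.mul_left {y : I → Alg M} {z : Alg M} (x : Alg M) (h : LimitWT U y z) :
    LimitWT U (fun i => x * y i) (x * z) := by
  intro β α
  have h1 := h (ContinuousLinearMap.adjoint (x : H →L[ℂ] H) β) α
  simp only [ContinuousLinearMap.adjoint_inner_left] at h1
  exact h1

theorem LimitWT.mul_right {y : I → Alg M} {z : Alg M} (x : Alg M) (h : LimitWT U y z) :
    LimitWT U (fun i => y i * x) (z * x) := fun β α => h β ((x : H →L[ℂ] H) α)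

theorem LimitWT.sum {ι : Type*} (s : Finset ι) {y : ι → I → Alg M} {z : ι → Alg M}
    (h : ∀ j ∈ s, LimitWT U (y j) (z j)) :
    LimitWT U (fun i => ∑ j ∈ s, y j i) (∑ j ∈ s, z j) := by
  classical
  induction s using Finset.induction_on with
  | empty => simpa using LimitWT.const (U := U) (0 : Alg M)
  | insert a s ha ih =>
    simp only [Finset.sum_insert ha]
    exact (h a (Finset.mem_insert_self a s)).add
      (ih (fun i hi => h i (Finset.mem_insert_of_mem hi)))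

/-- the Hochschild differential is continuous for pointwise weak limits -/
theorem LimitWT.hochschild {k : ℕ} {g : I → (Fin k → Alg M) → Alg M}
    {g' : (Fin k → Alg M) → Alg M} (h : ∀ x, LimitWT U (fun i => g i x) (g' x))
    (a : Fin (k + 1) → Alg M) :
    LimitWT U (fun i => Vale.Agent.P082.hochschild (g i) a)
      (Vale.Agent.P082.hochschild g' a) := by
  unfold Vale.Agent.P082.hochschild
  refine ((LimitWT.mul_left _ (h _)).add (LimitWT.sum _ fun j _ =>
    LimitWT.mul_left _ (h _))).add (LimitWT.mul_left _ (LimitWT.mul_right _ (h _)))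

end

/-- pointwise weak ultralimits of bounded families of multilinear maps into `M` -/
theorem exists_limit_cmm (M : VonNeumannAlgebra H) {k : ℕ} {I : Type*} (U : Ultrafilter I)
    (F : I → ContinuousMultilinearMap ℂ (fun _ : Fin k => Alg M) (Alg M)) (C : ℝ)
    (hF : ∀ i, ‖F i‖ ≤ C) :
    ∃ F' : ContinuousMultilinearMap ℂ (fun _ : Fin k => Alg M) (Alg M), ‖F'‖ ≤ C ∧
      ∀ (x : Fin k → Alg M) (β α : H),
        Filter.Tendsto (fun i => ⟪β, ((F i x : Alg M) : H →L[ℂ] H) α⟫_ℂ) U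
          (𝓝 ⟪β, ((F' x : Alg M) : H →L[ℂ] H) α⟫_ℂ) := by
  have hne : Nonempty I := by
    by_contra hemp
    rw [not_nonempty_iff] at hemp
    exact U.neBot.ne (Filter.filter_eq_bot_of_isEmpty _)
  obtain ⟨i0⟩ := hne
  have hC : 0 ≤ C := le_trans (ContinuousMultilinearMap.opNorm_nonneg (F i0)) (hF i0)
  have hb : ∀ (x : Fin k → Alg M) (i : I), ‖F i x‖ ≤ C * ∏ j, ‖x j‖ := fun x i =>
    ((F i).le_opNorm x).trans
      (mul_le_mul_of_nonneg_right (hF i) (Finset.prod_nonneg fun j _ => norm_nonneg _))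
  choose T hTn hT using fun x : Fin k → Alg M => limit_exists U (hb x)
  refine ⟨MultilinearMap.mkContinuous
    { toFun := T
      map_update_add' := fun x j y y' => ?_
      map_update_smul' := fun x j c y => ?_ } C hTn, MultilinearMap.mkContinuous_norm_le _ hC _,
    fun x β α => hT x β α⟩
  · refine limit_unique (hT _) ?_
    have h1 := (hT (Function.update x j y)).add (hT (Function.update x j y'))
    intro β α
    refine (h1 β α).congr fun i => ?_
    exact congrArg (fun z : Alg M => ⟪β, (z : H →L[ℂ] H) α⟫_ℂ)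
      ((F i).map_update_add x j y y').symm
  · refine limit_unique (hT _) ?_
    have h1 := (hT (Function.update x j y)).smul c
    intro β α
    refine (h1 β α).congr fun i => ?_
    exact congrArg (fun z : Alg M => ⟪β, (z : H →L[ℂ] H) α⟫_ℂ)
      ((F i).map_update_smul x j c y).symm

/-- (C3) `f = F i + d(g i)` for all `i`, with uniform bounds, passes to the ultralimit. -/
theorem exists_limit_cob (M : VonNeumannAlgebra H) {k : ℕ} {I : Type*} (U : Ultrafilter I)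
    (f : ContinuousMultilinearMap ℂ (fun _ : Fin (k + 1) => Alg M) (Alg M))
    (F : I → ContinuousMultilinearMap ℂ (fun _ : Fin (k + 1) => Alg M) (Alg M))
    (g : I → ContinuousMultilinearMap ℂ (fun _ : Fin k => Alg M) (Alg M)) (C : ℝ)
    (hF : ∀ i, ‖F i‖ ≤ C) (hg : ∀ i, ‖g i‖ ≤ C)
    (h : ∀ i x, f x = F i x + hochschild (fun y => g i y) x) :
    ∃ (F' : ContinuousMultilinearMap ℂ (fun _ : Fin (k + 1) => Alg M) (Alg M))
      (g' : ContinuousMultilinearMap ℂ (fun _ : Fin k => Alg M) (Alg M)),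
      (∀ x, f x = F' x + hochschild (fun y => g' y) x) ∧
      ((∀ i a, hochschild (fun x => F i x) a = 0) → ∀ a, hochschild (fun x => F' x) a = 0) ∧
      ∀ (x : Fin (k + 1) → Alg M) (β α : H),
        Filter.Tendsto (fun i => ⟪β, ((F i x : Alg M) : H →L[ℂ] H) α⟫_ℂ) U
          (𝓝 ⟪β, ((F' x : Alg M) : H →L[ℂ] H) α⟫_ℂ) := by
  obtain ⟨F', -, hF'⟩ := exists_limit_cmm M U F C hF
  obtain ⟨g', -, hg'⟩ := exists_limit_cmm M U g C hg
  have h1 : ∀ x, LimitWT U (fun i => F i x) (F' x) := fun x β α => hF' x β α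
  have h2 : ∀ x, LimitWT U (fun i => g i x) (g' x) := fun x β α => hg' x β α
  refine ⟨F', g', fun x => ?_, fun h0 a => ?_, hF'⟩
  · have h3 := (h1 x).add (LimitWT.hochschild (g := fun i y => g i y) (g' := fun y => g' y) h2 x)
    refine limit_unique (U := U) (y := fun _ : I => f x) (LimitWT.const _) ?_
    intro β α
    refine (h3 β α).congr fun i => ?_
    rw [h i x]
  · have h3 := LimitWT.hochschild (g := fun i y => F i y) (g' := fun y => F' y) h1 a
    refine limit_unique (U := U) (y := fun _ : I => (0 : Alg M)) ?_ (LimitWT.const _)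
    intro β α
    refine (h3 β α).congr fun i => ?_
    exact congrArg (fun z : Alg M => ⟪β, (z : H →L[ℂ] H) α⟫_ℂ) (h0 i a)

end Vale.Agent.P082.CB
end
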