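import Mathlib.Algebra.BigOperators.Field
import Mathlib.Algebra.BigOperators.Fin
import Mathlib.Algebra.BigOperators.Option
import Mathlib.Algebra.Order.Chebyshev
import Mathlib.Algebra.Star.Subalgebra
import Mathlib.Analysis.CStarAlgebra.Basic
import Mathlib.Analysis.CStarAlgebra.ContinuousFunctionalCalculus.Basic
import Mathlib.Analysis.CStarAlgebra.ContinuousFunctionalCalculus.Commute
import Mathlib.Analysis.CStarAlgebra.ContinuousFunctionalCalculus.Instances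
import Mathlib.Analysis.CStarAlgebra.ContinuousFunctionalCalculus.Isometric
import Mathlib.Analysis.CStarAlgebra.ContinuousFunctionalCalculus.Order
import Mathlib.Analysis.CStarAlgebra.ContinuousFunctionalCalculus.Range
import Mathlib.Analysis.CStarAlgebra.ContinuousFunctionalCalculus.Unital
import Mathlib.Analysis.CStarAlgebra.ContinuousLinearMap
import Mathlib.Analysis.CStarAlgebra.Spectrum
import Mathlib.Analysis.CStarAlgebra.Unitary.Span
import Mathlib.Analysis.Complex.Basic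
import Mathlib.Analysis.Convex.Basic
import Mathlib.Analysis.Convex.Mul
import Mathlib.Analysis.InnerProductSpace.Adjoint
import Mathlib.Analysis.InnerProductSpace.Basic
import Mathlib.Analysis.InnerProductSpace.Continuous
import Mathlib.Analysis.InnerProductSpace.Dual
import Mathlib.Analysis.InnerProductSpace.LaxMilgram
import Mathlib.Analysis.InnerProductSpace.PiL2
import Mathlib.Analysis.InnerProductSpace.Positive
import Mathlib.Analysis.InnerProductSpace.Projection.Basic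
import Mathlib.Analysis.InnerProductSpace.StarOrder
import Mathlib.Analysis.InnerProductSpace.Subspace
import Mathlib.Analysis.InnerProductSpace.l2Space
import Mathlib.Analysis.Normed.Group.Basic
import Mathlib.Analysis.Normed.Group.InfiniteSum
import Mathlib.Analysis.Normed.Group.Tannery
import Mathlib.Analysis.Normed.Module.Basic
import Mathlib.Analysis.Normed.Module.Multilinear.Basic
import Mathlib.Analysis.Normed.Module.Multilinear.Curry
import Mathlib.Analysis.Normed.Operator.Extend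
import Mathlib.Analysis.Normed.Operator.Mul
import Mathlib.Analysis.Normed.Operator.NormedSpace
import Mathlib.Analysis.Normed.Ring.Units
import Mathlib.Analysis.PSeries
import Mathlib.Analysis.Seminorm
import Mathlib.Analysis.SpecialFunctions.Complex.Circle
import Mathlib.Analysis.SpecialFunctions.ContinuousFunctionalCalculus.PosPart.Basic
import Mathlib.Analysis.SpecialFunctions.ContinuousFunctionalCalculus.Rpow.Basic
import Mathlib.Analysis.SpecialFunctions.Exp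
import Mathlib.Analysis.SpecialFunctions.Pow.Real
import Mathlib.Analysis.SpecialFunctions.Sqrt
import Mathlib.Analysis.SpecialFunctions.Trigonometric.Basic
import Mathlib.Analysis.SpecificLimits.Basic
import Mathlib.Analysis.VonNeumannAlgebra.Basic
import Mathlib.Combinatorics.Hindman
import Mathlib.LinearAlgebra.Complex.Module
import Mathlib.LinearAlgebra.Matrix.NonsingularInverse
import Mathlib.LinearAlgebra.Matrix.Trace
import Mathlib.Order.Filter.AtTopBot.Finset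
import Mathlib.Order.Filter.Ultrafilter.Basic
import Mathlib.Order.Interval.Finset.Nat
import Mathlib.RingTheory.RootsOfUnity.Complex
import Mathlib.Tactic
import Mathlib.Topology.Algebra.InfiniteSum.Basic
import Mathlib.Topology.Algebra.Module.Basic
import Mathlib.Topology.Algebra.Semigroup
import Mathlib.Topology.Algebra.Star.Unitary
import Mathlib.Topology.Algebra.StarSubalgebra
import Mathlib.Topology.Compactness.Compact
import Mathlib.Topology.Instances.Complex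
import Mathlib.Topology.MetricSpace.ProperSpace
import Vale.Agent.P082.Bd8.B4
import Vale.Agent.P082.Bd8.B2
import Vale.Agent.P082.Bd8.B3
import Vale.Agent.P082.Bd8.B1

set_option linter.all false

section

open scoped Topology InnerProductSpace ComplexConjugate

namespace Vale.Agent.P082.KR

open Vale.Agent.P082 Filter

variable {A : Type*} [NormedRing A] [StarRing A] [CStarRing A] [NormedAlgebra ℂ A] [StarModule ℂ A]
  {K : Type*} [NormedAddCommGroup K] [InnerProductSpace ℂ K] {R : TraceRep A K}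
  {ι : Type*} [Fintype ι] [Nonempty ι] {b : ι → unitary A} {Φ : A →L[ℂ] A} {C : ℝ}
  {E : Type*} [SeminormedAddCommGroup E] [InnerProductSpace ℂ E]
  {J : A →ₗ[ℂ] E} {i0 : K →ₗ[ℂ] E}

/-- the defect of near constancy, linear in `H` -/
noncomputable def dfc (R : TraceRep A K) (Φ : A →L[ℂ] A) (J : A →ₗ[ℂ] E) (i0 : K →ₗ[ℂ] E)
    (G H : A) (t : unitary A) : E :=
  J (G * (t : A) * H) - i0 (R.V (Φ (G * (t : A)) * H))

omit [CStarRing A] [StarModule ℂ A] in
lemma dfc_add (G H H' : A) (t : unitary A) :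
    dfc R Φ J i0 G (H + H') t = dfc R Φ J i0 G H t + dfc R Φ J i0 G H' t := by
  unfold dfc
  rw [mul_add, mul_add, map_add, map_add, map_add]
  abel

omit [CStarRing A] [StarModule ℂ A] in
lemma dfc_smul (G H : A) (c : ℂ) (t : unitary A) :
    dfc R Φ J i0 G (c • H) t = c • dfc R Φ J i0 G H t := by
  unfold dfc
  rw [mul_smul_comm, mul_smul_comm, map_smul, map_smul, map_smul, smul_sub]

lemma dfc_bound (hΦ : Harm b Φ C) (hC : 0 ≤ C) (hE : LimSp R b Φ J i0) (G H : A)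
    (t : unitary A) : ‖dfc R Φ J i0 G H t‖ ≤ 2 * (C * ‖R.V 1‖ * ‖G‖) * ‖H‖ := by
  have ht := norm_unitary_le t
  have h1 : ‖G * (t : A)‖ ≤ ‖G‖ := (norm_mul_le _ _).trans
    (mul_le_of_le_one_right (norm_nonneg _) ht)
  have h2 : ‖G * (t : A) * H‖ ≤ ‖G‖ * ‖H‖ := (norm_mul_le _ _).trans
    (mul_le_mul_of_nonneg_right h1 (norm_nonneg _))
  have hv := norm_nonneg (R.V 1)
  have h3 : ‖J (G * (t : A) * H)‖ ≤ C * ‖R.V 1‖ * (‖G‖ * ‖H‖) :=
    (hE.norm_J_le hΦ hC _).trans (mul_le_mul_of_nonneg_left h2 (by (clear * - hC; positivity)))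
  have h4 : ‖i0 (R.V (Φ (G * (t : A)) * H))‖ ≤ C * ‖R.V 1‖ * (‖G‖ * ‖H‖) := by
    rw [hE.norm_i0]
    refine (norm_V_le R _).trans ?_
    have h5 : ‖Φ (G * (t : A)) * H‖ ≤ C * ‖G‖ * ‖H‖ := (norm_mul_le _ _).trans
      (mul_le_mul_of_nonneg_right ((hΦ.bound _).trans
        (mul_le_mul_of_nonneg_left h1 hC)) (norm_nonneg _))
    calc ‖Φ (G * (t : A)) * H‖ * ‖R.V 1‖ ≤ C * ‖G‖ * ‖H‖ * ‖R.V 1‖ :=
          mul_le_mul_of_nonneg_right h5 hv
      _ = _ := by ring
  unfold dfc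
  refine (norm_sub_le _ _).trans ?_
  calc _ ≤ C * ‖R.V 1‖ * (‖G‖ * ‖H‖) + C * ‖R.V 1‖ * (‖G‖ * ‖H‖) := add_le_add h3 h4
    _ = _ := by ring

lemma sq_add_le {F : Type*} [SeminormedAddCommGroup F] (x y : F) :
    ‖x + y‖ ^ 2 ≤ 2 * ‖x‖ ^ 2 + 2 * ‖y‖ ^ 2 := by
  have h := norm_add_le x y
  have h2 : ‖x + y‖ ^ 2 ≤ (‖x‖ + ‖y‖) ^ 2 := pow_le_pow_left₀ (norm_nonneg _) h 2
  linarith only [sq_nonneg (‖x‖ - ‖y‖), h2]

/-- the property to be proved -/
def NC (R : TraceRep A K) (b : ι → unitary A) (Φ : A →L[ℂ] A) (J : A →ₗ[ℂ] E)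
    (i0 : K →ₗ[ℂ] E) (H : A) : Prop :=
  ∀ G, Tendsto (fun l => wavg b l (fun t => ‖dfc R Φ J i0 G H t‖ ^ 2)) atTop (𝓝 0)

omit [CStarRing A] [StarModule ℂ A] [Nonempty ι] in
lemma NC.add {H H' : A} (h : NC R b Φ J i0 H) (h' : NC R b Φ J i0 H') :
    NC R b Φ J i0 (H + H') := by
  intro G
  have hg : Tendsto (fun l => 2 * wavg b l (fun t => ‖dfc R Φ J i0 G H t‖ ^ 2) +
      2 * wavg b l (fun t => ‖dfc R Φ J i0 G H' t‖ ^ 2)) atTop (𝓝 0) := by
    have := ((h G).const_mul 2).add ((h' G).const_mul 2)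
    simpa using this
  refine squeeze_zero (fun l => wavg_nonneg b l fun t => sq_nonneg _) (fun l => ?_) hg
  rw [← wavg_mul_left, ← wavg_mul_left, ← wavg_add]
  refine wavg_mono b l fun t => ?_
  rw [dfc_add]
  exact sq_add_le _ _

omit [CStarRing A] [StarModule ℂ A] [Nonempty ι] in
lemma NC.smul {H : A} (h : NC R b Φ J i0 H) (c : ℂ) : NC R b Φ J i0 (c • H) := by
  intro G
  have hg : Tendsto (fun l => ‖c‖ ^ 2 * wavg b l (fun t => ‖dfc R Φ J i0 G H t‖ ^ 2))
      atTop (𝓝 0) := by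
    have := (h G).const_mul (‖c‖ ^ 2)
    simpa using this
  refine hg.congr fun l => ?_
  rw [← wavg_mul_left]
  congr 1
  funext t
  rw [dfc_smul, norm_smul, mul_pow]

lemma NC.one (hE : LimSp R b Φ J i0) : NC R b Φ J i0 1 := by
  intro G
  have h1 : ∀ l, wavg b l (fun t => ‖dfc R Φ J i0 G 1 t‖ ^ 2) =
      ‖J G‖ ^ 2 - energy R b Φ l G := by
    intro l
    rw [← hE.stat l G, energy, ← wavg_sub]
    congr 1
    funext t
    unfold dfc
    rw [mul_one, mul_one, hE.norm_sub_sq]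
  simp_rw [h1]
  have := (hE.lim G).const_sub (‖J G‖ ^ 2)
  rwa [sub_self] at this

lemma NC.step (hΦ : Harm b Φ C) (hE : LimSp R b Φ J i0) {H : A} (h : NC R b Φ J i0 H) (i : ι) :
    NC R b Φ J i0 ((b i : A) * H) := by
  intro G
  -- increments of the energy
  have h1 : Tendsto (fun l => energy R b Φ (l + 1) G - energy R b Φ l G) atTop (𝓝 0) := by
    have e1 := hE.lim G
    have e2 := (tendsto_add_atTop_iff_nat 1).2 e1
    have := e2.sub e1
    rwa [sub_self] at this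
  have h2 : Tendsto (fun l => wavg b (l + 1) (fun t => ‖dfc R Φ J i0 G H t‖ ^ 2)) atTop
      (𝓝 0) := (tendsto_add_atTop_iff_nat 1).2 (h G)
  have hg : Tendsto (fun l => 2 * ((Fintype.card ι : ℝ) *
      wavg b (l + 1) (fun t => ‖dfc R Φ J i0 G H t‖ ^ 2)) +
      2 * (‖H‖ ^ 2 * ((Fintype.card ι : ℝ) * (energy R b Φ (l + 1) G - energy R b Φ l G))))
      atTop (𝓝 0) := by
    have := ((h2.const_mul (Fintype.card ι : ℝ)).const_mul 2).add
      (((h1.const_mul (Fintype.card ι : ℝ)).const_mul (‖H‖ ^ 2)).const_mul 2)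
    simpa using this
  refine squeeze_zero (fun l => wavg_nonneg b l fun t => sq_nonneg _) (fun l => ?_) hg
  have e1 : ∀ t : unitary A, ‖dfc R Φ J i0 G ((b i : A) * H) t‖ ^ 2 ≤
      2 * ‖dfc R Φ J i0 G H (t * b i)‖ ^ 2 + 2 * (‖H‖ ^ 2 *
        ‖R.V (Φ (G * (t : A) * (b i : A)) * star (b i : A) - Φ (G * (t : A)))‖ ^ 2) := by
    intro t
    have e2 : dfc R Φ J i0 G ((b i : A) * H) t = dfc R Φ J i0 G H (t * b i) +
        i0 (R.V ((Φ (G * (t : A) * (b i : A)) - Φ (G * (t : A)) * (b i : A)) * H)) := by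
      unfold dfc
      rw [sub_mul, map_sub, map_sub]
      have e3 : ((t * b i : unitary A) : A) = (t : A) * (b i : A) := rfl
      rw [e3]
      simp only [mul_assoc]
      abel
    rw [e2]
    refine (sq_add_le _ _).trans ?_
    rw [hE.norm_i0]
    have e4 : ‖R.V ((Φ (G * (t : A) * (b i : A)) - Φ (G * (t : A)) * (b i : A)) * H)‖ ≤
        ‖R.V (Φ (G * (t : A) * (b i : A)) * star (b i : A) - Φ (G * (t : A)))‖ * ‖H‖ := by
      refine (norm_V_mul_le' R _ _).trans ?_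
      rw [← norm_V_mul_u R (Φ (G * (t : A) * (b i : A)) * star (b i : A) - Φ (G * (t : A)))
        (b i), sub_mul, mul_assoc (Φ (G * (t : A) * (b i : A))), star_mul_self_u, mul_one]
    have e5 := pow_le_pow_left₀ (norm_nonneg _) e4 2
    rw [mul_pow] at e5
    linarith only [e5]
  refine (wavg_mono b l e1).trans ?_
  rw [wavg_add, wavg_mul_left, wavg_mul_left, wavg_mul_left]
  have e6 := wavg_shift_le b l (F := fun t => ‖dfc R Φ J i0 G H t‖ ^ 2)
    (fun t => sq_nonneg _) i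
  have e7 : wavg b l (fun t =>
      ‖R.V (Φ (G * (t : A) * (b i : A)) * star (b i : A) - Φ (G * (t : A)))‖ ^ 2) ≤
      (Fintype.card ι : ℝ) * (energy R b Φ (l + 1) G - energy R b Φ l G) := by
    rw [← energy_diff hΦ l 1 G, ← wavg_mul_left]
    refine wavg_mono b l fun t => ?_
    rw [wavg_one]
    exact le_card_mul_avg (F := fun i =>
      ‖R.V (Φ (G * (t : A) * (b i : A)) * star (b i : A) - Φ (G * (t : A)))‖ ^ 2)
      (fun i => sq_nonneg _) i
  have e8 := mul_le_mul_of_nonneg_left e7 (sq_nonneg ‖H‖)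
  linarith only [e8, e6]

lemma NC.alg (hΦ : Harm b Φ C) (hE : LimSp R b Φ J i0) {x : A}
    (hx : x ∈ Algebra.adjoin ℂ (Set.range (fun i => (b i : A)) ∪
      star (Set.range (fun i => (b i : A))))) :
    ∀ {H : A}, NC R b Φ J i0 H → NC R b Φ J i0 (x * H) := by
  induction hx using Algebra.adjoin_induction with
  | mem x hx =>
    intro H hH
    rcases hx with ⟨i, rfl⟩ | hx
    · exact NC.step hΦ hE hH i
    · obtain ⟨i, hi⟩ := hx
      obtain ⟨σ, _, hσ⟩ := hΦ.symm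
      have e1 : x = (b (σ i) : A) := by
        rw [hσ, coe_inv_u]
        simp only at hi
        rw [hi, star_star]
      rw [e1]
      exact NC.step hΦ hE hH (σ i)
  | algebraMap c =>
    intro H hH
    rw [← Algebra.smul_def]
    exact hH.smul c
  | add x y _ _ ihx ihy =>
    intro H hH
    rw [add_mul]
    exact (ihx hH).add (ihy hH)
  | mul x y _ _ ihx ihy =>
    intro H hH
    rw [mul_assoc]
    exact ihx (ihy hH)

/-- (E4) near constancy -/
theorem near_const (hΦ : Harm b Φ C) (hC : 0 ≤ C) (hE : LimSp R b Φ J i0) (G : A) {H : A}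
    (hH : H ∈ clAlg b) :
    Tendsto (fun l => wavg b l (fun t =>
      ‖J (G * (t : A) * H) - i0 (R.V (Φ (G * (t : A)) * H))‖ ^ 2)) atTop (𝓝 0) := by
  have hcl : H ∈ closure ((StarAlgebra.adjoin ℂ (Set.range (fun i => (b i : A))) : Set A)) := hH
  set c := 2 * (C * ‖R.V 1‖ * ‖G‖) with hc
  have hc0 : 0 ≤ c := by (clear * - A K R C hC G; positivity)
  rw [Metric.tendsto_atTop]
  intro ε hε
  obtain ⟨H', hH', hd⟩ := Metric.mem_closure_iff.1 hcl (√(ε / 4) / (c + 1)) (by (clear * - A K R C hC G hε; (clear * - hε hC; positivity)))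
  have hN : NC R b Φ J i0 H' := by
    have h1 : H' ∈ (StarAlgebra.adjoin ℂ (Set.range (fun i => (b i : A)))).toSubalgebra := hH'
    rw [StarAlgebra.adjoin_toSubalgebra] at h1
    have := NC.alg hΦ hE h1 (NC.one hE)
    rwa [mul_one] at this
  obtain ⟨l0, hl0⟩ := Metric.tendsto_atTop.1 (hN G) (ε / 4) (by positivity)
  refine ⟨l0, fun l hl => ?_⟩
  have h1 := hl0 l hl
  have hn : ∀ H : A, 0 ≤ wavg b l (fun t => ‖dfc R Φ J i0 G H t‖ ^ 2) := fun H =>
    wavg_nonneg b l fun t => sq_nonneg _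
  rw [Real.dist_0_eq_abs, abs_of_nonneg (hn H')] at h1
  change dist (wavg b l (fun t => ‖dfc R Φ J i0 G H t‖ ^ 2)) 0 < ε
  rw [Real.dist_0_eq_abs, abs_of_nonneg (hn H)]
  have h2 : ∀ t : unitary A, ‖dfc R Φ J i0 G H t‖ ^ 2 ≤
      2 * ‖dfc R Φ J i0 G H' t‖ ^ 2 + 2 * (ε / 4) := by
    intro t
    have e1 : dfc R Φ J i0 G H t = dfc R Φ J i0 G H' t + dfc R Φ J i0 G (H - H') t := by
      rw [← dfc_add]
      congr 1
      abel
    rw [e1]
    refine (sq_add_le _ _).trans ?_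
    have e2 : ‖dfc R Φ J i0 G (H - H') t‖ ≤ √(ε / 4) := by
      refine (dfc_bound hΦ hC hE G (H - H') t).trans ?_
      rw [← hc]
      rw [dist_eq_norm] at hd
      calc c * ‖H - H'‖ ≤ (c + 1) * (√(ε / 4) / (c + 1)) := by
            refine mul_le_mul (by linarith only []) hd.le (norm_nonneg _) (by linarith only [hc0])
        _ = √(ε / 4) := by (clear * - hc0 hε; field_simp)
    have e3 := pow_le_pow_left₀ (norm_nonneg _) e2 2
    rw [Real.sq_sqrt (by positivity)] at e3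
    linarith only [e3]
  have h3 := wavg_mono b l h2
  rw [wavg_add, wavg_mul_left, wavg_const] at h3
  linarith only [h3, h1]

end Vale.Agent.P082.KR
end

section

open scoped Topology InnerProductSpace ComplexConjugate

namespace Vale.Agent.P082.KR

open Vale.Agent.P082 Filter

universe u

variable {A : Type u} [NormedRing A] [StarRing A] [CStarRing A] [NormedAlgebra ℂ A]
  [StarModule ℂ A]
  {K : Type*} [NormedAddCommGroup K] [InnerProductSpace ℂ K] {R : TraceRep A K}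
  {K' : Type*} [NormedAddCommGroup K'] [InnerProductSpace ℂ K'] {R' : TraceRep A K'}
  {ι : Type*} [Fintype ι] [Nonempty ι] {b : ι → unitary A} {Φ : A →L[ℂ] A} {C : ℝ}
  {E : Type u} [SeminormedAddCommGroup E] [InnerProductSpace ℂ E]
  {J : A →ₗ[ℂ] E} {i0 : K →ₗ[ℂ] E} {ee : A →ₗ[ℂ] K'}

/-- expansion of the square of a sum -/
lemma norm_sum_sq_range {F : Type*} [SeminormedAddCommGroup F] [InnerProductSpace ℂ F]
    (v : ℕ → F) (n : ℕ) :
    ‖∑ i ∈ Finset.range n, v i‖ ^ 2 = ∑ i ∈ Finset.range n, ‖v i‖ ^ 2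
      + 2 * ∑ i' ∈ Finset.range n, ∑ i ∈ Finset.range i', (⟪v i, v i'⟫_ℂ).re := by
  induction n with
  | zero => simp
  | succ n ih =>
    rw [Finset.sum_range_succ, Finset.sum_range_succ, Finset.sum_range_succ,
      norm_add_sq (𝕜 := ℂ), ih, sum_inner, map_sum]
    simp only [RCLike.re_to_complex]
    ring

/-- the first order coefficient -/
noncomputable def dd (Φ : A →L[ℂ] A) (c g : A) (t : unitary A) : A :=
  Φ (g * (t : A)) * star (t : A) - c * g

lemma norm_dd_le (hΦ : Harm b Φ C) (hC : 0 ≤ C) {c : A} (hc : ‖c‖ ≤ C) (g : unitary A)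
    (t : unitary A) : ‖dd Φ c (g : A) t‖ ≤ 2 * C := by
  unfold dd
  have h1 : ‖Φ ((g : A) * (t : A)) * star (t : A)‖ ≤ C := by
    refine (norm_mul_le _ _).trans ?_
    have h2 : ‖Φ ((g : A) * (t : A))‖ ≤ C := by
      have h3 : ‖(g : A) * (t : A)‖ ≤ 1 := norm_unitary_le (g * t)
      exact (hΦ.bound _).trans (mul_le_of_le_one_right hC h3)
    have h4 : ‖star (t : A)‖ ≤ 1 := norm_unitary_le (t⁻¹)
    calc _ ≤ C * 1 := mul_le_mul h2 h4 (norm_nonneg _) hC
      _ = C := mul_one C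
  have h2 : ‖c * (g : A)‖ ≤ C := by
    refine (norm_mul_le _ _).trans ?_
    calc _ ≤ C * 1 := mul_le_mul hc (norm_unitary_le g) (norm_nonneg _) hC
      _ = C := mul_one C
  exact (norm_sub_le _ _).trans (by linarith only [h2, h1])

lemma norm_V_dd_le (hΦ : Harm b Φ C) (hC : 0 ≤ C) {c : A} (hc : ‖c‖ ≤ C) (g : unitary A)
    (t : unitary A) : ‖R.V (dd Φ c (g : A) t)‖ ≤ 2 * C * ‖R.V 1‖ :=
  (norm_V_le R _).trans (mul_le_mul_of_nonneg_right (norm_dd_le hΦ hC hc g t) (norm_nonneg _))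

/-- the terms of the main part -/
noncomputable def vv (Φ : A →L[ℂ] A) (c : A) (g x : unitary A) (t : unitary A) : A :=
  dd Φ c (g : A) t * ((t * (g⁻¹ * x) : unitary A) : A)

lemma norm_V_vv (c : A) (g x t : unitary A) :
    ‖R.V (vv Φ c g x t)‖ = ‖R.V (dd Φ c (g : A) t)‖ := norm_V_mul_u R _ _

/-- replacing `D(t' t'')` by `D(t')` -/
lemma off_diag_pt (hΦ : Harm b Φ C) (hC : 0 ≤ C) {c : A} (hc : ‖c‖ ≤ C)
    (g g' x t' t'' : unitary A) :
    (⟪R.V (vv Φ c g x (t' * t'')), R.V (vv Φ c g' x (t' * t''))⟫_ℂ).re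
      ≤ (⟪R.V (dd Φ c (g : A) t' * ((t' : A) * ((t'' : A) * (star (g : A) * (g' : A))
            * star (t'' : A)) * star (t' : A))), R.V (dd Φ c (g' : A) t')⟫_ℂ).re
        + 2 * C * ‖R.V 1‖ *
          (‖R.V (Φ ((g : A) * (t' : A) * (t'' : A)) * star (t'' : A) - Φ ((g : A) * (t' : A)))‖
          + ‖R.V (Φ ((g' : A) * (t' : A) * (t'' : A)) * star (t'' : A)
              - Φ ((g' : A) * (t' : A)))‖) := by
  have key : ∀ g : unitary A, ‖R.V (dd Φ c (g : A) (t' * t'') - dd Φ c (g : A) t')‖ =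
      ‖R.V (Φ ((g : A) * (t' : A) * (t'' : A)) * star (t'' : A) - Φ ((g : A) * (t' : A)))‖ := by
    intro g
    rw [← norm_V_mul_u R (Φ ((g : A) * (t' : A) * (t'' : A)) * star (t'' : A)
      - Φ ((g : A) * (t' : A))) (t'⁻¹)]
    congr 2
    unfold dd
    simp only [Submonoid.coe_mul, star_mul, coe_inv_u, sub_mul, mul_assoc]
    abel
  have e1 : ⟪R.V (dd Φ c (g : A) t' * ((t' : A) * ((t'' : A) * (star (g : A) * (g' : A))
            * star (t'' : A)) * star (t' : A))), R.V (dd Φ c (g' : A) t')⟫_ℂ =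
      ⟪R.V (dd Φ c (g : A) t' * ((t' * t'' * (g⁻¹ * x) : unitary A) : A)),
        R.V (dd Φ c (g' : A) t' * ((t' * t'' * (g'⁻¹ * x) : unitary A) : A))⟫_ℂ := by
    have h := inner_mul_right' R (star ((t' * t'' * (g'⁻¹ * x) : unitary A) : A))
      (dd Φ c (g : A) t' * ((t' * t'' * (g⁻¹ * x) : unitary A) : A)) (dd Φ c (g' : A) t')
    rw [star_star] at h
    rw [← h]
    have e0 : dd Φ c (g : A) t' * ((t' : A) * ((t'' : A) * (star (g : A) * (g' : A))
            * star (t'' : A)) * star (t' : A)) =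
        dd Φ c (g : A) t' * ((t' * t'' * (g⁻¹ * x) : unitary A) : A) *
          star ((t' * t'' * (g'⁻¹ * x) : unitary A) : A) := by
      simp only [Submonoid.coe_mul, star_mul, coe_inv_u, mul_assoc, star_star,
        mul_star_cancel_u]
    rw [e0]
  rw [e1]
  unfold vv
  set u : unitary A := t' * t'' * (g⁻¹ * x)
  set u' : unitary A := t' * t'' * (g'⁻¹ * x)
  set D := dd Φ c (g : A) (t' * t'')
  set D' := dd Φ c (g' : A) (t' * t'')
  set D0 := dd Φ c (g : A) t'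
  set D0' := dd Φ c (g' : A) t'
  have e2 : ⟪R.V (D * (u : A)), R.V (D' * (u' : A))⟫_ℂ =
      ⟪R.V (D0 * (u : A)), R.V (D0' * (u' : A))⟫_ℂ +
      (⟪R.V ((D - D0) * (u : A)), R.V (D' * (u' : A))⟫_ℂ +
        ⟪R.V (D0 * (u : A)), R.V ((D' - D0') * (u' : A))⟫_ℂ) := by
    rw [sub_mul, sub_mul, map_sub, map_sub, inner_sub_left, inner_sub_right]
    ring
  rw [e2, Complex.add_re, Complex.add_re]
  have hD' : ‖R.V D'‖ ≤ 2 * C * ‖R.V 1‖ := norm_V_dd_le hΦ hC hc _ _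
  have hD0 : ‖R.V D0‖ ≤ 2 * C * ‖R.V 1‖ := norm_V_dd_le hΦ hC hc _ _
  have h1 : (⟪R.V ((D - D0) * (u : A)), R.V (D' * (u' : A))⟫_ℂ).re ≤
      2 * C * ‖R.V 1‖ * ‖R.V (Φ ((g : A) * (t' : A) * (t'' : A)) * star (t'' : A)
        - Φ ((g : A) * (t' : A)))‖ := by
    refine (Complex.re_le_norm _).trans ((norm_inner_le_norm _ _).trans ?_)
    rw [norm_V_mul_u, norm_V_mul_u, key g, mul_comm]
    exact mul_le_mul_of_nonneg_right hD' (norm_nonneg _)
  have h2 : (⟪R.V (D0 * (u : A)), R.V ((D' - D0') * (u' : A))⟫_ℂ).re ≤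
      2 * C * ‖R.V 1‖ * ‖R.V (Φ ((g' : A) * (t' : A) * (t'' : A)) * star (t'' : A)
        - Φ ((g' : A) * (t' : A)))‖ := by
    refine (Complex.re_le_norm _).trans ((norm_inner_le_norm _ _).trans ?_)
    rw [norm_V_mul_u, norm_V_mul_u, key g']
    exact mul_le_mul_of_nonneg_right hD0 (norm_nonneg _)
  linarith only [h2, h1]

/-- the off-diagonal terms at a fixed `t'` -/
lemma off_diag_avg (hΦ : Harm b Φ C) (hC : 0 ≤ C) (hle : ∀ x, ‖R.V x‖ ≤ ‖R'.V x‖) {c : A}
    (hc : ‖c‖ ≤ C) (g g' t' : unitary A) (m : ℕ) :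
    wavg b m (fun t'' => (⟪R.V (dd Φ c (g : A) t' * ((t' : A) *
        ((t'' : A) * (star (g : A) * (g' : A)) * star (t'' : A)) * star (t' : A))),
          R.V (dd Φ c (g' : A) t')⟫_ℂ).re)
      ≤ 4 * C ^ 2 * ‖R.V 1‖ * ‖R'.V (cavg b m (star (g : A) * (g' : A)))‖ := by
  have h1 : wavg b m (fun t'' => (⟪R.V (dd Φ c (g : A) t' * ((t' : A) *
        ((t'' : A) * (star (g : A) * (g' : A)) * star (t'' : A)) * star (t' : A))),
          R.V (dd Φ c (g' : A) t')⟫_ℂ).re) =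
      (⟪R.V (dd Φ c (g : A) t' * ((t' : A) *
        (cavg b m (star (g : A) * (g' : A))) * star (t' : A))),
          R.V (dd Φ c (g' : A) t')⟫_ℂ).re := by
    unfold cavg
    rw [wavg_map' b m (fun y : A => (⟪R.V (dd Φ c (g : A) t' * ((t' : A) * y * star (t' : A))),
          R.V (dd Φ c (g' : A) t')⟫_ℂ).re)]
    · intro x y
      rw [mul_add, add_mul, mul_add, map_add, inner_add_left, Complex.add_re]
    · intro r x
      rw [mul_smul_comm, smul_mul_assoc, mul_smul_comm, ← algebraMap_smul ℂ r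
        (dd Φ c (g : A) t' * ((t' : A) * x * star (t' : A))), map_smul, inner_smul_left]
      simp
  rw [h1]
  refine (Complex.re_le_norm _).trans ((norm_inner_le_norm _ _).trans ?_)
  have h2 := norm_V_dd_le (R := R) hΦ hC hc g' t'
  have h3 : ‖R.V (dd Φ c (g : A) t' * ((t' : A) *
        (cavg b m (star (g : A) * (g' : A))) * star (t' : A)))‖ ≤
      2 * C * ‖R'.V (cavg b m (star (g : A) * (g' : A)))‖ := by
    refine (R.norm_mul_le _ _).trans ?_
    have h4 : ‖R.V ((t' : A) * (cavg b m (star (g : A) * (g' : A))) * star (t' : A))‖ =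
        ‖R.V (cavg b m (star (g : A) * (g' : A)))‖ := by
      rw [← coe_inv_u t', norm_V_mul_u, norm_V_u_mul]
    rw [h4]
    exact mul_le_mul (norm_dd_le hΦ hC hc g t') (hle _) (norm_nonneg _) (by (clear * - hC; positivity))
  calc _ ≤ (2 * C * ‖R'.V (cavg b m (star (g : A) * (g' : A)))‖) * (2 * C * ‖R.V 1‖) :=
        mul_le_mul h3 h2 (norm_nonneg _) (by (clear * - hC; positivity))
    _ = _ := by ring

/-- the off-diagonal terms -/
lemma off_diag (hΦ : Harm b Φ C) (hC : 0 ≤ C) (hE : LimSp R b Φ J i0) (he : IsEE R' b ee)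
    (hle : ∀ x, ‖R.V x‖ ≤ ‖R'.V x‖) {c : A} (hc : ‖c‖ ≤ C) (g g' x : unitary A)
    {η : ℝ} (hη : 0 < η) :
    ∀ᶠ l in atTop, wavg b l (fun t => (⟪R.V (vv Φ c g x t), R.V (vv Φ c g' x t)⟫_ℂ).re)
      ≤ 4 * C ^ 2 * ‖R.V 1‖ * ‖ee (star (g : A) * (g' : A))‖ + η := by
  have hv := norm_nonneg (R.V 1)
  -- choose m
  obtain ⟨m, hm⟩ : ∃ m, 4 * C ^ 2 * ‖R.V 1‖ * ‖R'.V (cavg b m (star (g : A) * (g' : A)))‖ ≤
      4 * C ^ 2 * ‖R.V 1‖ * ‖ee (star (g : A) * (g' : A))‖ + η / 2 := by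
    have h := (he.lim_norm (star (g : A) * (g' : A))).const_mul (4 * C ^ 2 * ‖R.V 1‖)
    have h2 := h.eventually (ge_mem_nhds (show 4 * C ^ 2 * ‖R.V 1‖ *
      ‖ee (star (g : A) * (g' : A))‖ < 4 * C ^ 2 * ‖R.V 1‖ *
      ‖ee (star (g : A) * (g' : A))‖ + η / 2 by linarith only [hη]))
    exact h2.exists
  -- energies
  have hen : ∀ y : A, Tendsto (fun l => energy R b Φ (l + m) y - energy R b Φ l y) atTop
      (𝓝 0) := by
    intro y
    have e1 := hE.lim y
    have e2 := (tendsto_add_atTop_iff_nat m).2 e1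
    have := e2.sub e1
    rwa [sub_self] at this
  have hsq : ∀ y : A, Tendsto (fun l => √(energy R b Φ (l + m) y - energy R b Φ l y)) atTop
      (𝓝 0) := by
    intro y
    have := (hen y).sqrt
    rwa [Real.sqrt_zero] at this
  have ht : Tendsto (fun l => 2 * C * ‖R.V 1‖ *
      (√(energy R b Φ (l + m) (g : A) - energy R b Φ l (g : A)) +
        √(energy R b Φ (l + m) (g' : A) - energy R b Φ l (g' : A)))) atTop (𝓝 0) := by
    have := ((hsq (g : A)).add (hsq (g' : A))).const_mul (2 * C * ‖R.V 1‖)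
    simpa using this
  have hev := ht.eventually (ge_mem_nhds (show (0 : ℝ) < η / 2 by linarith only [hη]))
  obtain ⟨N, hN⟩ := eventually_atTop.1 hev
  filter_upwards [eventually_ge_atTop (N + m)] with l hl
  obtain ⟨k, rfl⟩ : ∃ k, l = k + m := ⟨l - m, by omega⟩
  have hk : N ≤ k := by omega
  have h1 := hN k hk
  have hsqrt : ∀ y : A, wavg b k (fun t' => wavg b m (fun t'' =>
      ‖R.V (Φ (y * (t' : A) * (t'' : A)) * star (t'' : A) - Φ (y * (t' : A)))‖)) ≤
      √(energy R b Φ (k + m) y - energy R b Φ k y) := by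
    intro y
    refine Real.le_sqrt_of_sq_le ?_
    rw [← energy_diff hΦ]
    refine (sq_wavg_le b k _).trans (wavg_mono b k fun t' => ?_)
    exact sq_wavg_le b m _
  rw [wavg_comp]
  have h2 := wavg_mono b k (fun t' => wavg_mono b m (fun t'' =>
    off_diag_pt (R := R) hΦ hC hc g g' x t' t''))
  refine h2.trans ?_
  simp only [wavg_add, wavg_mul_left]
  have h3 : wavg b k (fun t' => wavg b m (fun t'' => (⟪R.V (dd Φ c (g : A) t' * ((t' : A) *
        ((t'' : A) * (star (g : A) * (g' : A)) * star (t'' : A)) * star (t' : A))),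
          R.V (dd Φ c (g' : A) t')⟫_ℂ).re)) ≤
      4 * C ^ 2 * ‖R.V 1‖ * ‖R'.V (cavg b m (star (g : A) * (g' : A)))‖ := by
    refine (wavg_mono b k (fun t' => off_diag_avg (R := R) (R' := R') hΦ hC hle hc
      g g' t' m)).trans ?_
    rw [wavg_const]
  have h4 := hsqrt (g : A)
  have h5 := hsqrt (g' : A)
  have h6 : 2 * C * ‖R.V 1‖ * (wavg b k (fun t' => wavg b m (fun t'' =>
      ‖R.V (Φ ((g : A) * (t' : A) * (t'' : A)) * star (t'' : A) - Φ ((g : A) * (t' : A)))‖)) +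
      wavg b k (fun t' => wavg b m (fun t'' =>
      ‖R.V (Φ ((g' : A) * (t' : A) * (t'' : A)) * star (t'' : A) - Φ ((g' : A) * (t' : A)))‖)))
      ≤ 2 * C * ‖R.V 1‖ *
      (√(energy R b Φ (k + m) (g : A) - energy R b Φ k (g : A)) +
        √(energy R b Φ (k + m) (g' : A) - energy R b Φ k (g' : A))) :=
    mul_le_mul_of_nonneg_left (add_le_add h4 h5) (by (clear * - hC; (clear * - hC; positivity)))
  linarith only [h6, h3, h1, hm]

/-- the main part without the defect -/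
lemma main_part (hΦ : Harm b Φ C) (hC : 0 ≤ C) (hE : LimSp R b Φ J i0) (he : IsEE R' b ee)
    (hle : ∀ x, ‖R.V x‖ ≤ ‖R'.V x‖) {c : A} (hc : ‖c‖ ≤ C) (G : ℕ → unitary A) (x : unitary A)
    (n : ℕ) {η : ℝ} (hη : 0 < η) :
    ∀ᶠ l in atTop, wavg b l (fun t => ‖∑ i ∈ Finset.range n, R.V (vv Φ c (G i) x t)‖ ^ 2)
      ≤ ∑ i ∈ Finset.range n, ‖psi R J i0 c (G i : A)‖ ^ 2
        + 8 * C ^ 2 * ‖R.V 1‖ * ∑ i' ∈ Finset.range n, ∑ i ∈ Finset.range i',
            ‖ee (star (G i : A) * (G i' : A))‖ + η := by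
  set δ : ℝ := η / (2 * (n : ℝ) ^ 2 + 1) with hδ
  have hδ0 : 0 < δ := by (clear * - n η hη; positivity)
  have hev : ∀ᶠ l in atTop, ∀ i' ∈ Finset.range n, ∀ i ∈ Finset.range i',
      wavg b l (fun t => (⟪R.V (vv Φ c (G i) x t), R.V (vv Φ c (G i') x t)⟫_ℂ).re)
      ≤ 4 * C ^ 2 * ‖R.V 1‖ * ‖ee (star (G i : A) * (G i' : A))‖ + δ := by
    rw [eventually_all_finset]
    intro i' _
    rw [eventually_all_finset]
    intro i _
    exact off_diag hΦ hC hE he hle hc (G i) (G i') x hδ0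
  filter_upwards [hev] with l hl
  have h1 : wavg b l (fun t => ‖∑ i ∈ Finset.range n, R.V (vv Φ c (G i) x t)‖ ^ 2) =
      ∑ i ∈ Finset.range n, wavg b l (fun t => ‖R.V (vv Φ c (G i) x t)‖ ^ 2) +
      2 * ∑ i' ∈ Finset.range n, ∑ i ∈ Finset.range i',
        wavg b l (fun t => (⟪R.V (vv Φ c (G i) x t), R.V (vv Φ c (G i') x t)⟫_ℂ).re) := by
    have e1 : (fun t => ‖∑ i ∈ Finset.range n, R.V (vv Φ c (G i) x t)‖ ^ 2) = fun t =>
        ∑ i ∈ Finset.range n, ‖R.V (vv Φ c (G i) x t)‖ ^ 2 +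
        2 * ∑ i' ∈ Finset.range n, ∑ i ∈ Finset.range i',
          (⟪R.V (vv Φ c (G i) x t), R.V (vv Φ c (G i') x t)⟫_ℂ).re := by
      funext t
      exact norm_sum_sq_range _ n
    rw [e1, wavg_add, wavg_mul_left, wavg_sum, wavg_sum]
    congr 2
    exact Finset.sum_congr rfl fun i' _ => wavg_sum b l _ _
  rw [h1]
  have h2 : ∑ i ∈ Finset.range n, wavg b l (fun t => ‖R.V (vv Φ c (G i) x t)‖ ^ 2) ≤
      ∑ i ∈ Finset.range n, ‖psi R J i0 c (G i : A)‖ ^ 2 := by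
    refine Finset.sum_le_sum fun i _ => ?_
    simp only [norm_V_vv]
    exact hE.wavg_le_psi hΦ c (G i : A) l
  have h3 : ∑ i' ∈ Finset.range n, ∑ i ∈ Finset.range i',
        wavg b l (fun t => (⟪R.V (vv Φ c (G i) x t), R.V (vv Φ c (G i') x t)⟫_ℂ).re) ≤
      ∑ i' ∈ Finset.range n, ∑ i ∈ Finset.range i',
        (4 * C ^ 2 * ‖R.V 1‖ * ‖ee (star (G i : A) * (G i' : A))‖ + δ) :=
    Finset.sum_le_sum fun i' hi' => Finset.sum_le_sum fun i hi => hl i' hi' i hi
  have h4 : ∑ i' ∈ Finset.range n, ∑ i ∈ Finset.range i',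
        (4 * C ^ 2 * ‖R.V 1‖ * ‖ee (star (G i : A) * (G i' : A))‖ + δ) ≤
      4 * C ^ 2 * ‖R.V 1‖ * ∑ i' ∈ Finset.range n, ∑ i ∈ Finset.range i',
        ‖ee (star (G i : A) * (G i' : A))‖ + n * (n * δ) := by
    simp only [Finset.sum_add_distrib, ← Finset.mul_sum]
    refine add_le_add le_rfl ?_
    have h5 : ∀ i' ∈ Finset.range n, ∑ _i ∈ Finset.range i', δ ≤ n * δ := by
      intro i' hi'
      rw [Finset.sum_const, Finset.card_range, nsmul_eq_mul]
      have : (i' : ℝ) ≤ n := by exact_mod_cast (Finset.mem_range.1 hi').le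
      exact mul_le_mul_of_nonneg_right this hδ0.le
    refine (Finset.sum_le_sum h5).trans ?_
    rw [Finset.sum_const, Finset.card_range, nsmul_eq_mul]
  have h5 : 2 * ((n : ℝ) * (n * δ)) ≤ η := by
    have e : (2 * (n : ℝ) ^ 2 + 1) * δ = η := by rw [hδ]; (clear * - hη; field_simp)
    linarith only [hδ0, e]
  linarith only [h5, h4, h3, h2]

/-- Lemma 4, main part: the first order terms -/
theorem stepF_main (hΦ : Harm b Φ C) (hC : 0 ≤ C) (hE : LimSp R b Φ J i0) (he : IsEE R' b ee)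
    (hle : ∀ x, ‖R.V x‖ ≤ ‖R'.V x‖) {c : A} (hc : ‖c‖ ≤ C) (G : ℕ → unitary A) (x : unitary A)
    (n : ℕ) (hG : ∀ i, (G i : A) ∈ clAlg b) (hx : (x : A) ∈ clAlg b) {η : ℝ} (hη : 0 < η) :
    ∀ᶠ l in atTop, wavg b l (fun t => ‖psi R J i0 c (sumT G n t * (x : A))‖ ^ 2)
      ≤ ∑ i ∈ Finset.range n, ‖psi R J i0 c (G i : A)‖ ^ 2
        + 8 * C ^ 2 * ‖R.V 1‖ * ∑ i' ∈ Finset.range n, ∑ i ∈ Finset.range i',
            ‖ee (star (G i : A) * (G i' : A))‖ + η := by
  have hv := norm_nonneg (R.V 1)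
  -- the uniform bound of the main part
  set B : ℝ := (n * (2 * C * ‖R.V 1‖)) ^ 2 with hB
  have hB0 : 0 ≤ B := sq_nonneg _
  set ρ : ℝ := η / (3 * (B + 1)) with hρ
  have hρ0 : 0 < ρ := by (clear * - A K R C n η hη B; positivity)
  -- decomposition
  have hdec : ∀ t : unitary A, psi R J i0 c (sumT G n t * (x : A)) =
      i0 (∑ i ∈ Finset.range n, R.V (vv Φ c (G i) x t)) +
      ∑ i ∈ Finset.range n, dfc R Φ J i0 (G i : A) ((G i)⁻¹ * x : unitary A) t := by
    intro t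
    unfold sumT
    rw [Finset.sum_mul, map_sum, map_sum, ← Finset.sum_add_distrib]
    refine Finset.sum_congr rfl fun i _ => ?_
    rw [psi_apply]
    unfold dfc vv dd
    have e1 : (G i : A) * (t : A) * star (G i : A) * (x : A) =
        (G i : A) * (t : A) * (((G i)⁻¹ * x : unitary A) : A) := by
      simp only [Submonoid.coe_mul, coe_inv_u, mul_assoc]
    rw [e1]
    have e2 : (Φ ((G i : A) * (t : A)) * star (t : A) - c * (G i : A)) *
        ((t * ((G i)⁻¹ * x) : unitary A) : A) =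
        Φ ((G i : A) * (t : A)) * (((G i)⁻¹ * x : unitary A) : A) -
        c * ((G i : A) * (t : A) * (((G i)⁻¹ * x : unitary A) : A)) := by
      rw [sub_mul, Submonoid.coe_mul]
      congr 1
      · rw [mul_assoc, star_mul_cancel_u]
      · simp only [mul_assoc]
    rw [e2, map_sub, map_sub]
    abel
  have hpt : ∀ t : unitary A, ‖psi R J i0 c (sumT G n t * (x : A))‖ ^ 2 ≤
      (1 + ρ) * ‖∑ i ∈ Finset.range n, R.V (vv Φ c (G i) x t)‖ ^ 2 +
      (1 + 1 / ρ) * ‖∑ i ∈ Finset.range n,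
        dfc R Φ J i0 (G i : A) ((G i)⁻¹ * x : unitary A) t‖ ^ 2 := by
    intro t
    rw [hdec t]
    set y := ∑ i ∈ Finset.range n, R.V (vv Φ c (G i) x t)
    set z := ∑ i ∈ Finset.range n, dfc R Φ J i0 (G i : A) ((G i)⁻¹ * x : unitary A) t
    have h1 : ‖i0 y + z‖ ≤ ‖y‖ + ‖z‖ := by
      refine (norm_add_le _ _).trans ?_
      rw [hE.norm_i0]
    have h2 : ‖i0 y + z‖ ^ 2 ≤ (‖y‖ + ‖z‖) ^ 2 := pow_le_pow_left₀ (norm_nonneg _) h1 2
    have h3 : 2 * ‖y‖ * ‖z‖ ≤ ρ * ‖y‖ ^ 2 + 1 / ρ * ‖z‖ ^ 2 := by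
      have h4 : 0 ≤ (ρ * ‖y‖ - ‖z‖) ^ 2 / ρ := by (clear * - A R C n η hη B; positivity)
      have h5 : (ρ * ‖y‖ - ‖z‖) ^ 2 / ρ = ρ * ‖y‖ ^ 2 + 1 / ρ * ‖z‖ ^ 2 - 2 * ‖y‖ * ‖z‖ := by
        field_simp
        ring
      linarith only [h4, h5]
    linarith only [h2, h3]
  -- the defect tends to zero
  have hdz : Tendsto (fun l => wavg b l (fun t => ‖∑ i ∈ Finset.range n,
        dfc R Φ J i0 (G i : A) ((G i)⁻¹ * x : unitary A) t‖ ^ 2)) atTop (𝓝 0) := by
    have h1 : Tendsto (fun l => (n : ℝ) * ∑ i ∈ Finset.range n, wavg b l (fun t =>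
        ‖dfc R Φ J i0 (G i : A) ((G i)⁻¹ * x : unitary A) t‖ ^ 2)) atTop (𝓝 0) := by
      have h2 : Tendsto (fun l => ∑ i ∈ Finset.range n, wavg b l (fun t =>
        ‖dfc R Φ J i0 (G i : A) ((G i)⁻¹ * x : unitary A) t‖ ^ 2)) atTop
          (𝓝 (∑ i ∈ Finset.range n, (0 : ℝ))) := by
        refine tendsto_finsetSum _ fun i _ => ?_
        refine near_const hΦ hC hE (G i : A) ?_
        rw [Submonoid.coe_mul, coe_inv_u]
        exact mul_mem (star_mem (hG i)) hx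
      have h3 := h2.const_mul (n : ℝ)
      simpa using h3
    refine squeeze_zero (fun l => wavg_nonneg b l fun t => sq_nonneg _) (fun l => ?_) h1
    rw [← wavg_sum, ← wavg_mul_left]
    refine wavg_mono b l fun t => ?_
    have h4 : ‖∑ i ∈ Finset.range n,
        dfc R Φ J i0 (G i : A) ((G i)⁻¹ * x : unitary A) t‖ ^ 2 ≤
        (∑ i ∈ Finset.range n,
        ‖dfc R Φ J i0 (G i : A) ((G i)⁻¹ * x : unitary A) t‖) ^ 2 :=
      pow_le_pow_left₀ (norm_nonneg _) (norm_sum_le _ _) 2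
    have h5 := sq_sum_le_card_mul_sum_sq (s := Finset.range n)
      (f := fun i => ‖dfc R Φ J i0 (G i : A) ((G i)⁻¹ * x : unitary A) t‖)
    rw [Finset.card_range] at h5
    exact h4.trans h5
  have hdz2 := hdz.const_mul (1 + 1 / ρ)
  rw [mul_zero] at hdz2
  have hev1 := hdz2.eventually (ge_mem_nhds (show (0 : ℝ) < η / 3 by linarith only [hη]))
  have hev2 := main_part (R' := R') hΦ hC hE he hle hc G x n (show (0 : ℝ) < η / 3 by linarith only [hη])
  filter_upwards [hev1, hev2] with l h1 h2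
  have h3 := wavg_mono b l hpt
  rw [wavg_add, wavg_mul_left, wavg_mul_left] at h3
  have h4 : wavg b l (fun t => ‖∑ i ∈ Finset.range n, R.V (vv Φ c (G i) x t)‖ ^ 2) ≤ B := by
    refine (wavg_mono b l (F' := fun _ => B) (fun t => ?_)).trans (le_of_eq (wavg_const b l B))
    rw [hB]
    refine pow_le_pow_left₀ (norm_nonneg _) ?_ 2
    refine (norm_sum_le _ _).trans ?_
    have h5 : ∀ i ∈ Finset.range n, ‖R.V (vv Φ c (G i) x t)‖ ≤ 2 * C * ‖R.V 1‖ := by
      intro i _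
      rw [norm_V_vv]
      exact norm_V_dd_le hΦ hC hc _ _
    refine (Finset.sum_le_sum h5).trans ?_
    rw [Finset.sum_const, Finset.card_range, nsmul_eq_mul]
  have h5 : ρ * wavg b l (fun t => ‖∑ i ∈ Finset.range n, R.V (vv Φ c (G i) x t)‖ ^ 2) ≤
      η / 3 := by
    have h6 : ρ * B ≤ η / 3 := by
      have e : ρ * (B + 1) = η / 3 := by rw [hρ]; (clear * - hη hB0; field_simp)
      linarith only [hρ0, e]
    exact (mul_le_mul_of_nonneg_left h4 hρ0.le).trans h6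
  linarith only [B, ρ, l, h1, h2, h3, h5]

/-- Lemma 4, contraction terms -/
theorem stepF_contr (hΦ : Harm b Φ C) (hC : 0 ≤ C) (hE : LimSp R b Φ J i0) (he : IsEE R' b ee)
    (hle : ∀ x, ‖R.V x‖ ≤ ‖R'.V x‖) {ε' C' : ℝ} (hε' : 0 ≤ ε') (hC' : 0 ≤ C')
    (ht : ∀ x, ‖R.V (Φ x)‖ ≤ ε' * ‖x‖ + C' * ‖R'.V x‖) {c : A} (hc : ‖c‖ ≤ C)
    (g g' M : unitary A) {η : ℝ} (hη : 0 < η) :
    ∀ᶠ l in atTop, ‖psi R J i0 c ((g : A) * cavg b l (M : A) * (g' : A))‖
      ≤ ε' + (C' + C) * ‖ee (M : A)‖ + η := by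
  have h1 := ((he.lim_norm (M : A)).const_mul (C' + C)).eventually (ge_mem_nhds
    (show (C' + C) * ‖ee (M : A)‖ < (C' + C) * ‖ee (M : A)‖ + η by linarith only [hη]))
  filter_upwards [h1] with l hl
  rw [psi_apply]
  have h2 : ‖(g : A) * cavg b l (M : A) * (g' : A)‖ ≤ 1 := by
    have e1 : ‖cavg b l (M : A)‖ ≤ 1 := (norm_cavg_le l _).trans (norm_unitary_le M)
    have e2 : ‖(g : A) * cavg b l (M : A)‖ ≤ 1 := (norm_mul_le _ _).trans
      (mul_le_one₀ (norm_unitary_le g) (norm_nonneg _) e1)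
    exact (norm_mul_le _ _).trans (mul_le_one₀ e2 (norm_nonneg _) (norm_unitary_le g'))
  have h3 : ‖R'.V ((g : A) * cavg b l (M : A) * (g' : A))‖ = ‖R'.V (cavg b l (M : A))‖ := by
    rw [norm_V_mul_u, norm_V_u_mul]
  have h4 := hE.J_tame R' hε' hC' ht ((g : A) * cavg b l (M : A) * (g' : A))
  rw [h3] at h4
  have h5 : ‖i0 (R.V (c * ((g : A) * cavg b l (M : A) * (g' : A))))‖ ≤
      C * ‖R'.V (cavg b l (M : A))‖ := by
    rw [hE.norm_i0, ← h3]
    refine (R.norm_mul_le _ _).trans ?_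
    exact mul_le_mul hc (hle _) (norm_nonneg _) hC
  have h6 : ε' * ‖(g : A) * cavg b l (M : A) * (g' : A)‖ ≤ ε' :=
    mul_le_of_le_one_right hε' h2
  refine (norm_sub_le _ _).trans ?_
  linarith only [hl, h4, h5, h6]

/-- the `F`-step -/
theorem stepF {n : ℕ} {Kn : ℝ} (hK : EulerBd A n Kn) (hΦ : Harm b Φ C) (hC : 0 ≤ C)
    (hE : LimSp R b Φ J i0) (he : IsEE R' b ee)
    (hle : ∀ x, ‖R.V x‖ ≤ ‖R'.V x‖) {ε' C' : ℝ} (hε' : 0 ≤ ε') (hC' : 0 ≤ C')
    (ht : ∀ x, ‖R.V (Φ x)‖ ≤ ε' * ‖x‖ + C' * ‖R'.V x‖) {c : A} (hc : ‖c‖ ≤ C)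
    (G : ℕ → unitary A) (x : unitary A) (hG : ∀ i, (G i : A) ∈ clAlg b)
    (hx : (x : A) ∈ clAlg b) {α : ℝ} (h0 : 0 ≤ α) (h1 : α ≤ 1 / 2) {η : ℝ} (hη : 0 < η) :
    ∀ᶠ l in atTop, wavg b l (fun t => avg (fun m : Fin 4 =>
        ‖psi R J i0 c ((pr G (cayU α m t) n * x : unitary A) : A)‖ ^ 2))
      ≤ (1 - 2 * n * α ^ 2) * ‖psi R J i0 c (x : A)‖ ^ 2
        + 2 * α ^ 2 * ∑ i ∈ Finset.range n, ‖psi R J i0 c (G i : A)‖ ^ 2
        + α ^ 2 * (8 * C * ‖R.V 1‖ * n ^ 2 * ε'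
          + (24 * C ^ 2 * ‖R.V 1‖ + 8 * C * ‖R.V 1‖ * C') *
            ∑ i' ∈ Finset.range n, ∑ i ∈ Finset.range i', ‖ee (star (G i : A) * (G i' : A))‖)
        + Kn * (2 * C * ‖R.V 1‖) ^ 2 * α ^ 3 + η := by
  have hv := norm_nonneg (R.V 1)
  set δ : ℝ := η / (4 * C * ‖R.V 1‖ * (n : ℝ) ^ 2 + 1) with hδ
  have hδ0 : 0 < δ := by (clear * - A K R C n hC η hη; positivity)
  have hψ : ∀ z, ‖psi R J i0 c z‖ ≤ 2 * C * ‖R.V 1‖ * ‖z‖ := by
    intro z
    refine (hE.psi_bound hΦ hC c z).trans ?_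
    have : (C + ‖c‖) * ‖R.V 1‖ ≤ 2 * C * ‖R.V 1‖ :=
      mul_le_mul_of_nonneg_right (by linarith only [hc]) hv
    exact mul_le_mul_of_nonneg_right this (norm_nonneg _)
  have hev1 := stepF_main (R' := R') hΦ hC hE he hle hc G x n hG hx hη
  have hev2 : ∀ᶠ l in atTop, ∀ i' ∈ Finset.range n, ∀ i ∈ Finset.range i',
      ‖psi R J i0 c ((G i : A) * cavg b l (star (G i : A) * (G i' : A)) *
        (star (G i' : A) * x))‖ ≤ ε' + (C' + C) * ‖ee (star (G i : A) * (G i' : A))‖ + δ := by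
    rw [eventually_all_finset]
    intro i' _
    rw [eventually_all_finset]
    intro i _
    exact stepF_contr hΦ hC hE he hle hε' hC' ht hc (G i) ((G i')⁻¹ * x) ((G i)⁻¹ * G i') hδ0
  filter_upwards [hev1, hev2] with l h2 h3
  refine (euler_walk hK hΦ.symm (psi R J i0 c) hψ G x h0 h1 l).trans ?_
  set S := ∑ i' ∈ Finset.range n, ∑ i ∈ Finset.range i', ‖ee (star (G i : A) * (G i' : A))‖
    with hS
  have h4 : ∑ i' ∈ Finset.range n, ∑ i ∈ Finset.range i',
      ‖psi R J i0 c ((G i : A) * cavg b l (star (G i : A) * (G i' : A)) *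
        (star (G i' : A) * x))‖ ≤ (n : ℝ) ^ 2 * (ε' + δ) + (C' + C) * S := by
    have h5 : ∑ i' ∈ Finset.range n, ∑ i ∈ Finset.range i',
      ‖psi R J i0 c ((G i : A) * cavg b l (star (G i : A) * (G i' : A)) *
        (star (G i' : A) * x))‖ ≤ ∑ i' ∈ Finset.range n, ∑ i ∈ Finset.range i',
        ((ε' + δ) + (C' + C) * ‖ee (star (G i : A) * (G i' : A))‖) :=
      Finset.sum_le_sum fun i' hi' => Finset.sum_le_sum fun i hi =>
        (h3 i' hi' i hi).trans (le_of_eq (by ring))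
    refine h5.trans ?_
    simp only [Finset.sum_add_distrib, ← Finset.mul_sum]
    rw [← hS]
    refine add_le_add ?_ le_rfl
    have h6 : ∀ i' ∈ Finset.range n, ∑ _i ∈ Finset.range i', ε' +
        ∑ _i ∈ Finset.range i', δ ≤ n * (ε' + δ) := by
      intro i' hi'
      rw [Finset.sum_const, Finset.sum_const, Finset.card_range, nsmul_eq_mul, nsmul_eq_mul]
      have : (i' : ℝ) ≤ n := by exact_mod_cast (Finset.mem_range.1 hi').le
      rw [← mul_add]
      exact mul_le_mul_of_nonneg_right this (by (clear * - A K R C n hC hε' η hη; positivity))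
    have h7 := Finset.sum_le_sum h6
    rw [Finset.sum_add_distrib, Finset.sum_const, Finset.card_range, nsmul_eq_mul] at h7
    linarith only [h7]
  have hS0 : 0 ≤ S := Finset.sum_nonneg fun _ _ => Finset.sum_nonneg fun _ _ => norm_nonneg _
  have hψx : ‖psi R J i0 c (x : A)‖ ≤ 2 * C * ‖R.V 1‖ := by
    refine (hψ _).trans ?_
    exact mul_le_of_le_one_right (by (clear * - hC; positivity)) (norm_unitary_le x)
  have h5 : 4 * α ^ 2 * ‖psi R J i0 c (x : A)‖ * ∑ i' ∈ Finset.range n, ∑ i ∈ Finset.range i',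
      ‖psi R J i0 c ((G i : A) * cavg b l (star (G i : A) * (G i' : A)) *
        (star (G i' : A) * x))‖ ≤ 4 * α ^ 2 * (2 * C * ‖R.V 1‖) *
        ((n : ℝ) ^ 2 * (ε' + δ) + (C' + C) * S) := by
    refine mul_le_mul ?_ h4 (Finset.sum_nonneg fun _ _ => Finset.sum_nonneg fun _ _ =>
      norm_nonneg _) (by (clear * - hC; positivity))
    exact mul_le_mul_of_nonneg_left hψx (by (clear * -; positivity))
  have h6 := mul_le_mul_of_nonneg_left h2 (show 0 ≤ 2 * α ^ 2 by (clear * -; positivity))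
  have hα2 : α ^ 2 ≤ 1 / 4 := Fast.sq_le_quarter h0 h1
  have h7 : 4 * α ^ 2 * (2 * C * ‖R.V 1‖) * ((n : ℝ) ^ 2 * δ) ≤ η / 2 := by
    have e : (4 * C * ‖R.V 1‖ * (n : ℝ) ^ 2 + 1) * δ = η := by rw [hδ]; (clear * - hC hη; field_simp)
    have e2 : 0 ≤ C * ‖R.V 1‖ * (n : ℝ) ^ 2 * δ := by (clear * - hC η hη; (clear * - hC hη; positivity))
    linarith only [hδ0, e, mul_le_mul_of_nonneg_left hα2 e2]
  have h8 : 2 * α ^ 2 * η ≤ η / 2 := by linarith only [mul_le_mul_of_nonneg_right hα2 hη.le]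
  have h9 : 0 ≤ 2 * α ^ 2 * η := by (clear * - hη; positivity)
  linarith only [h8, h7, h6, h5]

end Vale.Agent.P082.KR
end

section

open scoped Topology InnerProductSpace ComplexConjugate

namespace Vale.Agent.P082.KR

open Vale.Agent.P082 Filter

/-- monotonicity of the walk average, tested on products of steps only -/
lemma wavg_mono_closure {G ι : Type*} [Group G] [Fintype ι] (b : ι → G) (n : ℕ) {F F' : G → ℝ}
    (h : ∀ t ∈ Submonoid.closure (Set.range b), F t ≤ F' t) : wavg b n F ≤ wavg b n F' := by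
  induction n generalizing F F' with
  | zero => exact h 1 (Submonoid.one_mem _)
  | succ n ih =>
    rw [wavg_succ, wavg_succ]
    refine avg_mono (fun i => ih (fun t ht => h _ ?_))
    exact Submonoid.mul_mem _ ht (Submonoid.subset_closure ⟨i, rfl⟩)

variable {A : Type*} [NormedRing A] [StarRing A] [CStarRing A] [NormedAlgebra ℂ A] [StarModule ℂ A]
  {K : Type*} [NormedAddCommGroup K] [InnerProductSpace ℂ K] {R : TraceRep A K}
  {S Q : Type*} [Fintype S] [Fintype Q] [Nonempty S] [Nonempty Q]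
  {s : S → unitary A} {w : Q → unitary A} {h : unitary A} {N : ℕ} {ee : A →ₗ[ℂ] K}

lemma closure_mem_clAlg {ι : Type*} (b : ι → unitary A) {t : unitary A}
    (ht : t ∈ Submonoid.closure (Set.range b)) : (t : A) ∈ clAlg b := by
  induction ht using Submonoid.closure_induction with
  | mem x hx =>
    obtain ⟨i, rfl⟩ := hx
    exact step_mem b i
  | one => exact one_mem (clAlg b)
  | mul x y _ _ hx hy =>
    have := mul_mem hx hy
    simpa using this

/-- invariance under the Weyl unitaries -/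
lemma ee_conj_w (hs : ∃ o, s o = 1) (hw1 : ∃ o, w o = 1)
    (he : IsEE R (dbl (stepU s w)) ee) (k : Q) (x : A) :
    ee (star (w k : A) * x * (w k : A)) = ee x := by
  obtain ⟨o, ho⟩ := hs
  obtain ⟨o1, ho1⟩ := hw1
  have h1 := he.conj_step ((o, o1), (o, k)) x
  have h2 : dbl (stepU s w) ((o, o1), (o, k)) = (w k)⁻¹ := by
    simp [dbl, stepU, ho, ho1]
  rw [h2, coe_inv_u, star_star] at h1
  exact h1

/-- the average of the conjugates by the Weyl unitaries -/
noncomputable def EW (w : Q → unitary A) (x : A) : A :=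
  avg (fun k => star (w k : A) * x * (w k : A))

omit [StarRing A] [CStarRing A] [StarModule ℂ A] in
lemma avg_linear_map {ι : Type*} [Fintype ι] (L : A →ₗ[ℂ] K) (F : ι → A) :
    L (avg F) = avg (fun i => L (F i)) := by
  refine avg_map' L (fun x y => map_add L x y) (fun c x => ?_) F
  have h1 : c • x = (c : ℂ) • x := (Complex.coe_smul c x).symm
  have h2 : c • L x = (c : ℂ) • L x := (Complex.coe_smul c (L x)).symm
  rw [h1, h2, map_smul]

lemma ee_EW (hs : ∃ o, s o = 1) (hw1 : ∃ o, w o = 1)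
    (he : IsEE R (dbl (stepU s w)) ee) (x : A) : ee (EW w x) = ee x := by
  unfold EW
  rw [avg_linear_map]
  simp_rw [ee_conj_w hs hw1 he]
  exact avg_const _

omit [CStarRing A] [StarModule ℂ A] [Nonempty Q] in
lemma inner_conj_sum [DecidableEq Q] (hw : WeylData w h N) (y : A) (k k'' : Q) :
    ∑ k', ⟪R.V (star (w k : A) * ((w k' : A) * y) * (w k : A)),
      R.V (star (w k'' : A) * ((w k' : A) * y) * (w k'' : A))⟫_ℂ
      = if k = k'' then (Fintype.card Q : ℂ) * ((‖R.V y‖ ^ 2 : ℝ) : ℂ) else 0 := by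
  have e1 : ∀ k', ⟪R.V (star (w k : A) * ((w k' : A) * y) * (w k : A)),
      R.V (star (w k'' : A) * ((w k' : A) * y) * (w k'' : A))⟫_ℂ
      = ⟪R.V (y * (w k : A)), R.V ((star (w k' : A) * ((w k : A) * star (w k'' : A)) * (w k' : A))
        * (y * (w k'' : A)))⟫_ℂ := by
    intro k'
    have e2 : star (w k : A) * ((w k' : A) * y) * (w k : A)
        = star (w k : A) * ((w k' : A) * (y * (w k : A))) := by
      simp only [mul_assoc]
    rw [e2, inner_mul_left', star_star, inner_mul_left']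
    congr 2
    simp only [mul_assoc]
  simp_rw [e1]
  rw [← inner_sum, ← map_sum, ← Finset.sum_mul]
  by_cases hk : k = k''
  · subst hk
    rw [if_pos rfl]
    have e3 : ∀ k', star (w k' : A) * ((w k : A) * star (w k : A)) * (w k' : A) = 1 := by
      intro k'
      rw [mul_star_self_u, mul_one, star_mul_self_u]
    simp_rw [e3]
    rw [Finset.sum_const, Finset.card_univ, nsmul_one]
    have e4 : ((Fintype.card Q : A)) * (y * (w k : A)) = (Fintype.card Q : ℂ) • (y * (w k : A)) := by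
      rw [Nat.cast_smul_eq_nsmul, nsmul_eq_mul]
    rw [e4, map_smul, inner_smul_right, inner_self_eq_norm_sq_to_K]
    congr 1
    rw [norm_V_mul_u]
    simp
  · rw [if_neg hk, hw.orth k'' k (fun h => hk h.symm), zero_mul, map_zero, inner_zero_right]

theorem bessel_one (hw : WeylData w h N) (hs : ∃ o, s o = 1) (hw1 : ∃ o, w o = 1)
    (he : IsEE R (dbl (stepU s w)) ee) (y : A) :
    avg (fun k => ‖ee ((w k : A) * y)‖ ^ 2) ≤ ‖R.V y‖ ^ 2 / Fintype.card Q := by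
  classical
  have hq : (0 : ℝ) < Fintype.card Q := by exact_mod_cast Fintype.card_pos
  have h1 : avg (fun k => ‖ee ((w k : A) * y)‖ ^ 2)
      ≤ avg (fun k => ‖R.V (EW w ((w k : A) * y))‖ ^ 2) := by
    refine avg_mono fun k => ?_
    have h2 := he.norm_le (EW w ((w k : A) * y))
    rw [ee_EW hs hw1 he] at h2
    exact pow_le_pow_left₀ (norm_nonneg _) h2 2
  refine h1.trans (le_of_eq ?_)
  have h3 : ∀ k', ((‖R.V (EW w ((w k' : A) * y))‖ ^ 2 : ℝ) : ℂ)
      = ((Fintype.card Q : ℂ)⁻¹) ^ 2 * ∑ k, ∑ k'',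
        ⟪R.V (star (w k : A) * ((w k' : A) * y) * (w k : A)),
          R.V (star (w k'' : A) * ((w k' : A) * y) * (w k'' : A))⟫_ℂ := by
    intro k'
    have e1 : R.V (EW w ((w k' : A) * y)) = ((Fintype.card Q : ℂ)⁻¹) •
        ∑ k, R.V (star (w k : A) * ((w k' : A) * y) * (w k : A)) := by
      unfold EW
      rw [avg_linear_map]
      unfold avg
      rw [← Complex.coe_smul]
      push_cast
      rfl
    have e2 : ((‖R.V (EW w ((w k' : A) * y))‖ ^ 2 : ℝ) : ℂ)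
        = ⟪R.V (EW w ((w k' : A) * y)), R.V (EW w ((w k' : A) * y))⟫_ℂ := by
      rw [inner_self_eq_norm_sq_to_K]
      simp
    rw [e2, e1, inner_smul_left, inner_smul_right, sum_inner]
    simp_rw [inner_sum]
    rw [map_inv₀, Complex.conj_natCast]
    ring
  have h4 : ((avg (fun k' => ‖R.V (EW w ((w k' : A) * y))‖ ^ 2) : ℝ) : ℂ)
      = ((‖R.V y‖ ^ 2 / Fintype.card Q : ℝ) : ℂ) := by
    unfold avg
    rw [smul_eq_mul]
    push_cast
    have h5 : ∀ k', ((‖R.V (EW w ((w k' : A) * y))‖ : ℝ) : ℂ) ^ 2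
        = ((Fintype.card Q : ℂ)⁻¹) ^ 2 * ∑ k, ∑ k'',
        ⟪R.V (star (w k : A) * ((w k' : A) * y) * (w k : A)),
          R.V (star (w k'' : A) * ((w k' : A) * y) * (w k'' : A))⟫_ℂ := by
      intro k'
      rw [← h3 k']
      push_cast
      rfl
    simp_rw [h5]
    rw [← Finset.mul_sum, Finset.sum_comm]
    have h6 : ∑ k, ∑ k', ∑ k'', ⟪R.V (star (w k : A) * ((w k' : A) * y) * (w k : A)),
          R.V (star (w k'' : A) * ((w k' : A) * y) * (w k'' : A))⟫_ℂ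
        = ∑ k : Q, (Fintype.card Q : ℂ) * ((‖R.V y‖ ^ 2 : ℝ) : ℂ) := by
      refine Finset.sum_congr rfl fun k _ => ?_
      rw [Finset.sum_comm]
      simp_rw [inner_conj_sum hw y k]
      rw [Finset.sum_ite_eq Finset.univ k]
      simp
    rw [h6, Finset.sum_const, Finset.card_univ, nsmul_eq_mul]
    have hq' : (Fintype.card Q : ℂ) ≠ 0 := by exact_mod_cast hq.ne'
    push_cast
    field_simp
  exact_mod_cast h4

theorem bessel (hw : WeylData w h N) (hs : ∃ o, s o = 1) (hw1 : ∃ o, w o = 1)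
    (he : IsEE R (dbl (stepU s w)) ee) (l : ℕ) (hl : 1 ≤ l) (M : A) :
    wavg (dbl (stepU s w)) l (fun t => ‖ee ((t : A) * M)‖ ^ 2)
      ≤ ‖R.V 1‖ ^ 2 * ‖M‖ ^ 2 / Fintype.card Q := by
  have hq : (0 : ℝ) < Fintype.card Q := by exact_mod_cast Fintype.card_pos
  obtain ⟨l, rfl⟩ : ∃ l', l = l' + 1 := ⟨l - 1, by omega⟩
  rw [wavg_succ, avg_prod]
  rw [avg_prod]
  have e1 : ∀ a : S, avg (fun k : Q => avg (fun j : S × Q => wavg (dbl (stepU s w)) l
      (fun u => ‖ee (((u * dbl (stepU s w) ((a, k), j) : unitary A) : A) * M)‖ ^ 2)))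
      ≤ ‖R.V 1‖ ^ 2 * ‖M‖ ^ 2 / Fintype.card Q := by
    intro a
    rw [avg_comm]
    have e2 : ∀ j : S × Q, avg (fun k : Q => wavg (dbl (stepU s w)) l
        (fun u => ‖ee (((u * dbl (stepU s w) ((a, k), j) : unitary A) : A) * M)‖ ^ 2))
        ≤ ‖R.V 1‖ ^ 2 * ‖M‖ ^ 2 / Fintype.card Q := by
      intro j
      rw [← wavg_avg]
      have e3 : wavg (dbl (stepU s w)) l (fun _ => ‖R.V 1‖ ^ 2 * ‖M‖ ^ 2 / Fintype.card Q)
          = ‖R.V 1‖ ^ 2 * ‖M‖ ^ 2 / Fintype.card Q := wavg_const _ l _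
      rw [← e3]
      refine wavg_mono_closure _ l fun t ht => ?_
      -- the element z
      set z : A := (((s j.1 * w j.2)⁻¹ : unitary A) : A) * M with hz
      have hsa : (s a : A) ∈ clAlg (dbl (stepU s w)) := by
        obtain ⟨o, ho⟩ := hs
        obtain ⟨o1, ho1⟩ := hw1
        have h2 : dbl (stepU s w) ((a, o1), (o, o1)) = s a := by
          simp [dbl, stepU, ho, ho1]
        have h3 := step_mem (dbl (stepU s w)) ((a, o1), (o, o1))
        rwa [h2] at h3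
      have hta : (t : A) * (s a : A) ∈ clAlg (dbl (stepU s w)) :=
        mul_mem (closure_mem_clAlg _ ht) hsa
      have e4 : ∀ k : Q, ee (((t * dbl (stepU s w) ((a, k), j) : unitary A) : A) * M)
          = ee ((w k : A) * (z * ((t : A) * (s a : A)))) := by
        intro k
        have e5 : (((t * dbl (stepU s w) ((a, k), j) : unitary A) : A) * M)
            = ((t : A) * (s a : A)) * ((w k : A) * z) := by
          rw [hz]
          simp only [dbl, stepU, Submonoid.coe_mul, mul_assoc]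
        rw [e5, he.comm hta]
        congr 1
        simp only [mul_assoc]
      simp_rw [e4]
      refine (bessel_one hw hs hw1 he _).trans ?_
      have e6 : ‖R.V (z * ((t : A) * (s a : A)))‖ ≤ ‖R.V 1‖ * ‖M‖ := by
        have h1 : z * ((t : A) * (s a : A)) = z * ((t * s a : unitary A) : A) := by simp
        rw [h1, norm_V_mul_u]
        refine (norm_V_le R z).trans ?_
        rw [mul_comm]
        refine mul_le_mul_of_nonneg_left ?_ (norm_nonneg _)
        rw [hz]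
        refine (norm_mul_le _ _).trans ?_
        exact mul_le_of_le_one_left (norm_nonneg _) (norm_unitary_le _)
      have e7 : ‖R.V (z * ((t : A) * (s a : A)))‖ ^ 2 ≤ ‖R.V 1‖ ^ 2 * ‖M‖ ^ 2 := by
        rw [← mul_pow]
        exact pow_le_pow_left₀ (norm_nonneg _) e6 2
      exact div_le_div_of_nonneg_right e7 hq.le
    exact (avg_mono e2).trans (le_of_eq (avg_const _))
  exact (avg_mono e1).trans (le_of_eq (avg_const _))

theorem ee_pow (hw : WeylData w h N) (hs : ∃ o, s o = 1) (hw1 : ∃ o, w o = 1)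
    (he : IsEE R (dbl (stepU s w)) ee) (r : ℕ) (hr : 1 ≤ r) (hrN : r ≤ N) :
    ee ((h : A) ^ r) = 0 := by
  rw [← ee_EW hs hw1 he]
  unfold EW avg
  rw [hw.pow r hr hrN, smul_zero, map_zero]

end Vale.Agent.P082.KR
end

section

open scoped Topology InnerProductSpace ComplexConjugate

namespace Vale.Agent.P082.KR

open Vale.Agent.P082 Filter

universe u

variable {A : Type u} [NormedRing A] [StarRing A] [CStarRing A] [NormedAlgebra ℂ A]
  [StarModule ℂ A]
  {K' : Type u} [NormedAddCommGroup K'] [InnerProductSpace ℂ K'] {R' : TraceRep A K'}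
  {S Q : Type*} [Fintype S] [Fintype Q] [Nonempty S] [Nonempty Q]
  {s : S → unitary A} {w : Q → unitary A} {h : unitary A} {N : ℕ} {ee : A →ₗ[ℂ] K'}

/-- the first order term of the moment step -/
lemma stepM_first (hw : WeylData w h N)
    (hs : ∃ o, s o = 1) (hw1 : ∃ o, w o = 1) (he : IsEE R' (dbl (stepU s w)) ee)
    (G : ℕ → unitary A) (x : unitary A) (n : ℕ)
    (hG : ∀ i, (G i : A) ∈ clAlg (dbl (stepU s w))) (l : ℕ) (hl : 1 ≤ l) :
    wavg (dbl (stepU s w)) l (fun t => ‖ee (sumT G n t * (x : A))‖ ^ 2)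
      ≤ n ^ 2 * ‖R'.V 1‖ ^ 2 / Fintype.card Q := by
  have hq : (0 : ℝ) < Fintype.card Q := by exact_mod_cast Fintype.card_pos
  -- the element `M i = G_i⁻¹ x G_i`
  set M : ℕ → unitary A := fun i => (G i)⁻¹ * x * G i with hM
  have h1 : ∀ t : unitary A, ‖ee (sumT G n t * (x : A))‖ ^ 2
      ≤ n * ∑ i ∈ Finset.range n, ‖ee ((t : A) * (M i : A))‖ ^ 2 := by
    intro t
    have e1 : ee (sumT G n t * (x : A)) = ∑ i ∈ Finset.range n, ee ((t : A) * (M i : A)) := by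
      unfold sumT
      rw [Finset.sum_mul, map_sum]
      refine Finset.sum_congr rfl fun i _ => ?_
      have e2 : (G i : A) * (t : A) * star (G i : A) * (x : A)
          = (G i : A) * ((t : A) * (star (G i : A) * (x : A))) := by
        simp only [mul_assoc]
      rw [e2, he.comm (hG i)]
      congr 1
      simp only [hM, Submonoid.coe_mul, coe_inv_u, mul_assoc]
    rw [e1]
    have e3 : ‖∑ i ∈ Finset.range n, ee ((t : A) * (M i : A))‖
        ≤ ∑ i ∈ Finset.range n, ‖ee ((t : A) * (M i : A))‖ := norm_sum_le _ _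
    have e4 := sq_sum_le_card_mul_sum_sq (s := Finset.range n)
      (f := fun i => ‖ee ((t : A) * (M i : A))‖)
    rw [Finset.card_range] at e4
    exact (pow_le_pow_left₀ (norm_nonneg _) e3 2).trans e4
  refine (wavg_mono _ l h1).trans ?_
  rw [wavg_mul_left, wavg_sum]
  have h2 : ∀ i ∈ Finset.range n, wavg (dbl (stepU s w)) l (fun t => ‖ee ((t : A) * (M i : A))‖ ^ 2)
      ≤ ‖R'.V 1‖ ^ 2 / Fintype.card Q := by
    intro i _
    refine (bessel hw hs hw1 he l hl _).trans ?_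
    have h3 : ‖(M i : A)‖ ^ 2 ≤ 1 := pow_le_one₀ (norm_nonneg _) (norm_unitary_le _)
    have h4 : ‖R'.V 1‖ ^ 2 * ‖(M i : A)‖ ^ 2 ≤ ‖R'.V 1‖ ^ 2 :=
      mul_le_of_le_one_right (by positivity) h3
    exact div_le_div_of_nonneg_right h4 hq.le
  have h5 := Finset.sum_le_sum h2
  rw [Finset.sum_const, Finset.card_range, nsmul_eq_mul] at h5
  calc (n : ℝ) * ∑ i ∈ Finset.range n,
        wavg (dbl (stepU s w)) l (fun t => ‖ee ((t : A) * (M i : A))‖ ^ 2)
      ≤ n * (n * (‖R'.V 1‖ ^ 2 / Fintype.card Q)) :=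
        mul_le_mul_of_nonneg_left h5 (Nat.cast_nonneg _)
    _ = n ^ 2 * ‖R'.V 1‖ ^ 2 / Fintype.card Q := by ring

omit [StarModule ℂ A] in
/-- the contraction terms of the moment step -/
lemma stepM_contr {ι : Type*} [Fintype ι] [Nonempty ι] {b : ι → unitary A} (he : IsEE R' b ee)
    (g g' x : unitary A) (l : ℕ) (y : A) :
    ‖ee ((g : A) * cavg b l y * (star (g' : A) * x))‖ ≤ ‖R'.V (cavg b l y)‖ := by
  refine (he.norm_le _).trans (le_of_eq ?_)
  have h1 : (g : A) * cavg b l y * (star (g' : A) * x)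
      = (g : A) * (cavg b l y * (((g')⁻¹ * x : unitary A) : A)) := by
    simp only [Submonoid.coe_mul, coe_inv_u, mul_assoc]
  rw [h1, norm_V_u_mul, norm_V_mul_u]

/-- Lemma 5, the moment step -/
theorem stepM {n : ℕ} {Kn : ℝ} (hK : EulerBd A n Kn) (hw : WeylData w h N)
    (hs : ∃ o, s o = 1) (hw1 : ∃ o, w o = 1) (he : IsEE R' (dbl (stepU s w)) ee)
    (G : ℕ → unitary A) (x : unitary A)
    (hG : ∀ i, (G i : A) ∈ clAlg (dbl (stepU s w))) (hx : (x : A) ∈ clAlg (dbl (stepU s w)))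
    {α : ℝ} (h0 : 0 ≤ α) (h1 : α ≤ 1 / 2) {η : ℝ} (hη : 0 < η) :
    ∀ᶠ l in atTop, wavg (dbl (stepU s w)) l (fun t => avg (fun m : Fin 4 =>
        ‖ee ((pr G (cayU α m t) n * x : unitary A) : A)‖ ^ 2))
      ≤ ‖ee (x : A)‖ ^ 2
        + 2 * α ^ 2 * n ^ 2 * ‖R'.V 1‖ ^ 2 / Fintype.card Q
        + 4 * α ^ 2 * ‖ee (x : A)‖ * ∑ i' ∈ Finset.range n, ∑ i ∈ Finset.range i',
            ‖ee (star (G i : A) * (G i' : A))‖
        + Kn * ‖R'.V 1‖ ^ 2 * α ^ 3 + η := by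
  have hb := dbl_symm (stepU s w)
  have hB : ∀ z, ‖ee z‖ ≤ ‖R'.V 1‖ * ‖z‖ := fun z =>
    (he.norm_le z).trans ((norm_V_le R' z).trans (le_of_eq (mul_comm _ _)))
  have hlim : Tendsto (fun l => 4 * α ^ 2 * ‖ee (x : A)‖ *
      ∑ i' ∈ Finset.range n, ∑ i ∈ Finset.range i',
        ‖R'.V (cavg (dbl (stepU s w)) l (star (G i : A) * (G i' : A)))‖) atTop
      (𝓝 (4 * α ^ 2 * ‖ee (x : A)‖ * ∑ i' ∈ Finset.range n, ∑ i ∈ Finset.range i',
            ‖ee (star (G i : A) * (G i' : A))‖)) := by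
    refine Tendsto.const_mul _ ?_
    refine tendsto_finsetSum _ fun i' _ => tendsto_finsetSum _ fun i _ => ?_
    exact he.lim_norm _
  have hev := hlim.eventually (gt_mem_nhds (lt_add_of_pos_right _ hη))
  filter_upwards [hev, eventually_ge_atTop 1] with l hl hl1
  have h2 := euler_walk hK hb ee hB G x h0 h1 l
  have h3 := stepM_first hw hs hw1 he G x n hG l hl1
  have h4 : 2 * α ^ 2 * wavg (dbl (stepU s w)) l (fun t => ‖ee (sumT G n t * (x : A))‖ ^ 2)
      ≤ 2 * α ^ 2 * n ^ 2 * ‖R'.V 1‖ ^ 2 / Fintype.card Q := by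
    refine (mul_le_mul_of_nonneg_left h3 (by (clear * -; positivity))).trans (le_of_eq ?_)
    ring
  have h5 : 4 * α ^ 2 * ‖ee (x : A)‖ * ∑ i' ∈ Finset.range n, ∑ i ∈ Finset.range i',
            ‖ee ((G i : A) * cavg (dbl (stepU s w)) l (star (G i : A) * (G i' : A))
              * (star (G i' : A) * x))‖
      ≤ 4 * α ^ 2 * ‖ee (x : A)‖ *
      ∑ i' ∈ Finset.range n, ∑ i ∈ Finset.range i',
        ‖R'.V (cavg (dbl (stepU s w)) l (star (G i : A) * (G i' : A)))‖ := by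
    refine mul_le_mul_of_nonneg_left ?_ (by (clear * -; (clear * -; positivity)))
    exact Finset.sum_le_sum fun i' _ => Finset.sum_le_sum fun i _ => stepM_contr he _ _ _ _ _
  have h6 : (1 - 2 * n * α ^ 2) * ‖ee (x : A)‖ ^ 2 ≤ ‖ee (x : A)‖ ^ 2 := by
    have : 0 ≤ 2 * n * α ^ 2 * ‖ee (x : A)‖ ^ 2 := by (clear * -; positivity)
    linarith only [this]
  linarith only [h6, h5, h4, h2, hl]

end Vale.Agent.P082.KR
end

section

open scoped Topology InnerProductSpace ComplexConjugate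

namespace Vale.Agent.P082.KR

open Vale.Agent.P082 Filter

universe u

/-! ### Uniform constants -/

lemma EulerBd.mono {A : Type u} [NormedRing A] [StarRing A] [NormedAlgebra ℂ A] {n : ℕ}
    {K₁ K₂ : ℝ} (h : EulerBd A n K₁) (hK : K₁ ≤ K₂) : EulerBd A n K₂ := by
  intro E _ _ ψ B hψ G t x α h0 h1
  refine (h E ψ B hψ G t x α h0 h1).trans ?_
  have h2 : K₁ * B ^ 2 * α ^ 3 ≤ K₂ * B ^ 2 * α ^ 3 :=
    mul_le_mul_of_nonneg_right (mul_le_mul_of_nonneg_right hK (sq_nonneg B)) (by positivity)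
  linarith only [h2]

lemma exists_euler_const (A : Type u) [NormedRing A] [StarRing A] [CStarRing A]
    [NormedAlgebra ℂ A] [StarModule ℂ A] [CompleteSpace A] (N : ℕ) :
    ∃ KN : ℝ, 0 ≤ KN ∧ ∀ n ≤ N, EulerBd A n KN := by
  choose K hK0 hK using fun n => euler A n
  refine ⟨∑ n ∈ Finset.range (N + 1), K n, Finset.sum_nonneg fun n _ => hK0 n, fun n hn => ?_⟩
  refine (hK n).mono ?_
  exact Finset.single_le_sum (f := K) (fun n _ => hK0 n) (Finset.mem_range.2 (by omega))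

lemma double_sum_le {n N : ℕ} (hn : n ≤ N) (f : ℕ → ℕ → ℝ) {S : ℝ} (hS : 0 ≤ S)
    (h : ∀ i i', i < i' → i' < n → f i i' ≤ S) :
    ∑ i' ∈ Finset.range n, ∑ i ∈ Finset.range i', f i i' ≤ N ^ 2 * S := by
  have hN : (n : ℝ) ≤ N := by exact_mod_cast hn
  have h1 : ∀ i' ∈ Finset.range n, ∑ i ∈ Finset.range i', f i i' ≤ N * S := by
    intro i' hi'
    have h2 : (i' : ℝ) ≤ N := by
      have : i' ≤ N := (Finset.mem_range.1 hi').le.trans hn
      exact_mod_cast this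
    calc ∑ i ∈ Finset.range i', f i i' ≤ ∑ i ∈ Finset.range i', S :=
          Finset.sum_le_sum fun i hi => h i i' (Finset.mem_range.1 hi) (Finset.mem_range.1 hi')
      _ = i' * S := by rw [Finset.sum_const, Finset.card_range, nsmul_eq_mul]
      _ ≤ N * S := mul_le_mul_of_nonneg_right h2 hS
  calc ∑ i' ∈ Finset.range n, ∑ i ∈ Finset.range i', f i i'
      ≤ ∑ i' ∈ Finset.range n, (N * S) := Finset.sum_le_sum h1
    _ = n * (N * S) := by rw [Finset.sum_const, Finset.card_range, nsmul_eq_mul]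
    _ ≤ N * (N * S) := mul_le_mul_of_nonneg_right hN (by positivity)
    _ = N ^ 2 * S := by ring

/-! ### The state space and the kernels -/

section kernel

variable {A : Type u} [NormedRing A] [StarRing A] [CStarRing A] [NormedAlgebra ℂ A]
  [StarModule ℂ A] {ι : Type*}

/-- state space of the process -/
abbrev Stt (b : ι → unitary A) : Type u := {u : unitary A // (u : A) ∈ clAlg b}

open Classical in
/-- next state -/
noncomputable def nxt (b : ι → unitary A) (T : unitary A → Fin 4 → unitary A) (x : Stt b)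
    (t : unitary A) (m : Fin 4) : Stt b :=
  if h : (T t m : A) ∈ clAlg b then ⟨T t m, h⟩ else x

/-- transition kernel -/
noncomputable def ker [Fintype ι] [Nonempty ι] (b : ι → unitary A)
    (T : unitary A → Fin 4 → unitary A) (x : Stt b) (l : ℕ) : Ex (Stt b) where
  toFun F := wavg b l (fun t => avg (fun m => F (nxt b T x t m)))
  add F G := by simp only [avg_add, wavg_add]
  smul c F := by simp only [avg_mul_left, wavg_mul_left]
  mono F G h := wavg_mono b l fun t => avg_mono fun m => h _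
  one := by simp only [avg_const, wavg_const]

lemma ker_le [Fintype ι] [Nonempty ι] {b : ι → unitary A} {T : unitary A → Fin 4 → unitary A}
    (hT : ∀ (t : unitary A) (m : Fin 4), (t : A) ∈ clAlg b → (T t m : A) ∈ clAlg b)
    (x : Stt b) (l : ℕ) (F : Stt b → ℝ) (H : unitary A → Fin 4 → ℝ)
    (hF : ∀ (t : unitary A) (m : Fin 4), (t : A) ∈ clAlg b →
      ∀ z : Stt b, z.1 = T t m → F z ≤ H t m) :
    (ker b T x l).toFun F ≤ wavg b l (fun t => avg (fun m => H t m)) := by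
  refine wavg_mono_closure b l fun t ht => avg_mono fun m => ?_
  have ht' := closure_mem_clAlg b ht
  refine hF t m ht' _ ?_
  unfold nxt
  rw [dif_pos (hT t m ht')]

end kernel

section steps

variable {A : Type u} [NormedRing A] [StarRing A] [CStarRing A] [NormedAlgebra ℂ A]
  [StarModule ℂ A]
  {K : Type*} [NormedAddCommGroup K] [InnerProductSpace ℂ K] {R : TraceRep A K}
  {ι : Type*} [Fintype ι] [Nonempty ι] {b : ι → unitary A} {Φ : A →L[ℂ] A} {C : ℝ}
  {E : Type u} [SeminormedAddCommGroup E] [InnerProductSpace ℂ E]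
  {J : A →ₗ[ℂ] E} {i0 : K →ₗ[ℂ] E}

/-- the mixing seminorm only sees the difference of the powers -/
lemma ee_conj_pow {K' : Type*} [NormedAddCommGroup K'] [InnerProductSpace ℂ K']
    {R' : TraceRep A K'} {κ : Type*} [Fintype κ] [Nonempty κ] {c : κ → unitary A}
    {ee : A →ₗ[ℂ] K'} (he : IsEE R' (dbl c) ee) (v a : unitary A)
    (ha : (a : A) ∈ clAlg (dbl c)) {i i' : ℕ} (hi : i ≤ i') :
    ee (star ((v ^ i * a : unitary A) : A) * ((v ^ i' * a : unitary A) : A))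
      = ee ((v ^ (i' - i) : unitary A) : A) := by
  have h1 : star ((v ^ i * a : unitary A) : A) * ((v ^ i' * a : unitary A) : A)
      = ((a⁻¹ * (v ^ (i' - i) * a) : unitary A) : A) := by
    have h2 : (v ^ i * a)⁻¹ * (v ^ i' * a) = a⁻¹ * (v ^ (i' - i) * a) := by
      have h3 : v ^ i' = v ^ i * v ^ (i' - i) := by rw [← pow_add]; congr 1; omega
      rw [h3]; group
    rw [← h2]; rfl
  rw [h1]
  have h4 : ((a⁻¹ * (v ^ (i' - i) * a) : unitary A) : A)
      = star (a : A) * (((v ^ (i' - i) * a) : unitary A) : A) := rfl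
  rw [h4, he.comm (star_mem ha)]
  congr 1
  have h5 : (((v ^ (i' - i) * a) : unitary A) : A)
      = ((v ^ (i' - i) : unitary A) : A) * (a : A) := rfl
  rw [h5, mul_assoc, mul_star_self_u, mul_one]

/-- the `F`-step in the form needed for the process -/
lemma fstep {K' : Type*} [NormedAddCommGroup K'] [InnerProductSpace ℂ K']
    {R' : TraceRep A K'} {ee : A →ₗ[ℂ] K'} {n N : ℕ} {Kn : ℝ} (hK : EulerBd A n Kn)
    (hKn : 0 ≤ Kn) (hn : n ≤ N)
    (hΦ : Harm b Φ C) (hC : 0 ≤ C) (hE : LimSp R b Φ J i0) (he : IsEE R' b ee)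
    (hle : ∀ x, ‖R.V x‖ ≤ ‖R'.V x‖) {ε' C' : ℝ} (hε' : 0 ≤ ε') (hC' : 0 ≤ C')
    (ht : ∀ x, ‖R.V (Φ x)‖ ≤ ε' * ‖x‖ + C' * ‖R'.V x‖) {c : A} (hc : ‖c‖ ≤ C)
    (G : ℕ → unitary A) (x : unitary A) (hG : ∀ i, (G i : A) ∈ clAlg b)
    (hx : (x : A) ∈ clAlg b) {α : ℝ} (h0 : 0 ≤ α) (h1 : α ≤ 1 / 2)
    {v : ℝ} (hv : ‖R.V 1‖ ≤ v) {Kc : ℝ} (hKc : 8 * C * v * N ^ 2 ≤ Kc)
    (hKc' : Kn * (2 * C * v) ^ 2 ≤ Kc) {S : ℝ} (hS : 0 ≤ S)
    (hM : ∀ i i', i < i' → i' < n → ‖ee (star (G i : A) * (G i' : A))‖ ≤ S)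
    {η : ℝ} (hη : 0 < η) :
    ∀ᶠ l in atTop, wavg b l (fun t => avg (fun m : Fin 4 =>
        ‖psi R J i0 c ((pr G (cayU α m t) n * x : unitary A) : A)‖ ^ 2))
      ≤ (1 - 2 * n * α ^ 2) * ‖psi R J i0 c (x : A)‖ ^ 2
        + 2 * α ^ 2 * ∑ i ∈ Finset.range n, ‖psi R J i0 c (G i : A)‖ ^ 2
        + α ^ 2 * (Kc * ε' + (N ^ 2 * (24 * C ^ 2 * v + 8 * C * v * C')) * S)
        + Kc * α ^ 3 + η := by
  filter_upwards [stepF hK hΦ hC hE he hle hε' hC' ht hc G x hG hx h0 h1 hη] with l hl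
  refine hl.trans ?_
  have hN : (n : ℝ) ≤ N := by exact_mod_cast hn
  have hn0 : (0 : ℝ) ≤ n := Nat.cast_nonneg n
  set v₀ := ‖R.V 1‖ with hv₀
  have hv0 : 0 ≤ v₀ := norm_nonneg _
  have hv1 : 0 ≤ v := hv0.trans hv
  have e1 : 8 * C * v₀ * n ^ 2 * ε' ≤ Kc * ε' := by
    refine mul_le_mul_of_nonneg_right (le_trans ?_ hKc) hε'
    (clear * - hC hN hv hv1; gcongr)
  have e2 := double_sum_le (n := n) (N := N) hn
    (fun i i' => ‖ee (star (G i : A) * (G i' : A))‖) hS hM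
  have e2' : 0 ≤ ∑ i' ∈ Finset.range n, ∑ i ∈ Finset.range i',
      ‖ee (star (G i : A) * (G i' : A))‖ :=
    Finset.sum_nonneg fun _ _ => Finset.sum_nonneg fun _ _ => norm_nonneg _
  have e3 : (24 * C ^ 2 * v₀ + 8 * C * v₀ * C') * ∑ i' ∈ Finset.range n,
      ∑ i ∈ Finset.range i', ‖ee (star (G i : A) * (G i' : A))‖
      ≤ (N ^ 2 * (24 * C ^ 2 * v + 8 * C * v * C')) * S := by
    calc _ ≤ (24 * C ^ 2 * v + 8 * C * v * C') * (N ^ 2 * S) := by
          refine mul_le_mul ?_ e2 e2' (by (clear * - hC hC' hv1; positivity))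
          (clear * - hC hC' hv; gcongr)
      _ = _ := by ring
  have e4 : Kn * (2 * C * v₀) ^ 2 * α ^ 3 ≤ Kc * α ^ 3 := by
    refine mul_le_mul_of_nonneg_right (le_trans ?_ hKc') (by (clear * - h0; positivity))
    (clear * - A K R hKn hC hv; gcongr)
  have e5 : α ^ 2 * (8 * C * v₀ * n ^ 2 * ε' + (24 * C ^ 2 * v₀ + 8 * C * v₀ * C') *
      ∑ i' ∈ Finset.range n, ∑ i ∈ Finset.range i', ‖ee (star (G i : A) * (G i' : A))‖)
      ≤ α ^ 2 * (Kc * ε' + (N ^ 2 * (24 * C ^ 2 * v + 8 * C * v * C')) * S) :=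
    mul_le_mul_of_nonneg_left (add_le_add e1 e3) (by (clear * -; positivity))
  linarith only [e4, e5]

/-- the moment step in the form needed for the process -/
lemma mstep {K' : Type u} [NormedAddCommGroup K'] [InnerProductSpace ℂ K']
    {R' : TraceRep A K'} {S Q : Type*} [Fintype S] [Fintype Q] [Nonempty S] [Nonempty Q]
    {s : S → unitary A} {w : Q → unitary A} {h : unitary A} {N₀ : ℕ} {ee : A →ₗ[ℂ] K'}
    {n N : ℕ} {Kn : ℝ} (hK : EulerBd A n Kn) (hKn : 0 ≤ Kn) (hn : n ≤ N)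
    (hw : WeylData w h N₀) (hs : ∃ o, s o = 1) (hw1 : ∃ o, w o = 1)
    (he : IsEE R' (dbl (stepU s w)) ee)
    (G : ℕ → unitary A) (x : unitary A)
    (hG : ∀ i, (G i : A) ∈ clAlg (dbl (stepU s w))) (hx : (x : A) ∈ clAlg (dbl (stepU s w)))
    {α : ℝ} (h0 : 0 ≤ α) (h1 : α ≤ 1 / 2)
    {v' : ℝ} (hv' : ‖R'.V 1‖ ≤ v') {Kc Kc' : ℝ} (hKc : 4 * (N : ℝ) ^ 2 ≤ Kc)
    (hKc1 : 2 * N ^ 2 * v' ^ 2 ≤ Kc') (hKc2 : Kn * v' ^ 2 ≤ Kc')
    {M : ℝ} (hM0 : 0 ≤ M)
    (hM : ∀ i i', i < i' → i' < n → ‖ee (x : A)‖ * ‖ee (star (G i : A) * (G i' : A))‖ ≤ M)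
    {η : ℝ} (hη : 0 < η) :
    ∀ᶠ l in atTop, wavg (dbl (stepU s w)) l (fun t => avg (fun m : Fin 4 =>
        ‖ee ((pr G (cayU α m t) n * x : unitary A) : A)‖ ^ 2))
      ≤ ‖ee (x : A)‖ ^ 2
        + α ^ 2 * (Kc' * (Fintype.card Q : ℝ)⁻¹ + Kc * M) + Kc' * α ^ 3 + η := by
  filter_upwards [stepM hK hw hs hw1 he G x hG hx h0 h1 hη] with l hl
  refine hl.trans ?_
  have hN : (n : ℝ) ≤ N := by exact_mod_cast hn
  have hn0 : (0 : ℝ) ≤ n := Nat.cast_nonneg n
  set v₀ := ‖R'.V 1‖ with hv₀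
  have hv0 : 0 ≤ v₀ := norm_nonneg _
  have hq : (0 : ℝ) ≤ (Fintype.card Q : ℝ)⁻¹ := by positivity
  have e1 : 2 * α ^ 2 * n ^ 2 * v₀ ^ 2 / Fintype.card Q
      ≤ α ^ 2 * (Kc' * (Fintype.card Q : ℝ)⁻¹) := by
    rw [div_eq_mul_inv]
    have e : 2 * α ^ 2 * n ^ 2 * v₀ ^ 2 ≤ α ^ 2 * Kc' := by
      calc 2 * α ^ 2 * n ^ 2 * v₀ ^ 2 = α ^ 2 * (2 * n ^ 2 * v₀ ^ 2) := by ring
        _ ≤ α ^ 2 * Kc' := by
          refine mul_le_mul_of_nonneg_left (le_trans ?_ hKc1) (by (clear * -; positivity))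
          (clear * - A K' R' hN hv'; gcongr)
    calc _ ≤ (α ^ 2 * Kc') * (Fintype.card Q : ℝ)⁻¹ := mul_le_mul_of_nonneg_right e hq
      _ = _ := by ring
  have e2 : ‖ee (x : A)‖ * ∑ i' ∈ Finset.range n, ∑ i ∈ Finset.range i',
      ‖ee (star (G i : A) * (G i' : A))‖ ≤ N ^ 2 * M := by
    rw [Finset.mul_sum]
    simp_rw [Finset.mul_sum]
    exact double_sum_le (n := n) (N := N) hn
      (fun i i' => ‖ee (x : A)‖ * ‖ee (star (G i : A) * (G i' : A))‖) hM0 hM
  have e3 : 4 * α ^ 2 * ‖ee (x : A)‖ * ∑ i' ∈ Finset.range n, ∑ i ∈ Finset.range i',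
      ‖ee (star (G i : A) * (G i' : A))‖ ≤ α ^ 2 * (Kc * M) := by
    calc _ = 4 * α ^ 2 * (‖ee (x : A)‖ * ∑ i' ∈ Finset.range n, ∑ i ∈ Finset.range i',
      ‖ee (star (G i : A) * (G i' : A))‖) := by ring
      _ ≤ 4 * α ^ 2 * (N ^ 2 * M) := mul_le_mul_of_nonneg_left e2 (by (clear * -; positivity))
      _ = α ^ 2 * ((4 * N ^ 2) * M) := by ring
      _ ≤ α ^ 2 * (Kc * M) := by (clear * - hKc hM0; gcongr)
  have e4 : Kn * v₀ ^ 2 * α ^ 3 ≤ Kc' * α ^ 3 := by
    refine mul_le_mul_of_nonneg_right (le_trans ?_ hKc2) (by (clear * - h0; positivity))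
    (clear * - A K' R' hKn hv'; gcongr)
  linarith only [e1, e3, e4]

end steps

/-- Proposition 6 -/
theorem prop6 (A : Type u) [NormedRing A] [StarRing A] [CStarRing A]
    [NormedAlgebra ℂ A] [StarModule ℂ A] [CompleteSpace A] (N : ℕ) {C v δ : ℝ} (hC : 0 ≤ C)
    (hv : 0 ≤ v) (hδ : 0 < δ) :
    ∃ ε' : ℝ, 0 < ε' ∧ ∀ C' : ℝ, 0 ≤ C' → ∀ v' : ℝ, 0 ≤ v' → ∃ q₁ : ℝ, 0 < q₁ ∧
    ∀ (K K' E : Type u) [NormedAddCommGroup K] [InnerProductSpace ℂ K]
      [NormedAddCommGroup K'] [InnerProductSpace ℂ K']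
      [SeminormedAddCommGroup E] [InnerProductSpace ℂ E]
      (S Q : Type) [Fintype S] [Fintype Q] [Nonempty S] [Nonempty Q]
      (R : TraceRep A K) (R' : TraceRep A K') (s : S → unitary A) (w : Q → unitary A)
      (h : unitary A) (Φ : A →L[ℂ] A) (J : A →ₗ[ℂ] E) (i0 : K →ₗ[ℂ] E) (ee : A →ₗ[ℂ] K'),
      WeylData w h N → (∃ o, s o = 1) → (∃ o, w o = 1) →
      (h : A) ∈ clAlg (dbl (stepU s w)) →
      Harm (dbl (stepU s w)) Φ C → LimSp R (dbl (stepU s w)) Φ J i0 →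
      IsEE R' (dbl (stepU s w)) ee → (∀ x, ‖R.V x‖ ≤ ‖R'.V x‖) →
      (∀ x, ‖R.V (Φ x)‖ ≤ ε' * ‖x‖ + C' * ‖R'.V x‖) →
      ‖R.V 1‖ ≤ v → ‖R'.V 1‖ ≤ v' → (Fintype.card Q : ℝ)⁻¹ ≤ q₁ →
      ∀ p q : unitary A, (p : A) ∈ clAlg (dbl (stepU s w)) →
        (q : A) ∈ clAlg (dbl (stepU s w)) →
      ∃ u : unitary A, ∑ j ∈ Finset.Icc 1 N,
        (‖psi R J i0 (Φ (p : A) * star (p : A)) ((u : A) ^ j * (q : A))‖ ^ 2
          + ‖psi R J i0 (Φ (q : A) * star (q : A)) (star (u : A) ^ j * (q : A))‖ ^ 2)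
        ≤ N * (‖psi R J i0 (Φ (p : A) * star (p : A)) (p : A)‖ ^ 2
            + ‖psi R J i0 (Φ (q : A) * star (q : A)) (q : A)‖ ^ 2) + δ := by
  obtain ⟨KN, hKN0, hKN⟩ := exists_euler_const A N
  set Kc : ℝ := 8 * C * v * N ^ 2 + KN * (2 * C * v) ^ 2 + 4 * N ^ 2 with hKc
  have hKa : 8 * C * v * (N : ℝ) ^ 2 ≤ Kc := by
    have h1 : 0 ≤ KN * (2 * C * v) ^ 2 := by (clear * - hKN0; positivity)
    have h2 : 0 ≤ 4 * (N : ℝ) ^ 2 := by (clear * -; positivity)
    linarith only [h1, h2]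
  have hKb : KN * (2 * C * v) ^ 2 ≤ Kc := by
    have h1 : 0 ≤ 8 * C * v * (N : ℝ) ^ 2 := by positivity
    have h2 : 0 ≤ 4 * (N : ℝ) ^ 2 := by (clear * -; positivity)
    linarith only [h1, h2]
  have hKe : 4 * (N : ℝ) ^ 2 ≤ Kc := by
    have h1 : 0 ≤ KN * (2 * C * v) ^ 2 := by (clear * - hKN0; positivity)
    have h2 : 0 ≤ 8 * C * v * (N : ℝ) ^ 2 := by (clear * - hC hv; positivity)
    linarith only [h1, h2]
  obtain ⟨ε', hε', H⟩ := process.{u} N Kc ((2 * C * v) ^ 2) δ (by (clear * - N C v hC hv KN hKN0; positivity)) (by (clear * -; positivity)) hδ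
  refine ⟨ε', hε', fun C' hC' v' hv' => ?_⟩
  set Kc' : ℝ := 2 * N ^ 2 * v' ^ 2 + KN * v' ^ 2 with hKc'
  have hKa' : 2 * (N : ℝ) ^ 2 * v' ^ 2 ≤ Kc' := by
    have h1 : 0 ≤ KN * v' ^ 2 := by (clear * - hKN0; positivity)
    linarith only [h1]
  have hKb' : KN * v' ^ 2 ≤ Kc' := by
    have h1 : 0 ≤ 2 * (N : ℝ) ^ 2 * v' ^ 2 := by (clear * -; positivity)
    linarith only [h1]
  obtain ⟨α, hα0, hα1, q₁, hq₁, H⟩ := H (N ^ 2 * (24 * C ^ 2 * v + 8 * C * v * C'))
    (by (clear * - hC hv hC'; positivity)) Kc' (by (clear * - N KN hKN0 v'; positivity))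
  refine ⟨q₁, hq₁, ?_⟩
  intro K K' E _ _ _ _ _ _ S Q _ _ _ _ R R' s w h Φ J i0 ee hw hs hw1 hh hΦ hE he hle ht
    hv1 hv'1 hcq p q hp hq
  have hbd : ∀ c : A, ‖c‖ ≤ C → ∀ z : unitary A,
      0 ≤ ‖psi R J i0 c (z : A)‖ ^ 2 ∧ ‖psi R J i0 c (z : A)‖ ^ 2 ≤ (2 * C * v) ^ 2 := by
    intro c hc z
    refine ⟨sq_nonneg _, pow_le_pow_left₀ (norm_nonneg _) ?_ 2⟩
    refine (hE.psi_bound hΦ hC c z).trans ?_
    have h1 : ‖(z : A)‖ ≤ 1 := norm_unitary_le z
    calc (C + ‖c‖) * ‖R.V 1‖ * ‖(z : A)‖ ≤ (C + C) * v * 1 := by (clear * - hC hv hv1 hc h1; gcongr)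
      _ = 2 * C * v := by ring
  have hΦu : ∀ z : unitary A, ‖Φ (z : A) * star (z : A)‖ ≤ C := by
    intro z
    have h1 : ‖(z : A)‖ ≤ 1 := norm_unitary_le z
    have h2 : ‖star (z : A)‖ ≤ 1 := by rw [norm_star]; exact h1
    calc ‖Φ (z : A) * star (z : A)‖ ≤ ‖Φ (z : A)‖ * ‖star (z : A)‖ := norm_mul_le _ _
      _ ≤ (C * 1) * 1 := by
        refine mul_le_mul ((hΦ.bound _).trans ?_) h2 (norm_nonneg _) (by (clear * - hC; positivity))
        (clear * - hC h1; gcongr)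
      _ = C := by ring
  have hcp' := hΦu p
  have hcq' := hΦu q
  set cp : A := Φ (p : A) * star (p : A) with hcp_def
  set cq : A := Φ (q : A) * star (q : A) with hcq_def
  set b := dbl (stepU s w) with hb
  -- the two test unitaries
  let yy : Bool → unitary A := fun y => if y then q else p
  have hyy : ∀ y, (yy y : A) ∈ clAlg b := by
    intro y
    cases y
    · exact hp
    · exact hq
  let F : ℕ → Bool → Stt b → ℝ := fun j y x =>
    ‖psi R J i0 cp ((x.1 : A) ^ j * (yy y : A))‖ ^ 2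
  let Ft : ℕ → Bool → Stt b → ℝ := fun j y x =>
    ‖psi R J i0 cq (star (x.1 : A) ^ j * (yy y : A))‖ ^ 2
  let mm : ℕ → Stt b → ℝ := fun k x => ‖ee ((x.1 : A) ^ k)‖ ^ 2
  have hF_eq : ∀ j y (x : Stt b), F j y x
      = ‖psi R J i0 cp ((x.1 ^ j * yy y : unitary A) : A)‖ ^ 2 := fun _ _ _ => rfl
  have hFt_eq : ∀ j y (x : Stt b), Ft j y x
      = ‖psi R J i0 cq ((x.1⁻¹ ^ j * yy y : unitary A) : A)‖ ^ 2 := fun _ _ _ => rfl
  have hmm_eq : ∀ k (x : Stt b), mm k x = ‖ee ((x.1 ^ k : unitary A) : A)‖ ^ 2 := fun _ _ => rfl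
  have H' := H (Stt b) ⟨h, hh⟩ F Ft mm (‖psi R J i0 cp (p : A)‖ ^ 2)
    (‖psi R J i0 cq (q : A)‖ ^ 2) (Fintype.card Q : ℝ)⁻¹ (sq_nonneg _) (sq_nonneg _)
    (by positivity) hcq (fun j y x => by rw [hF_eq]; exact hbd _ hcp' _)
    (fun j y x => by rw [hFt_eq]; exact hbd _ hcq' _) (fun k x => sq_nonneg _)
    (fun k hk => by
      obtain ⟨hk1, hk2⟩ := Finset.mem_Icc.1 hk
      change ‖ee ((h : A) ^ k)‖ ^ 2 = 0
      rw [ee_pow hw hs hw1 he k hk1 hk2, norm_zero]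
      norm_num)
  clear H
  -- bounds for the mixing terms at a state
  have hS0 : ∀ x : Stt b, 0 ≤ ∑ r ∈ Finset.Icc 1 N, Real.sqrt (mm r x) := fun x =>
    Finset.sum_nonneg fun _ _ => Real.sqrt_nonneg _
  have hM0 : ∀ x : Stt b, 0 ≤ ∑ r ∈ Finset.Icc 1 N, mm r x := fun x =>
    Finset.sum_nonneg fun _ _ => sq_nonneg _
  have hSle : ∀ (x : Stt b) (r : ℕ), 1 ≤ r → r ≤ N →
      ‖ee ((x.1 ^ r : unitary A) : A)‖ ≤ ∑ r ∈ Finset.Icc 1 N, Real.sqrt (mm r x) := by
    intro x r h1 h2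
    have e1 : ‖ee ((x.1 ^ r : unitary A) : A)‖ = Real.sqrt (mm r x) :=
      (Real.sqrt_sq (norm_nonneg _)).symm
    rw [e1]
    exact Finset.single_le_sum (f := fun r => Real.sqrt (mm r x))
      (fun _ _ => Real.sqrt_nonneg _) (Finset.mem_Icc.2 ⟨h1, h2⟩)
  have hMle1 : ∀ (x : Stt b) (r : ℕ), 1 ≤ r → r ≤ N →
      ‖ee ((x.1 ^ r : unitary A) : A)‖ ^ 2 ≤ ∑ r ∈ Finset.Icc 1 N, mm r x := by
    intro x r h1 h2
    exact Finset.single_le_sum (f := fun r => mm r x)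
      (fun _ _ => sq_nonneg _) (Finset.mem_Icc.2 ⟨h1, h2⟩)
  have hMle : ∀ (x : Stt b) (k r : ℕ), 1 ≤ k → k ≤ N → 1 ≤ r → r ≤ N →
      ‖ee ((x.1 ^ k : unitary A) : A)‖ * ‖ee ((x.1 ^ r : unitary A) : A)‖
        ≤ ∑ r ∈ Finset.Icc 1 N, mm r x := by
    intro x k r h1 h2 h3 h4
    have e1 := hMle1 x k h1 h2
    have e2 := hMle1 x r h3 h4
    linarith only [e1, e2, sq_nonneg (‖ee ((x.1 ^ k : unitary A) : A)‖ - ‖ee ((x.1 ^ r : unitary A) : A)‖)]
  refine (H' ?_ ?_).elim fun x hx => ⟨x.1, hx⟩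
  · intro η hη x
    -- left steps
    let T : unitary A → Fin 4 → unitary A := fun t m => p * cayU α m t * p⁻¹ * x.1
    have hT : ∀ (t : unitary A) (m : Fin 4), (t : A) ∈ clAlg b → (T t m : A) ∈ clAlg b := by
      intro t m ht
      exact mul_mem (mul_mem (mul_mem hp (cayU_mem b hα0.le hα1 m t ht)) (star_mem hp)) x.2
    have hG : ∀ i, (((fun i => x.1 ^ i * p) i : unitary A) : A) ∈ clAlg b := fun i =>
      mul_mem (pow_mem x.2 i) hp
    have hGM : ∀ i i', i < i' → ee (star (((fun i => x.1 ^ i * p) i : unitary A) : A)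
        * (((fun i => x.1 ^ i * p) i' : unitary A) : A)) = ee ((x.1 ^ (i' - i) : unitary A) : A) :=
      fun i i' hi => ee_conj_pow he x.1 p hp hi.le
    have h1 : ∀ j ∈ Finset.Icc 1 N, ∀ y : Bool, ∀ᶠ l in atTop, (ker b T x l).toFun (F j y)
        ≤ (1 - 2 * j * α ^ 2) * F j y x
          + 2 * α ^ 2 * (‖psi R J i0 cp (p : A)‖ ^ 2 + ∑ i ∈ Finset.Ico 1 j, F i false x)
          + α ^ 2 * (Kc * ε' + (N ^ 2 * (24 * C ^ 2 * v + 8 * C * v * C')) *
            ∑ r ∈ Finset.Icc 1 N, Real.sqrt (mm r x))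
          + Kc * α ^ 3 + η := by
      intro j hj y
      obtain ⟨hj1, hj2⟩ := Finset.mem_Icc.1 hj
      filter_upwards [fstep (hKN j hj2) hKN0 hj2 hΦ hC hE he hle hε'.le hC' ht hcp'
        (fun i => x.1 ^ i * p) (x.1 ^ j * yy y) hG (mul_mem (pow_mem x.2 j) (hyy y))
        hα0.le hα1 hv1 hKa hKb (hS0 x) (fun i i' hi hi' => by
          rw [hGM i i' hi]
          exact hSle x _ (by omega) (by omega)) hη] with l hl
      have h2 := ker_le hT x l (F j y) (fun t m =>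
        ‖psi R J i0 cp ((pr (fun i => x.1 ^ i * p) (cayU α m t) j * (x.1 ^ j * yy y) :
          unitary A) : A)‖ ^ 2) (fun t m _ z hz => by
            rw [hF_eq, hz]
            change ‖psi R J i0 cp (((p * cayU α m t * p⁻¹ * x.1) ^ j * yy y : unitary A) : A)‖ ^ 2
              ≤ _
            rw [pr_left, mul_assoc])
      refine (h2.trans hl).trans (le_of_eq ?_)
      have h3 : ∑ i ∈ Finset.range j, ‖psi R J i0 cp ((x.1 ^ i * p : unitary A) : A)‖ ^ 2
          = ‖psi R J i0 cp (p : A)‖ ^ 2 + ∑ i ∈ Finset.Ico 1 j, F i false x := by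
        rw [Finset.range_eq_Ico, Finset.sum_eq_sum_Ico_succ_bot (by omega)]
        rw [pow_zero, one_mul]
        rfl
      rw [h3]
      rfl
    have h2 : ∀ k ∈ Finset.Icc 1 N, ∀ᶠ l in atTop, (ker b T x l).toFun (mm k)
        ≤ mm k x + α ^ 2 * (Kc' * (Fintype.card Q : ℝ)⁻¹ + Kc * ∑ r ∈ Finset.Icc 1 N, mm r x)
          + Kc' * α ^ 3 + η := by
      intro k hk
      obtain ⟨hk1, hk2⟩ := Finset.mem_Icc.1 hk
      filter_upwards [mstep (hKN k hk2) hKN0 hk2 hw hs hw1 he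
        (fun i => x.1 ^ i * p) (x.1 ^ k) hG (pow_mem x.2 k)
        hα0.le hα1 hv'1 hKe hKa' hKb' (hM0 x) (fun i i' hi hi' => by
          rw [hGM i i' hi]
          exact hMle x _ _ hk1 hk2 (by omega) (by omega)) hη] with l hl
      have h2 := ker_le hT x l (mm k) (fun t m =>
        ‖ee ((pr (fun i => x.1 ^ i * p) (cayU α m t) k * (x.1 ^ k) :
          unitary A) : A)‖ ^ 2) (fun t m _ z hz => by
            rw [hmm_eq, hz]
            change ‖ee (((p * cayU α m t * p⁻¹ * x.1) ^ k : unitary A) : A)‖ ^ 2 ≤ _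
            rw [pr_left])
      exact h2.trans hl
    have h3 := (Filter.eventually_all_finset (Finset.Icc 1 N)).2
      (fun j hj => (Filter.eventually_all).2 (h1 j hj))
    have h4 := (Filter.eventually_all_finset (Finset.Icc 1 N)).2 h2
    obtain ⟨l, hl1, hl2⟩ := (h3.and h4).exists
    exact ⟨ker b T x l, hl1, hl2⟩
  · intro η hη x
    -- right steps
    let T : unitary A → Fin 4 → unitary A := fun t m => x.1 * (q * cayU α m t * q⁻¹)
    have hT : ∀ (t : unitary A) (m : Fin 4), (t : A) ∈ clAlg b → (T t m : A) ∈ clAlg b := by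
      intro t m ht
      exact mul_mem x.2 (mul_mem (mul_mem hq (cayU_mem b hα0.le hα1 m t ht)) (star_mem hq))
    have hG : ∀ i, (((fun i => x.1 ^ (i + 1) * q) i : unitary A) : A) ∈ clAlg b := fun i =>
      mul_mem (pow_mem x.2 (i + 1)) hq
    have hGM : ∀ i i', i < i' → ee (star (((fun i => x.1 ^ (i + 1) * q) i : unitary A) : A)
        * (((fun i => x.1 ^ (i + 1) * q) i' : unitary A) : A))
        = ee ((x.1 ^ (i' - i) : unitary A) : A) := by
      intro i i' hi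
      have e1 := ee_conj_pow he x.1 q hq (i := i + 1) (i' := i' + 1) (by omega)
      rw [Nat.add_sub_add_right] at e1
      exact e1
    have hGt : ∀ i, (((fun i => x.1⁻¹ ^ i * q) i : unitary A) : A) ∈ clAlg b := fun i =>
      mul_mem (pow_mem (star_mem x.2) i) hq
    have hGMt : ∀ i i', i < i' → ‖ee (star (((fun i => x.1⁻¹ ^ i * q) i : unitary A) : A)
        * (((fun i => x.1⁻¹ ^ i * q) i' : unitary A) : A))‖
        = ‖ee ((x.1 ^ (i' - i) : unitary A) : A)‖ := by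
      intro i i' hi
      rw [ee_conj_pow he x.1⁻¹ q hq hi.le, inv_pow, coe_inv_u, he.norm_star]
    have h1 : ∀ j ∈ Finset.Icc 1 N, ∀ y : Bool, ∀ᶠ l in atTop, (ker b T x l).toFun (F j y)
        ≤ (1 - 2 * j * α ^ 2) * F j y x
          + 2 * α ^ 2 * (∑ i ∈ Finset.Icc 1 j, F i true x)
          + α ^ 2 * (Kc * ε' + (N ^ 2 * (24 * C ^ 2 * v + 8 * C * v * C')) *
            ∑ r ∈ Finset.Icc 1 N, Real.sqrt (mm r x))
          + Kc * α ^ 3 + η := by
      intro j hj y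
      obtain ⟨hj1, hj2⟩ := Finset.mem_Icc.1 hj
      filter_upwards [fstep (hKN j hj2) hKN0 hj2 hΦ hC hE he hle hε'.le hC' ht hcp'
        (fun i => x.1 ^ (i + 1) * q) (x.1 ^ j * yy y) hG (mul_mem (pow_mem x.2 j) (hyy y))
        hα0.le hα1 hv1 hKa hKb (hS0 x) (fun i i' hi hi' => by
          rw [hGM i i' hi]
          exact hSle x _ (by omega) (by omega)) hη] with l hl
      have h2 := ker_le hT x l (F j y) (fun t m =>
        ‖psi R J i0 cp ((pr (fun i => x.1 ^ (i + 1) * q) (cayU α m t) j * (x.1 ^ j * yy y) :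
          unitary A) : A)‖ ^ 2) (fun t m _ z hz => by
            rw [hF_eq, hz]
            change ‖psi R J i0 cp (((x.1 * (q * cayU α m t * q⁻¹)) ^ j * yy y : unitary A) : A)‖ ^ 2
              ≤ _
            rw [pr_right, mul_assoc])
      refine (h2.trans hl).trans (le_of_eq ?_)
      have h3 : ∑ i ∈ Finset.range j, ‖psi R J i0 cp ((x.1 ^ (i + 1) * q : unitary A) : A)‖ ^ 2
          = ∑ i ∈ Finset.Icc 1 j, F i true x := by
        have e1 := Finset.sum_Ico_add' (fun i => F i true x) 0 j 1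
        have e2 : Finset.Ico (0 + 1) (j + 1) = Finset.Icc 1 j := by
          ext i
          simp only [Finset.mem_Ico, Finset.mem_Icc]
          omega
        rw [e2] at e1
        rw [← e1, Finset.range_eq_Ico]
        rfl
      rw [h3]
      rfl
    have h1t : ∀ j ∈ Finset.Icc 1 N, ∀ y : Bool, ∀ᶠ l in atTop, (ker b T x l).toFun (Ft j y)
        ≤ (1 - 2 * j * α ^ 2) * Ft j y x
          + 2 * α ^ 2 * (‖psi R J i0 cq (q : A)‖ ^ 2 + ∑ i ∈ Finset.Ico 1 j, Ft i true x)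
          + α ^ 2 * (Kc * ε' + (N ^ 2 * (24 * C ^ 2 * v + 8 * C * v * C')) *
            ∑ r ∈ Finset.Icc 1 N, Real.sqrt (mm r x))
          + Kc * α ^ 3 + η := by
      intro j hj y
      obtain ⟨hj1, hj2⟩ := Finset.mem_Icc.1 hj
      filter_upwards [fstep (hKN j hj2) hKN0 hj2 hΦ hC hE he hle hε'.le hC' ht hcq'
        (fun i => x.1⁻¹ ^ i * q) (x.1⁻¹ ^ j * yy y) hGt
        (mul_mem (pow_mem (star_mem x.2) j) (hyy y))
        hα0.le hα1 hv1 hKa hKb (hS0 x) (fun i i' hi hi' => by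
          rw [hGMt i i' hi]
          exact hSle x _ (by omega) (by omega)) hη] with l hl
      have h2 := ker_le hT x l (Ft j y) (fun t m =>
        ‖psi R J i0 cq ((pr (fun i => x.1⁻¹ ^ i * q) (cayU α (m + 2) t) j *
          (x.1⁻¹ ^ j * yy y) : unitary A) : A)‖ ^ 2) (fun t m _ z hz => by
            rw [hFt_eq, hz]
            change ‖psi R J i0 cq (((x.1 * (q * cayU α m t * q⁻¹))⁻¹ ^ j * yy y :
              unitary A) : A)‖ ^ 2 ≤ _
            have e1 : (x.1 * (q * cayU α m t * q⁻¹))⁻¹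
                = q * (cayU α m t)⁻¹ * q⁻¹ * x.1⁻¹ := by group
            rw [e1, cayU_inv hα0.le hα1, pr_left, mul_assoc])
      have h5 : ∀ t : unitary A, avg (fun m : Fin 4 =>
          ‖psi R J i0 cq ((pr (fun i => x.1⁻¹ ^ i * q) (cayU α (m + 2) t) j *
          (x.1⁻¹ ^ j * yy y) : unitary A) : A)‖ ^ 2) = avg (fun m : Fin 4 =>
          ‖psi R J i0 cq ((pr (fun i => x.1⁻¹ ^ i * q) (cayU α m t) j *
          (x.1⁻¹ ^ j * yy y) : unitary A) : A)‖ ^ 2) := fun t =>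
        avg_bij (σ := fun m : Fin 4 => m + 2) (Equiv.addRight (2 : Fin 4)).bijective
          (fun m : Fin 4 => ‖psi R J i0 cq ((pr (fun i => x.1⁻¹ ^ i * q) (cayU α m t) j *
          (x.1⁻¹ ^ j * yy y) : unitary A) : A)‖ ^ 2)
      simp only [h5] at h2
      refine (h2.trans hl).trans (le_of_eq ?_)
      have h3 : ∑ i ∈ Finset.range j, ‖psi R J i0 cq ((x.1⁻¹ ^ i * q : unitary A) : A)‖ ^ 2
          = ‖psi R J i0 cq (q : A)‖ ^ 2 + ∑ i ∈ Finset.Ico 1 j, Ft i true x := by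
        rw [Finset.range_eq_Ico, Finset.sum_eq_sum_Ico_succ_bot (by omega)]
        rw [pow_zero, one_mul]
        rfl
      rw [h3]
      rfl
    have h2 : ∀ k ∈ Finset.Icc 1 N, ∀ᶠ l in atTop, (ker b T x l).toFun (mm k)
        ≤ mm k x + α ^ 2 * (Kc' * (Fintype.card Q : ℝ)⁻¹ + Kc * ∑ r ∈ Finset.Icc 1 N, mm r x)
          + Kc' * α ^ 3 + η := by
      intro k hk
      obtain ⟨hk1, hk2⟩ := Finset.mem_Icc.1 hk
      filter_upwards [mstep (hKN k hk2) hKN0 hk2 hw hs hw1 he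
        (fun i => x.1 ^ (i + 1) * q) (x.1 ^ k) hG (pow_mem x.2 k)
        hα0.le hα1 hv'1 hKe hKa' hKb' (hM0 x) (fun i i' hi hi' => by
          rw [hGM i i' hi]
          exact hMle x _ _ hk1 hk2 (by omega) (by omega)) hη] with l hl
      have h2 := ker_le hT x l (mm k) (fun t m =>
        ‖ee ((pr (fun i => x.1 ^ (i + 1) * q) (cayU α m t) k * (x.1 ^ k) :
          unitary A) : A)‖ ^ 2) (fun t m _ z hz => by
            rw [hmm_eq, hz]
            change ‖ee (((x.1 * (q * cayU α m t * q⁻¹)) ^ k : unitary A) : A)‖ ^ 2 ≤ _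
            rw [pr_right])
      exact h2.trans hl
    have h3 := (Filter.eventually_all_finset (Finset.Icc 1 N)).2
      (fun j hj => (Filter.eventually_all).2 (h1 j hj))
    have h3t := (Filter.eventually_all_finset (Finset.Icc 1 N)).2
      (fun j hj => (Filter.eventually_all).2 (h1t j hj))
    have h4 := (Filter.eventually_all_finset (Finset.Icc 1 N)).2 h2
    obtain ⟨l, ⟨hl1, hl1t⟩, hl2⟩ := ((h3.and h3t).and h4).exists
    exact ⟨ker b T x l, hl1, hl1t, hl2⟩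

end Vale.Agent.P082.KR
end

section

open scoped Topology InnerProductSpace ComplexConjugate

namespace Vale.Agent.P082.KR

open Vale.Agent.P082 Filter

universe u

lemma sum_Icc_one (g : ℕ → ℝ) (N : ℕ) :
    ∑ j ∈ Finset.Icc 1 N, g j = ∑ m ∈ Finset.range N, g (m + 1) := by
  induction N with
  | zero => simp
  | succ N ih => rw [Finset.sum_Icc_succ_top (by omega), ih, Finset.sum_range_succ]

/-- Section 6. -/
theorem riesz (A : Type u) [NormedRing A] [StarRing A] [CStarRing A]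
    [NormedAlgebra ℂ A] [StarModule ℂ A] [CompleteSpace A] :
    ∃ κ Kc : ℕ → ℝ, Tendsto κ atTop (𝓝 0) ∧ (∀ N, 0 ≤ κ N) ∧ (∀ N, 0 ≤ Kc N) ∧
      ∀ (K : Type u) [NormedAddCommGroup K] [InnerProductSpace ℂ K] (R : TraceRep A K) (N : ℕ)
        (Φ : A →L[ℂ] A) (C : ℝ) (u y : unitary A) (c₁ c₂ : A), 1 ≤ N → 0 ≤ C →
        (∀ x, ‖Φ x‖ ≤ C * ‖x‖) → ‖c₁‖ ≤ C → ‖c₂‖ ≤ C →
        ‖R.V (c₁ - c₂)‖ ^ 2 ≤ κ N * C ^ 2 * ‖R.V 1‖ ^ 2
          + Kc N * ∑ j ∈ Finset.Icc 1 N,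
            (‖R.V (Φ ((u : A) ^ j * (y : A)) - c₁ * ((u : A) ^ j * (y : A)))‖ ^ 2
              + ‖R.V (Φ (star (u : A) ^ j * (y : A)) - c₂ * (star (u : A) ^ j * (y : A)))‖ ^ 2) := by
  have hH := Real.tendsto_sum_range_one_div_nat_succ_atTop
  refine ⟨fun N => 576 / (∑ m ∈ Finset.range N, 1 / ((m : ℝ) + 1)) ^ 2,
    fun N => 16 * (N : ℝ) ^ 2 / (∑ m ∈ Finset.range N, 1 / ((m : ℝ) + 1)) ^ 2, ?_,
    fun N => by (clear * -; positivity), fun N => by (clear * -; positivity), ?_⟩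
  · have h1 : Tendsto (fun N : ℕ => (∑ m ∈ Finset.range N, 1 / ((m : ℝ) + 1)) ^ 2) atTop atTop :=
      (tendsto_pow_atTop two_ne_zero).comp hH
    exact h1.const_div_atTop 576
  · intro K _ _ R N Φ C u y c₁ c₂ hN hC hΦ hc1 _
    have h := riesz_core R Φ hC hΦ c₁ c₂ hc1 u y N hN
    have hpos : 0 < ∑ m ∈ Finset.range N, 1 / ((m : ℝ) + 1) := by
      refine Finset.sum_pos (fun m _ => by (clear * -; positivity)) ?_
      exact ⟨0, Finset.mem_range.2 hN⟩
    rw [sum_Icc_one]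
    have hp2 : 0 < (∑ m ∈ Finset.range N, 1 / ((m : ℝ) + 1)) ^ 2 := by (clear * - hpos; positivity)
    have h2 : ‖R.V (c₁ - c₂)‖ ^ 2 ≤ (576 * C ^ 2 * ‖R.V 1‖ ^ 2 + 16 * (N : ℝ) ^ 2 *
        ∑ m ∈ Finset.range N,
        (‖R.V (Φ ((u : A) ^ (m + 1) * y) - c₁ * ((u : A) ^ (m + 1) * y))‖ ^ 2 +
         ‖R.V (Φ (star (u : A) ^ (m + 1) * y) - c₂ * (star (u : A) ^ (m + 1) * y))‖ ^ 2)) /
         (∑ m ∈ Finset.range N, 1 / ((m : ℝ) + 1)) ^ 2 := by
      rw [le_div_iff₀ hp2]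
      linarith only [h]
    refine h2.trans (le_of_eq ?_)
    rw [add_div]
    congr 1
    · ring
    · ring

end Vale.Agent.P082.KR
end

section

open scoped Topology InnerProductSpace ComplexConjugate

namespace Vale.Agent.P082.KR

open Vale.Agent.P082 Filter

universe u

/-- monotonicity of the walk average, only on the set where the walk lives -/
lemma wavg_mono_mem {G ι : Type*} [Group G] [Fintype ι] (b : ι → G) (H : Set G) (h1 : (1 : G) ∈ H)
    (hb : ∀ t ∈ H, ∀ i, t * b i ∈ H) (n : ℕ) {F F' : G → ℝ} (h : ∀ t ∈ H, F t ≤ F' t) :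
    wavg b n F ≤ wavg b n F' := by
  induction n generalizing F F' with
  | zero => exact h 1 h1
  | succ n ih =>
    rw [wavg_succ, wavg_succ]
    exact avg_mono (fun i => ih (fun t ht => h _ (hb t ht i)))

/-- average of the squared distances of two independent copies -/
lemma wavg_wavg_dist {A K : Type*} [NormedRing A] [StarRing A] [CStarRing A]
    [NormedAlgebra ℂ A] [StarModule ℂ A] [NormedAddCommGroup K] [InnerProductSpace ℂ K]
    {R : TraceRep A K} {ι : Type*} [Fintype ι] [Nonempty ι] {b : ι → unitary A} {Φ : A →L[ℂ] A}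
    {C : ℝ} (hΦ : Harm b Φ C) (n : ℕ) :
    wavg b n (fun p : unitary A => wavg b n (fun q : unitary A =>
      ‖R.V (Φ (q : A) * star (q : A) - Φ (p : A) * star (p : A))‖ ^ 2))
      = 2 * (energy R b Φ n 1 - ‖R.V (Φ 1)‖ ^ 2) := by
  have h1 : ∀ p : unitary A, wavg b n (fun q : unitary A =>
      ‖R.V (Φ (q : A) * star (q : A) - Φ (p : A) * star (p : A))‖ ^ 2)
      = energy R b Φ n 1 - 2 * (⟪R.V (Φ (p : A) * star (p : A)), R.V (Φ 1)⟫_ℂ).re
        + ‖R.V (Φ (p : A))‖ ^ 2 := by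
    intro p
    have h := wavg_dist (R := R) hΦ n 1 (Φ (p : A) * star (p : A))
    simp only [one_mul] at h
    rw [h]
    have h2 : ‖R.V (Φ (p : A) * star (p : A))‖ = ‖R.V (Φ (p : A))‖ :=
      norm_V_mul_u R (Φ (p : A)) (p⁻¹)
    rw [h2]
  simp only [h1]
  rw [wavg_add, wavg_sub, wavg_const, wavg_mul_left]
  have h3 : wavg b n (fun p : unitary A => (⟪R.V (Φ (p : A) * star (p : A)), R.V (Φ 1)⟫_ℂ).re)
      = ‖R.V (Φ 1)‖ ^ 2 := by
    have h4 : ∀ p : unitary A, (⟪R.V (Φ (p : A) * star (p : A)), R.V (Φ 1)⟫_ℂ).re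
        = (⟪R.V (Φ 1), R.V (Φ (p : A) * star (p : A))⟫_ℂ).re := by
      intro p
      rw [← inner_conj_symm, Complex.conj_re]
    simp only [h4]
    have h5 := hΦ.iter n 1
    simp only [one_mul] at h5
    rw [reL_wavg, ← V_wavg, h5, inner_self_eq_norm_sq_to_K]
    norm_cast
  rw [h3]
  have h6 : wavg b n (fun p : unitary A => ‖R.V (Φ (p : A))‖ ^ 2) = energy R b Φ n 1 := by
    unfold energy
    simp only [one_mul]
  rw [h6]
  ring

/-- average of `W(p)` -/
lemma wavg_psi_self {A K E : Type*} [NormedRing A] [StarRing A] [CStarRing A]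
    [NormedAlgebra ℂ A] [StarModule ℂ A] [NormedAddCommGroup K] [InnerProductSpace ℂ K]
    [SeminormedAddCommGroup E] [InnerProductSpace ℂ E]
    {R : TraceRep A K} {ι : Type*} [Fintype ι] [Nonempty ι] {b : ι → unitary A} {Φ : A →L[ℂ] A}
    {J : A →ₗ[ℂ] E} {i0 : K →ₗ[ℂ] E} (hE : LimSp R b Φ J i0) (n : ℕ) :
    wavg b n (fun p : unitary A =>
      ‖psi R J i0 (Φ (p : A) * star (p : A)) (p : A)‖ ^ 2) = ‖J 1‖ ^ 2 - energy R b Φ n 1 := by
  simp only [hE.psi_self]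
  rw [wavg_sub]
  have h := hE.stat n 1
  simp only [one_mul] at h
  rw [h]
  unfold energy
  simp only [one_mul]

/-- Theorem 7 -/
theorem energy_small (A : Type u) [NormedRing A] [StarRing A] [CStarRing A]
    [NormedAlgebra ℂ A] [StarModule ℂ A] [CompleteSpace A] {C v ε : ℝ} (hC : 0 ≤ C)
    (hv : 0 ≤ v) (hε : 0 < ε) :
    ∃ N : ℕ, ∃ ε' : ℝ, 0 < ε' ∧ ∀ C' : ℝ, 0 ≤ C' → ∀ v' : ℝ, 0 ≤ v' → ∃ q₁ : ℝ, 0 < q₁ ∧
    ∀ (K K' : Type u) [NormedAddCommGroup K] [InnerProductSpace ℂ K]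
      [NormedAddCommGroup K'] [InnerProductSpace ℂ K'] [CompleteSpace K']
      (S Q : Type) [Fintype S] [Fintype Q] [Nonempty S] [Nonempty Q]
      (R : TraceRep A K) (R' : TraceRep A K') (s : S → unitary A) (w : Q → unitary A)
      (h : unitary A) (Φ : A →L[ℂ] A),
      WeylData w h N → (∃ o, s o = 1) → (∃ o, w o = 1) →
      (h : A) ∈ clAlg (dbl (stepU s w)) →
      Harm (dbl (stepU s w)) Φ C → (∀ x, ‖R.V x‖ ≤ ‖R'.V x‖) →
      (∀ x, ‖R.V (Φ x)‖ ≤ ε' * ‖x‖ + C' * ‖R'.V x‖) →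
      ‖R.V 1‖ ≤ v → ‖R'.V 1‖ ≤ v' → (Fintype.card Q : ℝ)⁻¹ ≤ q₁ →
      avg (fun p => ‖R.V (Φ (dbl (stepU s w) p : unitary A)
          * star ((dbl (stepU s w) p : unitary A) : A) - Φ 1)‖ ^ 2) ≤ ε := by
  obtain ⟨κ, Kc, hκ, hκ0, hKc0, hriesz⟩ := riesz A
  -- choose N
  have hN : ∃ N : ℕ, 1 ≤ N ∧ κ N * C ^ 2 * v ^ 2 ≤ ε := by
    have h1 : Tendsto (fun N => κ N * C ^ 2 * v ^ 2) atTop (𝓝 (0 * C ^ 2 * v ^ 2)) :=
      (hκ.mul_const _).mul_const _
    rw [zero_mul, zero_mul] at h1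
    have h2 : ∀ᶠ N in atTop, κ N * C ^ 2 * v ^ 2 < ε := h1.eventually_lt_const hε
    obtain ⟨N, hN⟩ := (h2.and (eventually_ge_atTop 1)).exists
    exact ⟨N, hN.2, hN.1.le⟩
  obtain ⟨N, hN1, hN2⟩ := hN
  have hδ : 0 < ε / (Kc N + 1) := by
    have := hKc0 N
    (clear * - hε this; positivity)
  obtain ⟨ε', hε', hprop⟩ := prop6 A N hC hv hδ
  refine ⟨N, ε', hε', fun C' hC' v' hv' => ?_⟩
  obtain ⟨q₁, hq₁, hprop⟩ := hprop C' hC' v' hv'
  refine ⟨q₁, hq₁, ?_⟩
  intro K K' _ _ _ _ _ S Q _ _ _ _ R R' s w h Φ hW hs hw hh hΦ hVV' ht hv1 hv1' hQ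
  obtain ⟨E, iE1, iE2, J, i0, hE⟩ := exists_limSp R hΦ
  obtain ⟨ee, hee⟩ := exists_ee R' (stepU s w)
  set b := dbl (stepU s w) with hb
  have hpr := hprop K K' E S Q R R' s w h Φ J i0 ee hW hs hw hh hΦ hE hee hVV' ht hv1 hv1' hQ
  set W : unitary A → ℝ := fun p =>
    ‖psi R J i0 (Φ (p : A) * star (p : A)) (p : A)‖ ^ 2 with hWdef
  have hK0 := hKc0 N
  set B : ℝ := κ N * C ^ 2 * v ^ 2 with hB
  set δ : ℝ := ε / (Kc N + 1) with hδdef
  have hcb : ∀ p : unitary A, ‖Φ (p : A) * star (p : A)‖ ≤ C := by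
    intro p
    refine (norm_mul_le _ _).trans ?_
    have h1 : ‖star (p : A)‖ ≤ 1 := norm_unitary_le (p⁻¹)
    have h2 : ‖Φ (p : A)‖ ≤ C := by
      refine (hΦ.bound _).trans ?_
      exact mul_le_of_le_one_right hC (norm_unitary_le p)
    calc ‖Φ (p : A)‖ * ‖star (p : A)‖ ≤ C * 1 :=
          mul_le_mul h2 h1 (norm_nonneg _) hC
      _ = C := mul_one C
  -- the main inequality for p, q in the closed algebra
  have hmain : ∀ p q : unitary A, (p : A) ∈ clAlg b → (q : A) ∈ clAlg b →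
      ‖R.V (Φ (q : A) * star (q : A) - Φ (p : A) * star (p : A))‖ ^ 2
        ≤ B + Kc N * (N * (W p + W q) + δ) := by
    intro p q hp hq
    obtain ⟨u, hu⟩ := hpr p q hp hq
    have h1 := hriesz K R N Φ C u q (Φ (p : A) * star (p : A)) (Φ (q : A) * star (q : A))
      hN1 hC hΦ.bound (hcb p) (hcb q)
    have h2 : ‖R.V (Φ (q : A) * star (q : A) - Φ (p : A) * star (p : A))‖
        = ‖R.V (Φ (p : A) * star (p : A) - Φ (q : A) * star (q : A))‖ := by
      rw [map_sub, map_sub, norm_sub_rev]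
    rw [h2]
    refine h1.trans ?_
    refine add_le_add ?_ ?_
    · have h3 : ‖R.V 1‖ ^ 2 ≤ v ^ 2 := by (clear * - hv1; gcongr)
      exact mul_le_mul_of_nonneg_left h3 (mul_nonneg (hκ0 N) (sq_nonneg C))
    · refine mul_le_mul_of_nonneg_left ?_ hK0
      refine le_trans ?_ hu
      refine Finset.sum_le_sum (fun j _ => ?_)
      have h4 := hE.le_psi (Φ (p : A) * star (p : A)) ((u : A) ^ j * (q : A))
      have h5 := hE.le_psi (Φ (q : A) * star (q : A)) (star (u : A) ^ j * (q : A))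
      (clear * - h4 h5; gcongr)
  -- averages
  have havg : ∀ n, 2 * (energy R b Φ n 1 - ‖R.V (Φ 1)‖ ^ 2)
      ≤ B + Kc N * (N * (2 * (‖J 1‖ ^ 2 - energy R b Φ n 1)) + δ) := by
    intro n
    rw [← wavg_wavg_dist hΦ n]
    have hH1 : (1 : unitary A) ∈ {t : unitary A | (t : A) ∈ clAlg b} := by
      change ((1 : unitary A) : A) ∈ clAlg b
      rw [OneMemClass.coe_one]
      exact one_mem _
    have hHb : ∀ t ∈ {t : unitary A | (t : A) ∈ clAlg b}, ∀ i,
        t * b i ∈ {t : unitary A | (t : A) ∈ clAlg b} := by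
      intro t ht i
      change ((t * b i : unitary A) : A) ∈ clAlg b
      rw [Submonoid.coe_mul]
      exact mul_mem ht (step_mem b i)
    have h1 : wavg b n (fun p : unitary A => wavg b n (fun q : unitary A =>
        ‖R.V (Φ (q : A) * star (q : A) - Φ (p : A) * star (p : A))‖ ^ 2))
        ≤ wavg b n (fun p : unitary A => wavg b n (fun q : unitary A =>
          B + Kc N * (N * (W p + W q) + δ))) := by
      refine wavg_mono_mem b _ hH1 hHb n (fun p hp => ?_)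
      refine wavg_mono_mem b _ hH1 hHb n (fun q hq => ?_)
      exact hmain p q hp hq
    refine h1.trans (le_of_eq ?_)
    have hWn : wavg b n W = ‖J 1‖ ^ 2 - energy R b Φ n 1 := wavg_psi_self hE n
    have h2 : ∀ p : unitary A, wavg b n (fun q : unitary A =>
        B + Kc N * (N * (W p + W q) + δ))
        = B + Kc N * (N * (W p + (‖J 1‖ ^ 2 - energy R b Φ n 1)) + δ) := by
      intro p
      rw [wavg_add, wavg_const, wavg_mul_left, wavg_add, wavg_const, wavg_mul_left, wavg_add,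
        wavg_const, hWn]
    simp only [h2]
    rw [wavg_add, wavg_const, wavg_mul_left, wavg_add, wavg_const, wavg_mul_left, wavg_add,
        wavg_const, hWn]
    ring
  -- limit
  have hmono := energy_mono (R := R) hΦ 1
  have hle : ∀ n, 2 * (energy R b Φ 1 1 - ‖R.V (Φ 1)‖ ^ 2)
      ≤ B + Kc N * (N * (2 * (‖J 1‖ ^ 2 - energy R b Φ (n + 1) 1)) + δ) := by
    intro n
    refine le_trans ?_ (havg (n + 1))
    have : energy R b Φ 1 1 ≤ energy R b Φ (n + 1) 1 := hmono (by omega)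
    linarith only [this]
  have hlim : Tendsto (fun n => B + Kc N * (N * (2 * (‖J 1‖ ^ 2 - energy R b Φ (n + 1) 1)) + δ))
      atTop (𝓝 (B + Kc N * (N * (2 * (‖J 1‖ ^ 2 - ‖J 1‖ ^ 2)) + δ))) := by
    have h1 : Tendsto (fun n => energy R b Φ (n + 1) 1) atTop (𝓝 (‖J 1‖ ^ 2)) :=
      (hE.lim 1).comp (tendsto_add_atTop_nat 1)
    exact ((((h1.const_sub _).const_mul _).const_mul _).add_const _).const_mul _ |>.const_add _
  have hfin : 2 * (energy R b Φ 1 1 - ‖R.V (Φ 1)‖ ^ 2) ≤ B + Kc N * δ := by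
    have h1 := ge_of_tendsto' hlim hle
    rw [sub_self, mul_zero, mul_zero, zero_add] at h1
    exact h1
  have hKδ : Kc N * δ ≤ ε := by
    rw [hδdef, ← mul_div_assoc, div_le_iff₀ (by linarith only [hK0])]
    linarith only [hε]
  -- the average is the energy difference
  have hdiff := energy_diff (R := R) hΦ 0 1 1
  rw [wavg_zero, wavg_one, energy_zero, zero_add] at hdiff
  have h3 : avg (fun p => ‖R.V (Φ (b p : unitary A)
          * star ((b p : unitary A) : A) - Φ 1)‖ ^ 2)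
      = energy R b Φ 1 1 - ‖R.V (Φ 1)‖ ^ 2 := by
    rw [← hdiff]
    congr 1
    funext p
    simp only [OneMemClass.coe_one, mul_one, one_mul]
  rw [h3]
  linarith only [hKδ, hfin, hN2]

end Vale.Agent.P082.KR
end

section

open scoped Topology InnerProductSpace ComplexConjugate

namespace Vale.Agent.P082.KR

open Vale.Agent.P082 Filter

section Mat

variable {n : ℕ} [NeZero n]

/-- character sum -/
lemma weyl_char_sum {om : ℂ} (hom : IsPrimitiveRoot om n) (i j : Fin n) :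
    ∑ b : Fin n, star (om ^ (b.val * i.val)) * om ^ (b.val * j.val)
      = if i = j then (n : ℂ) else 0 := by
  have hn : n ≠ 0 := NeZero.ne n
  have hnorm : ‖om‖ = 1 := Complex.norm_eq_one_of_pow_eq_one hom.pow_eq_one hn
  have hst : ∀ m : ℕ, star (om ^ m) * om ^ m = 1 := by
    intro m
    have : star (om ^ m) * om ^ m = ((Complex.normSq (om ^ m) : ℝ) : ℂ) := by
      rw [Complex.star_def, mul_comm, Complex.mul_conj]
    rw [this, Complex.normSq_eq_norm_sq, norm_pow, hnorm]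
    simp
  set z : ℂ := star (om ^ i.val) * om ^ j.val with hz
  have hterm : ∀ b : Fin n, star (om ^ (b.val * i.val)) * om ^ (b.val * j.val) = z ^ b.val := by
    intro b
    rw [hz, mul_pow, ← star_pow, ← pow_mul, ← pow_mul, mul_comm i.val, mul_comm j.val]
  rw [Finset.sum_congr rfl (fun b _ => hterm b), Fin.sum_univ_eq_sum_range (fun b => z ^ b) n]
  split_ifs with hij
  · subst hij
    have : z = 1 := by rw [hz]; exact hst _
    simp [this]
  · have hz1 : z ≠ 1 := by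
      intro h
      apply hij
      have h2 : om ^ i.val * z = om ^ j.val := by
        rw [hz, ← mul_assoc, mul_comm (om ^ i.val), hst, one_mul]
      rw [h, mul_one] at h2
      exact Fin.ext (hom.pow_inj i.2 j.2 h2)
    have hzn : z ^ n = 1 := by
      rw [hz, mul_pow, ← star_pow, ← pow_mul, ← pow_mul, mul_comm i.val, mul_comm j.val, pow_mul,
        pow_mul, hom.pow_eq_one]
      simp
    have := geom_sum_mul z n
    rw [hzn, sub_self] at this
    exact (mul_eq_zero.mp this).resolve_right (sub_ne_zero.mpr hz1)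

/-- the Weyl matrices -/
noncomputable def weylMat (om : ℂ) (p : Fin n × Fin n) : Matrix (Fin n) (Fin n) ℂ :=
  Matrix.of fun i j => if i = j + p.1 then om ^ (p.2.val * j.val) else 0

omit [NeZero n] in
lemma weylMat_apply (om : ℂ) (p : Fin n × Fin n) (i j : Fin n) :
    weylMat om p i j = if i = j + p.1 then om ^ (p.2.val * j.val) else 0 := rfl

omit [NeZero n] in
lemma weyl_conj_apply {om : ℂ} (p : Fin n × Fin n) (T : Matrix (Fin n) (Fin n) ℂ) (i j : Fin n) :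
    (star (weylMat om p) * T * weylMat om p) i j =
      T (i + p.1) (j + p.1) * (star (om ^ (p.2.val * i.val)) * om ^ (p.2.val * j.val)) := by
  rw [Matrix.mul_apply]
  simp only [weylMat_apply, mul_ite, mul_zero, Finset.sum_ite_eq', Finset.mem_univ, if_true]
  rw [Matrix.mul_apply]
  simp only [Matrix.star_apply, weylMat_apply, apply_ite star, star_zero, ite_mul, zero_mul,
    Finset.sum_ite_eq', Finset.mem_univ, if_true]
  ring

/-- the twirl -/
lemma weyl_twirl {om : ℂ} (hom : IsPrimitiveRoot om n) (T : Matrix (Fin n) (Fin n) ℂ) :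
    ∑ p : Fin n × Fin n, star (weylMat om p) * T * weylMat om p
      = ((n : ℂ) * Matrix.trace T) • (1 : Matrix (Fin n) (Fin n) ℂ) := by
  ext i j
  rw [Matrix.sum_apply]
  simp only [weyl_conj_apply]
  rw [Fintype.sum_prod_type]
  simp only [← Finset.mul_sum]
  rw [Matrix.smul_apply, Matrix.one_apply]
  simp only [weyl_char_sum hom]
  split_ifs with hij
  · subst hij
    rw [← Finset.sum_mul, smul_eq_mul, mul_one, mul_comm (n : ℂ)]
    congr 1
    exact Fintype.sum_equiv (Equiv.addLeft i) _ _ (fun a => rfl)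
  · simp

lemma weyl_unit {om : ℂ} (hom : IsPrimitiveRoot om n) (p : Fin n × Fin n) :
    star (weylMat om p) * weylMat om p = 1 := by
  have hn : n ≠ 0 := NeZero.ne n
  have hnorm : ‖om‖ = 1 := Complex.norm_eq_one_of_pow_eq_one hom.pow_eq_one hn
  have h := fun i j => weyl_conj_apply (om := om) p 1 i j
  rw [mul_one] at h
  ext i j
  rw [h, Matrix.one_apply, Matrix.one_apply]
  by_cases hij : i = j
  · subst hij
    simp only [if_true, one_mul]
    have : star (om ^ (p.2.val * i.val)) * om ^ (p.2.val * i.val)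
        = ((Complex.normSq (om ^ (p.2.val * i.val)) : ℝ) : ℂ) := by
      rw [Complex.star_def, mul_comm, Complex.mul_conj]
    rw [this, Complex.normSq_eq_norm_sq, norm_pow, hnorm]
    simp
  · rw [if_neg hij, if_neg (by simpa using hij), zero_mul]

lemma weyl_trace_mul {om : ℂ} (hom : IsPrimitiveRoot om n) (k k'' : Fin n × Fin n) (hk : k ≠ k'') :
    Matrix.trace (weylMat om k'' * star (weylMat om k)) = 0 := by
  rw [Matrix.trace_mul_comm]
  rw [Matrix.trace]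
  simp only [Matrix.diag_apply, Matrix.mul_apply, Matrix.star_apply, weylMat_apply]
  by_cases h1 : k.1 = k''.1
  · have h2 : k''.2 ≠ k.2 := fun h => hk (Prod.ext h1 h.symm)
    have h3 : ∀ i j : Fin n, star (if j = i + k.1 then om ^ (k.2.val * i.val) else 0)
        * (if j = i + k''.1 then om ^ (k''.2.val * i.val) else 0)
        = if j = i + k.1 then star (om ^ (k.2.val * i.val)) * om ^ (k''.2.val * i.val) else 0 := by
      intro i j
      rw [← h1]
      split_ifs <;> simp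
    simp only [h3, Finset.sum_ite_eq', Finset.mem_univ, if_true]
    have := weyl_char_sum hom k.2 k''.2
    rw [if_neg h2.symm] at this
    rw [← this]
    exact Finset.sum_congr rfl (fun i _ => by rw [mul_comm k.2.val, mul_comm k''.2.val])
  · apply Finset.sum_eq_zero
    intro i _
    apply Finset.sum_eq_zero
    intro j _
    by_cases h4 : j = i + k.1
    · rw [if_pos h4, if_neg (by rw [h4]; simpa using h1), mul_zero]
    · rw [if_neg h4, star_zero, zero_mul]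

open Fin.NatCast in
lemma weyl_shift_pow (om : ℂ) (r : ℕ) (i j : Fin n) :
    ((weylMat om ((1 : Fin n), (0 : Fin n))) ^ r) i j = if i = j + (r : Fin n) then 1 else 0 := by
  induction r generalizing i j with
  | zero => simp [Matrix.one_apply]
  | succ r ih =>
    rw [pow_succ, Matrix.mul_apply]
    simp only [weylMat_apply, mul_ite, mul_zero, Finset.sum_ite_eq', Finset.mem_univ, if_true]
    rw [ih]
    simp only [Fin.val_zero, zero_mul, pow_zero, mul_one]
    congr 1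
    rw [Nat.cast_succ, add_assoc, add_comm (1 : Fin n)]

open Fin.NatCast in
lemma weyl_shift_trace (om : ℂ) (r : ℕ) (h1 : 1 ≤ r) (h2 : r < n) :
    Matrix.trace ((weylMat (n := n) om ((1 : Fin n), (0 : Fin n))) ^ r) = 0 := by
  rw [Matrix.trace]
  apply Finset.sum_eq_zero
  intro i _
  rw [Matrix.diag_apply, weyl_shift_pow, if_neg]
  intro h
  have h3 : (r : Fin n) = 0 := by simpa using h
  have h4 := congrArg Fin.val h3
  rw [Fin.val_natCast, Nat.mod_eq_of_lt h2] at h4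
  simp at h4
  omega

end Mat

section Alg

variable {A : Type*} [NormedRing A] [StarRing A] [CStarRing A] [NormedAlgebra ℂ A]
  [StarModule ℂ A] {n : ℕ}

/-- the *-homomorphism of the matrix algebra given by matrix units -/
noncomputable def matRep (e : Fin n → Fin n → A) (M : Matrix (Fin n) (Fin n) ℂ) : A :=
  ∑ a, ∑ b, M a b • e a b

omit [StarRing A] [CStarRing A] [StarModule ℂ A] in
lemma matRep_add (e : Fin n → Fin n → A) (M M' : Matrix (Fin n) (Fin n) ℂ) :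
    matRep e (M + M') = matRep e M + matRep e M' := by
  simp only [matRep, Matrix.add_apply, add_smul, Finset.sum_add_distrib]

omit [StarRing A] [CStarRing A] [StarModule ℂ A] in
lemma matRep_zero (e : Fin n → Fin n → A) : matRep e 0 = 0 := by
  simp [matRep]

omit [StarRing A] [CStarRing A] [StarModule ℂ A] in
lemma matRep_sum (e : Fin n → Fin n → A) {ι : Type*} (s : Finset ι)
    (M : ι → Matrix (Fin n) (Fin n) ℂ) :
    matRep e (∑ i ∈ s, M i) = ∑ i ∈ s, matRep e (M i) := by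
  classical
  induction s using Finset.induction_on with
  | empty => simp [matRep_zero]
  | insert i s hi ih => rw [Finset.sum_insert hi, Finset.sum_insert hi, matRep_add, ih]

variable {e : Fin n → Fin n → A} (he : MatUnits A n e)

include he

omit [CStarRing A] [StarModule ℂ A] in
lemma matRep_mul (M M' : Matrix (Fin n) (Fin n) ℂ) :
    matRep e (M * M') = matRep e M * matRep e M' := by
  have hmul : ∀ a b c d, e a b * e c d = if b = c then e a d else 0 := by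
    intro a b c d
    split_ifs with h
    · subst h; exact he.mul_eq _ _ _
    · exact he.mul_ne _ _ _ _ h
  have hrow : ∀ a b, e a b * matRep e M' = ∑ d, M' b d • e a d := by
    intro a b
    rw [matRep, Finset.mul_sum, Finset.sum_eq_single b]
    · rw [Finset.mul_sum]
      exact Finset.sum_congr rfl fun d _ => by rw [mul_smul_comm, hmul, if_pos rfl]
    · intro c _ hc
      rw [Finset.mul_sum]
      exact Finset.sum_eq_zero fun d _ => by rw [mul_smul_comm, hmul, if_neg hc.symm, smul_zero]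
    · intro h; exact absurd (Finset.mem_univ _) h
  rw [matRep, matRep, Finset.sum_mul]
  refine Finset.sum_congr rfl fun a _ => ?_
  rw [Finset.sum_mul]
  simp only [smul_mul_assoc, hrow, Matrix.mul_apply, Finset.sum_smul, Finset.smul_sum, smul_smul]
  exact Finset.sum_comm

omit [CStarRing A] in
lemma matRep_star (M : Matrix (Fin n) (Fin n) ℂ) :
    matRep e (star M) = star (matRep e M) := by
  simp only [matRep, star_sum, star_smul, Matrix.star_apply, he.star_eq]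
  exact Finset.sum_comm

omit [CStarRing A] [StarModule ℂ A] in
lemma matRep_one : matRep e 1 = 1 := by
  rw [← he.sum_eq, matRep]
  refine Finset.sum_congr rfl fun a _ => ?_
  simp [Matrix.one_apply]

omit [CStarRing A] [StarModule ℂ A] in
lemma matRep_pow (M : Matrix (Fin n) (Fin n) ℂ) (r : ℕ) :
    matRep e (M ^ r) = matRep e M ^ r := by
  induction r with
  | zero => simp [matRep_one he]
  | succ r ih => rw [pow_succ, pow_succ, matRep_mul he, ih]

end Alg

/-- Weyl unitaries in a matrix algebra -/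
theorem exists_weyl {A : Type*} [NormedRing A] [StarRing A] [CStarRing A] [NormedAlgebra ℂ A]
    [StarModule ℂ A] {n : ℕ} [NeZero n] {e : Fin n → Fin n → A} (he : MatUnits A n e) (N : ℕ)
    (hN : N < n) : ∃ (w : Fin n × Fin n → unitary A) (k : Fin n × Fin n),
      WeylData w (w k) N ∧ ∃ o, w o = 1 := by
  have hom := Complex.isPrimitiveRoot_exp n (NeZero.ne n)
  set om := Complex.exp (2 * Real.pi * Complex.I / n) with hdef
  have hun : ∀ p : Fin n × Fin n, matRep e (weylMat om p) ∈ unitary A := by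
    intro p
    have h1 := weyl_unit hom p
    have h2 : weylMat om p * star (weylMat om p) = 1 := mul_eq_one_comm.mp h1
    rw [Unitary.mem_iff, ← matRep_star he, ← matRep_mul he, ← matRep_mul he, h1, h2,
      matRep_one he]
    exact ⟨rfl, rfl⟩
  have hsum : ∀ T : Matrix (Fin n) (Fin n) ℂ, Matrix.trace T = 0 →
      ∑ p : Fin n × Fin n, star (matRep e (weylMat om p)) * matRep e T * matRep e (weylMat om p)
        = 0 := by
    intro T hT
    have h := congrArg (matRep e) (weyl_twirl hom T)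
    rw [hT, mul_zero, zero_smul, matRep_zero, matRep_sum] at h
    rw [← h]
    refine Finset.sum_congr rfl fun p _ => ?_
    rw [matRep_mul he, matRep_mul he, matRep_star he]
  refine ⟨fun p => ⟨matRep e (weylMat om p), hun p⟩, (1, 0), ⟨?_, ?_⟩, (0, 0), ?_⟩
  · intro k k'' hk
    have h := hsum _ (weyl_trace_mul hom k k'' hk)
    rw [matRep_mul he, matRep_star he] at h
    exact h
  · intro r h1 h2
    have h := hsum _ (weyl_shift_trace om r h1 (lt_of_le_of_lt h2 hN))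
    rw [matRep_pow he] at h
    exact h
  · apply Subtype.ext
    change matRep e (weylMat om (0, 0)) = 1
    rw [← matRep_one he]
    congr 1
    ext i j
    rw [weylMat_apply, Matrix.one_apply]
    simp

end Vale.Agent.P082.KR
end

section
attribute [local instance] Vale.Agent.P082.AlgFast.nr Vale.Agent.P082.AlgFast.na
  Vale.Agent.P082.AlgFast.sr Vale.Agent.P082.AlgFast.ng Vale.Agent.P082.AlgFast.sg
  Vale.Agent.P082.AlgFast.ns Vale.Agent.P082.AlgFast.ri Vale.Agent.P082.AlgFast.ag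
  Vale.Agent.P082.AlgFast.am Vale.Agent.P082.AlgFast.mo Vale.Agent.P082.AlgFast.pm
  Vale.Agent.P082.AlgFast.us Vale.Agent.P082.AlgFast.ts Vale.Agent.P082.AlgFast.ets
  Vale.Agent.P082.AlgFast.eng Vale.Agent.P082.AlgFast.esg Vale.Agent.P082.AlgFast.ens
  Vale.Agent.P082.AlgFast.eam Vale.Agent.P082.AlgFast.emo Vale.Agent.P082.AlgFast.nu
  Vale.Agent.P082.AlgFast.sag Vale.Agent.P082.AlgFast.agr Vale.Agent.P082.AlgFast.mon
  Vale.Agent.P082.AlgFast.srg

open scoped Topology InnerProductSpace ComplexConjugate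

namespace Vale.Agent.P082.KR

open Vale.Agent.P082 Filter

universe u

section stat

variable {G : Type*} [Group G] {ι : Type*} [Fintype ι] [Nonempty ι] (b : ι → G)

/-- Cesaro means are almost stationary -/
lemma cesaro_stat (n : ℕ) (F : G → ℂ) :
    (Fintype.card ι : ℂ)⁻¹ * ∑ i, cesaro b n (fun u => F (u * b i)) - cesaro b n F
      = ((n + 1 : ℕ) : ℂ)⁻¹ * (walk b (n + 1) F - walk b 0 F) := by
  have h1 : (Fintype.card ι : ℂ)⁻¹ * ∑ i, cesaro b n (fun u => F (u * b i))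
      = ((n + 1 : ℕ) : ℂ)⁻¹ * ∑ l ∈ Finset.range (n + 1), walk b (l + 1) F := by
    simp only [cesaro_apply, walk_succ]
    rw [← Finset.mul_sum, Finset.sum_comm]
    simp only [← Finset.mul_sum]
    ring
  rw [h1, cesaro_apply, ← mul_sub, ← Finset.sum_sub_distrib,
    Finset.sum_range_sub (fun l => walk b l F)]

/-- the ultralimit of the Cesaro means is stationary -/
lemma ultra_cesaro_stat (F : G → ℂ) (hF : Bdd F) :
    (Fintype.card ι : ℂ)⁻¹ * ∑ i, (Mean.ultra (Filter.hyperfilter ℕ) (cesaro b))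
        (fun u => F (u * b i)) = Mean.ultra (Filter.hyperfilter ℕ) (cesaro b) F := by
  obtain ⟨C, hC⟩ := hF
  have hb : ∀ c : G, Bdd (fun u => F (u * c)) := fun c => ⟨C, fun u => hC _⟩
  have h1 : Filter.Tendsto (fun n => (Fintype.card ι : ℂ)⁻¹ * ∑ i,
      cesaro b n (fun u => F (u * b i)) - cesaro b n F) (Filter.hyperfilter ℕ : Filter ℕ)
      (𝓝 ((Fintype.card ι : ℂ)⁻¹ * ∑ i, (Mean.ultra (Filter.hyperfilter ℕ) (cesaro b))
        (fun u => F (u * b i)) - Mean.ultra (Filter.hyperfilter ℕ) (cesaro b) F)) := by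
    refine Filter.Tendsto.sub (Filter.Tendsto.const_mul _ (tendsto_finsetSum _ (fun i _ => ?_)))
      (Mean.tendsto_ultra _ _ ⟨C, hC⟩)
    exact Mean.tendsto_ultra _ _ (hb (b i))
  have h2 : Filter.Tendsto (fun n => (Fintype.card ι : ℂ)⁻¹ * ∑ i,
      cesaro b n (fun u => F (u * b i)) - cesaro b n F) (Filter.hyperfilter ℕ : Filter ℕ)
      (𝓝 0) := by
    refine Filter.Tendsto.mono_left ?_ Nat.hyperfilter_le_atTop
    have h3 : Filter.Tendsto (fun n : ℕ => ((n + 1 : ℕ) : ℝ)⁻¹ * (C + C)) Filter.atTop (𝓝 0) := by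
      have : Filter.Tendsto (fun n : ℕ => ((n + 1 : ℕ) : ℝ)⁻¹) Filter.atTop (𝓝 0) := by
        exact tendsto_inv_atTop_zero.comp
          (tendsto_natCast_atTop_atTop.comp (Filter.tendsto_add_atTop_nat 1))
      simpa using this.mul_const (C + C)
    refine squeeze_zero_norm (fun n => ?_) h3
    rw [cesaro_stat, norm_mul, norm_inv, Complex.norm_natCast]
    gcongr
    exact (norm_sub_le _ _).trans
      (add_le_add ((walk b (n + 1)).norm_le F C hC) ((walk b 0).norm_le F C hC))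
  exact sub_eq_zero.mp (tendsto_nhds_unique h1 h2)

end stat

variable {H : Type u} [NormedAddCommGroup H] [InnerProductSpace ℂ H] [CompleteSpace H]

/-- `Φ(c) = a (φ (c ·))` -/
noncomputable def phiOf {A : Type*} [NormedRing A] [NormedAlgebra ℂ A]
    (a : (A →L[ℂ] A) →L[ℂ] A) (φ : A →L[ℂ] A) : A →L[ℂ] A :=
  a.comp (((ContinuousLinearMap.compL ℂ A A A) φ).comp (ContinuousLinearMap.mul ℂ A))

lemma phiOf_apply {A : Type*} [NormedRing A] [NormedAlgebra ℂ A]
    (a : (A →L[ℂ] A) →L[ℂ] A) (φ : A →L[ℂ] A) (c : A) :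
    phiOf a φ c = a (φ.comp (mulL c)) := rfl

lemma norm_le_of_inner (P : VonNeumannAlgebra H) (T : Alg P) {C : ℝ} (hC : 0 ≤ C)
    (h : ∀ β α : H, ‖⟪β, (T : H →L[ℂ] H) α⟫_ℂ‖ ≤ C * ‖β‖ * ‖α‖) : ‖T‖ ≤ C := by
  have : ‖(T : H →L[ℂ] H)‖ ≤ C := by
    refine ContinuousLinearMap.opNorm_le_bound _ hC (fun α => ?_)
    by_cases h0 : ‖(T : H →L[ℂ] H) α‖ = 0
    · rw [h0]; positivity
    · have h0' : 0 < ‖(T : H →L[ℂ] H) α‖ := lt_of_le_of_ne (norm_nonneg _) (Ne.symm h0)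
      have h3 : ‖⟪(T : H →L[ℂ] H) α, (T : H →L[ℂ] H) α⟫_ℂ‖
          = ‖(T : H →L[ℂ] H) α‖ * ‖(T : H →L[ℂ] H) α‖ := by
        rw [inner_self_eq_norm_sq_to_K]
        simp [sq]
      have h1 := h ((T : H →L[ℂ] H) α) α
      rw [h3] at h1
      have h4 : ‖(T : H →L[ℂ] H) α‖ * ‖(T : H →L[ℂ] H) α‖
          ≤ (C * ‖α‖) * ‖(T : H →L[ℂ] H) α‖ := by
        refine h1.trans (le_of_eq (by ring))
      exact le_of_mul_le_mul_right h4 h0'
  exact this

/-- data of an averaging functional given by a mean on the unitary group -/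
structure MeanAvgData (P : VonNeumannAlgebra H) (m : Mean (unitary (Alg P)))
    (a : (Alg P →L[ℂ] Alg P) →L[ℂ] Alg P) : Prop where
  isAvg : IsAvg a
  formula : ∀ β φ α, ⟪β, (a φ : H →L[ℂ] H) α⟫_ℂ
        = m (fun t => ⟪β, ((φ (star (t : Alg P)) * (t : Alg P) : Alg P) : H →L[ℂ] H) α⟫_ℂ)

lemma exists_meanAvgData (P : VonNeumannAlgebra H) (m : Mean (unitary (Alg P))) :
    ∃ a, MeanAvgData P m a := by
  obtain ⟨a, ha, hf⟩ := exists_mean_avg P m (fun t => (t : Alg P))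
    (fun t => Unitary.star_mul_self_of_mem t.2)
  exact ⟨a, ha, hf⟩

section

variable {P : VonNeumannAlgebra H} {m : Mean (unitary (Alg P))}
  {a : (Alg P →L[ℂ] Alg P) →L[ℂ] Alg P}

lemma MeanAvgData.norm_le (h : MeanAvgData P m a) (φ : Alg P →L[ℂ] Alg P) : ‖a φ‖ ≤ ‖φ‖ := by
  refine norm_le_of_inner P (a φ) (norm_nonneg _) (fun β α => ?_)
  rw [h.formula]
  refine m.norm_le _ _ (fun t => (norm_inner_apply_le _ _ _).trans ?_)
  have h1 : ‖((φ (star (t : Alg P)) * (t : Alg P) : Alg P) : H →L[ℂ] H)‖ ≤ ‖φ‖ :=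
    norm_twist_le P (Unitary.star_mul_self_of_mem t.2) φ
  gcongr

lemma norm_unitary_alg (t : unitary (Alg P)) : ‖(t : Alg P)‖ ≤ 1 :=
  norm_le_one_of_star_mul_self P (Unitary.star_mul_self_of_mem t.2)

/-- the values of the mean formula of `Φ(c)` -/
lemma norm_comp_twist_le (φ : Alg P →L[ℂ] Alg P) (c : Alg P) (t : unitary (Alg P)) :
    ‖φ (c * star (t : Alg P)) * (t : Alg P)‖ ≤ ‖φ‖ * ‖c‖ := by
  have h1 := norm_unitary_alg t
  have h2 : ‖star (t : Alg P)‖ ≤ 1 := by rw [norm_star_alg]; exact h1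
  calc ‖φ (c * star (t : Alg P)) * (t : Alg P)‖
      ≤ ‖φ (c * star (t : Alg P))‖ * ‖(t : Alg P)‖ := norm_mul_le _ _
    _ ≤ (‖φ‖ * (‖c‖ * 1)) * 1 := by
        gcongr
        refine (φ.le_opNorm _).trans ?_
        gcongr
        refine (norm_mul_le _ _).trans ?_
        gcongr
    _ = ‖φ‖ * ‖c‖ := by ring

lemma MeanAvgData.phi_formula (h : MeanAvgData P m a) (φ : Alg P →L[ℂ] Alg P) (c : Alg P)
    (β α : H) : ⟪β, (phiOf a φ c : H →L[ℂ] H) α⟫_ℂ
      = m (fun t => ⟪β, ((φ (c * star (t : Alg P)) * (t : Alg P) : Alg P) : H →L[ℂ] H) α⟫_ℂ) := by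
  rw [phiOf_apply, h.formula]
  rfl

lemma MeanAvgData.phi_norm (h : MeanAvgData P m a) (φ : Alg P →L[ℂ] Alg P) (c : Alg P) :
    ‖phiOf a φ c‖ ≤ ‖φ‖ * ‖c‖ := by
  rw [phiOf_apply]
  refine (h.norm_le _).trans ((ContinuousLinearMap.opNorm_comp_le _ _).trans ?_)
  gcongr
  exact ContinuousLinearMap.opNorm_mul_apply_le ℂ (Alg P) c

/-- trace pairing of `Φ(c)` -/
lemma MeanAvgData.tr_phi (h : MeanAvgData P m a) (φ : Alg P →L[ℂ] Alg P) (c : Alg P)
    {Xi : ℕ → H} (hs : Summable fun n => ‖Xi n‖ ^ 2) (y : Alg P) :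
    ⟪vecV P hs 1, vecV P hs (phiOf a φ c * y)⟫_ℂ
      = m (fun t => ⟪vecV P hs 1,
          vecV P hs (φ (c * star (t : Alg P)) * (t : Alg P) * y)⟫_ℂ) :=
  tr_mean P hs m (fun t : unitary (Alg P) => φ (c * star (t : Alg P)) * (t : Alg P))
    (‖φ‖ * ‖c‖) (fun t => norm_comp_twist_le φ c t) (phiOf a φ c)
    (fun β α => h.phi_formula φ c β α) y

/-- a bound for `V Φ(c)` -/
lemma MeanAvgData.norm_V_phi_le (h : MeanAvgData P m a) (φ : Alg P →L[ℂ] Alg P) (c : Alg P)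
    {Xi : ℕ → H} (hs : Summable fun n => ‖Xi n‖ ^ 2)
    (htr : ∀ x ∈ P, ∀ y ∈ P,
      ∑' n, ⟪Xi n, x (y (Xi n))⟫_ℂ = ∑' n, ⟪Xi n, y (x (Xi n))⟫_ℂ) {M : ℝ}
    (hM : ∀ t : unitary (Alg P),
      ‖vecV P hs (φ (c * star (t : Alg P)) * (t : Alg P))‖ ≤ M) :
    ‖vecV P hs (phiOf a φ c)‖ ≤ M := by
  set R := trRep P hs htr with hR
  have hRV : ∀ x, R.V x = vecV P hs x := fun x => rfl
  set T := phiOf a φ c with hT
  have h1 : ((‖vecV P hs T‖ ^ 2 : ℝ) : ℂ) = m (fun t => ⟪vecV P hs T,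
      vecV P hs (φ (c * star (t : Alg P)) * (t : Alg P))⟫_ℂ) := by
    have h2 := R.norm_sq T
    simp only [hRV] at h2
    rw [h2, ← hRV 1, ← hRV (star T * T), R.tracial, hRV, hRV, h.tr_phi φ c hs (star T)]
    congr 1
    funext t
    rw [← hRV 1, ← hRV (_ * star T), R.tracial, R.adj, star_star, mul_one]
    rfl
  have h3 : ‖((‖vecV P hs T‖ ^ 2 : ℝ) : ℂ)‖ ≤ ‖vecV P hs T‖ * M := by
    rw [h1]
    refine m.norm_le _ _ (fun t => (norm_inner_le_norm _ _).trans ?_)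
    gcongr
    exact hM t
  rw [Complex.norm_real, Real.norm_of_nonneg (by (clear * -; positivity)), sq] at h3
  have hM0 : 0 ≤ M := (norm_nonneg _).trans (hM 1)
  by_cases h0 : ‖vecV P hs T‖ = 0
  · rw [h0]; exact hM0
  · exact le_of_mul_le_mul_left h3 (lt_of_le_of_ne (norm_nonneg _) (Ne.symm h0))

/-- harmonicity of `Φ` -/
lemma MeanAvgData.harm {ι : Type*} [Fintype ι] [Nonempty ι] {b : ι → unitary (Alg P)}
    (hsymm : ∃ σ : ι → ι, Function.Bijective σ ∧ ∀ i, b (σ i) = (b i)⁻¹)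
    (hm : ∀ F : unitary (Alg P) → ℂ, Bdd F →
      (Fintype.card ι : ℂ)⁻¹ * ∑ i, m (fun u => F (u * b i)) = m F)
    (h : MeanAvgData P m a) (φ : Alg P →L[ℂ] Alg P) : Harm b (phiOf a φ) ‖φ‖ := by
  refine ⟨hsymm, fun x => ?_, fun x => h.phi_norm φ x⟩
  refine alg_ext P (fun β α => ?_)
  have hL := avg_map' (fun T : Alg P => ⟪β, (T : H →L[ℂ] H) α⟫_ℂ)
    (fun x y => by
      rw [← inner_add_right]; rfl)
    (fun c x => by
      have : ((c • x : Alg P) : H →L[ℂ] H) α = (c : ℂ) • ((x : H →L[ℂ] H) α) := rfl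
      rw [this, inner_smul_right]
      rfl)
    (fun i => phiOf a φ (x * (b i : Alg P)) * star (b i : Alg P))
  rw [hL, h.phi_formula]
  have hbd : Bdd (fun t : unitary (Alg P) =>
      ⟪β, ((φ (x * star (t : Alg P)) * (t : Alg P) : Alg P) : H →L[ℂ] H) α⟫_ℂ) := by
    refine ⟨‖φ‖ * ‖x‖ * ‖β‖ * ‖α‖, fun t => (norm_inner_apply_le _ _ _).trans ?_⟩
    have h1 : ‖((φ (x * star (t : Alg P)) * (t : Alg P) : Alg P) : H →L[ℂ] H)‖ ≤ ‖φ‖ * ‖x‖ :=
      norm_comp_twist_le φ x t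
    (clear * - h1; gcongr)
  rw [← hm _ hbd]
  obtain ⟨σ, hσ, hb⟩ := hsymm
  have h2 : ∀ i, ⟪β, ((phiOf a φ (x * (b i : Alg P)) * star (b i : Alg P) : Alg P) :
      H →L[ℂ] H) α⟫_ℂ = m (fun u => ⟪β, ((φ (x * star ((u * b (σ i) : unitary (Alg P)) : Alg P))
        * ((u * b (σ i) : unitary (Alg P)) : Alg P) : Alg P) : H →L[ℂ] H) α⟫_ℂ) := by
    intro i
    have h3 : ⟪β, ((phiOf a φ (x * (b i : Alg P)) * star (b i : Alg P) : Alg P) :
      H →L[ℂ] H) α⟫_ℂ = ⟪β, ((phiOf a φ (x * (b i : Alg P)) : Alg P) :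
      H →L[ℂ] H) (((star (b i : Alg P) : Alg P) : H →L[ℂ] H) α)⟫_ℂ := rfl
    rw [h3, h.phi_formula]
    congr 1
    funext u
    rw [hb]
    have h4 : (φ (x * star ((u * (b i)⁻¹ : unitary (Alg P)) : Alg P))
        * ((u * (b i)⁻¹ : unitary (Alg P)) : Alg P) : Alg P)
        = (φ (x * (b i : Alg P) * star (u : Alg P)) * (u : Alg P)) * star (b i : Alg P) := by
      have h5 : ((u * (b i)⁻¹ : unitary (Alg P)) : Alg P) = (u : Alg P) * star (b i : Alg P) := rfl
      rw [h5, star_mul, star_star]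
      simp only [mul_assoc]
    rw [h4]
    rfl
  unfold avg
  simp only [h2]
  rw [Function.Bijective.sum_comp hσ (fun i => m (fun u => ⟪β,
    ((φ (x * star ((u * b i : unitary (Alg P)) : Alg P))
        * ((u * b i : unitary (Alg P)) : Alg P) : Alg P) : H →L[ℂ] H) α⟫_ℂ))]
  rw [Complex.real_smul]
  push_cast
  rfl

/-- steps `s_o w_κ (s_j w_j)⁻¹` -/
noncomputable def gst {G S Q : Type*} [Group G] (s : S → G) (w : Q → G) (o : S)
    (r : Q × (S × Q)) : G := dbl (stepU s w) ((o, r.1), r.2)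

/-- the mean pushed by the inverses of the steps with first index `o` -/
noncomputable def mpp {G S Q : Type*} [Group G] [Fintype S] [Fintype Q] [Nonempty S] [Nonempty Q]
    (m : Mean G) (s : S → G) (w : Q → G) (o : S) : Mean G :=
  Mean.avg (fun r : Q × (S × Q) => m.map (fun u => u * (gst s w o r)⁻¹))

lemma mpp_apply {G S Q : Type*} [Group G] [Fintype S] [Fintype Q] [Nonempty S] [Nonempty Q]
    (m : Mean G) (s : S → G) (w : Q → G) (o : S) (F : G → ℂ) :
    mpp m s w o F = avg (fun r : Q × (S × Q) => m (fun u => F (u * (gst s w o r)⁻¹))) := by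
  have h : mpp m s w o F = (Fintype.card (Q × (S × Q)) : ℂ)⁻¹ *
      ∑ r : Q × (S × Q), m (fun u => F (u * (gst s w o r)⁻¹)) := rfl
  rw [h]
  unfold avg
  rw [Complex.real_smul]
  push_cast
  rfl

/-- averages over the steps with a fixed first index -/
lemma avg_gst_le {S Q : Type*} [Fintype S] [Fintype Q] [Nonempty S] [Nonempty Q]
    (X : (S × Q) × (S × Q) → ℝ) (hX : ∀ p, 0 ≤ X p) (i : S) :
    avg (fun r : Q × (S × Q) => X ((i, r.1), r.2)) ≤ (Fintype.card S : ℝ) * avg X := by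
  have h1 : avg X = avg (fun i : S => avg (fun r : Q × (S × Q) => X ((i, r.1), r.2))) := by
    rw [avg_prod, avg_prod]
    congr 1
    funext i
    rw [avg_prod]
  rw [h1]
  exact le_card_mul_avg (F := fun i : S => avg (fun r : Q × (S × Q) => X ((i, r.1), r.2)))
    (fun i => avg_nonneg (fun r => hX _)) i

lemma avg_le_sqrt {ι : Type*} [Fintype ι] [Nonempty ι] (X : ι → ℝ) {c : ℝ}
    (h : avg (fun i => X i ^ 2) ≤ c) : avg X ≤ Real.sqrt c := by
  refine Real.le_sqrt_of_sq_le ?_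
  exact (sq_avg_le X).trans h

/-- the estimate of section 7 for one step -/
lemma MeanAvgData.mpp_diff (h : MeanAvgData P m a) (φ : Alg P →L[ℂ] Alg P)
    {S Q : Type*} [Fintype S] [Fintype Q] [Nonempty S] [Nonempty Q]
    (s : S → unitary (Alg P)) (w : Q → unitary (Alg P)) (o i : S) (ho : s o = 1)
    {Xi : ℕ → H} (hs : Summable fun n => ‖Xi n‖ ^ 2)
    (htr : ∀ x ∈ P, ∀ y ∈ P,
      ∑' n, ⟪Xi n, x (y (Xi n))⟫_ℂ = ∑' n, ⟪Xi n, y (x (Xi n))⟫_ℂ) (y : Alg P) {ε : ℝ}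
    (hen : avg (fun p => ‖vecV P hs (phiOf a φ (dbl (stepU s w) p : unitary (Alg P))
          * star ((dbl (stepU s w) p : unitary (Alg P)) : Alg P) - phiOf a φ 1)‖ ^ 2) ≤ ε) :
    ‖mpp m s w o (fun u => ⟪vecV P hs 1, vecV P hs
          (φ ((s i : Alg P) * star (u : Alg P)) * (u : Alg P) * y)⟫_ℂ)
        - mpp m s w o (fun u => ⟪vecV P hs 1, vecV P hs
          (φ (star (u : Alg P)) * (u : Alg P) * ((s i : Alg P) * y))⟫_ℂ)‖
      ≤ ‖vecV P hs 1‖ * ‖y‖ * (2 * Real.sqrt ((Fintype.card S : ℝ) * ε)) := by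
  set R := trRep P hs htr with hR
  have hRV : ∀ x, R.V x = vecV P hs x := fun x => rfl
  set Y : (S × Q) × (S × Q) → ℝ := fun p =>
    ‖vecV P hs (phiOf a φ (dbl (stepU s w) p : unitary (Alg P))
          * star ((dbl (stepU s w) p : unitary (Alg P)) : Alg P) - phiOf a φ 1)‖ with hY
  -- the first mean
  have e1 : ∀ r : Q × (S × Q), m (fun u => ⟪vecV P hs 1, vecV P hs
          (φ ((s i : Alg P) * star ((u * (gst s w o r)⁻¹ : unitary (Alg P)) : Alg P))
            * ((u * (gst s w o r)⁻¹ : unitary (Alg P)) : Alg P) * y)⟫_ℂ)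
      = ⟪vecV P hs 1, vecV P hs (phiOf a φ (dbl (stepU s w) ((i, r.1), r.2) : unitary (Alg P))
          * star ((dbl (stepU s w) ((i, r.1), r.2) : unitary (Alg P)) : Alg P)
          * ((s i : Alg P) * y))⟫_ℂ := by
    intro r
    have h1 : ((dbl (stepU s w) ((i, r.1), r.2) : unitary (Alg P)) : Alg P)
        = (s i : Alg P) * ((gst s w o r : unitary (Alg P)) : Alg P) := by
      have : (dbl (stepU s w) ((i, r.1), r.2) : unitary (Alg P)) = s i * gst s w o r := by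
        simp only [gst, dbl, stepU, ho, one_mul, mul_assoc]
      rw [this]; rfl
    have h2 : phiOf a φ (dbl (stepU s w) ((i, r.1), r.2) : unitary (Alg P))
          * star ((dbl (stepU s w) ((i, r.1), r.2) : unitary (Alg P)) : Alg P)
          * ((s i : Alg P) * y)
        = phiOf a φ ((s i : Alg P) * ((gst s w o r : unitary (Alg P)) : Alg P)) *
          (star ((gst s w o r : unitary (Alg P)) : Alg P) * y) := by
      rw [h1, star_mul]
      have : star ((gst s w o r : unitary (Alg P)) : Alg P) * star (s i : Alg P) * ((s i : Alg P) * y)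
          = star ((gst s w o r : unitary (Alg P)) : Alg P) * y := by
        rw [mul_assoc, star_mul_cancel_u]
      rw [mul_assoc, this]
    rw [h2, h.tr_phi φ _ hs]
    congr 1
    funext u
    have h3 : ((u * (gst s w o r)⁻¹ : unitary (Alg P)) : Alg P)
        = (u : Alg P) * star ((gst s w o r : unitary (Alg P)) : Alg P) := rfl
    rw [h3, star_mul, star_star]
    simp only [mul_assoc]
  have e2 : ∀ r : Q × (S × Q), m (fun u => ⟪vecV P hs 1, vecV P hs
          (φ (star ((u * (gst s w o r)⁻¹ : unitary (Alg P)) : Alg P))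
            * ((u * (gst s w o r)⁻¹ : unitary (Alg P)) : Alg P) * ((s i : Alg P) * y))⟫_ℂ)
      = ⟪vecV P hs 1, vecV P hs (phiOf a φ (dbl (stepU s w) ((o, r.1), r.2) : unitary (Alg P))
          * star ((dbl (stepU s w) ((o, r.1), r.2) : unitary (Alg P)) : Alg P)
          * ((s i : Alg P) * y))⟫_ℂ := by
    intro r
    have h2 : phiOf a φ (dbl (stepU s w) ((o, r.1), r.2) : unitary (Alg P))
          * star ((dbl (stepU s w) ((o, r.1), r.2) : unitary (Alg P)) : Alg P)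
          * ((s i : Alg P) * y)
        = phiOf a φ ((gst s w o r : unitary (Alg P)) : Alg P) *
          (star ((gst s w o r : unitary (Alg P)) : Alg P) * ((s i : Alg P) * y)) := by
      rw [mul_assoc]; rfl
    rw [h2, h.tr_phi φ _ hs]
    congr 1
    funext u
    have h3 : ((u * (gst s w o r)⁻¹ : unitary (Alg P)) : Alg P)
        = (u : Alg P) * star ((gst s w o r : unitary (Alg P)) : Alg P) := rfl
    rw [h3, star_mul, star_star]
    simp only [mul_assoc]
  rw [mpp_apply, mpp_apply]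
  simp only [e1, e2]
  rw [← avg_sub]
  refine (norm_avg_le _).trans ?_
  have e3 : ∀ r : Q × (S × Q),
      ‖⟪vecV P hs 1, vecV P hs (phiOf a φ (dbl (stepU s w) ((i, r.1), r.2) : unitary (Alg P))
          * star ((dbl (stepU s w) ((i, r.1), r.2) : unitary (Alg P)) : Alg P)
          * ((s i : Alg P) * y))⟫_ℂ
        - ⟪vecV P hs 1, vecV P hs (phiOf a φ (dbl (stepU s w) ((o, r.1), r.2) : unitary (Alg P))
          * star ((dbl (stepU s w) ((o, r.1), r.2) : unitary (Alg P)) : Alg P)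
          * ((s i : Alg P) * y))⟫_ℂ‖
      ≤ ‖vecV P hs 1‖ * ‖y‖ * (Y ((i, r.1), r.2) + Y ((o, r.1), r.2)) := by
    intro r
    set z1 := phiOf a φ (dbl (stepU s w) ((i, r.1), r.2) : unitary (Alg P))
          * star ((dbl (stepU s w) ((i, r.1), r.2) : unitary (Alg P)) : Alg P) with hz1
    set z2 := phiOf a φ (dbl (stepU s w) ((o, r.1), r.2) : unitary (Alg P))
          * star ((dbl (stepU s w) ((o, r.1), r.2) : unitary (Alg P)) : Alg P) with hz2
    set y' := (s i : Alg P) * y with hy'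
    have h1 : ⟪vecV P hs 1, vecV P hs (z1 * y')⟫_ℂ - ⟪vecV P hs 1, vecV P hs (z2 * y')⟫_ℂ
        = ⟪vecV P hs (star y'), vecV P hs ((z1 - phiOf a φ 1) - (z2 - phiOf a φ 1))⟫_ℂ := by
      rw [← inner_sub_right, ← map_sub, ← sub_mul]
      have h2 := R.tracial (z1 - z2) y'
      have h3 := R.adj 1 (z1 - z2) y'
      simp only [hRV, mul_one] at h2 h3
      rw [h2, h3]
      congr 2
      abel
    rw [h1]
    refine (norm_inner_le_norm _ _).trans ?_
    have h4 : ‖vecV P hs (star y')‖ ≤ ‖vecV P hs 1‖ * ‖y‖ := by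
      have h5 := norm_V_star R y'
      have h6 := norm_V_u_mul R y (s i)
      have h7 := norm_V_le R y
      simp only [hRV] at h5 h6 h7
      rw [h5, hy', h6]
      refine h7.trans (le_of_eq (mul_comm _ _))
    have h8 : ‖vecV P hs ((z1 - phiOf a φ 1) - (z2 - phiOf a φ 1))‖
        ≤ Y ((i, r.1), r.2) + Y ((o, r.1), r.2) := by
      rw [map_sub]
      exact norm_sub_le _ _
    (clear * - h4 h8; gcongr)
  refine (avg_mono e3).trans ?_
  rw [avg_mul_left, avg_add]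
  have hY2 : avg (fun p => Y p ^ 2) ≤ ε := hen
  have hY0 : ∀ p, 0 ≤ Y p ^ 2 := fun p => by (clear * -; positivity)
  have e4 : ∀ i' : S, avg (fun r : Q × (S × Q) => Y ((i', r.1), r.2))
      ≤ Real.sqrt ((Fintype.card S : ℝ) * ε) := by
    intro i'
    refine avg_le_sqrt _ ?_
    refine (avg_gst_le (fun p => Y p ^ 2) hY0 i').trans ?_
    gcongr
  have e5 := e4 i
  have e6 := e4 o
  gcongr
  linarith only [e5, e6]

end

end Vale.Agent.P082.KR
end

section
attribute [local instance] Vale.Agent.P082.AlgFast.nr Vale.Agent.P082.AlgFast.na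
  Vale.Agent.P082.AlgFast.sr Vale.Agent.P082.AlgFast.ng Vale.Agent.P082.AlgFast.sg
  Vale.Agent.P082.AlgFast.ns Vale.Agent.P082.AlgFast.ri Vale.Agent.P082.AlgFast.ag
  Vale.Agent.P082.AlgFast.am Vale.Agent.P082.AlgFast.mo Vale.Agent.P082.AlgFast.pm
  Vale.Agent.P082.AlgFast.us Vale.Agent.P082.AlgFast.ts Vale.Agent.P082.AlgFast.ets
  Vale.Agent.P082.AlgFast.eng Vale.Agent.P082.AlgFast.esg Vale.Agent.P082.AlgFast.ens
  Vale.Agent.P082.AlgFast.eam Vale.Agent.P082.AlgFast.emo Vale.Agent.P082.AlgFast.nu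
  Vale.Agent.P082.AlgFast.sag Vale.Agent.P082.AlgFast.agr Vale.Agent.P082.AlgFast.mon
  Vale.Agent.P082.AlgFast.srg

open scoped Topology InnerProductSpace ComplexConjugate

namespace Vale.Agent.P082.KR

open Vale.Agent.P082 Filter

universe u

variable {H : Type u} [NormedAddCommGroup H] [InnerProductSpace ℂ H] [CompleteSpace H]

instance (P : VonNeumannAlgebra H) : CompleteSpace (Alg P) :=
  (vna_isClosed P).completeSpace_coe

/-- `φ` is tame: continuous from the unit ball with the trace norms to the trace norms -/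
def NTame (P : VonNeumannAlgebra H) {T : Type*} {Xi : T → ℕ → H}
    (hs : ∀ j, Summable fun n => ‖Xi j n‖ ^ 2) (φ : Alg P →L[ℂ] Alg P) : Prop :=
  ∀ j, ∀ ε : ℝ, 0 < ε → ∃ F : Finset T, ∃ C' : ℝ, 0 ≤ C' ∧ ∀ x : Alg P,
    ‖vecV P (hs j) (φ x)‖ ≤ ε * ‖x‖ + C' * ∑ i ∈ F, ‖vecV P (hs i) x‖

/-- a finite direct sum of tracial representations -/
theorem exists_traceSum (P : VonNeumannAlgebra H) {T : Type*} {Xi : T → ℕ → H}
    (hs : ∀ j, Summable fun n => ‖Xi j n‖ ^ 2)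
    (htr : ∀ j, ∀ x ∈ P, ∀ y ∈ P,
      ∑' n, ⟪Xi j n, x (y (Xi j n))⟫_ℂ = ∑' n, ⟪Xi j n, y (x (Xi j n))⟫_ℂ) (F : Finset T) :
    ∃ (K' : Type u) (_ : NormedAddCommGroup K') (_ : InnerProductSpace ℂ K')
      (_ : CompleteSpace K') (R' : TraceRep (Alg P) K'),
      ∀ i ∈ F, ∀ x, ‖vecV P (hs i) x‖ ≤ ‖R'.V x‖ := by
  classical
  let t : Fin F.card → T := fun i => (F.equivFin.symm i : T)
  let R : ∀ i : Fin F.card, TraceRep (Alg P) (lp (fun _ : ℕ => H) 2) :=
    fun i => trRep P (hs (t i)) (htr (t i))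
  let V' : Alg P →ₗ[ℂ] PiLp 2 (fun _ : Fin F.card => lp (fun _ : ℕ => H) 2) :=
    { toFun := fun x => WithLp.toLp 2 (fun i => (R i).V x)
      map_add' := fun x y => by
        ext i : 1
        simp
      map_smul' := fun c x => by
        ext i : 1
        simp }
  have hV : ∀ x i, V' x i = (R i).V x := fun x i => rfl
  have hin : ∀ x y, ⟪V' x, V' y⟫_ℂ = ∑ i, ⟪(R i).V x, (R i).V y⟫_ℂ := by
    intro x y
    rw [PiLp.inner_apply]
    rfl
  have hnorm : ∀ x, ‖V' x‖ ^ 2 = ∑ i, ‖(R i).V x‖ ^ 2 := by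
    intro x
    rw [PiLp.norm_sq_eq_of_L2]
    rfl
  refine ⟨PiLp 2 (fun _ : Fin F.card => lp (fun _ : ℕ => H) 2), inferInstance, inferInstance,
    inferInstance, ⟨V', ?_, ?_, ?_⟩, ?_⟩
  · intro x y
    have h : ‖V' (x * y)‖ ^ 2 ≤ (‖x‖ * ‖V' y‖) ^ 2 := by
      rw [mul_pow, hnorm, hnorm, Finset.mul_sum]
      refine Finset.sum_le_sum (fun i _ => ?_)
      rw [← mul_pow]
      gcongr
      exact (R i).norm_mul_le x y
    exact le_of_sq_le_sq h (by (clear * -; positivity))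
  · intro x y z
    rw [hin, hin]
    exact Finset.sum_congr rfl (fun i _ => (R i).adj x y z)
  · intro x y
    rw [hin, hin]
    exact Finset.sum_congr rfl (fun i _ => (R i).tracial x y)
  · intro i hi x
    have h1 : t (F.equivFin ⟨i, hi⟩) = i := by simp [t]
    have h2 : ‖vecV P (hs i) x‖ = ‖(R (F.equivFin ⟨i, hi⟩)).V x‖ := by
      change _ = ‖vecV P (hs (t (F.equivFin ⟨i, hi⟩))) x‖
      rw [h1]
    rw [h2]
    have h3 : ‖(R (F.equivFin ⟨i, hi⟩)).V x‖ ^ 2 ≤ ‖V' x‖ ^ 2 := by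
      rw [hnorm]
      exact Finset.single_le_sum (f := fun i => ‖(R i).V x‖ ^ 2) (fun _ _ => by (clear * -; positivity))
        (Finset.mem_univ _)
    exact le_of_sq_le_sq h3 (norm_nonneg _)

/-- tameness of `Φ` -/
lemma MeanAvgData.tame {P : VonNeumannAlgebra H} {m : Mean (unitary (Alg P))}
    {a : (Alg P →L[ℂ] Alg P) →L[ℂ] Alg P} (h : MeanAvgData P m a)
    {T : Type*} {Xi : T → ℕ → H} (hs : ∀ j, Summable fun n => ‖Xi j n‖ ^ 2)
    (htr : ∀ j, ∀ x ∈ P, ∀ y ∈ P,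
      ∑' n, ⟪Xi j n, x (y (Xi j n))⟫_ℂ = ∑' n, ⟪Xi j n, y (x (Xi j n))⟫_ℂ)
    (φ : Alg P →L[ℂ] Alg P) (j : T) {ε C' : ℝ} (hε : 0 ≤ ε) (hC' : 0 ≤ C') (F : Finset T)
    (hφ : ∀ x : Alg P, ‖vecV P (hs j) (φ x)‖ ≤ ε * ‖x‖ + C' * ∑ i ∈ F, ‖vecV P (hs i) x‖)
    {K' : Type*} [NormedAddCommGroup K'] [InnerProductSpace ℂ K'] (R' : TraceRep (Alg P) K')
    (hR' : ∀ i ∈ F, ∀ x, ‖vecV P (hs i) x‖ ≤ ‖R'.V x‖) (x : Alg P) :
    ‖vecV P (hs j) (phiOf a φ x)‖ ≤ ε * ‖x‖ + (C' * F.card) * ‖R'.V x‖ := by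
  have hun : ∀ (i : T) (z : Alg P) (t : unitary (Alg P)),
      ‖vecV P (hs i) (z * (t : Alg P))‖ = ‖vecV P (hs i) z‖ := fun i z t =>
    norm_V_mul_u (trRep P (hs i) (htr i)) z t
  refine h.norm_V_phi_le φ x (hs j) (htr j) (fun t => ?_)
  rw [hun]
  refine (hφ _).trans ?_
  have h1 : ‖x * star (t : Alg P)‖ ≤ ‖x‖ := by
    refine (norm_mul_le _ _).trans ?_
    rw [norm_star_alg]
    exact mul_le_of_le_one_right (norm_nonneg _) (norm_unitary_alg t)
  have h2 : ∀ i, ‖vecV P (hs i) (x * star (t : Alg P))‖ = ‖vecV P (hs i) x‖ := fun i =>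
    hun i x t⁻¹
  simp only [h2]
  have h3 : ∑ i ∈ F, ‖vecV P (hs i) x‖ ≤ F.card * ‖R'.V x‖ := by
    refine (Finset.sum_le_sum (fun i hi => hR' i hi x)).trans ?_
    simp
  rw [mul_assoc]
  (clear * - hε hC' h1 h3; gcongr)

/-- an invariant mean for finitely many unitaries -/
theorem exists_inv_mean_fin (P : VonNeumannAlgebra H) {T : Type*} {Xi : T → ℕ → H}
    (hs : ∀ j, Summable fun n => ‖Xi j n‖ ^ 2)
    (htr : ∀ j, ∀ x ∈ P, ∀ y ∈ P,
      ∑' n, ⟪Xi j n, x (y (Xi j n))⟫_ℂ = ∑' n, ⟪Xi j n, y (x (Xi j n))⟫_ℂ)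
    (hlarge : ∀ k : ℕ, ∃ n, k ≤ n ∧ ∃ (_ : NeZero n) (e : Fin n → Fin n → Alg P),
      MatUnits (Alg P) n e)
    (Sf : Finset (unitary (Alg P))) :
    ∃ m : Mean (unitary (Alg P)), ∀ φ : Alg P →L[ℂ] Alg P, NTame P hs φ →
      ∀ (j : T) (y : Alg P), ∀ g ∈ Sf,
        m (fun u => ⟪vecV P (hs j) 1, vecV P (hs j)
          (φ ((g : Alg P) * star (u : Alg P)) * (u : Alg P) * y)⟫_ℂ)
        = m (fun u => ⟪vecV P (hs j) 1, vecV P (hs j)
          (φ (star (u : Alg P)) * (u : Alg P) * ((g : Alg P) * y))⟫_ℂ) := by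
  classical
  choose n hn hne e he using hlarge
  have hW : ∀ k, ∃ (w : Fin (n (k + 1)) × Fin (n (k + 1)) → unitary (Alg P))
      (kk : Fin (n (k + 1)) × Fin (n (k + 1))),
      WeylData w (w kk) k ∧ ∃ o, w o = 1 := fun k => by
    have := hne (k + 1)
    exact exists_weyl (he (k + 1)) k (Nat.lt_of_succ_le (hn (k + 1)))
  choose w kk hw ho using hW
  have hneF : ∀ k, Nonempty (Fin (n (k + 1)) × Fin (n (k + 1))) := fun k => ⟨kk k⟩
  let s : Option (Fin Sf.card) → unitary (Alg P) :=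
    fun o => o.elim 1 (fun i => (Sf.equivFin.symm i : unitary (Alg P)))
  have hs0 : s none = 1 := rfl
  let M : ℕ → Mean (unitary (Alg P)) := fun k =>
    Mean.ultra (Filter.hyperfilter ℕ) (cesaro (dbl (stepU s (w k))))
  choose a ha using fun k => exists_meanAvgData P (M k)
  have hharm : ∀ k φ, Harm (dbl (stepU s (w k))) (phiOf (a k) φ) ‖φ‖ := fun k φ =>
    (ha k).harm (dbl_symm _) (fun F hF => ultra_cesaro_stat _ F hF) φ
  let M' : ℕ → Mean (unitary (Alg P)) := fun k => mpp (M k) s (w k) none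
  refine ⟨Mean.ultra (Filter.hyperfilter ℕ) M', fun φ hφ j y g hg => ?_⟩
  set i₀ : Option (Fin Sf.card) := some (Sf.equivFin ⟨g, hg⟩) with hi₀
  have hsi : s i₀ = g := by simp [s, hi₀]
  set F1 : unitary (Alg P) → ℂ := fun u => ⟪vecV P (hs j) 1, vecV P (hs j)
          (φ ((g : Alg P) * star (u : Alg P)) * (u : Alg P) * y)⟫_ℂ with hF1
  set F2 : unitary (Alg P) → ℂ := fun u => ⟪vecV P (hs j) 1, vecV P (hs j)
          (φ (star (u : Alg P)) * (u : Alg P) * ((g : Alg P) * y))⟫_ℂ with hF2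
  have hb1 : Bdd F1 := by
    refine ⟨‖vecV P (hs j) 1‖ * ((‖φ‖ * ‖(g : Alg P)‖) * ‖vecV P (hs j) y‖), fun u => ?_⟩
    refine (norm_inner_le_norm _ _).trans ?_
    gcongr
    refine (vecV_norm_mul_le P (hs j) _ _).trans ?_
    gcongr
    exact norm_comp_twist_le φ _ u
  have hb2 : Bdd F2 := by
    refine ⟨‖vecV P (hs j) 1‖ * (‖φ‖ * ‖vecV P (hs j) ((g : Alg P) * y)‖), fun u => ?_⟩
    refine (norm_inner_le_norm _ _).trans ?_
    gcongr
    refine (vecV_norm_mul_le P (hs j) _ _).trans ?_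
    gcongr
    exact norm_twist_le P (Unitary.star_mul_self_of_mem u.2) φ
  have hlim := (Mean.tendsto_ultra (Filter.hyperfilter ℕ) M' hb1).sub
    (Mean.tendsto_ultra (Filter.hyperfilter ℕ) M' hb2)
  have hzero : Filter.Tendsto (fun k => M' k F1 - M' k F2) Filter.atTop (𝓝 0) := by
    -- for every `ε`, eventually small
    have key : ∀ ε : ℝ, 0 < ε → ∀ᶠ k in Filter.atTop, ‖M' k F1 - M' k F2‖
        ≤ ‖vecV P (hs j) 1‖ * ‖y‖ *
          (2 * Real.sqrt ((Fintype.card (Option (Fin Sf.card)) : ℝ) * ε)) := by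
      intro ε hε
      obtain ⟨N, ε', hε', hE⟩ := energy_small (Alg P) (C := ‖φ‖) (v := ‖vecV P (hs j) 1‖)
        (norm_nonneg _) (norm_nonneg _) hε
      obtain ⟨F, C', hC', hF⟩ := hφ j ε' hε'
      obtain ⟨K', _, _, _, R', hR'⟩ := exists_traceSum P hs htr (insert j F)
      obtain ⟨q₁, hq₁, hE⟩ := hE (C' * F.card) (by (clear * - hC'; positivity)) ‖R'.V 1‖ (norm_nonneg _)
      have hcard : ∀ᶠ k : ℕ in Filter.atTop,
          (Fintype.card (Fin (n (k + 1)) × Fin (n (k + 1))) : ℝ)⁻¹ ≤ q₁ := by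
        have h1 : Filter.Tendsto (fun k : ℕ => ((k + 1 : ℕ) : ℝ)⁻¹) Filter.atTop (𝓝 0) := by
          exact tendsto_inv_atTop_zero.comp
            (tendsto_natCast_atTop_atTop.comp (Filter.tendsto_add_atTop_nat 1))
        filter_upwards [h1.eventually (ge_mem_nhds hq₁)] with k hk
        refine le_trans ?_ hk
        have h2 : k + 1 ≤ n (k + 1) := hn (k + 1)
        have h3 : k + 1 ≤ Fintype.card (Fin (n (k + 1)) × Fin (n (k + 1))) := by
          rw [Fintype.card_prod, Fintype.card_fin]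
          nlinarith only [h2]
        (clear * - h3; gcongr)
      filter_upwards [hcard, Filter.eventually_ge_atTop N] with k hk hkN
      have h1 := hE (lp (fun _ : ℕ => H) 2) K' (Option (Fin Sf.card))
        (Fin (n (k + 1)) × Fin (n (k + 1))) (trRep P (hs j) (htr j)) R' s (w k) (w k (kk k))
        (phiOf (a k) φ) ⟨(hw k).orth, fun r hr hrN => (hw k).pow r hr (hrN.trans hkN)⟩
        ⟨none, hs0⟩ (ho k) ?_ (hharm k φ) (fun x => hR' j (Finset.mem_insert_self j F) x)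
        (fun x => (ha k).tame hs htr φ j hε'.le hC' F hF R'
          (fun i hi => hR' i (Finset.mem_insert_of_mem hi)) x) le_rfl le_rfl hk
      · have h2 := (ha k).mpp_diff φ s (w k) none i₀ hs0 (hs j) (htr j) y (ε := ε) h1
        rw [hsi] at h2
        exact h2
      · obtain ⟨o, hoo⟩ := ho k
        have h2 : w k (kk k) = dbl (stepU s (w k)) ((none, kk k), (none, o)) := by
          simp [dbl, stepU, hs0, hoo]
        rw [h2]
        exact step_mem _ _
    rw [Metric.tendsto_nhds]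
    intro δ hδ
    set B : ℝ := ‖vecV P (hs j) 1‖ * ‖y‖ with hB
    have hB0 : 0 ≤ B := by (clear * - H P Xi hs j y; positivity)
    set c : ℝ := (Fintype.card (Option (Fin Sf.card)) : ℝ) with hc
    have hc0 : 0 < c := by rw [hc]; exact_mod_cast Fintype.card_pos
    have hε : 0 < (δ / (4 * (B + 1))) ^ 2 / c := by (clear * - H P Xi hs Sf j y hδ; (clear * - hδ hs; positivity))
    filter_upwards [key _ hε] with k hk
    rw [dist_zero_right]
    refine lt_of_le_of_lt hk ?_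
    rw [mul_div_cancel₀ _ hc0.ne', Real.sqrt_sq (by (clear * - H P Xi hs j y hδ; positivity))]
    have h1 : B * (2 * (δ / (4 * (B + 1)))) = (B / (B + 1)) * (δ / 2) := by
      field_simp
      ring
    rw [h1]
    have h2 : B / (B + 1) ≤ 1 := by
      rw [div_le_one (by (clear * - H P Xi hs j y; positivity))]
      linarith only []
    nlinarith only [hδ, h2]
  have h0 := tendsto_nhds_unique hlim (hzero.mono_left Nat.hyperfilter_le_atTop)
  exact sub_eq_zero.mp h0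

/-- Section 7: one averaging functional for all tame maps and all unitaries -/
theorem exists_inv_avg_norm (P : VonNeumannAlgebra H) {T : Type*} {Xi : T → ℕ → H}
    (hs : ∀ j, Summable fun n => ‖Xi j n‖ ^ 2)
    (htr : ∀ j, ∀ x ∈ P, ∀ y ∈ P,
      ∑' n, ⟪Xi j n, x (y (Xi j n))⟫_ℂ = ∑' n, ⟪Xi j n, y (x (Xi j n))⟫_ℂ)
    (hsep : ∀ x ∈ P, (∀ j n, x (Xi j n) = 0) → x = 0)
    (hlarge : ∀ k : ℕ, ∃ n, k ≤ n ∧ ∃ (_ : NeZero n) (e : Fin n → Fin n → Alg P),
      MatUnits (Alg P) n e) :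
    ∃ a : (Alg P →L[ℂ] Alg P) →L[ℂ] Alg P, IsAvg a ∧ (∀ φ, ‖a φ‖ ≤ ‖φ‖) ∧
      ∀ φ : Alg P →L[ℂ] Alg P, NTame P hs φ → ∀ b : Alg P, tw a φ b = 0 := by
  classical
  choose m hm using exists_inv_mean_fin P hs htr hlarge
  let U : Ultrafilter (Finset (unitary (Alg P))) := Ultrafilter.of Filter.atTop
  obtain ⟨a, ha⟩ := exists_meanAvgData P (Mean.ultra U m)
  refine ⟨a, ha.isAvg, ha.norm_le, fun φ hφ b => ?_⟩
  refine vanish_of_unitary P P (fun x hx => hx) (tw a φ) (fun g _ => ?_) b b.2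
  rw [tw_apply, sub_eq_zero]
  refine eq_of_tr_eq P hs hsep (fun j y => ?_)
  have h1 := ha.tr_phi φ (g : Alg P) (hs j) y
  have h2 := ha.tr_phi φ 1 (hs j) ((g : Alg P) * y)
  have h3 : phiOf a φ 1 = a φ := by
    have h4 : φ.comp (mulL (1 : Alg P)) = φ := by
      refine ContinuousLinearMap.ext (fun x => ?_)
      change φ (1 * x) = φ x
      rw [one_mul]
    rw [phiOf_apply, h4]
  rw [phiOf_apply] at h1
  rw [h3] at h2
  simp only [one_mul] at h2
  rw [h1, mul_assoc, h2]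
  set F1 : unitary (Alg P) → ℂ := fun u => ⟪vecV P (hs j) 1, vecV P (hs j)
          (φ ((g : Alg P) * star (u : Alg P)) * (u : Alg P) * y)⟫_ℂ with hF1
  set F2 : unitary (Alg P) → ℂ := fun u => ⟪vecV P (hs j) 1, vecV P (hs j)
          (φ (star (u : Alg P)) * (u : Alg P) * ((g : Alg P) * y))⟫_ℂ with hF2
  have hb1 : Bdd F1 := by
    refine ⟨‖vecV P (hs j) 1‖ * ((‖φ‖ * ‖(g : Alg P)‖) * ‖vecV P (hs j) y‖), fun u => ?_⟩
    refine (norm_inner_le_norm _ _).trans ?_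
    gcongr
    refine (vecV_norm_mul_le P (hs j) _ _).trans ?_
    gcongr
    exact norm_comp_twist_le φ _ u
  have hb2 : Bdd F2 := by
    refine ⟨‖vecV P (hs j) 1‖ * (‖φ‖ * ‖vecV P (hs j) ((g : Alg P) * y)‖), fun u => ?_⟩
    refine (norm_inner_le_norm _ _).trans ?_
    gcongr
    refine (vecV_norm_mul_le P (hs j) _ _).trans ?_
    gcongr
    exact norm_twist_le P (Unitary.star_mul_self_of_mem u.2) φ
  have t1 := Mean.tendsto_ultra U m hb1
  have t2 := Mean.tendsto_ultra U m hb2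
  refine tendsto_nhds_unique (t1.congr' ?_) t2
  have h4 : ∀ᶠ S : Finset (unitary (Alg P)) in Filter.atTop, g ∈ S := by
    filter_upwards [Filter.eventually_ge_atTop ({g} : Finset (unitary (Alg P)))] with S hS
    exact hS (Finset.mem_singleton_self g)
  have h5 : ∀ᶠ S : Finset (unitary (Alg P)) in (U : Filter (Finset (unitary (Alg P)))), g ∈ S :=
    (Ultrafilter.of_le (f := (Filter.atTop : Filter (Finset (unitary (Alg P)))))) h4
  filter_upwards [h5] with S hS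
  exact hm S φ hφ j y g hS

/-- Section 7: one averaging functional for all tame maps and all unitaries -/
theorem exists_inv_avg (P : VonNeumannAlgebra H) {T : Type*} {Xi : T → ℕ → H}
    (hs : ∀ j, Summable fun n => ‖Xi j n‖ ^ 2)
    (htr : ∀ j, ∀ x ∈ P, ∀ y ∈ P,
      ∑' n, ⟪Xi j n, x (y (Xi j n))⟫_ℂ = ∑' n, ⟪Xi j n, y (x (Xi j n))⟫_ℂ)
    (hsep : ∀ x ∈ P, (∀ j n, x (Xi j n) = 0) → x = 0)
    (hlarge : ∀ k : ℕ, ∃ n, k ≤ n ∧ ∃ (_ : NeZero n) (e : Fin n → Fin n → Alg P),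
      MatUnits (Alg P) n e) :
    ∃ a : (Alg P →L[ℂ] Alg P) →L[ℂ] Alg P, IsAvg a ∧
      ∀ φ : Alg P →L[ℂ] Alg P, NTame P hs φ → ∀ b : Alg P, tw a φ b = 0 := by
  obtain ⟨a, ha, -, h⟩ := exists_inv_avg_norm P hs htr hsep hlarge
  exact ⟨a, ha, h⟩

end Vale.Agent.P082.KR
end

section
attribute [local instance] Vale.Agent.P082.AlgFast.nr Vale.Agent.P082.AlgFast.na
  Vale.Agent.P082.AlgFast.sr Vale.Agent.P082.AlgFast.ng Vale.Agent.P082.AlgFast.sg
  Vale.Agent.P082.AlgFast.ns Vale.Agent.P082.AlgFast.ri Vale.Agent.P082.AlgFast.ag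
  Vale.Agent.P082.AlgFast.am Vale.Agent.P082.AlgFast.mo Vale.Agent.P082.AlgFast.pm
  Vale.Agent.P082.AlgFast.us Vale.Agent.P082.AlgFast.ts Vale.Agent.P082.AlgFast.ets
  Vale.Agent.P082.AlgFast.eng Vale.Agent.P082.AlgFast.esg Vale.Agent.P082.AlgFast.ens
  Vale.Agent.P082.AlgFast.eam Vale.Agent.P082.AlgFast.emo Vale.Agent.P082.AlgFast.nu
  Vale.Agent.P082.AlgFast.sag Vale.Agent.P082.AlgFast.agr Vale.Agent.P082.AlgFast.mon
  Vale.Agent.P082.AlgFast.srg

open scoped Topology InnerProductSpace ComplexConjugate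

namespace Vale.Agent.P082.KR

open Vale.Agent.P082 Filter

universe u

variable {H : Type u} [NormedAddCommGroup H] [InnerProductSpace ℂ H] [CompleteSpace H]

/-- section 1 (see TameZeta.lean) -/
theorem exists_zeta_tame' (P : VonNeumannAlgebra H) {T : Type*} {Xi : T → ℕ → H}
    (hs : ∀ j, Summable fun n => ‖Xi j n‖ ^ 2)
    (htr : ∀ j, ∀ x ∈ P, ∀ y ∈ P,
      ∑' n, ⟪Xi j n, x (y (Xi j n))⟫_ℂ = ∑' n, ⟪Xi j n, y (x (Xi j n))⟫_ℂ)
    (hsep : ∀ x ∈ P, (∀ j n, x (Xi j n) = 0) → x = 0) :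
    ∃ a : (Alg P →L[ℂ] Alg P) →L[ℂ] Alg P, IsAvg a ∧
      ∀ ψ : Alg P →L[ℂ] Alg P, NTame P hs (tw a ψ) := by
  obtain ⟨a, ha, h⟩ := Vale.Agent.P082.exists_zeta_tame P Xi hs htr hsep
  exact ⟨a, ha, fun ψ j ε hε => h ψ j ε hε⟩

/-- The Kadison-Ringrose conjecture for finite algebras containing large matrix algebras,
in particular for all type II₁ algebras. -/
theorem vanishing_finite (P : VonNeumannAlgebra H) (hfin : IsFiniteVN P)
    (hP : ContainsLargeMatrices P) (k : ℕ) : BoundedCohomologyVanishes P.toStarSubalgebra k := by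
  obtain ⟨J, ξ, hs, htr, hsep⟩ := hfin
  obtain ⟨az, haz, hz⟩ := exists_zeta_tame' P hs htr hsep
  obtain ⟨a, ha, hinv⟩ := exists_inv_avg P hs htr hsep (fun k => by
    obtain ⟨n, hn, hne, e, he, -⟩ := largeUnits_of_contains P P (fun x hx => hx) hP k
    exact ⟨n, hn, hne, e, he⟩)
  intro f hf
  refine isCob_of_fav haz f hf ?_
  have hf0 := fav_cocycle haz f hf
  refine isCob_of_fav ha _ hf0 ?_
  refine ⟨0, fun x => ?_⟩
  have hzero : fav a (fav az f) x = 0 := by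
    have h9 : fav a (fav az f) x
        = (fav a (fav az f)).curryRight (fun i => x i.castSucc) (x (Fin.last k)) := by
      have := app_init x
      conv_lhs => rw [← this]
      rfl
    rw [h9, curryRight_fav, curryRight_fav]
    exact hinv _ (hz _) _
  rw [hzero]
  simp [hochschild]

end Vale.Agent.P082.KR
end

section
attribute [local instance] Vale.Agent.P082.AlgFast.nr Vale.Agent.P082.AlgFast.na
  Vale.Agent.P082.AlgFast.sr Vale.Agent.P082.AlgFast.ng Vale.Agent.P082.AlgFast.sg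
  Vale.Agent.P082.AlgFast.ns Vale.Agent.P082.AlgFast.ri Vale.Agent.P082.AlgFast.ag
  Vale.Agent.P082.AlgFast.am Vale.Agent.P082.AlgFast.mo Vale.Agent.P082.AlgFast.pm
  Vale.Agent.P082.AlgFast.us Vale.Agent.P082.AlgFast.ts Vale.Agent.P082.AlgFast.ets
  Vale.Agent.P082.AlgFast.eng Vale.Agent.P082.AlgFast.esg Vale.Agent.P082.AlgFast.ens
  Vale.Agent.P082.AlgFast.eam Vale.Agent.P082.AlgFast.emo Vale.Agent.P082.AlgFast.nu
  Vale.Agent.P082.AlgFast.sag Vale.Agent.P082.AlgFast.agr Vale.Agent.P082.AlgFast.mon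
  Vale.Agent.P082.AlgFast.srg

open scoped InnerProductSpace ComplexConjugate

namespace Vale.Agent.P082.VN

open Vale.Agent.P082

universe u

variable {H : Type u} [NormedAddCommGroup H] [InnerProductSpace ℂ H] [CompleteSpace H]
  {M : VonNeumannAlgebra H}

/-- the compression of `φ` by `z` is the compression of a twist `tw az ψ` -/
def FinTame (M : VonNeumannAlgebra H) (z : Alg M) (az : (Alg M →L[ℂ] Alg M) →L[ℂ] Alg M)
    (φ : Alg M →L[ℂ] Alg M) : Prop :=
  ∃ ψ : Alg M →L[ℂ] Alg M, ∀ b : Alg M, z * φ (z * b) = z * tw az ψ (z * b)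

/-- a central projection preserves tracial vectors -/
lemma TrVec.cut {zc : H →L[ℂ] H} (hz : IsCPr M zc) {ξ : ℕ → H} (h : TrVec M ξ) :
    TrVec M (fun n => zc (ξ n)) := by
  refine ⟨?_, fun x hx y hy => ?_⟩
  · refine Summable.of_nonneg_of_le (fun n => by positivity) (fun n => ?_)
      (h.1.mul_left (‖zc‖ ^ 2))
    rw [← mul_pow]
    gcongr
    exact zc.le_opNorm _
  · have key : ∀ x ∈ M, ∀ y ∈ M, ∀ n, ⟪zc (ξ n), x (y (zc (ξ n)))⟫_ℂ
        = ⟪ξ n, (zc * x) (y (ξ n))⟫_ℂ := by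
      intro x hx y hy n
      have h1 : ⟪zc (ξ n), x (y (zc (ξ n)))⟫_ℂ = ⟪ξ n, zc (x (y (zc (ξ n))))⟫_ℂ :=
        vnSum_inner_sa hz.sa _ _
      rw [h1]
      have h2 : zc * x * y * zc = zc * x * y := by
        have h3 : zc * x * y * zc = zc * x * (y * zc) := by simp only [mul_assoc]
        rw [h3, ← hz.comm y hy]
        have h4 : zc * x * (zc * y) = zc * (x * zc) * y := by simp only [mul_assoc]
        rw [h4, ← hz.comm x hx, ← mul_assoc, hz.idem]
      exact congrArg (fun T : H →L[ℂ] H => ⟪ξ n, T (ξ n)⟫_ℂ) h2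
    simp only [key x hx y hy, key y hy x hx]
    rw [h.2 (zc * x) (mul_mem hz.mem hx) y hy]
    refine tsum_congr (fun n => ?_)
    have h5 : y * (zc * x) = zc * y * x := by
      rw [← mul_assoc, hz.comm y hy]
    exact congrArg (fun T : H →L[ℂ] H => ⟪ξ n, T (ξ n)⟫_ℂ) h5

/-- averages on the corner give averages on `M` -/
theorem CornerData.lift0 {z : H →L[ℂ] H} (hz : IsCPr M z) {K : Type u}
    [NormedAddCommGroup K] [InnerProductSpace ℂ K] [CompleteSpace K] {P : VonNeumannAlgebra K}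
    {ι : K →ₗᵢ[ℂ] H} {up : Alg P →L[ℂ] Alg M} {down : Alg M →L[ℂ] Alg P}
    (hc : CornerData M z P ι up down) (a : (Alg P →L[ℂ] Alg P) →L[ℂ] Alg P) (ha : IsAvg a) :
    ∃ a' : (Alg M →L[ℂ] Alg M) →L[ℂ] Alg M,
      (∀ φ, a' φ = up (a (down.comp (φ.comp up)))) ∧
      (∀ (c : Alg M) (φ : Alg M →L[ℂ] Alg M), a' ((mulL c).comp φ) = c * a' φ) ∧
      ((a' (ContinuousLinearMap.id ℂ (Alg M)) : Alg M) : H →L[ℂ] H) = z ∧
      (∀ φ, ((a' φ : Alg M) : H →L[ℂ] H) * z = (a' φ : Alg M)) ∧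
      ∀ φ b, tw a' φ b = up (tw a (down.comp (φ.comp up)) (down b)) := by
  obtain ⟨a', ha'⟩ : ∃ a' : (Alg M →L[ℂ] Alg M) →L[ℂ] Alg M,
      ∀ φ, a' φ = up (a (down.comp (φ.comp up))) :=
    ⟨up.comp (a.comp ((ContinuousLinearMap.compL ℂ (Alg P) (Alg M) (Alg P) down).comp
      ((ContinuousLinearMap.compL ℂ (Alg P) (Alg M) (Alg M)).flip up))), fun φ => rfl⟩
  have hcm : ∀ (c : Alg M) (y : Alg P), up (down c * y) = c * up y := by
    intro c y
    rw [hc.up_mul]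
    apply Subtype.ext
    show ((up (down c) : Alg M) : H →L[ℂ] H) * ((up y : Alg M) : H →L[ℂ] H)
      = (c : H →L[ℂ] H) * ((up y : Alg M) : H →L[ℂ] H)
    rw [hc.up_down, hz.comm _ c.2, mul_assoc, hc.up_supp]
  have hcm2 : ∀ (y : Alg P) (c : Alg M), up (y * down c) = up y * c := by
    intro y c
    rw [hc.up_mul]
    apply Subtype.ext
    show ((up y : Alg M) : H →L[ℂ] H) * ((up (down c) : Alg M) : H →L[ℂ] H)
      = ((up y : Alg M) : H →L[ℂ] H) * (c : H →L[ℂ] H)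
    rw [hc.up_down, ← mul_assoc, ← hz.comm _ (up y).2, hc.up_supp]
  refine ⟨a', ha', ?_, ?_, ?_, ?_⟩
  · intro c φ
    rw [ha', ha', ← hcm, ← ha.left]
    congr 2
    ext y : 1
    show down (c * φ (up y)) = down c * down (φ (up y))
    exact hc.down_mul _ _
  · rw [ha']
    have h1 : down.comp ((ContinuousLinearMap.id ℂ (Alg M)).comp up)
        = ContinuousLinearMap.id ℂ (Alg P) := by
      ext y : 1
      exact hc.down_up y
    rw [h1, ha.one]
    have h2 := hc.up_down 1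
    rw [hc.down_one] at h2
    rw [h2]
    exact mul_one z
  · intro φ
    rw [ha', ← hz.comm _ (up _).2, hc.up_supp]
  · intro φ b
    rw [tw_apply, tw_apply, map_sub, hcm2, ha', ha']
    congr 2
    congr 1
    ext y : 1
    show down (φ (b * up y)) = down (φ (up (down b * y)))
    rw [hcm]

/-- the continuous part: finite without abelian projections -/
theorem exists_cont_part {zc : H →L[ℂ] H} (hz : IsCPr M zc)
    (hsep : ∀ x ∈ M, (∀ ξ : ℕ → H, TrVec M ξ → ∀ n, x (ξ n) = 0) → x * zc = 0)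
    (hab : ∀ f, IsPr M f → Le f zc → AbPr M f → f = 0) :
    ∃ az : (Alg M →L[ℂ] Alg M) →L[ℂ] Alg M,
      (∀ (c : Alg M) (φ : Alg M →L[ℂ] Alg M), az ((mulL c).comp φ) = c * az φ) ∧
      ((az (ContinuousLinearMap.id ℂ (Alg M)) : Alg M) : H →L[ℂ] H) = zc ∧
      (∀ φ, ((az φ : Alg M) : H →L[ℂ] H) * zc = (az φ : Alg M)) ∧
      ∃ a, IsAvgOn M zc (FinTame M ⟨zc, hz.mem⟩ az) a := by
  obtain ⟨K, _, _, _, P, ι, up, down, hc⟩ := exists_corner hz
  let J : Type u := {ξ : ℕ → H // TrVec M ξ ∧ ∀ n, zc (ξ n) = ξ n}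
  have hX : ∀ (j : J) (n : ℕ), ∃ k : K, ι k = j.1 n := fun j n => (hc.range _).1 (j.2.2 n)
  choose Xi hXi using hX
  have hs : ∀ j : J, Summable fun n => ‖Xi j n‖ ^ 2 := by
    intro j
    refine j.2.1.1.congr (fun n => ?_)
    rw [← hXi j n, ι.norm_map]
  have hin : ∀ (j : J) (x y : Alg P) (n : ℕ),
      ⟪Xi j n, (x : K →L[ℂ] K) ((y : K →L[ℂ] K) (Xi j n))⟫_ℂ
        = ⟪j.1 n, ((up x : Alg M) : H →L[ℂ] H) (((up y : Alg M) : H →L[ℂ] H) (j.1 n))⟫_ℂ := by
    intro j x y n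
    rw [← ι.inner_map_map, ← hc.up_apply, ← hc.up_apply, hXi]
  have htr : ∀ j : J, ∀ x ∈ P, ∀ y ∈ P,
      ∑' n, ⟪Xi j n, x (y (Xi j n))⟫_ℂ = ∑' n, ⟪Xi j n, y (x (Xi j n))⟫_ℂ := by
    intro j x hx y hy
    have h1 : ∑' n, ⟪Xi j n, x (y (Xi j n))⟫_ℂ
        = ∑' n, ⟪j.1 n, ((up ⟨x, hx⟩ : Alg M) : H →L[ℂ] H)
          (((up ⟨y, hy⟩ : Alg M) : H →L[ℂ] H) (j.1 n))⟫_ℂ := tsum_congr (hin j ⟨x, hx⟩ ⟨y, hy⟩)
    have h2 : ∑' n, ⟪Xi j n, y (x (Xi j n))⟫_ℂ
        = ∑' n, ⟪j.1 n, ((up ⟨y, hy⟩ : Alg M) : H →L[ℂ] H)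
          (((up ⟨x, hx⟩ : Alg M) : H →L[ℂ] H) (j.1 n))⟫_ℂ := tsum_congr (hin j ⟨y, hy⟩ ⟨x, hx⟩)
    refine h1.trans (Eq.trans ?_ h2.symm)
    exact j.2.1.2 _ (up ⟨x, hx⟩).2 _ (up ⟨y, hy⟩).2
  have hsepP : ∀ x ∈ P, (∀ j n, x (Xi j n) = 0) → x = 0 := by
    intro x hx h0
    set X : Alg P := ⟨x, hx⟩ with hXdef
    have hux : ∀ ξ : ℕ → H, TrVec M ξ → ∀ n, ((up X : Alg M) : H →L[ℂ] H) (ξ n) = 0 := by
      intro ξ hξ n
      have hcut := hξ.cut hz
      have hzz : ∀ n, zc (zc (ξ n)) = zc (ξ n) := fun n =>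
        congrArg (fun T : H →L[ℂ] H => T (ξ n)) hz.idem
      let j : J := ⟨fun n => zc (ξ n), hcut, hzz⟩
      have h1 : ((up X : Alg M) : H →L[ℂ] H) (ξ n)
          = ((up X : Alg M) : H →L[ℂ] H) (zc (ξ n)) := by
        have h2 : ((up X : Alg M) : H →L[ℂ] H) * zc = (up X : Alg M) := by
          rw [← hz.comm _ (up X).2, hc.up_supp]
        exact congrArg (fun T : H →L[ℂ] H => T (ξ n)) h2.symm
      rw [h1]
      have h3 : ι (Xi j n) = zc (ξ n) := hXi j n
      rw [← h3, hc.up_apply]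
      have h4 : (X : K →L[ℂ] K) (Xi j n) = 0 := h0 j n
      rw [h4, map_zero]
    have h5 := hsep _ (up X).2 hux
    rw [← hz.comm _ (up X).2, hc.up_supp] at h5
    have h6 : up X = 0 := Subtype.ext h5
    have h7 : X = 0 := by rw [← hc.down_up X, h6, map_zero]
    exact congrArg Subtype.val h7
  have hlarge : ∀ k : ℕ, ∃ n, k ≤ n ∧ ∃ (_ : NeZero n) (e : Fin n → Fin n → Alg P),
      MatUnits (Alg P) n e := by
    intro k
    obtain ⟨e, he, hmul, hne, hst, hsum⟩ := exists_matUnits hz.toIsPr hab k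
    refine ⟨2 ^ k, Nat.lt_two_pow_self.le, inferInstance, fun i j => down ⟨e i j, he i j⟩,
      ⟨fun a b c => ?_, fun a b c d hbc => ?_, fun a b => ?_, ?_⟩⟩
    · rw [← hc.down_mul]
      exact congrArg down (Subtype.ext (hmul a b c))
    · rw [← hc.down_mul]
      have : (⟨e a b, he a b⟩ * ⟨e c d, he c d⟩ : Alg M) = 0 := Subtype.ext (hne a b c d hbc)
      rw [this, map_zero]
    · rw [← hc.down_star]
      exact congrArg down (Subtype.ext (hst a b))
    · rw [← map_sum]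
      have h1 : (∑ i, (⟨e i i, he i i⟩ : Alg M)) = ⟨zc, hz.mem⟩ := by
        apply Subtype.ext
        rw [AddSubmonoidClass.coe_finsetSum]
        exact hsum
      rw [h1]
      have h2 : up (down (1 : Alg M)) = ⟨zc, hz.mem⟩ := by
        apply Subtype.ext
        rw [hc.up_down]
        exact mul_one zc
      rw [← h2, hc.down_up, hc.down_one]
  obtain ⟨azc, hazc, hzeta⟩ := KR.exists_zeta_tame' P hs htr hsepP
  obtain ⟨ac, hac, hacn, hinv⟩ := KR.exists_inv_avg_norm P hs htr hsepP hlarge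
  obtain ⟨az, haz, hazl, hazo, hazs, hazt⟩ := hc.lift0 hz azc hazc
  obtain ⟨a, ha, hal, hao, has, han, hat⟩ := hc.lift hz ac hac hacn
  refine ⟨az, hazl, hazo, hazs, a, hal, hao, has, han, fun φ hφ b => ?_⟩
  rw [hat]
  obtain ⟨ψ, hψ⟩ := hφ
  set z' : Alg M := ⟨zc, hz.mem⟩ with hz'
  have hdz : ∀ y : Alg M, down (z' * y) = down y := by
    intro y
    have h1 : down z' = 1 := by
      rw [← hc.down_up (down z')]
      have h2 : up (down z') = up (down 1) := by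
        apply Subtype.ext
        rw [hc.up_down, hc.up_down]
        show zc * zc = zc * 1
        rw [hz.idem, mul_one]
      rw [h2, hc.down_up, hc.down_one]
    rw [hc.down_mul, h1, one_mul]
  have hzu : ∀ x : Alg P, z' * up x = up x := fun x => Subtype.ext (hc.up_supp x)
  have hkey : down.comp (φ.comp up) = tw azc (down.comp (ψ.comp up)) := by
    ext x : 1
    show down (φ (up x)) = _
    have h1 : down (φ (up x)) = down (z' * φ (z' * up x)) := by rw [hdz, hzu]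
    rw [h1, hψ, hdz, hzu, hazt, hc.down_up, hc.down_up]
  rw [hkey, hinv _ (hzeta _) _, map_zero]

/-- adding the value at a central projection to an averaging functional -/
lemma exists_az_add {zf s zc : H →L[ℂ] H} (hz : IsCPr M zf) (hsc : IsCPr M s) (hzc : IsCPr M zc)
    (hszc : s * zc = 0) (hszf : s + zc = zf)
    {azc : (Alg M →L[ℂ] Alg M) →L[ℂ] Alg M}
    (hal : ∀ (c : Alg M) (φ : Alg M →L[ℂ] Alg M), azc ((mulL c).comp φ) = c * azc φ)
    (hao : ((azc (ContinuousLinearMap.id ℂ (Alg M)) : Alg M) : H →L[ℂ] H) = zc)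
    (has : ∀ φ, ((azc φ : Alg M) : H →L[ℂ] H) * zc = (azc φ : Alg M)) :
    ∃ az : (Alg M →L[ℂ] Alg M) →L[ℂ] Alg M,
      (∀ φ, az φ = azc φ + φ ⟨s, hsc.mem⟩ * ⟨s, hsc.mem⟩) ∧
      (∀ (c : Alg M) (φ : Alg M →L[ℂ] Alg M), az ((mulL c).comp φ) = c * az φ) ∧
      ((az (ContinuousLinearMap.id ℂ (Alg M)) : Alg M) : H →L[ℂ] H) = zf ∧
      (∀ φ, ((az φ : Alg M) : H →L[ℂ] H) * zf = (az φ : Alg M)) := by
  have hzcs : zc * s = 0 := by rw [hzc.comm s hsc.mem, hszc]
  have hzzc : zf * zc = zc := by rw [← hszf, add_mul, hszc, zero_add, hzc.idem]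
  have hzs : zf * s = s := by rw [← hszf, add_mul, hzcs, add_zero, hsc.idem]
  obtain ⟨az, haz⟩ : ∃ az : (Alg M →L[ℂ] Alg M) →L[ℂ] Alg M,
      ∀ φ, az φ = azc φ + φ ⟨s, hsc.mem⟩ * ⟨s, hsc.mem⟩ :=
    ⟨azc + ((ContinuousLinearMap.mul ℂ (Alg M)).flip ⟨s, hsc.mem⟩).comp
      (ContinuousLinearMap.apply ℂ (Alg M) ⟨s, hsc.mem⟩), fun φ => rfl⟩
  refine ⟨az, haz, fun d φ => ?_, ?_, fun φ => ?_⟩
  · rw [haz, haz, hal, mul_add]
    congr 1
  · rw [haz]
    show ((azc (ContinuousLinearMap.id ℂ (Alg M)) : Alg M) : H →L[ℂ] H) + s * s = zf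
    rw [hao, hsc.idem, add_comm, hszf]
  · rw [haz]
    show (((azc φ : Alg M) : H →L[ℂ] H) + ((φ ⟨s, hsc.mem⟩ : Alg M) : H →L[ℂ] H) * s) * zf
      = ((azc φ : Alg M) : H →L[ℂ] H) + ((φ ⟨s, hsc.mem⟩ : Alg M) : H →L[ℂ] H) * s
    have h1 : ((azc φ : Alg M) : H →L[ℂ] H) * zf = (azc φ : Alg M) := by
      rw [← has φ, mul_assoc, ← hz.comm _ hzc.mem, hzzc]
    rw [add_mul, h1, mul_assoc, ← hz.comm _ hsc.mem, hzs]

/-- tameness passes to the continuous part -/
lemma finTame_cut {zf s zc : H →L[ℂ] H} (hz : IsCPr M zf) (hsc : IsCPr M s) (hzc : IsCPr M zc)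
    (hszc : s * zc = 0) (hszf : s + zc = zf)
    {azc az : (Alg M →L[ℂ] Alg M) →L[ℂ] Alg M}
    (haz : ∀ φ, az φ = azc φ + φ ⟨s, hsc.mem⟩ * ⟨s, hsc.mem⟩) {φ : Alg M →L[ℂ] Alg M}
    (h : FinTame M ⟨zf, hz.mem⟩ az φ) : FinTame M ⟨zc, hzc.mem⟩ azc φ := by
  have hzcs : zc * s = 0 := by rw [hzc.comm s hsc.mem, hszc]
  have hzzc : zf * zc = zc := by rw [← hszf, add_mul, hszc, zero_add, hzc.idem]
  obtain ⟨ψ, hψ⟩ := h
  have hcsA : (⟨zc, hzc.mem⟩ * ⟨s, hsc.mem⟩ : Alg M) = 0 := Subtype.ext hzcs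
  have hscA : (⟨s, hsc.mem⟩ * ⟨zc, hzc.mem⟩ : Alg M) = 0 := Subtype.ext hszc
  have hczA : (⟨zc, hzc.mem⟩ * ⟨zf, hz.mem⟩ : Alg M) = ⟨zc, hzc.mem⟩ := by
    apply Subtype.ext
    show zc * zf = zc
    rw [← hz.comm _ hzc.mem, hzzc]
  have hzcA : (⟨zf, hz.mem⟩ * ⟨zc, hzc.mem⟩ : Alg M) = ⟨zc, hzc.mem⟩ := Subtype.ext hzzc
  have hcomm : ∀ y : Alg M, ⟨zc, hzc.mem⟩ * y = y * ⟨zc, hzc.mem⟩ :=
    fun y => Subtype.ext (hzc.comm _ y.2)
  generalize (⟨s, hsc.mem⟩ : Alg M) = sA at *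
  generalize (⟨zf, hz.mem⟩ : Alg M) = zA at *
  generalize (⟨zc, hzc.mem⟩ : Alg M) = cA at *
  refine ⟨ψ, fun b => ?_⟩
  have h1 := congrArg (fun y => cA * y) (hψ (cA * b))
  simp only [← mul_assoc, hczA, hzcA] at h1
  rw [h1, tw_apply, tw_apply, haz, haz]
  have h2 : (ψ.comp (mulL (cA * b))) sA = 0 := by
    show ψ (cA * b * sA) = 0
    rw [hcomm b, mul_assoc, hcsA, mul_zero, map_zero]
  rw [h2, zero_mul, add_zero, add_mul, mul_assoc (ψ sA), ← mul_assoc sA cA b, hscA, zero_mul,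
    mul_zero, add_zero]

/-- the finite part of a von Neumann algebra -/
theorem exists_fin_part {zf : H →L[ℂ] H} (hz : IsCPr M zf) (hfin : FinPr M zf)
    (hsep : ∀ x ∈ M, (∀ ξ : ℕ → H, TrVec M ξ → ∀ n, x (ξ n) = 0) → x * zf = 0) :
    ∃ az : (Alg M →L[ℂ] Alg M) →L[ℂ] Alg M,
      (∀ (c : Alg M) (φ : Alg M →L[ℂ] Alg M), az ((mulL c).comp φ) = c * az φ) ∧
      ((az (ContinuousLinearMap.id ℂ (Alg M)) : Alg M) : H →L[ℂ] H) = zf ∧
      (∀ φ, ((az φ : Alg M) : H →L[ℂ] H) * zf = (az φ : Alg M)) ∧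
      ∃ a, IsAvgOn M zf (FinTame M ⟨zf, hz.mem⟩ az) a := by
  obtain ⟨I, c, s, zc, hc, hhom, horth, hsum, hsc, hzc, hszc, hszf, hab⟩ :=
    exists_type_decomposition hz hfin
  have hzzc : zf * zc = zc := by rw [← hszf, add_mul, hszc, zero_add, hzc.idem]
  have hsep' : ∀ x ∈ M, (∀ ξ : ℕ → H, TrVec M ξ → ∀ n, x (ξ n) = 0) → x * zc = 0 := by
    intro x hx h
    rw [← hzzc, ← mul_assoc, hsep x hx h, zero_mul]
  obtain ⟨azc, hal, hao, has, a, ha⟩ := exists_cont_part hzc hsep' hab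
  obtain ⟨az, haz, hazl, hazo, hazs⟩ := exists_az_add hz hsc hzc hszc hszf hal hao has
  refine ⟨az, hazl, hazo, hazs, ?_⟩
  have h1 : ∃ a, IsAvgOn M s (FinTame M ⟨zf, hz.mem⟩ az) a := by
    refine exists_avgOn_sum (Tm := FinTame M ⟨zf, hz.mem⟩ az) hc horth hsum (fun i => ?_)
    obtain ⟨a, ha⟩ := exists_avgOn_homog (hc i) (hhom i)
    exact ⟨a, ha.left, ha.one, ha.supp, ha.norm_le, fun φ _ b => ha.inv φ trivial b⟩
  have h2 : ∃ a, IsAvgOn M zc (FinTame M ⟨zf, hz.mem⟩ az) a :=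
    ⟨a, ha.left, ha.one, ha.supp, ha.norm_le,
      fun φ hφ b => ha.inv φ (finTame_cut hz hsc hzc hszc hszf haz hφ) b⟩
  obtain ⟨a', ha'⟩ := exists_avgOn_add hsc hzc hszc h1 h2
  exact ⟨a', ha'.left, ha'.one.trans hszf, fun φ =>
    (congrArg (fun t => ((a' φ : Alg M) : H →L[ℂ] H) * t) hszf.symm).trans (ha'.supp φ),
    ha'.norm_le, ha'.inv⟩

end Vale.Agent.P082.VN
end

section
attribute [local instance] Vale.Agent.P082.AlgFast.nr Vale.Agent.P082.AlgFast.na
  Vale.Agent.P082.AlgFast.sr Vale.Agent.P082.AlgFast.ng Vale.Agent.P082.AlgFast.sg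
  Vale.Agent.P082.AlgFast.ns Vale.Agent.P082.AlgFast.ri Vale.Agent.P082.AlgFast.ag
  Vale.Agent.P082.AlgFast.am Vale.Agent.P082.AlgFast.mo Vale.Agent.P082.AlgFast.pm
  Vale.Agent.P082.AlgFast.us Vale.Agent.P082.AlgFast.ts Vale.Agent.P082.AlgFast.ets
  Vale.Agent.P082.AlgFast.eng Vale.Agent.P082.AlgFast.esg Vale.Agent.P082.AlgFast.ens
  Vale.Agent.P082.AlgFast.eam Vale.Agent.P082.AlgFast.emo Vale.Agent.P082.AlgFast.nu
  Vale.Agent.P082.AlgFast.sag Vale.Agent.P082.AlgFast.agr Vale.Agent.P082.AlgFast.mon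
  Vale.Agent.P082.AlgFast.srg

open scoped InnerProductSpace ComplexConjugate Topology

namespace Vale.Agent.P082.CB

open Vale.Agent.P082

universe u

variable {H : Type u} [NormedAddCommGroup H] [InnerProductSpace ℂ H] [CompleteSpace H]
  {M : VonNeumannAlgebra H}

attribute [local instance] Ultrafilter.mul Ultrafilter.semigroup

lemma limMul_rowTw_eq (m : Row M) (ψ : Alg M →L[ℂ] Alg M) (b : Alg M) :
    rowTw M m ψ b = (m.1.map fun x => ψ (b * x) * star x).sum := by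
  rw [rowTw_apply]
  rfl

lemma limMul_rowTw_mul (m n : Row M) (ψ : Alg M →L[ℂ] Alg M) (b : Alg M) :
    rowTw M (m * n) ψ b = rowTw M m (rowTw M n ψ) b := by
  rw [rowTw_apply, rowAvg_mul, limMul_rowTw_eq]
  unfold rowAvg
  congr 1
  apply List.map_congr_left
  intro x _
  congr 1
  rw [limMul_rowTw_eq, limMul_rowTw_eq]
  simp only [ContinuousLinearMap.comp_apply, ContinuousLinearMap.mul_apply', mul_assoc]

lemma limMul_inner_rowTw (m : Row M) (ψ : Alg M →L[ℂ] Alg M) (b : Alg M) (β α : H) :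
    ⟪β, ((rowTw M m ψ b : Alg M) : H →L[ℂ] H) α⟫_ℂ
      = (m.1.map fun x => ⟪β, ((ψ (b * x) : Alg M) : H →L[ℂ] H)
          (((star x : Alg M) : H →L[ℂ] H) α)⟫_ℂ).sum := by
  rw [limMul_rowTw_eq]
  induction m.1 with
  | nil => simp
  | cons a l ih =>
      simp only [List.map_cons, List.sum_cons]
      rw [← ih, ← inner_add_right]
      rfl

/-- (C7) `ψ_{UV} = (ψ_V)_U` -/
theorem limTw_mul (U V : Ultrafilter (Row M)) {ψ : Alg M →L[ℂ] Alg M} (h : IsCB M ψ) :
    limTw M (U * V) ψ h = limTw M U (limTw M V ψ h) (limTw_cb V h) := by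
  ext1 b
  refine alg_ext M (fun β α => ?_)
  refine tendsto_nhds_unique (limTw_spec (U * V) h b β α) ?_
  rw [tendsto_nhds]
  intro s hs hmem
  have h1 := (limTw_spec U (limTw_cb V h) b β α).eventually (hs.mem_nhds hmem)
  change ∀ᶠ p in ((U * V : Ultrafilter (Row M)) : Filter (Row M)),
    ⟪β, ((rowTw M p ψ b : Alg M) : H →L[ℂ] H) α⟫_ℂ ∈ s
  rw [Ultrafilter.eventually_mul]
  filter_upwards [h1] with m hm
  have h2 : Filter.Tendsto (fun n => ⟪β, ((rowTw M m (rowTw M n ψ) b : Alg M) : H →L[ℂ] H) α⟫_ℂ)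
      V (𝓝 ⟪β, ((rowTw M m (limTw M V ψ h) b : Alg M) : H →L[ℂ] H) α⟫_ℂ) := by
    simp_rw [limMul_inner_rowTw m]
    exact tendsto_list_sum m.1 (fun x _ => limTw_spec V h (b * x) β _)
  filter_upwards [h2.eventually (hs.mem_nhds hm)] with n hn
  rw [limMul_rowTw_mul]
  exact hn

lemma limAvg_add (U : Ultrafilter (Row M)) {ψ φ : Alg M →L[ℂ] Alg M} (h : IsCB M ψ)
    (h' : IsCB M φ) (h'' : IsCB M (ψ + φ)) :
    limAvg M U (ψ + φ) h'' = limAvg M U ψ h + limAvg M U φ h' := by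
  refine alg_ext M (fun β α => ?_)
  refine tendsto_nhds_unique (limAvg_spec U h'' β α) ?_
  have h1 := (limAvg_spec U h β α).add (limAvg_spec U h' β α)
  simp_rw [rowAvg_add]
  simp only [← inner_add_right] at h1
  exact h1

lemma limAvg_smul (U : Ultrafilter (Row M)) {ψ : Alg M →L[ℂ] Alg M} (c : ℂ) (h : IsCB M ψ)
    (h' : IsCB M (c • ψ)) : limAvg M U (c • ψ) h' = c • limAvg M U ψ h := by
  refine alg_ext M (fun β α => ?_)
  refine tendsto_nhds_unique (limAvg_spec U h' β α) ?_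
  have h1 := (limAvg_spec U h β α).const_mul c
  simp_rw [rowAvg_smul]
  simp only [← inner_smul_right] at h1
  exact h1

lemma limAvg_mulL (U : Ultrafilter (Row M)) {ψ : Alg M →L[ℂ] Alg M} (c : Alg M) (h : IsCB M ψ) :
    limAvg M U ((mulL c).comp ψ) (cb_mulL c h) = c * limAvg M U ψ h := by
  refine alg_ext M (fun β α => ?_)
  refine tendsto_nhds_unique (limAvg_spec U (cb_mulL c h) β α) ?_
  have h1 := limAvg_spec U h (ContinuousLinearMap.adjoint (c : H →L[ℂ] H) β) α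
  simp_rw [rowAvg_mulL]
  simp only [ContinuousLinearMap.adjoint_inner_left] at h1
  exact h1

lemma limAvg_id (U : Ultrafilter (Row M)) :
    limAvg M U (ContinuousLinearMap.id ℂ (Alg M)) (cb_id M) = 1 := by
  refine alg_ext M (fun β α => ?_)
  refine tendsto_nhds_unique (limAvg_spec U (cb_id M) β α) ?_
  simp_rw [rowAvg_id]
  exact tendsto_const_nhds

lemma norm_limAvg_le (U : Ultrafilter (Row M)) {ψ : Alg M →L[ℂ] Alg M} (h : IsCB M ψ) {C : ℝ}
    (hC : 0 ≤ C) (hb : LBound M ψ 1 1 C) : ‖limAvg M U ψ h‖ ≤ √C := by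
  change ‖((limAvg M U ψ h : Alg M) : H →L[ℂ] H)‖ ≤ √C
  refine ContinuousLinearMap.opNorm_le_bound _ (Real.sqrt_nonneg _) (fun α => ?_)
  have key : ∀ β : H, ‖⟪β, ((limAvg M U ψ h : Alg M) : H →L[ℂ] H) α⟫_ℂ‖ ≤ √C * ‖α‖ * ‖β‖ := by
    intro β
    refine le_of_tendsto (limAvg_spec U h β α).norm (Filter.Eventually.of_forall fun m => ?_)
    calc ‖⟪β, ((rowAvg M m ψ : Alg M) : H →L[ℂ] H) α⟫_ℂ‖
        ≤ ‖β‖ * ‖((rowAvg M m ψ : Alg M) : H →L[ℂ] H) α‖ := norm_inner_le_norm _ _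
      _ ≤ ‖β‖ * (‖((rowAvg M m ψ : Alg M) : H →L[ℂ] H)‖ * ‖α‖) := by
          gcongr
          exact ContinuousLinearMap.le_opNorm _ _
      _ ≤ ‖β‖ * (√C * ‖α‖) := by
          gcongr
          exact norm_rowAvg_le m ψ hC hb
      _ = √C * ‖α‖ * ‖β‖ := by ring
  have h2 := key (((limAvg M U ψ h : Alg M) : H →L[ℂ] H) α)
  by_cases h0 : ‖((limAvg M U ψ h : Alg M) : H →L[ℂ] H) α‖ = 0
  · rw [h0]; positivity
  · have hpos : 0 < ‖((limAvg M U ψ h : Alg M) : H →L[ℂ] H) α‖ :=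
      lt_of_le_of_ne (norm_nonneg _) (Ne.symm h0)
    rw [inner_self_eq_norm_sq_to_K, norm_pow] at h2
    simp only [Complex.coe_algebraMap, Complex.norm_real, norm_norm] at h2
    rw [sq] at h2
    exact le_of_mul_le_mul_right h2 hpos

end Vale.Agent.P082.CB
end

section
attribute [local instance] Vale.Agent.P082.AlgFast.nr Vale.Agent.P082.AlgFast.na
  Vale.Agent.P082.AlgFast.sr Vale.Agent.P082.AlgFast.ng Vale.Agent.P082.AlgFast.sg
  Vale.Agent.P082.AlgFast.ns Vale.Agent.P082.AlgFast.ri Vale.Agent.P082.AlgFast.ag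
  Vale.Agent.P082.AlgFast.am Vale.Agent.P082.AlgFast.mo Vale.Agent.P082.AlgFast.pm
  Vale.Agent.P082.AlgFast.us Vale.Agent.P082.AlgFast.ts Vale.Agent.P082.AlgFast.ets
  Vale.Agent.P082.AlgFast.eng Vale.Agent.P082.AlgFast.esg Vale.Agent.P082.AlgFast.ens
  Vale.Agent.P082.AlgFast.eam Vale.Agent.P082.AlgFast.emo Vale.Agent.P082.AlgFast.nu
  Vale.Agent.P082.AlgFast.sag Vale.Agent.P082.AlgFast.agr Vale.Agent.P082.AlgFast.mon
  Vale.Agent.P082.AlgFast.srg

open scoped InnerProductSpace ComplexConjugate Topology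

namespace Vale.Agent.P082.CB

open Vale.Agent.P082 Vale.Agent.P082.VN

universe u

variable {H : Type u} [NormedAddCommGroup H] [InnerProductSpace ℂ H] [CompleteSpace H]
  {M : VonNeumannAlgebra H}

attribute [local instance] Ultrafilter.mul Ultrafilter.semigroup

/-- a bounded localised norm at `1` gives one at every `e, f` -/
lemma LBound.of_one {ψ : Alg M →L[ℂ] Alg M} {C : ℝ} (h : LBound M ψ 1 1 C)
    (e f : H →L[ℂ] H) : LBound M ψ e f C := by
  intro ι κ _ _ Y hY _ ζ _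
  exact h ι κ Y hY (fun i j => mul_one _) ζ (fun j => rfl)

/-- the localised bound at `e₁` propagates to the central cover -/
lemma LBound.transfer (a : Ultrafilter (Row M))
    (ha : ∀ b : Ultrafilter (Row M), ∃ c : Ultrafilter (Row M), c * (b * a) = a)
    {φ : Alg M →L[ℂ] Alg M} (h : IsCB M φ) {e₁ z : H →L[ℂ] H} (he : IsPr M e₁) (hz : IsCPr M z)
    {K : Type u} (m : K → H →L[ℂ] H)
    (hm : ∀ k, m k ∈ M ∧ m k * (star (m k) * m k) = m k ∧ m k * e₁ = m k)
    (ho : ∀ k l, k ≠ l → star (m k) * m l = 0) (hs : IsSum (fun k => m k * star (m k)) z)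
    (C : ℝ) (hC : 0 ≤ C) (hb : LBound M (limTw M a φ h) e₁ e₁ C) :
    LBound M (limTw M a φ h) 1 z C := by
  obtain ⟨U, hU⟩ := exists_local_ultrafilter he hz m hm ho hs
  obtain ⟨c, hc⟩ := ha U
  have h1 : LBound M (limTw M (U * a) φ h) 1 z C := by
    rw [limTw_mul U a h]
    exact hU (limTw M a φ h) (limTw_cb a h) C hC hb
  have h2 := limTw_bound c (limTw_cb (U * a) h) hz.comm h1
  rw [← limTw_mul c (U * a) h, hc] at h2
  exact h2

/-- the key step of (C11): `ψ(y(1-e)) e = 0` -/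
lemma limTw_one_sub_mul (a : Ultrafilter (Row M))
    (ha : ∀ b : Ultrafilter (Row M), ∃ c : Ultrafilter (Row M), c * (b * a) = a)
    {φ : Alg M →L[ℂ] Alg M} (h : IsCB M φ) (e : Alg M) (he : IsPr M (e : H →L[ℂ] H))
    (y : Alg M) : limTw M a φ h (y * (1 - e)) * e = 0 := by
  -- the normalised case
  have key : ∀ y : Alg M, ‖y‖ ≤ 1 → limTw M a φ h (y * (1 - e)) * e = 0 := by
    intro y hy
    by_contra hne
    set ψ := limTw M a φ h with hψ
    have hX0 : ((ψ (y * (1 - e)) * e : Alg M) : H →L[ℂ] H) ≠ 0 := by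
      intro h0
      exact hne (Subtype.ext h0)
    have hee : e * e = e := Subtype.ext he.idem
    have hXe : ((ψ (y * (1 - e)) * e : Alg M) : H →L[ℂ] H) * (e : H →L[ℂ] H)
        = ((ψ (y * (1 - e)) * e : Alg M) : H →L[ℂ] H) := by
      have : (ψ (y * (1 - e)) * e) * e = ψ (y * (1 - e)) * e := by
        rw [mul_assoc, hee]
      exact congrArg Subtype.val this
    obtain ⟨e₁, he₁, hle, hne₁, δ, hδ, hlow⟩ :=
      exists_lower_proj (ψ (y * (1 - e)) * e).2 he hXe hX0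
    obtain ⟨z, hz, hze, K, m, hm, ho, hs⟩ := exists_rows he₁
    refine stack_false ψ (e := (e : H →L[ℂ] H)) (e₁ := e₁) (z := z) he.mem he.idem he.sa
      he₁.idem he₁.sa hle hze hne₁ ?_ ?_ y (y * (1 - e)) hy rfl hδ ?_
    · obtain ⟨C, hC, hb⟩ := limTw_cb a h
      exact ⟨C, hC, hb.of_one _ _⟩
    · intro C hC hb
      exact LBound.transfer a ha h he₁ hz m hm ho hs C hC hb
    · intro ζ hζ
      have h1 := hlow ζ hζ
      have h2 : (e : H →L[ℂ] H) ζ = ζ := by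
        have := congrArg (fun T : H →L[ℂ] H => T ζ) hle
        simp only [mul_apply_eq_comp] at this
        rw [hζ] at this
        exact this
      have h3 : ((ψ (y * (1 - e)) * e : Alg M) : H →L[ℂ] H) ζ
          = ((ψ (y * (1 - e)) : Alg M) : H →L[ℂ] H) ζ := by
        change ((ψ (y * (1 - e)) : Alg M) : H →L[ℂ] H) ((e : H →L[ℂ] H) ζ) = _
        rw [h2]
      rw [h3] at h1
      exact h1
  -- homogeneity
  have hpos : 0 < ‖y‖ + 1 := by positivity
  set t : ℂ := ((‖y‖ + 1 : ℝ) : ℂ) with ht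
  have ht0 : t ≠ 0 := by
    rw [ht]
    exact_mod_cast hpos.ne'
  have hnt : ‖t‖ = ‖y‖ + 1 := by
    rw [ht, Complex.norm_real, Real.norm_of_nonneg hpos.le]
  have hy' : ‖t⁻¹ • y‖ ≤ 1 := by
    rw [norm_smul, norm_inv, hnt, inv_mul_le_iff₀ hpos]
    linarith
  have h1 := key (t⁻¹ • y) hy'
  have h2 : limTw M a φ h (t⁻¹ • y * (1 - e)) * e
      = t⁻¹ • (limTw M a φ h (y * (1 - e)) * e) := by
    rw [smul_mul_assoc, map_smul, smul_mul_assoc]
  rw [h2] at h1
  exact (smul_eq_zero.1 h1).resolve_left (inv_ne_zero ht0)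

/-- (C11) for `a` in a minimal left ideal `ψ = φ_a` is right modular -/
theorem modular_of_minimal (a : Ultrafilter (Row M))
    (ha : ∀ b : Ultrafilter (Row M), ∃ c : Ultrafilter (Row M), c * (b * a) = a)
    {φ : Alg M →L[ℂ] Alg M} (h : IsCB M φ) (y b : Alg M) :
    limTw M a φ h (y * b) = limTw M a φ h y * b := by
  refine modular_of_proj (limTw M a φ h) ?_ y b
  intro p hp y
  have h1 := limTw_one_sub_mul a ha h p hp y
  have hp' : IsPr M ((1 - p : Alg M) : H →L[ℂ] H) := by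
    refine ⟨(1 - p).2, ?_, ?_⟩
    · change ((1 : H →L[ℂ] H) - p) * (1 - p) = 1 - p
      rw [mul_sub, sub_mul, sub_mul, hp.idem]
      simp
    · change star ((1 : H →L[ℂ] H) - p) = 1 - p
      rw [star_sub, star_one, hp.sa]
  have h2 := limTw_one_sub_mul a ha h (1 - p) hp' y
  rw [sub_sub_cancel] at h2
  have h3 : limTw M a φ h (y * p) = limTw M a φ h (y * p) * p := by
    rw [mul_sub, mul_one] at h2
    exact sub_eq_zero.1 h2
  rw [mul_sub, mul_one, map_sub, sub_mul, sub_eq_zero] at h1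
  rw [h3, h1]

end Vale.Agent.P082.CB
end

section
attribute [local instance] Vale.Agent.P082.AlgFast.nr Vale.Agent.P082.AlgFast.na
  Vale.Agent.P082.AlgFast.sr Vale.Agent.P082.AlgFast.ng Vale.Agent.P082.AlgFast.sg
  Vale.Agent.P082.AlgFast.ns Vale.Agent.P082.AlgFast.ri Vale.Agent.P082.AlgFast.ag
  Vale.Agent.P082.AlgFast.am Vale.Agent.P082.AlgFast.mo Vale.Agent.P082.AlgFast.pm
  Vale.Agent.P082.AlgFast.us Vale.Agent.P082.AlgFast.ts Vale.Agent.P082.AlgFast.ets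
  Vale.Agent.P082.AlgFast.eng Vale.Agent.P082.AlgFast.esg Vale.Agent.P082.AlgFast.ens
  Vale.Agent.P082.AlgFast.eam Vale.Agent.P082.AlgFast.emo Vale.Agent.P082.AlgFast.nu
  Vale.Agent.P082.AlgFast.sag Vale.Agent.P082.AlgFast.agr Vale.Agent.P082.AlgFast.mon
  Vale.Agent.P082.AlgFast.srg

open scoped InnerProductSpace ComplexConjugate Topology

namespace Vale.Agent.P082.CB

open Vale.Agent.P082 Vale.Agent.P082.VN

universe u

variable {H : Type u} [NormedAddCommGroup H] [InnerProductSpace ℂ H] [CompleteSpace H]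
  {M : VonNeumannAlgebra H}

/-- Theorem CB: a universal averaging functional on the completely bounded maps -/
theorem exists_cb_functional (M : VonNeumannAlgebra H) :
    ∃ a : cbMaps M →ₗ[ℂ] Alg M,
      (∀ (ψ : cbMaps M) (C : ℝ), 0 ≤ C → LBound M ψ.1 1 1 C → ‖a ψ‖ ≤ √C) ∧
      (∀ (c : Alg M) (ψ : cbMaps M), a ⟨(mulL c).comp ψ.1, cb_mulL c ψ.2⟩ = c * a ψ) ∧
      a ⟨ContinuousLinearMap.id ℂ (Alg M), cb_id M⟩ = 1 ∧
      ∀ (ψ : cbMaps M) (b : Alg M), a ⟨ψ.1.comp (mulL b), cb_comp_mulL b ψ.2⟩ = a ψ * b := by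
  obtain ⟨U, hU⟩ := exists_minimal_ultrafilter (Row M)
  refine ⟨{ toFun := fun ψ => limAvg M U ψ.1 ψ.2
            map_add' := fun ψ φ => limAvg_add U ψ.2 φ.2 _
            map_smul' := fun c ψ => limAvg_smul U c ψ.2 _ }, ?_, ?_, ?_, ?_⟩
  · intro ψ C hC hb
    exact norm_limAvg_le U ψ.2 hC hb
  · intro c ψ
    exact limAvg_mulL U c ψ.2
  · exact limAvg_id U
  · intro ψ b
    have hcb : IsCB M ψ.1 := ψ.2
    have h1 := modular_of_minimal U hU hcb 1 b
    rw [one_mul, limTw_apply, limTw_apply] at h1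
    have h2 : limAvg M U (ψ.1.comp (mulL 1)) (cb_comp_mulL 1 hcb) = limAvg M U ψ.1 hcb := by
      congr 1
    rw [h2] at h1
    exact h1

end Vale.Agent.P082.CB
end

section
attribute [local instance] Vale.Agent.P082.AlgFast.nr Vale.Agent.P082.AlgFast.na
  Vale.Agent.P082.AlgFast.sr Vale.Agent.P082.AlgFast.ng Vale.Agent.P082.AlgFast.sg
  Vale.Agent.P082.AlgFast.ns Vale.Agent.P082.AlgFast.ri Vale.Agent.P082.AlgFast.ag
  Vale.Agent.P082.AlgFast.am Vale.Agent.P082.AlgFast.mo Vale.Agent.P082.AlgFast.pm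
  Vale.Agent.P082.AlgFast.us Vale.Agent.P082.AlgFast.ts Vale.Agent.P082.AlgFast.ets
  Vale.Agent.P082.AlgFast.eng Vale.Agent.P082.AlgFast.esg Vale.Agent.P082.AlgFast.ens
  Vale.Agent.P082.AlgFast.eam Vale.Agent.P082.AlgFast.emo Vale.Agent.P082.AlgFast.nu
  Vale.Agent.P082.AlgFast.sag Vale.Agent.P082.AlgFast.agr Vale.Agent.P082.AlgFast.mon
  Vale.Agent.P082.AlgFast.srg

open scoped InnerProductSpace ComplexConjugate Topology

namespace Vale.Agent.P082.CB

open Vale.Agent.P082 Vale.Agent.P082.VN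

section abs

variable {A : Type*} [NormedRing A] [NormedAlgebra ℂ A]

/-- the cochain with values in the subspace `S` of maps -/
noncomputable def cobCur (S : Submodule ℂ (A →L[ℂ] A)) {k : ℕ}
    (f : ContinuousMultilinearMap ℂ (fun _ : Fin (k + 1) => A) A)
    (hS : ∀ x : Fin k → A, f.curryRight x ∈ S) :
    MultilinearMap ℂ (fun _ : Fin k => A) S :=
  MultilinearMap.codRestrict f.curryRight.toMultilinearMap S hS

/-- the cocycle identity under a functional defined on the subspace `S` -/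
lemma cob_identity (S : Submodule ℂ (A →L[ℂ] A))
    (hmul : ∀ (c : A) (ψ : A →L[ℂ] A), ψ ∈ S → (mulL c).comp ψ ∈ S)
    (hcomp : ∀ (b : A) (ψ : A →L[ℂ] A), ψ ∈ S → ψ.comp (mulL b) ∈ S)
    (hid : ContinuousLinearMap.id ℂ A ∈ S) (a : S →ₗ[ℂ] A)
    (h2 : ∀ (c : A) (ψ : S), a ⟨(mulL c).comp ψ.1, hmul c ψ.1 ψ.2⟩ = c * a ψ)
    (h3 : a ⟨ContinuousLinearMap.id ℂ A, hid⟩ = 1)
    (h4 : ∀ (ψ : S) (b : A), a ⟨ψ.1.comp (mulL b), hcomp b ψ.1 ψ.2⟩ = a ψ * b)
    {k : ℕ} (f : ContinuousMultilinearMap ℂ (fun _ : Fin (k + 1) => A) A)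
    (hf : ∀ a, hochschild (fun x => f x) a = 0) (hS : ∀ x : Fin k → A, f.curryRight x ∈ S)
    (x : Fin (k + 1) → A) :
    x 0 * a (cobCur S f hS (fun i => x i.succ))
      + ∑ j : Fin k, ((-1 : ℂ) ^ ((j : ℕ) + 1)) • a (cobCur S f hS (contract j x))
      + ((-1 : ℂ) ^ (k + 1)) • (a (cobCur S f hS (fun i => x i.castSucc)) * x (Fin.last k))
      + ((-1 : ℂ) ^ (k + 2)) • f x = 0 := by
  set F := cobCur S f hS with hF
  set I : S := ⟨ContinuousLinearMap.id ℂ A, hid⟩ with hI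
  have hE : (⟨(mulL (x 0)).comp (F (fun i => x i.succ)).1, hmul _ _ (F (fun i => x i.succ)).2⟩ : S)
      + ∑ j : Fin k, ((-1 : ℂ) ^ ((j : ℕ) + 1)) • F (contract j x)
      + ((-1 : ℂ) ^ (k + 1)) • (⟨(F (fun i => x i.castSucc)).1.comp (mulL (x (Fin.last k))),
        hcomp _ _ (F (fun i => x i.castSucc)).2⟩ : S)
      + ((-1 : ℂ) ^ (k + 2)) • (⟨(mulL (f x)).comp I.1, hmul _ _ I.2⟩ : S) = 0 := by
    apply Subtype.ext
    have h5 := cocycle_curry f hf x
    rw [Submodule.coe_add, Submodule.coe_add, Submodule.coe_add, Submodule.coe_smul,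
      Submodule.coe_smul, Submodule.coe_sum, Submodule.coe_zero]
    exact h5
  have h5 := congrArg a hE
  rw [map_add, map_add, map_add, map_smul, map_smul, map_sum, map_zero, h2, h4, h2, h3,
    mul_one] at h5
  have h6 : ∀ j : Fin k, a (((-1 : ℂ) ^ ((j : ℕ) + 1)) • F (contract j x)) =
      ((-1 : ℂ) ^ ((j : ℕ) + 1)) • a (F (contract j x)) := fun j => map_smul _ _ _
  rw [Finset.sum_congr rfl fun j _ => h6 j] at h5
  exact h5

/-- an averaging functional on the subspace `S` makes a cocycle with values in `S` a coboundary -/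
lemma cob_of_functional (S : Submodule ℂ (A →L[ℂ] A))
    (hmul : ∀ (c : A) (ψ : A →L[ℂ] A), ψ ∈ S → (mulL c).comp ψ ∈ S)
    (hcomp : ∀ (b : A) (ψ : A →L[ℂ] A), ψ ∈ S → ψ.comp (mulL b) ∈ S)
    (hid : ContinuousLinearMap.id ℂ A ∈ S) (a : S →ₗ[ℂ] A)
    (h2 : ∀ (c : A) (ψ : S), a ⟨(mulL c).comp ψ.1, hmul c ψ.1 ψ.2⟩ = c * a ψ)
    (h3 : a ⟨ContinuousLinearMap.id ℂ A, hid⟩ = 1)
    (h4 : ∀ (ψ : S) (b : A), a ⟨ψ.1.comp (mulL b), hcomp b ψ.1 ψ.2⟩ = a ψ * b)
    {k : ℕ} (f : ContinuousMultilinearMap ℂ (fun _ : Fin (k + 1) => A) A)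
    (hf : ∀ a, hochschild (fun x => f x) a = 0) (hS : ∀ x : Fin k → A, f.curryRight x ∈ S)
    {C : ℝ} (hbd : ∀ x : Fin k → A, ‖a ⟨f.curryRight x, hS x⟩‖ ≤ C * ∏ i, ‖x i‖) :
    IsCob f := by
  set g : ContinuousMultilinearMap ℂ (fun _ : Fin k => A) A :=
    (a.compMultilinearMap (cobCur S f hS)).mkContinuous C hbd with hg
  have hga : ∀ x, g x = a (cobCur S f hS x) := fun x => rfl
  refine ⟨0 + ((-1 : ℂ) ^ (k + 1)) • g, fun x => ?_⟩
  rw [hochschild_add_smul]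
  have h0 : hochschild (fun y => (0 : ContinuousMultilinearMap ℂ (fun _ : Fin k => A) A) y)
      x = 0 := by
    simp [hochschild]
  rw [h0, zero_add]
  have h5 := cob_identity S hmul hcomp hid a h2 h3 h4 f hf hS x
  have hs2 : ((-1 : ℂ) ^ (k + 2)) = - ((-1 : ℂ) ^ (k + 1)) := by ring
  rw [hs2, neg_smul, add_neg_eq_zero] at h5
  have h6 : hochschild (fun y => g y) x = ((-1 : ℂ) ^ (k + 1)) • f x := by
    rw [← h5]
    unfold hochschild
    simp only [neg_one_pow_mul, hga]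
  have hs : ((-1 : ℂ) ^ (k + 1)) * ((-1 : ℂ) ^ (k + 1)) = 1 := by
    rw [← pow_add, ← two_mul, pow_mul]; simp
  rw [h6, smul_smul, hs, one_smul]

end abs

universe u

variable {H : Type u} [NormedAddCommGroup H] [InnerProductSpace ℂ H] [CompleteSpace H]
  {M : VonNeumannAlgebra H}

/-- (C12) a cocycle whose last variable is completely bounded is a coboundary -/
theorem isCob_of_cb {k : ℕ} (f : ContinuousMultilinearMap ℂ (fun _ : Fin (k + 1) => Alg M) (Alg M))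
    (hf : ∀ a, hochschild (fun x => f x) a = 0) {C : ℝ} (hC : 0 ≤ C)
    (hcb : ∀ x : Fin k → Alg M, LBound M (f.curryRight x) 1 1 ((C * ∏ i, ‖x i‖) ^ 2)) :
    IsCob f := by
  obtain ⟨a, h1, h2, h3, h4⟩ := exists_cb_functional M
  have hcb' : ∀ x : Fin k → Alg M, f.curryRight x ∈ cbMaps M := fun x =>
    ⟨(C * ∏ i, ‖x i‖) ^ 2, sq_nonneg _, hcb x⟩
  refine cob_of_functional (cbMaps M) (fun c ψ h => cb_mulL c h) (fun b ψ h => cb_comp_mulL b h)
    (cb_id M) a h2 h3 h4 f hf hcb' (C := C) fun x => ?_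
  have h5 := h1 ⟨f.curryRight x, hcb' x⟩ ((C * ∏ i, ‖x i‖) ^ 2) (sq_nonneg _) (hcb x)
  rw [Real.sqrt_sq (mul_nonneg hC (Finset.prod_nonneg fun i _ => norm_nonneg _))] at h5
  exact h5

end Vale.Agent.P082.CB
end

section
attribute [local instance] Vale.Agent.P082.AlgFast.nr Vale.Agent.P082.AlgFast.na
  Vale.Agent.P082.AlgFast.sr Vale.Agent.P082.AlgFast.ng Vale.Agent.P082.AlgFast.sg
  Vale.Agent.P082.AlgFast.ns Vale.Agent.P082.AlgFast.ri Vale.Agent.P082.AlgFast.ag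
  Vale.Agent.P082.AlgFast.am Vale.Agent.P082.AlgFast.mo Vale.Agent.P082.AlgFast.pm
  Vale.Agent.P082.AlgFast.us Vale.Agent.P082.AlgFast.ts Vale.Agent.P082.AlgFast.ets
  Vale.Agent.P082.AlgFast.eng Vale.Agent.P082.AlgFast.esg Vale.Agent.P082.AlgFast.ens
  Vale.Agent.P082.AlgFast.eam Vale.Agent.P082.AlgFast.emo Vale.Agent.P082.AlgFast.nu
  Vale.Agent.P082.AlgFast.sag Vale.Agent.P082.AlgFast.agr Vale.Agent.P082.AlgFast.mon
  Vale.Agent.P082.AlgFast.srg

open scoped InnerProductSpace ComplexConjugate Topology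

namespace Vale.Agent.P082.CB

open Vale.Agent.P082 Vale.Agent.P082.VN

universe u

variable {H : Type u} [NormedAddCommGroup H] [InnerProductSpace ℂ H] [CompleteSpace H]
  {M : VonNeumannAlgebra H}

/-- Two isometries with sum of ranges one give `2^m` such isometries (any star ring). -/
theorem isoms_of_two {R : Type*} [Ring R] [StarRing R] (w : Fin 2 → R)
    (h1 : ∀ i j, star (w i) * w j = if i = j then 1 else 0)
    (h2 : ∑ i, w i * star (w i) = 1) (m : ℕ) :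
    ∃ S : Fin (2 ^ m) → R, (∀ i j, star (S i) * S j = if i = j then 1 else 0) ∧
      ∑ i, S i * star (S i) = 1 := by
  induction m with
  | zero =>
    refine ⟨fun _ => 1, fun i j => ?_, ?_⟩
    · have : i = j := Subsingleton.elim (α := Fin 1) i j
      simp [this]
    · have h : ∑ i : Fin (2 ^ 0), (1 : R) * star (1 : R) = 1 := by simp
      exact h
  | succ m ih =>
    obtain ⟨S, hS1, hS2⟩ := ih
    let e : Fin (2 ^ (m + 1)) ≃ Fin (2 ^ m) × Fin 2 :=
      (finCongr (pow_succ 2 m)).trans finProdFinEquiv.symm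
    refine ⟨fun k => S (e k).1 * w (e k).2, fun i j => ?_, ?_⟩
    · have h3 : star (S (e i).1 * w (e i).2) * (S (e j).1 * w (e j).2) =
          star (w (e i).2) * (star (S (e i).1) * S (e j).1) * w (e j).2 := by
        rw [star_mul]
        simp only [mul_assoc]
      rw [h3, hS1]
      by_cases hij : i = j
      · subst hij
        simp [h1]
      · rw [if_neg hij]
        by_cases h4 : (e i).1 = (e j).1
        · rw [if_pos h4, mul_one, h1, if_neg]
          intro h5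
          exact hij (e.injective (Prod.ext h4 h5))
        · rw [if_neg h4]
          simp
    · rw [e.sum_comp (fun p => S p.1 * w p.2 * star (S p.1 * w p.2)), Fintype.sum_prod_type]
      have h3 : ∀ i, ∑ y, S i * w y * star (S i * w y) = S i * star (S i) := by
        intro i
        have h4 : ∀ y, S i * w y * star (S i * w y) = S i * (w y * star (w y)) * star (S i) := by
          intro y
          rw [star_mul]
          simp only [mul_assoc]
        simp only [h4]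
        rw [← Finset.sum_mul, ← Finset.mul_sum, h2, mul_one]
      simp only [h3]
      exact hS2

/-- (C15) a halvable identity gives `2^m` isometries with orthogonal ranges and sum one -/
theorem exists_isometries (h : Halvable M (1 : H →L[ℂ] H)) (m : ℕ) :
    ∃ S : Fin (2 ^ m) → Alg M, (∀ i j, star (S i) * S j = if i = j then 1 else 0) ∧
      ∑ i, S i * star (S i) = 1 := by
  obtain ⟨v₁, hv₁, v₂, hv₂, h1, h2, h3⟩ := h
  let w₁ : Alg M := ⟨v₁, hv₁⟩
  let w₂ : Alg M := ⟨v₂, hv₂⟩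
  have e1 : star w₁ * w₁ = 1 := Subtype.ext h1
  have e2 : star w₂ * w₂ = 1 := Subtype.ext h2
  have e3 : w₁ * star w₁ + w₂ * star w₂ = 1 := Subtype.ext h3
  have e4 : star w₁ * w₂ = 0 := by
    have h4 : star w₁ * (w₁ * star w₁ + w₂ * star w₂) * w₂ = star w₁ * w₂ := by
      rw [e3, mul_one]
    have h5 : star w₁ * (w₁ * star w₁ + w₂ * star w₂) * w₂ =
        (star w₁ * w₁) * (star w₁ * w₂) + (star w₁ * w₂) * (star w₂ * w₂) := by
      noncomm_ring
    rw [h5, e1, e2, one_mul, mul_one] at h4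
    exact add_eq_left.1 h4
  have e5 : star w₂ * w₁ = 0 := by
    have h4 := congrArg star e4
    rwa [star_mul, star_star, star_zero] at h4
  refine isoms_of_two ![w₁, w₂] ?_ ?_ m
  · intro i j
    fin_cases i <;> fin_cases j
    · exact e1.trans (if_pos rfl).symm
    · exact e4.trans (if_neg (by decide)).symm
    · exact e5.trans (if_neg (by decide)).symm
    · exact e2.trans (if_pos rfl).symm
  · exact (Fin.sum_univ_two _).trans e3

end Vale.Agent.P082.CB
end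

section
attribute [local instance] Vale.Agent.P082.AlgFast.nr Vale.Agent.P082.AlgFast.na
  Vale.Agent.P082.AlgFast.sr Vale.Agent.P082.AlgFast.ng Vale.Agent.P082.AlgFast.sg
  Vale.Agent.P082.AlgFast.ns Vale.Agent.P082.AlgFast.ri Vale.Agent.P082.AlgFast.ag
  Vale.Agent.P082.AlgFast.am Vale.Agent.P082.AlgFast.mo Vale.Agent.P082.AlgFast.pm
  Vale.Agent.P082.AlgFast.us Vale.Agent.P082.AlgFast.ts Vale.Agent.P082.AlgFast.ets
  Vale.Agent.P082.AlgFast.eng Vale.Agent.P082.AlgFast.esg Vale.Agent.P082.AlgFast.ens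
  Vale.Agent.P082.AlgFast.eam Vale.Agent.P082.AlgFast.emo Vale.Agent.P082.AlgFast.nu
  Vale.Agent.P082.AlgFast.sag Vale.Agent.P082.AlgFast.agr Vale.Agent.P082.AlgFast.mon
  Vale.Agent.P082.AlgFast.srg

open scoped InnerProductSpace ComplexConjugate Topology

namespace Vale.Agent.P082.CB

open Vale.Agent.P082 Vale.Agent.P082.VN

universe u

variable {H : Type u} [NormedAddCommGroup H] [InnerProductSpace ℂ H] [CompleteSpace H]
  {M : VonNeumannAlgebra H}

omit [CompleteSpace H] in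
/-- Lower semicontinuity of sums of squares under weak limits. -/
lemma sum_sq_le_of_weak {ι : Type} [Fintype ι] (U : Filter ℕ) [U.NeBot] (v : ι → H)
    (w : ℕ → ι → H) (B : ℝ) (hw : ∀ᶠ m in U, ∑ i, ‖w m i‖ ^ 2 ≤ B)
    (h : ∀ (β : H) i, Filter.Tendsto (fun m => ⟪β, w m i⟫_ℂ) U (𝓝 ⟪β, v i⟫_ℂ)) :
    ∑ i, ‖v i‖ ^ 2 ≤ B := by
  have h1 : Filter.Tendsto (fun m => ∑ i, (⟪v i, w m i⟫_ℂ).re) U
      (𝓝 (∑ i, (⟪v i, v i⟫_ℂ).re)) := by
    refine tendsto_finsetSum _ fun i _ => ?_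
    exact (Complex.continuous_re.tendsto _).comp (h (v i) i)
  have h2 : ∑ i, (⟪v i, v i⟫_ℂ).re = ∑ i, ‖v i‖ ^ 2 := by
    refine Finset.sum_congr rfl fun i _ => ?_
    rw [inner_self_eq_norm_sq_to_K]
    norm_cast
  rw [h2] at h1
  have h3 : ∀ᶠ m in U, ∑ i, (⟪v i, w m i⟫_ℂ).re ≤ (∑ i, ‖v i‖ ^ 2 + B) / 2 := by
    filter_upwards [hw] with m hm
    have h4 : ∀ i, (⟪v i, w m i⟫_ℂ).re ≤ (‖v i‖ ^ 2 + ‖w m i‖ ^ 2) / 2 := by
      intro i
      have h5 : (⟪v i, w m i⟫_ℂ).re ≤ ‖⟪v i, w m i⟫_ℂ‖ := Complex.re_le_norm _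
      have h6 := norm_inner_le_norm (𝕜 := ℂ) (v i) (w m i)
      linarith only [sq_nonneg (‖v i‖ - ‖w m i‖), h6, h5]
    calc ∑ i, (⟪v i, w m i⟫_ℂ).re ≤ ∑ i, (‖v i‖ ^ 2 + ‖w m i‖ ^ 2) / 2 :=
          Finset.sum_le_sum fun i _ => h4 i
      _ = (∑ i, ‖v i‖ ^ 2 + ∑ i, ‖w m i‖ ^ 2) / 2 := by
          rw [← Finset.sum_div, Finset.sum_add_distrib]
      _ ≤ (∑ i, ‖v i‖ ^ 2 + B) / 2 := by linarith
  have h4 := le_of_tendsto h1 h3
  linarith only [h4]

/-- (C17) properly infinite algebras -/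
theorem vanishing_halvable (M : VonNeumannAlgebra H) (h : Halvable M (1 : H →L[ℂ] H)) (k : ℕ) :
    BoundedCohomologyVanishes (Alg M) k := by
  intro f hf
  have hlev : ∀ m : ℕ, ∃ (F : ContinuousMultilinearMap ℂ (fun _ : Fin (k + 1) => Alg M) (Alg M))
      (g : ContinuousMultilinearMap ℂ (fun _ : Fin k => Alg M) (Alg M)),
      (∀ x, f x = F x + hochschild (fun y => g y) x) ∧
      (∀ a, hochschild (fun x => F x) a = 0) ∧ ‖F‖ ≤ 2 * ‖f‖ ∧
      ‖g‖ ≤ (2 * k + 3) * ‖f‖ ∧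
      ∀ x : Fin k → Alg M,
        LevelBound M (2 ^ m) (F.curryRight x) ((2 * ‖f‖ * ∏ i, ‖x i‖) ^ 2) := by
    intro m
    obtain ⟨S, hS, hsum⟩ := exists_isometries h m
    exact exists_level hS hsum f hf
  choose F g h1 h2 h3 h4 h5 using hlev
  have hf0 : 0 ≤ ‖f‖ := norm_nonneg f
  have hC : 2 * ‖f‖ ≤ (2 * k + 3) * ‖f‖ := by
    have : (0 : ℝ) ≤ k := Nat.cast_nonneg k
    linarith only [mul_nonneg (sub_nonneg.2 hf0) (sub_nonneg.2 this), hf0]
  obtain ⟨F', g', e1, e2, e3⟩ := exists_limit_cob M (Filter.hyperfilter ℕ) f F g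
    ((2 * k + 3) * ‖f‖) (fun m => (h3 m).trans hC) h4 h1
  have hcb : ∀ x : Fin k → Alg M, LBound M (F'.curryRight x) 1 1
      ((2 * ‖f‖ * ∏ i, ‖x i‖) ^ 2) := by
    intro x ι κ _ _ Y hY _ ζ _
    refine sum_sq_le_of_weak (Filter.hyperfilter ℕ : Filter ℕ) _
      (fun m i => ∑ j, (((F m).curryRight x (Y i j) : Alg M) : H →L[ℂ] H) (ζ j)) _ ?_ ?_
    · have hev : ∀ᶠ m in Filter.atTop, max (Fintype.card ι) (Fintype.card κ) ≤ 2 ^ m := by
        filter_upwards [Filter.eventually_ge_atTop (max (Fintype.card ι) (Fintype.card κ))]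
          with m hm
        exact hm.trans Nat.lt_two_pow_self.le
      have hev' : ∀ᶠ m in (Filter.hyperfilter ℕ : Filter ℕ),
          max (Fintype.card ι) (Fintype.card κ) ≤ 2 ^ m :=
        Nat.hyperfilter_le_atTop hev
      filter_upwards [hev'] with m hm
      exact h5 m x ι κ ((le_max_left _ _).trans hm) ((le_max_right _ _).trans hm) Y hY ζ
    · intro β i
      simp only [inner_sum]
      refine tendsto_finsetSum _ fun j _ => ?_
      exact e3 (app x (Y i j)) β (ζ j)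
  obtain ⟨g'', hg''⟩ := isCob_of_cb F' (e2 h2) (by positivity) hcb
  refine ⟨g' + (1 : ℂ) • g'', fun x => ?_⟩
  rw [hochschild_add_smul, hg'', one_smul, e1 x]
  abel

end Vale.Agent.P082.CB
end

section
attribute [local instance] Vale.Agent.P082.AlgFast.nr Vale.Agent.P082.AlgFast.na
  Vale.Agent.P082.AlgFast.sr Vale.Agent.P082.AlgFast.ng Vale.Agent.P082.AlgFast.sg
  Vale.Agent.P082.AlgFast.ns Vale.Agent.P082.AlgFast.ri Vale.Agent.P082.AlgFast.ag
  Vale.Agent.P082.AlgFast.am Vale.Agent.P082.AlgFast.mo Vale.Agent.P082.AlgFast.pm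
  Vale.Agent.P082.AlgFast.us Vale.Agent.P082.AlgFast.ts Vale.Agent.P082.AlgFast.ets
  Vale.Agent.P082.AlgFast.eng Vale.Agent.P082.AlgFast.esg Vale.Agent.P082.AlgFast.ens
  Vale.Agent.P082.AlgFast.eam Vale.Agent.P082.AlgFast.emo Vale.Agent.P082.AlgFast.nu
  Vale.Agent.P082.AlgFast.sag Vale.Agent.P082.AlgFast.agr Vale.Agent.P082.AlgFast.mon
  Vale.Agent.P082.AlgFast.srg

open scoped InnerProductSpace ComplexConjugate

namespace Vale.Agent.P082.VN

open Vale.Agent.P082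

universe u

variable {H : Type u} [NormedAddCommGroup H] [InnerProductSpace ℂ H] [CompleteSpace H]
  {M : VonNeumannAlgebra H}

lemma isCPr_one (M : VonNeumannAlgebra H) : IsCPr M 1 :=
  ⟨⟨one_mem M, one_mul 1, star_one _⟩, fun x _ => by rw [one_mul, mul_one]⟩

lemma IsCPr.one_sub {z : H →L[ℂ] H} (hz : IsCPr M z) : IsCPr M (1 - z) := by
  refine ⟨⟨sub_mem (one_mem M) hz.mem, ?_, ?_⟩, ?_⟩
  · have h1 : (1 - z) * (1 - z) = 1 - z - z + z * z := by noncomm_ring
    rw [h1, hz.idem]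
    abel
  · rw [star_sub, star_one, hz.sa]
  · intro x hx
    rw [sub_mul, mul_sub, one_mul, mul_one, hz.comm x hx]

/-- finite von Neumann algebras with separating normal traces -/
theorem vanishing_finite_vn (P : VonNeumannAlgebra H) (hfin : FinPr P 1)
    (hsep : ∀ x ∈ P, (∀ ξ : ℕ → H, TrVec P ξ → ∀ n, x (ξ n) = 0) → x = 0) (k : ℕ) :
    BoundedCohomologyVanishes (Alg P) k := by
  obtain ⟨az, hazl, hazo, -, a, ha⟩ := exists_fin_part (isCPr_one P) hfin
    (fun x hx h => by rw [mul_one]; exact hsep x hx h)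
  have haz : IsAvg az := ⟨hazl, Subtype.ext hazo⟩
  have haa : IsAvg a := ⟨ha.left, Subtype.ext ha.one⟩
  intro f hf
  refine isCob_of_fav haz f hf ?_
  have hf0 := fav_cocycle haz f hf
  refine isCob_of_fav haa _ hf0 ?_
  refine ⟨0, fun x => ?_⟩
  have hzero : fav a (fav az f) x = 0 := by
    have h9 : fav a (fav az f) x
        = (fav a (fav az f)).curryRight (fun i => x i.castSucc) (x (Fin.last k)) := by
      have := app_init x
      conv_lhs => rw [← this]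
      rfl
    rw [h9, curryRight_fav, curryRight_fav]
    exact ha.inv _ ⟨_, fun b => rfl⟩ _
  rw [hzero]
  simp [hochschild]

section corner

variable {z : H →L[ℂ] H} {K : Type u} [NormedAddCommGroup K] [InnerProductSpace ℂ K]
  [CompleteSpace K] {P : VonNeumannAlgebra K} {ι : K →ₗᵢ[ℂ] H} {up : Alg P →L[ℂ] Alg M}
  {down : Alg M →L[ℂ] Alg P}

lemma CornerData.up_one (hc : CornerData M z P ι up down) :
    ((up 1 : Alg M) : H →L[ℂ] H) = z := by
  rw [← hc.down_one, hc.up_down]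
  exact mul_one z

lemma CornerData.up_inj (hc : CornerData M z P ι up down) {x y : Alg P}
    (h : ((up x : Alg M) : H →L[ℂ] H) = (up y : Alg M)) : x = y := by
  rw [← hc.down_up x, ← hc.down_up y, Subtype.ext h]

/-- the corner of a finite central projection is finite -/
lemma CornerData.finPr (hc : CornerData M z P ι up down) (hfin : FinPr M z) : FinPr P 1 := by
  intro v hv h1 _
  set V : Alg P := ⟨v, hv⟩ with hV
  have h2 : star V * V = 1 := Subtype.ext h1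
  have h3 : star ((up V : Alg M) : H →L[ℂ] H) * ((up V : Alg M) : H →L[ℂ] H) = z := by
    have h4 : ((up (star V * V) : Alg M) : H →L[ℂ] H) = z := by rw [h2, hc.up_one]
    rw [hc.up_mul, hc.up_star] at h4
    exact h4
  have h5 := hfin _ (up V).2 h3 (hc.up_supp V)
  have h6 : V * star V = 1 := by
    apply hc.up_inj
    rw [hc.up_one, hc.up_mul, hc.up_star]
    exact h5
  exact congrArg Subtype.val h6

/-- tracial vectors in the range of `z` define tracial vectors of the corner -/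
lemma CornerData.trVec (hc : CornerData M z P ι up down) {ξ : ℕ → H} (hξ : TrVec M ξ)
    {η : ℕ → K} (hη : ∀ n, ι (η n) = ξ n) : TrVec P η := by
  refine ⟨hξ.1.congr (fun n => by rw [← hη n, ι.norm_map]), fun x hx y hy => ?_⟩
  have hin : ∀ (x y : Alg P) (n : ℕ),
      ⟪η n, (x : K →L[ℂ] K) ((y : K →L[ℂ] K) (η n))⟫_ℂ
        = ⟪ξ n, ((up x : Alg M) : H →L[ℂ] H) (((up y : Alg M) : H →L[ℂ] H) (ξ n))⟫_ℂ := by
    intro x y n
    rw [← ι.inner_map_map, ← hc.up_apply, ← hc.up_apply, hη]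
  have h1 : ∑' n, ⟪η n, x (y (η n))⟫_ℂ
      = ∑' n, ⟪ξ n, ((up ⟨x, hx⟩ : Alg M) : H →L[ℂ] H)
        (((up ⟨y, hy⟩ : Alg M) : H →L[ℂ] H) (ξ n))⟫_ℂ := tsum_congr (hin ⟨x, hx⟩ ⟨y, hy⟩)
  have h2 : ∑' n, ⟪η n, y (x (η n))⟫_ℂ
      = ∑' n, ⟪ξ n, ((up ⟨y, hy⟩ : Alg M) : H →L[ℂ] H)
        (((up ⟨x, hx⟩ : Alg M) : H →L[ℂ] H) (ξ n))⟫_ℂ := tsum_congr (hin ⟨y, hy⟩ ⟨x, hx⟩)
  refine h1.trans (Eq.trans ?_ h2.symm)
  exact hξ.2 _ (up ⟨x, hx⟩).2 _ (up ⟨y, hy⟩).2

/-- traces separate the corner of a central projection separated by traces -/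
lemma CornerData.sep (hz : IsCPr M z) (hc : CornerData M z P ι up down)
    (hsep : ∀ x ∈ M, (∀ ξ : ℕ → H, TrVec M ξ → ∀ n, x (ξ n) = 0) → x * z = 0) :
    ∀ x ∈ P, (∀ ξ : ℕ → K, TrVec P ξ → ∀ n, x (ξ n) = 0) → x = 0 := by
  intro x hx h0
  set X : Alg P := ⟨x, hx⟩ with hX
  have huz : ((up X : Alg M) : H →L[ℂ] H) * z = (up X : Alg M) := by
    rw [← hz.comm _ (up X).2, hc.up_supp]
  have hux : ∀ ξ : ℕ → H, TrVec M ξ → ∀ n, ((up X : Alg M) : H →L[ℂ] H) (ξ n) = 0 := by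
    intro ξ hξ n
    have hcut := hξ.cut hz
    have hzz : ∀ n, ∃ k : K, ι k = z (ξ n) := fun n => (hc.range _).1
      (congrArg (fun T : H →L[ℂ] H => T (ξ n)) hz.idem)
    choose η hη using hzz
    have h1 := h0 η (hc.trVec hcut hη) n
    have h2 : ((up X : Alg M) : H →L[ℂ] H) (ξ n) = ((up X : Alg M) : H →L[ℂ] H) (z (ξ n)) :=
      congrArg (fun T : H →L[ℂ] H => T (ξ n)) huz.symm
    rw [h2, ← hη, hc.up_apply]
    show ι (x (η n)) = 0
    rw [h1, map_zero]
  have h5 := hsep _ (up X).2 hux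
  rw [huz] at h5
  have h6 : X = 0 := hc.up_inj (h5.trans (by rw [map_zero]; rfl))
  exact congrArg Subtype.val h6

/-- the corner of a halvable central projection is halvable -/
lemma CornerData.halvable (hc : CornerData M z P ι up down) (h : Halvable M z) :
    Halvable P 1 := by
  obtain ⟨v₁, h₁, v₂, h₂, e₁, e₂, e₃⟩ := h
  have hd : ∀ x : Alg M, (x : H →L[ℂ] H) = z → down x = 1 := by
    intro x hx
    apply hc.up_inj
    have h3 := hc.up_supp 1
    rw [hc.up_one] at h3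
    rw [hc.up_one, hc.up_down, hx, h3]
  have k₁ : star (down ⟨v₁, h₁⟩) * down ⟨v₁, h₁⟩ = 1 := by
    rw [← hc.down_star, ← hc.down_mul]
    exact hd _ e₁
  have k₂ : star (down ⟨v₂, h₂⟩) * down ⟨v₂, h₂⟩ = 1 := by
    rw [← hc.down_star, ← hc.down_mul]
    exact hd _ e₂
  have k₃ : down ⟨v₁, h₁⟩ * star (down ⟨v₁, h₁⟩) + down ⟨v₂, h₂⟩ * star (down ⟨v₂, h₂⟩) = 1 := by
    rw [← hc.down_star, ← hc.down_mul, ← hc.down_star, ← hc.down_mul, ← map_add]
    exact hd _ e₃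
  exact ⟨_, (down ⟨v₁, h₁⟩).2, _, (down ⟨v₂, h₂⟩).2, congrArg Subtype.val k₁,
    congrArg Subtype.val k₂, congrArg Subtype.val k₃⟩

end corner

/-- **The Kadison–Ringrose conjecture**: all bounded Hochschild cohomology groups `H_b^k(M, M)`,
`k ≥ 1`, of every von Neumann algebra `M` vanish. -/
theorem kadison_ringrose (M : VonNeumannAlgebra H) (k : ℕ) :
    BoundedCohomologyVanishes (Alg M) k := by
  obtain ⟨zf, hz, hhalf, hfin, -, hsep⟩ := exists_decomposition M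
  obtain ⟨K₁, _, _, _, P₁, ι₁, up₁, down₁, hc₁⟩ := exists_corner hz
  obtain ⟨K₂, _, _, _, P₂, ι₂, up₂, down₂, hc₂⟩ := exists_corner hz.one_sub
  exact CB.vanishing_of_corners hz hc₁ hc₂
    (vanishing_finite_vn P₁ (hc₁.finPr hfin) (CornerData.sep hz hc₁ hsep) k)
    (CB.vanishing_halvable P₂ (hc₂.halvable hhalf) k)

end Vale.Agent.P082.VN
end
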